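import Crest.Agent.R347.KCode

/-! Extraction of sums of squares and of diagonal entries. -/

set_option autoImplicit false

namespace Crest.Agent.R347

open Matrix Crest.MathPhysics.SpinChain Filter Topology K

/-- The truncated lane. -/
def trc (w u : ℕ) (x : ℤ) : ℕ := (x + 2 ^ (w - 1)).toNat / 2 ^ (w - u)

theorem kq_bias_cons (w B a : ℕ) (rs : List ℕ) :
    bias w B (a :: rs) = B + bias w B rs * 2 ^ w := by
  rw [← Nat.shiftLeft_eq]
  rfl

theorem kq_cmask_cons (w D c a : ℕ) (cl : List ℕ) :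
    cmask w D c (a :: cl) = (if a = c then D else 0) + cmask w D c cl * 2 ^ w := by
  rw [← Nat.shiftLeft_eq]
  change (ifn% (Nat.beq a c) D 0) + _ = _
  congr 1
  by_cases h : a = c
  · subst h
    rw [if_pos rfl, Nat.beq_refl]
  · rw [if_neg h, Bool.eq_false_iff.2 fun e => h (Nat.eq_of_beq_eq_true e)]

theorem kq_cmask (w D c : ℕ) (cl : List ℕ) : cmask w D c cl =
    ∑ j ∈ Finset.range cl.length, (if cl.getD j 0 = c then D else 0) * (2 ^ w) ^ j := by
  induction cl with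
  | nil => rfl
  | cons a cl ih =>
    rw [kq_cmask_cons, ih, List.length_cons, Finset.sum_range_succ', Finset.sum_mul, add_comm]
    simp [pow_succ, mul_assoc]

theorem kq_and (w u : ℕ) (hu : u ≤ w) (c : ℕ) (cl : List ℕ) (N : ℕ) :
    (N >>> (w - u)) &&& cmask w (2 ^ u - 1) c cl = ∑ j ∈ Finset.range cl.length,
      (if cl.getD j 0 = c then N / 2 ^ (w * j) % 2 ^ w / 2 ^ (w - u) else 0) * (2 ^ w) ^ j := by
  induction cl generalizing N with
  | nil => exact Nat.and_zero _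
  | cons a cl ih =>
    have h1 : (if a = c then 2 ^ u - 1 else 0) < 2 ^ w := by
      split_ifs
      · exact (Nat.sub_lt (by positivity) one_pos).trans_le (Nat.pow_le_pow_right two_pos hu)
      · positivity
    rw [← Nat.mod_add_div' (_ &&& _) (2 ^ w), Nat.and_mod_two_pow, Nat.and_div_two_pow, kq_cmask_cons,
      Nat.add_mul_mod_self_right, Nat.add_mul_div_right _ _ (by positivity), Nat.mod_eq_of_lt h1,
      Nat.div_eq_of_lt h1, zero_add, Nat.shiftRight_eq_div_pow, Nat.div_div_eq_div_mul,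
      mul_comm (2 ^ (w - u)), ← Nat.div_div_eq_div_mul,
      ← Nat.shiftRight_eq_div_pow (N / 2 ^ w), ih, List.length_cons, Finset.sum_range_succ',
      Finset.sum_mul, add_comm]
    congr 1
    · refine Finset.sum_congr rfl fun j _ => ?_
      rw [List.getD_cons_succ, pow_succ, mul_assoc, Nat.div_div_eq_div_mul, ← pow_add, mul_add,
        mul_one, add_comm w]
    · rw [List.getD_cons_zero, pow_zero, mul_one, mul_zero, pow_zero, Nat.div_one]
      split_ifs
      · have h2 : 2 ^ w = 2 ^ (w - u) * 2 ^ u := by rw [← pow_add, Nat.sub_add_cancel hu]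
        rw [Nat.and_two_pow_sub_one_eq_mod, Nat.mod_mod_of_dvd _ (pow_dvd_pow 2 hu)]
        conv_rhs => rw [h2, Nat.mod_mul_right_div_self]
      · exact Nat.and_zero _

theorem kq_lanes {α : Type} (w : ℕ) (hw : 2 ≤ w) (g : α → ℕ) (x : α → ℤ) (c : List α) (N : ℕ)
    (hN : (N : ℤ) ≡ pack w (c.map x) + bias w (2 ^ w / 2) (c.map g) [ZMOD 2 ^ (w * c.length)])
    (hx : ∀ a ∈ c, |x a| < 2 ^ (w - 1)) (j : ℕ) (hj : j < c.length) :
    N / 2 ^ (w * j) % 2 ^ w = (x (c)[j] + 2 ^ (w - 1)).toNat := by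
  induction c generalizing N j with
  | nil => exact absurd hj (Nat.not_lt_zero _)
  | cons a c ih =>
    have h1 := abs_lt.1 (hx a List.mem_cons_self)
    have h2 : 2 ^ w = 2 ^ (w - 1) * 2 := by rw [← pow_succ, Nat.sub_add_cancel (by omega)]
    have h3 : 2 ^ w / 2 = 2 ^ (w - 1) := by rw [h2, Nat.mul_div_cancel _ two_pos]
    have h4 : (2 : ℤ) ^ w = 2 ^ (w - 1) * 2 := by exact_mod_cast h2
    obtain ⟨e, he⟩ := hN.symm.dvd
    rw [List.map_cons, List.map_cons, pack, kq_bias_cons, List.length_cons, mul_add, mul_one,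
      pow_add] at he
    have h5 := (Int.ediv_emod_unique (a := N) (b := 2 ^ w) (r := x a + 2 ^ (w - 1))
      (q := pack w (c.map x) + bias w (2 ^ w / 2) (c.map g) + 2 ^ (w * c.length) * e)
      (by positivity)).2 ⟨by
        nth_rewrite 1 [h3] at he
        push_cast at he
        linear_combination -he, by linarith [h1.1], by linarith [h1.2]⟩
    cases j with
    | zero =>
      rw [mul_zero, pow_zero, Nat.div_one, List.getElem_cons_zero, ← h5.2]
      norm_cast
    | succ j =>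
      rw [List.getElem_cons_succ, ← ih (N / 2 ^ w) ?_ (fun b hb => hx b (List.mem_cons_of_mem _ hb)),
        Nat.div_div_eq_div_mul, ← pow_add, mul_add, mul_one, add_comm w]
      push_cast
      rw [h5.1]
      exact Int.modEq_add_fac_self

theorem kq_digit (B : ℕ) (i N : ℕ) (a : ℕ → ℕ) (ha : ∀ m, a m < B) (hi : i < N) :
    (∑ m ∈ Finset.range N, a m * B ^ m) / B ^ i % B = a i := by
  have hB : 0 < B := (Nat.zero_le _).trans_lt (ha 0)
  induction i generalizing N a with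
  | zero =>
    obtain ⟨N, rfl⟩ := Nat.exists_eq_add_of_lt hi
    simp only [Finset.sum_range_succ', pow_succ, ← mul_assoc, ← Finset.sum_mul, pow_zero,
      Nat.div_one, mul_one, Nat.mul_add_mod_self_right, Nat.mod_eq_of_lt (ha 0)]
  | succ i ih =>
    obtain ⟨N, rfl⟩ := Nat.exists_eq_succ_of_ne_zero (Nat.ne_zero_of_lt hi)
    rw [← ih N (fun m => a (m + 1)) (fun m => ha _) (by omega), pow_succ', ← Nat.div_div_eq_div_mul,
      Finset.sum_range_succ']
    simp only [pow_succ, ← mul_assoc, ← Finset.sum_mul, pow_zero, mul_one]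
    rw [add_comm, Nat.add_mul_div_right _ _ hB, Nat.div_eq_of_lt (ha 0), zero_add]

theorem kq_digit' {ι : Type} (B i : ℕ) (s : Finset ι) (e a : ι → ℕ)
    (ha : ∀ m, ∑ z ∈ s.filter (fun z => e z = m), a z < B) :
    (∑ z ∈ s, a z * B ^ e z) / B ^ i % B = ∑ z ∈ s.filter (fun z => e z = i), a z := by
  rw [← kq_digit B i (i + s.sup e + 1) _ ha (by omega), ← Finset.sum_fiberwise_of_maps_to
    (t := Finset.range (i + s.sup e + 1)) (g := e) fun z hz => Finset.mem_range.2 (by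
      have := Finset.le_sup (f := e) hz
      omega)]
  congr 2
  refine Finset.sum_congr rfl fun m _ => ?_
  rw [Finset.sum_mul]
  exact Finset.sum_congr rfl fun z hz => by rw [(Finset.mem_filter.1 hz).2]

theorem kq_extr (w W : ℕ) (A : ℕ → ℕ) (c : List (ℕ × ℕ)) (cl : List ℕ) (p : ℕ) (G : ℕ × ℕ → ℕ)
    (hcl : cl.length = c.length)
    (h : ∀ (i : ℕ) (hi : i < c.length), A (cl.getD i 0) / 2 ^ (p + 2 * w * i) % W = G (c)[i]) :
    extr w W A cl (c.map Prod.snd) p = (c.map fun r => r.2 * G r).sum := by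
  induction c generalizing cl p with
  | nil =>
    obtain rfl := List.length_eq_zero_iff.1 hcl
    rfl
  | cons r c ih =>
    obtain ⟨a, cl, rfl⟩ := List.exists_cons_of_length_eq_add_one hcl
    change r.2 * (A a >>> p % W) + extr w W A cl (c.map Prod.snd) (p + 2 * w) = _
    have h0 := h 0 (Nat.succ_pos _)
    rw [mul_zero, add_zero, List.getD_cons_zero, List.getElem_cons_zero] at h0
    rw [List.map_cons, List.sum_cons, Nat.shiftRight_eq_div_pow, h0,
      ih cl _ (Nat.succ.inj hcl) fun i hi => ?_]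
    have h1 := h (i + 1) (Nat.succ_lt_succ hi)
    rwa [List.getD_cons_succ, List.getElem_cons_succ, mul_add, mul_one, add_comm (2 * w * i),
      ← add_assoc] at h1

theorem kq_diag (w W T bs : ℕ) (f : V2) (c : List (ℕ × ℕ)) (p : ℕ) (G : ℕ × ℕ → ℕ)
    (h : ∀ (i : ℕ) (hi : i < c.length),
      (f ((c)[i].1 / T) ((c)[i].1 % T) + bs) / 2 ^ (p + w * i) % W = G (c)[i]) :
    diagS w W T bs f (c.map Prod.fst) (c.map Prod.snd) p = (c.map fun r => r.2 * G r).sum := by
  induction c generalizing p with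
  | nil => rfl
  | cons r c ih =>
    change r.2 * ((f (r.1 / T) (r.1 % T) + bs) >>> p % W) +
      diagS w W T bs f (c.map Prod.fst) (c.map Prod.snd) (p + w) = _
    have h0 := h 0 (Nat.succ_pos _)
    rw [mul_zero, add_zero, List.getElem_cons_zero] at h0
    rw [List.map_cons, List.sum_cons, Nat.shiftRight_eq_div_pow, h0, ih _ fun i hi => ?_]
    have h1 := h (i + 1) (Nat.succ_lt_succ hi)
    rwa [List.getElem_cons_succ, mul_add, mul_one, add_comm (w * i), ← add_assoc] at h1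

theorem kq_appr_add {F Y N F' Y' N' : ℝ} (h : Appr F Y N) (h' : Appr F' Y' N') :
    Appr (F + F') (Y + Y') (N + N') := fun κ hκ => by
  have h1 := abs_add_le (F - Y) (F' - Y')
  rw [add_sub_add_comm]
  linarith [h κ hκ, h' κ hκ]

theorem kq_appr_mul {F Y N a : ℝ} (ha : 0 ≤ a) (h : Appr F Y N) :
    Appr (a * F) (a * Y) (a * N) := fun κ hκ => by
  rw [← mul_sub, abs_mul, abs_of_nonneg ha]
  linarith [mul_le_mul_of_nonneg_left (h κ hκ) ha]

theorem kq_appr_sum {ι : Type} (S : Finset ι) {F Y N : ι → ℝ}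
    (h : ∀ i ∈ S, Appr (F i) (Y i) (N i)) :
    Appr (∑ i ∈ S, F i) (∑ i ∈ S, Y i) (∑ i ∈ S, N i) := fun κ hκ => by
  rw [← Finset.sum_sub_distrib, Finset.mul_sum, Finset.sum_mul, ← Finset.sum_add_distrib]
  exact (Finset.abs_sum_le_sum_abs _ _).trans (Finset.sum_le_sum fun i hi => h i hi κ hκ)

theorem kq_appr_one (w u : ℕ) (hw : 2 ≤ w) (hu : u ≤ w) {x : ℤ} (hx : |x| < 2 ^ (w - 1)) :
    Appr ((x : ℝ) ^ 2 / 4 ^ (w - u))
      ((2 ^ u - 1) ^ 2 / 4 - ((trc w u x : ℝ) * ((2 ^ u - 1 - trc w u x : ℕ) : ℝ))) 1 := by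
  have h1 := abs_lt.1 hx
  have h2 : (2 : ℤ) ^ w = 2 ^ (w - 1) * 2 := by rw [← pow_succ, Nat.sub_add_cancel (by omega)]
  obtain ⟨n, hn⟩ := Int.eq_ofNat_of_zero_le (show 0 ≤ x + 2 ^ (w - 1) by linarith [h1.1])
  have h3 : n < 2 ^ u * 2 ^ (w - u) := by
    rw [← pow_add, Nat.add_sub_cancel' hu]
    zify
    linarith [h1.2]
  have hs : 0 < 2 ^ (w - u) := by positivity
  have h4 := (Nat.div_lt_iff_lt_mul hs).2 h3
  have h5 : ((n / 2 ^ (w - u) : ℕ) : ℝ) * 2 ^ (w - u) ≤ n := by exact_mod_cast Nat.div_mul_le_self _ _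
  have h6 : (n : ℝ) < ((n / 2 ^ (w - u) : ℕ) + 1) * 2 ^ (w - u) := by
    exact_mod_cast (Nat.div_lt_iff_lt_mul hs).1 (Nat.lt_succ_self _)
  have h7 : (x : ℝ) + 2 ^ (w - 1) = n := by exact_mod_cast hn
  have h8 : (2 : ℝ) ^ u * 2 ^ (w - u) = 2 ^ (w - 1) * 2 := by
    rw [← pow_add, Nat.add_sub_cancel' hu]
    exact_mod_cast h2
  rw [trc, hn, Int.toNat_natCast, Nat.cast_sub (Nat.le_sub_one_of_lt h4),
    Nat.cast_sub Nat.one_le_two_pow, show (4 : ℝ) = 2 ^ 2 by norm_num, ← pow_mul, mul_comm 2,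
    pow_mul, ← div_pow]
  generalize n / 2 ^ (w - u) = t at *
  push_cast
  have h9 : |(x : ℝ) / 2 ^ (w - u) - (t - (2 ^ u - 1) / 2)| ≤ 1 / 2 := by
    rw [abs_le, le_sub_iff_add_le, sub_le_iff_le_add, le_div_iff₀ (by positivity),
      div_le_iff₀ (by positivity)]
    constructor <;> linarith
  have e : ((2 : ℝ) ^ u - 1) ^ 2 / 2 ^ 2 - t * (2 ^ u - 1 - t) = (t - (2 ^ u - 1) / 2) ^ 2 := by ring
  rw [e]
  generalize (x : ℝ) / 2 ^ (w - u) = X at h9
  generalize (t : ℝ) - (2 ^ u - 1) / 2 = y at h9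
  intro κ hκ
  have h10 : |X + y| ≤ 1 / 2 + 2 * |y| := by
    have := abs_add_le (X - y) (2 * y)
    rw [abs_mul, abs_two, show X - y + 2 * y = X + y by ring] at this
    linarith
  have h11 : |y| ≤ κ * y ^ 2 + 1 / (4 * κ) := by
    have h12 : 0 ≤ (2 * κ * |y| - 1) ^ 2 / (4 * κ) := by positivity
    have : κ * y ^ 2 + 1 / (4 * κ) - |y| = (2 * κ * |y| - 1) ^ 2 / (4 * κ) := by
      rw [← sq_abs y]
      field_simp
      ring
    linarith
  rw [sq_sub_sq, abs_mul]
  linarith [mul_le_mul h10 h9 (abs_nonneg _) (by positivity)]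

theorem quad_spec (h l k w u : ℕ) (c : List (ℕ × ℕ)) (cl : List ℕ) (hcl : cl.length = c.length)
    (hap : APfree cl) (hw : 2 ≤ w) (hu : u ≤ w) (hsz : 3 ^ (h + l) * c.length * 4 ^ u ≤ 2 ^ w)
    (U : ℕ → Z2) (v : V2)
    (hv : ∀ σ ∈ Sec (h + l) k, ((at2 l v σ : ℕ) : ℤ) ≡
      pack w (c.map fun p => at2 l (U p.1) σ) [ZMOD 2 ^ (w * c.length)])
    (hb : ∀ σ ∈ Sec (h + l) k, ∀ p ∈ c, |at2 l (U p.1) σ| < 2 ^ (w - 1)) :
    quad h l k w (2 ^ w) (w - u) (2 ^ u - 1) (bias w (2 ^ w / 2) (c.map Prod.fst)) cl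
        (c.map Prod.snd) v
      = (c.map fun p => p.2 * ∑ σ ∈ Sec (h + l) k,
          trc w u (at2 l (U p.1) σ) * (2 ^ u - 1 - trc w u (at2 l (U p.1) σ))).sum := by
  refine kq_extr w (2 ^ w) _ c cl 0 _ hcl fun i hi => ?_
  have hD : 2 ^ u - 1 < 2 ^ u := Nat.sub_lt (by positivity) one_pos
  obtain ⟨t, ht⟩ : ∃ t : Cfg (h + l) → ℕ → ℕ, t = fun σ j =>
    (at2 l v σ + bias w (2 ^ w / 2) (c.map Prod.fst)) / 2 ^ (w * j) % 2 ^ w / 2 ^ (w - u) := ⟨_, rfl⟩
  have ht1 : ∀ σ j, t σ j ≤ 2 ^ u - 1 := fun σ j => by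
    refine Nat.le_sub_one_of_lt ?_
    rw [ht, Nat.div_lt_iff_lt_mul (by positivity), ← pow_add, Nat.add_sub_cancel' hu]
    exact Nat.mod_lt _ (by positivity)
  have ht2 : ∀ σ ∈ Sec (h + l) k, t σ i = trc w u (at2 l (U (c)[i].1) σ) := fun σ hσ => by
    rw [ht, trc, ← kq_lanes w hw Prod.fst (fun p => at2 l (U p.1) σ) c _
      (by rw [Nat.cast_add]; exact (hv σ hσ).add_right _) (hb σ hσ) i hi]
  rw [frc_eq, sum2_spec, zero_add, mul_right_comm, ← Nat.mul_comm, pow_mul,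
    Finset.sum_congr rfl (g := fun σ => ∑ z ∈ Finset.range cl.length ×ˢ Finset.range cl.length,
      (if cl.getD z.1 0 = cl.getD i 0 then t σ z.1 else 0) *
        (if cl.getD z.2 0 = cl.getD i 0 then 2 ^ u - 1 - t σ z.2 else 0) * (2 ^ w) ^ (z.1 + z.2)),
    Finset.sum_comm]
  · simp only [← Finset.sum_mul]
    rw [kq_digit', Finset.sum_eq_single_of_mem (i, i) (by simp [hcl, hi, two_mul])]
    · exact Finset.sum_congr rfl fun σ hσ => by rw [if_pos rfl, if_pos rfl, ht2 σ hσ]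
    · rintro ⟨j, j'⟩ hz hne
      simp only [Finset.mem_filter, Finset.mem_product, Finset.mem_range] at hz
      refine Finset.sum_eq_zero fun σ _ => ?_
      split_ifs with h1 h2
      · obtain rfl := hap i j j' hz.1.1 hz.1.2 hz.2 h1 h2
        exact absurd (by rw [show j = i by omega]) hne
      · exact mul_zero _
      · exact zero_mul _
      · exact zero_mul _
    · intro m
      have h1 : ((Finset.range cl.length ×ˢ Finset.range cl.length).filter
          fun z => z.1 + z.2 = m).card ≤ c.length := by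
        refine (Finset.card_le_card_of_injOn (t := Finset.range cl.length) Prod.fst
          (fun z hz => ?_) fun z hz z' hz' e => ?_).trans_eq (by simp [hcl])
        · exact (Finset.mem_product.1 (Finset.mem_filter.1 hz).1).1
        · have h2 := (Finset.mem_filter.1 hz).2
          have h3 := (Finset.mem_filter.1 hz').2
          exact Prod.ext e (by omega)
      have h2 : (Sec (h + l) k).card ≤ 3 ^ (h + l) := (Finset.card_le_univ _).trans_eq (by simp)
      refine (Finset.sum_le_card_nsmul _ _ (3 ^ (h + l) * ((2 ^ u - 1) * (2 ^ u - 1))) fun z _ =>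
        (Finset.sum_le_card_nsmul _ _ ((2 ^ u - 1) * (2 ^ u - 1)) fun σ _ => ?_).trans
          (Nat.mul_le_mul_right _ h2)).trans_lt ?_
      · refine Nat.mul_le_mul ?_ ?_ <;> split_ifs
        exacts [ht1 _ _, Nat.zero_le _, Nat.sub_le _ _, Nat.zero_le _]
      · refine ((Nat.mul_le_mul_right _ h1).trans_lt ?_).trans_le hsz
        have h3 : 0 < c.length := by omega
        rw [mul_left_comm, mul_assoc, show 4 ^ u = 2 ^ u * 2 ^ u from Nat.mul_pow 2 2 u]
        gcongr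
  · intro σ _
    have h1 := kq_and w u hu (cl.getD i 0) cl (at2 l v σ + bias w (2 ^ w / 2) (c.map Prod.fst))
    change ((at2 l v σ + bias w (2 ^ w / 2) (c.map Prod.fst)) >>> (w - u) &&&
      cmask w (2 ^ u - 1) (cl.getD i 0) cl) * (cmask w (2 ^ u - 1) (cl.getD i 0) cl -
        ((at2 l v σ + bias w (2 ^ w / 2) (c.map Prod.fst)) >>> (w - u) &&&
          cmask w (2 ^ u - 1) (cl.getD i 0) cl)) = _
    rw [h1, kq_cmask, ← Finset.sum_tsub_distrib, Finset.sum_mul_sum, Finset.sum_product]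
    · refine Finset.sum_congr rfl fun j _ => Finset.sum_congr rfl fun j' _ => ?_
      rw [← Nat.sub_mul, pow_add, ht]
      split_ifs <;> simp [mul_mul_mul_comm]
    · intro j _
      refine Nat.mul_le_mul_right _ ?_
      split_ifs
      exacts [by simpa [ht] using ht1 σ j, le_rfl]

theorem diagS_spec (w T : ℕ) (c : List (ℕ × ℕ)) (hw : 2 ≤ w) (U : ℕ → Z2) (f : V2)
    (hv : ∀ p ∈ c, (f (p.1 / T) (p.1 % T) : ℤ) ≡
      pack w (c.map fun p' => U p'.1 (p.1 / T) (p.1 % T)) [ZMOD 2 ^ (w * c.length)])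
    (hb : ∀ p ∈ c, ∀ p' ∈ c, |U p'.1 (p.1 / T) (p.1 % T)| < 2 ^ (w - 1)) :
    (diagS w (2 ^ w) T (bias w (2 ^ w / 2) (c.map Prod.fst)) f (c.map Prod.fst)
        (c.map Prod.snd) 0 : ℤ)
      = (c.map fun p => (p.2 : ℤ) * (U p.1 (p.1 / T) (p.1 % T) + 2 ^ (w - 1))).sum := by
  rw [kq_diag w (2 ^ w) T _ f c 0 (fun p => (U p.1 (p.1 / T) (p.1 % T) + 2 ^ (w - 1)).toNat)
    fun i hi => ?_, Nat.cast_list_sum, List.map_map]
  · congr 1
    refine List.map_congr_left fun p hp => ?_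
    have h1 := abs_lt.1 (hb p hp p hp)
    simp only [Function.comp_apply, Nat.cast_mul]
    rw [Int.toNat_of_nonneg (by linarith [h1.1])]
  · have h1 := hv _ (List.getElem_mem hi)
    have h2 := hb _ (List.getElem_mem hi)
    have h3 := kq_lanes w hw Prod.fst (fun p' => U p'.1 ((c)[i].1 / T) ((c)[i].1 % T)) c
      (f ((c)[i].1 / T) ((c)[i].1 % T) + bias w (2 ^ w / 2) (c.map Prod.fst))
      (by rw [Nat.cast_add]; exact h1.add_right _) h2 i hi
    rw [zero_add, h3]

/-- From the truncated lanes to the squares. -/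
theorem appr_of_trc {ι : Type} (S : Finset ι) (w u : ℕ) (hw : 2 ≤ w) (hu : u ≤ w)
    (c : List (ℕ × ℕ)) (x : ℕ → ι → ℤ) (hb : ∀ σ ∈ S, ∀ p ∈ c, |x p.1 σ| < 2 ^ (w - 1)) :
    Appr ((c.map fun p => (p.2 : ℝ) * ∑ σ ∈ S, (x p.1 σ : ℝ) ^ 2).sum / 4 ^ (w - u))
      (YY u (wtot c) S.card (c.map fun p => p.2 * ∑ σ ∈ S,
        trc w u (x p.1 σ) * (2 ^ u - 1 - trc w u (x p.1 σ))).sum)
      (wtot c * S.card) := by
  induction c with
  | nil => exact fun κ hκ => by simp [wtot, YY]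
  | cons p c ih =>
    have h1 := kq_appr_mul (Nat.cast_nonneg (α := ℝ) p.2) (kq_appr_sum S fun σ hσ =>
      kq_appr_one w u hw hu (hb σ hσ p List.mem_cons_self))
    convert kq_appr_add h1 (ih fun σ hσ q hq => hb σ hσ q (List.mem_cons_of_mem _ hq)) using 1
    · rw [List.map_cons, List.sum_cons, add_div, ← Finset.sum_div, mul_div_assoc]
    · simp only [YY, wtot, List.map_cons, List.sum_cons, Nat.cast_add, Nat.cast_mul, Nat.cast_sum,
        Finset.sum_sub_distrib, Finset.sum_const, nsmul_eq_mul]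
      ring
    · simp only [wtot, List.map_cons, List.sum_cons, Nat.cast_add, Finset.sum_const, nsmul_eq_mul]
      ring

end Crest.Agent.R347
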