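import Crest.Agent.R347.CDefs
import Crest.Agent.R347.KQuad

/-! Soundness of the orbit check. -/

set_option autoImplicit false

namespace Crest.Agent.R347

open Matrix Crest.MathPhysics.SpinChain Filter Topology K

theorem ob_cons {n : ℕ} (σ : Cfg (n + 1)) :
    code σ / 3 = code (Fin.tail σ : Cfg n) ∧ code σ % 3 = σ 0 := by
  have h : code σ = σ 0 + 3 * code (Fin.tail σ : Cfg n) := by
    unfold code
    rw [Fin.sum_univ_succ, Finset.mul_sum]
    simp only [Fin.val_zero, pow_zero, mul_one, Fin.val_succ, Fin.tail, pow_succ]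
    congr 1
    exact Finset.sum_congr rfl fun _ _ => by ring
  have := (σ 0).2
  omega

theorem ob_snoc {n : ℕ} (σ : Cfg (n + 1)) :
    code σ = code (Fin.init σ : Cfg n) + σ (Fin.last n) * 3 ^ n := by
  unfold code
  rw [Fin.sum_univ_castSucc]
  rfl

theorem ob_rot {n : ℕ} (σ : Cfg (n + 1)) : code (rot σ) = code σ / 3 + code σ % 3 * 3 ^ n := by
  have h : (Fin.init (rot σ) : Cfg n) = Fin.tail σ := by
    funext j
    simp [Fin.init, Fin.tail, rot]
  rw [ob_snoc, h, (ob_cons σ).1, (ob_cons σ).2]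
  simp [rot]

theorem ob_rotN {n : ℕ} (r : ℕ) (σ : Cfg (n + 1)) : rotN (3 ^ n) r (code σ) = code (rot^[r] σ) := by
  induction r generalizing σ with
  | zero => rfl
  | succ r ih =>
    rw [Function.iterate_succ_apply, ← ih, ob_rot]
    rfl

theorem ob_revG {n : ℕ} (σ : Cfg n) (acc : ℕ) :
    @Nat.rec (fun _ => ℕ → ℕ → ℕ) (fun _ acc => acc)
      (fun _ ih x acc => ih (Nat.div x 3) (Nat.add (Nat.mul 3 acc) (Nat.mod x 3))) n (code σ) acc =
      acc * 3 ^ n + code (rfl' σ) := by
  induction n generalizing acc with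
  | zero => simp [code]
  | succ n ih =>
    have h : (Fin.init (rfl' σ) : Cfg n) = rfl' (Fin.tail σ) := by
      funext j
      simp [Fin.init, Fin.tail, rfl', Fin.rev_castSucc]
    have h1 := ih (Fin.tail σ) (3 * acc + code σ % 3)
    rw [← (ob_cons σ).1] at h1
    refine h1.trans ?_
    rw [ob_snoc (rfl' σ), h, (ob_cons σ).2]
    simp only [rfl', Fin.rev_last]
    ring

theorem ob_revN {n : ℕ} (σ : Cfg n) : revN n (code σ) = code (rfl' σ) :=
  (ob_revG σ 0).trans (by simp)

theorem ob_dsN {n : ℕ} (σ : Cfg n) : dsN n (code σ) = dsum σ := by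
  induction n with
  | zero => simp [dsum, dsN]
  | succ n ih =>
    change code σ % 3 + dsN n (code σ / 3) = _
    rw [(ob_cons σ).1, (ob_cons σ).2, ih]
    unfold dsum
    rw [Fin.sum_univ_succ]
    rfl

theorem ob_ifn (p : Prop) [Decidable p] {b : Bool} (h : b = true ↔ p) (x y : ℕ) :
    (ifn% b x y) = if p then x else y := by
  cases b
  · exact (if_neg fun hp => by simpa using h.2 hp).symm
  · exact (if_pos (h.1 rfl)).symm

theorem ob_ifb {b c : Bool} (h : (ifb% b c false) = true) : b = true ∧ c = true := by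
  cases b
  · exact absurd h (by simp)
  · exact ⟨rfl, h⟩

theorem ob_actN {n : ℕ} (g : ℕ) (σ : Cfg (n + 1)) : actN (n + 1) (3 ^ n) g (code σ) =
    code (rot^[g % 16] (if 16 ≤ g % 32 then rfl' (if 32 ≤ g then flp σ else σ)
      else if 32 ≤ g then flp σ else σ)) := by
  have h1 : (ifn% (Nat.ble 32 g) (Nat.sub (Nat.sub (Nat.mul 3 (3 ^ n)) 1) (code σ)) (code σ)) =
      code (if 32 ≤ g then flp σ else σ) := by
    rw [ob_ifn (32 ≤ g) Nat.ble_eq.to_iff]
    split_ifs
    · have := code_flp σ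
      rw [pow_succ'] at this
      change 3 * 3 ^ n - 1 - code σ = _
      omega
    · rfl
  unfold actN
  rw [frc_eq, frc_eq, h1, ob_ifn (16 ≤ g % 32) (b := Nat.ble 16 (Nat.mod g 32)) Nat.ble_eq.to_iff,
    ob_revN, ← apply_ite code]
  exact ob_rotN _ _

theorem ob_act {n md g : ℕ} (hg : okg md g = true) {F : Cfg (n + 1) → ℝ} (hF : OrbInv md F)
    (σ τ : Cfg (n + 1)) (h : actN (n + 1) (3 ^ n) g (code σ) = code τ) : F τ = F σ := by
  rw [ob_actN] at h
  have h1 := congrArg (dec (n + 1)) h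
  rw [dec_code, dec_code] at h1
  rw [← h1]
  have key : ∀ a : ℕ, (ifb% (Nat.beq g 0) true (Nat.beq g a)) = true → g = 0 ∨ g = a := by
    intro a ha
    cases h0 : Nat.beq g 0
    · rw [h0] at ha
      exact Or.inr (Nat.eq_of_beq_eq_true ha)
    · exact Or.inl (Nat.eq_of_beq_eq_true h0)
  match md, hg, hF with
  | 0, _, hF =>
    obtain ⟨a1, a2, a3⟩ := hF.1 rfl
    have a4 : ∀ r ρ, F (rot^[r] ρ) = F ρ := fun r => by
      induction r with
      | zero => exact fun _ => rfl
      | succ r ih => exact fun ρ => by rw [Function.iterate_succ_apply, ih, a1]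
    rw [a4]
    split_ifs <;> simp only [a2, a3]
  | 1, hg, hF =>
    rcases key 16 hg with rfl | rfl
    · rfl
    · exact hF.2.1 rfl σ
  | md + 2, hg, hF =>
    rcases key 48 hg with rfl | rfl
    · rfl
    · exact hF.2.2 (by omega) σ

theorem ob_allL (L : List ℕ) (f : ℕ → Bool) (h : allL L f = true) : ∀ a ∈ L, f a = true := by
  induction L with
  | nil => simp
  | cons a L ih =>
    obtain ⟨h1, h2⟩ := ob_ifb (b := f a) (c := allL L f) h
    simpa [h1] using ih h2

theorem ob_nthN (L : List ℕ) (j : ℕ) : nthN L j = L.getD j 0 := by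
  induction L generalizing j with
  | nil => rfl
  | cons a L ih =>
    cases j with
    | zero => rfl
    | succ j => exact ih j

theorem ob_sum {α M : Type} [AddCommMonoid M] (L : List α) (d : α) (f : α → M) :
    (L.map f).sum = ∑ j ∈ Finset.range L.length, f (L.getD j d) := by
  induction L with
  | nil => simp
  | cons a L ih =>
    rw [List.map_cons, List.sum_cons, List.length_cons, Finset.sum_range_succ', ih, add_comm]
    rfl

theorem ob_pack (L : List ℕ) :
    @List.rec ℕ (fun _ => ℕ) 0 (fun w _ ih => Nat.add w (Nat.shiftLeft ih 16)) L =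
      ∑ j ∈ Finset.range L.length, L.getD j 0 * 65536 ^ j := by
  induction L with
  | nil => simp
  | cons a L ih =>
    change a + (@List.rec ℕ (fun _ => ℕ) 0 (fun w _ ih => Nat.add w (Nat.shiftLeft ih 16)) L) <<< 16
      = _
    rw [ih, List.length_cons, Finset.sum_range_succ', Nat.shiftLeft_eq, Finset.sum_mul, add_comm]
    simp only [List.getD_cons_succ, List.getD_cons_zero, pow_zero, mul_one, pow_succ 65536,
      mul_assoc, Nat.reducePow]

theorem orbChk_sound (md h l k : ℕ) (c : List (ℕ × ℕ)) (rows : List ℕ)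
    (H : orbChk md h l k c rows = true) : OrbF md (h + l + 1 + 1) k c := by
  unfold orbChk at H
  simp only [frc_eq] at H
  obtain ⟨h1, H⟩ := ob_ifb H
  obtain ⟨h2, H⟩ := ob_ifb H
  obtain ⟨h3, H⟩ := ob_ifb H
  obtain ⟨h4, h5⟩ := ob_ifb H
  have h1' : 3 ^ (h + l + 1 + 1) ≤ 65535 := by
    rw [pow_succ']
    exact Nat.le_of_ble_eq_true h1
  have h2' : ∀ p ∈ c, p.1 < 3 ^ (h + l + 1 + 1) ∧ dsN (h + l + 1 + 1) p.1 = k := fun p hp => by
    obtain ⟨a1, a2⟩ := ob_ifb (ob_allL _ _ h2 p.1 (List.mem_map_of_mem hp))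
    rw [pow_succ']
    exact ⟨Nat.blt_eq.to_iff.1 a1, Nat.eq_of_beq_eq_true a2⟩
  have h3' : ∀ j, (c.map Prod.snd).getD j 0 < 65536 := fun j => by
    rw [List.getD_eq_getElem?_getD]
    cases hj : (c.map Prod.snd)[j]? with
    | none => simp
    | some w =>
      exact Nat.lt_succ_of_le (Nat.le_of_ble_eq_true (ob_allL _ _ h3 w (List.mem_of_getElem? hj)))
  have hn : h.succ + l.succ = h + l + 1 + 1 := by omega
  have h4' := all2_spec _ _ _ _ h4
  have h5' := Nat.eq_of_beq_eq_true h5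
  rw [sum2_spec, ob_pack, List.length_map] at h5'
  rw [hn] at h4' h5'
  refine ⟨fun p hp => ?_, fun F hF => ?_⟩
  · have := ob_dsN (dec (h + l + 1 + 1) p.1)
    rw [code_dec (h2' p hp).1, (h2' p hp).2] at this
    simp [Sec, ← this]
  set S := Sec (h + l + 1 + 1) k
  set J : Cfg (h + l + 1 + 1) → ℕ := fun σ => at2 (l + 1) (tab16 rows) σ % 1024 with hJ
  have k1 : ∀ σ ∈ S, J σ < c.length ∧ F σ = F (dec _ (c.getD (J σ) 0).1) := fun σ hσ => by
    obtain ⟨a1, a2⟩ := ob_ifb (h4' σ hσ)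
    obtain ⟨a2, a3⟩ := ob_ifb a2
    have a4 : J σ < c.length := Nat.blt_eq.to_iff.1 a1
    refine ⟨a4, ob_act a2 hF _ _ ?_⟩
    have a5 : (c.getD (J σ) 0).1 = nthN (c.map Prod.fst) (J σ) := by
      rw [ob_nthN]
      exact (List.getD_map (f := Prod.fst) (d := (0 : ℕ × ℕ)) (l := c) (n := J σ)).symm
    have a6 : c.getD (J σ) 0 ∈ c := by
      rw [List.getD_eq_getElem _ _ a4]
      exact List.getElem_mem _
    rw [code_dec (h2' _ a6).1, a5]
    exact (Nat.eq_of_beq_eq_true a3).trans (Nat.div_add_mod' _ _)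
  have k2 : ∀ j < c.length, (S.filter fun σ => J σ = j).card = (c.getD j 0).2 := fun j hj => by
    have a1 := kq_digit' 65536 j S J (fun _ => 1) fun m => by
      rw [← Finset.card_eq_sum_ones]
      refine (Finset.card_le_univ _).trans_lt ?_
      simp only [Fintype.card_fun, Fintype.card_fin]
      omega
    have a2 : ∑ σ ∈ S, 1 * 65536 ^ J σ =
        ∑ j ∈ Finset.range c.length, (c.map Prod.snd).getD j 0 * 65536 ^ j := by
      rw [← h5']
      refine Finset.sum_congr rfl fun σ _ => ?_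
      change _ = 1 <<< (16 * J σ)
      rw [Nat.shiftLeft_eq, pow_mul]
      simp only [Nat.reducePow]
    rw [a2, kq_digit _ _ _ _ h3' hj, ← Finset.card_eq_sum_ones] at a1
    rw [← a1]
    exact List.getD_map (f := Prod.snd) (d := (0 : ℕ × ℕ)) (l := c) (n := j)
  rw [wsum, ob_sum c 0, ← Finset.sum_fiberwise_of_maps_to (g := J)
    fun σ hσ => Finset.mem_range.2 (k1 σ hσ).1]
  refine Finset.sum_congr rfl fun j hj => ?_
  rw [← k2 j (Finset.mem_range.1 hj), ← nsmul_eq_mul, ← Finset.sum_const]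
  refine Finset.sum_congr rfl fun σ hσ => ?_
  obtain ⟨a1, a2⟩ := Finset.mem_filter.1 hσ
  rw [(k1 σ a1).2, a2]

end Crest.Agent.R347
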