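import Crest.Agent.R347.Sector
import Crest.Agent.R347.Orbit

/-! Normalised sector sums and their totals. -/

set_option autoImplicit false

namespace Crest.Agent.R347

open Matrix Crest.MathPhysics.SpinChain Filter Topology K

noncomputable def ZR (φ : ℂ) (n k : ℕ) : ℝ := ZS (HR φ n) 8 (Sec (n + 1) k) * nr 1 (n + 1)
noncomputable def GR (n : ℕ) : ℝ := GS (HR (-1) n) 8 * nr 1 (n + 1)
noncomputable def ZO (sg : Bool) (m k : ℕ) : ℝ :=
  ZS (HO (3 / 5) (sgn sg * (3 / 5)) (m + 1)) 8 (Sec (m + 1 + 1) k) * no 1 m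

theorem nr_eq {L En : ℕ} (h : En = 1401474 * L) :
    Real.exp (-(8 * ((En : ℝ) / 10 ^ 6))) = nr 1 L := by
  unfold nr fh; congr 1; rw [h]; push_cast; ring

theorem no_eq {m En : ℕ} (h : En = 1401474 * m + 2399300) :
    Real.exp (-(8 * ((En : ℝ) / 10 ^ 6))) = no 1 m := by
  unfold no fh eh; congr 1; rw [h]; push_cast; ring

theorem sum_sym (N : ℕ) (f : ℕ → ℝ) (hf : ∀ k k', k + k' = 2 * N → f k' = f k) :
    ∑ k ∈ Finset.range (2 * N + 1), f k = f N + 2 * ∑ k ∈ Finset.range N, f k := by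
  have h1 : 2 * N + 1 = (N + 1) + N := by ring
  rw [h1, Finset.sum_range_add, Finset.sum_range_succ]
  have h2 : ∑ i ∈ Finset.range N, f (N + 1 + i) = ∑ i ∈ Finset.range N, f (N - 1 - i) := by
    refine Finset.sum_congr rfl fun i hi => hf _ _ ?_
    have := Finset.mem_range.1 hi
    omega
  rw [h2, Finset.sum_range_reflect]; ring

theorem neg_pow_sym {k k' N : ℕ} (j : ℕ) (h : k + k' = 2 * N) :
    (-1 : ℝ) ^ (k' + j) = (-1) ^ (k + j) := by
  rcases Nat.even_or_odd (k + j) with h1 | h1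
  · have : Even (k' + j) := by rw [Nat.even_iff] at *; omega
    rw [h1.neg_one_pow, this.neg_one_pow]
  · have : Odd (k' + j) := by rw [Nat.odd_iff] at *; omega
    rw [h1.neg_one_pow, this.neg_one_pow]

theorem zr_sum (φ : ℂ) (hφ : ‖φ‖ = 1) (n : ℕ) (hn : 1 ≤ n) :
    zr φ 8 (n + 1) * nr 1 (n + 1) = ZR φ n (n + 1) + 2 * ∑ k ∈ Finset.range (n + 1), ZR φ n k := by
  rw [← sum_sym (n + 1) (ZR φ n) fun k k' h => by unfold ZR; rw [ZS_ring_flip φ hφ n hn 8 k k' h],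
    zr_decomp, Finset.sum_mul]
  rfl

theorem gr_sum (φ : ℂ) (hφ : ‖φ‖ = 1) (n : ℕ) (hn : 1 ≤ n) :
    gr φ 8 (n + 1) * nr 1 (n + 1) = (-1) ^ (n + 1 + (n + 1)) * ZR φ n (n + 1)
      + 2 * ∑ k ∈ Finset.range (n + 1), (-1) ^ (k + (n + 1)) * ZR φ n k := by
  rw [← sum_sym (n + 1) (fun k => (-1) ^ (k + (n + 1)) * ZR φ n k) fun k k' h => by
      unfold ZR; rw [ZS_ring_flip φ hφ n hn 8 k k' h, neg_pow_sym _ h],
    gr_decomp, Finset.sum_mul]
  exact Finset.sum_congr rfl fun k _ => by unfold ZR; rw [mul_assoc, add_assoc]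

theorem fr_sum (n : ℕ) (hn : 1 ≤ n) : fr 8 (n + 1) * nr 1 (n + 1) = (-1) ^ (n + 1) * GR n := by
  rw [fr_decomp 8 n hn, GR, mul_assoc]

theorem zo_sum (sg : Bool) (m : ℕ) :
    zo (sgn sg) 8 m * no 1 m = ∑ k ∈ Finset.range (2 * m + 5), ZO sg m k := by
  rw [zo_decomp, Finset.sum_mul]; rfl

theorem go_sum (sg : Bool) (m : ℕ) :
    go (sgn sg) 8 m * no 1 m = ∑ k ∈ Finset.range (2 * m + 5), (-1) ^ (k + m) * ZO sg m k := by
  rw [go_decomp, Finset.sum_mul]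
  exact Finset.sum_congr rfl fun k _ => by unfold ZO; rw [mul_assoc]

theorem ZO_flip (m k k' : ℕ) (h : k + k' = 2 * (m + 2)) : ZO false m k' = ZO false m k := by
  unfold ZO; rw [ZS_open_flip (3 / 5) (m + 1) 8 k k' h]

theorem zoP_sum (m : ℕ) : zo 1 8 m * no 1 m = ∑ k ∈ Finset.range (2 * m + 5), ZO true m k :=
  zo_sum true m

theorem goP_sum (m : ℕ) :
    go 1 8 m * no 1 m = ∑ k ∈ Finset.range (2 * m + 5), (-1) ^ (k + m) * ZO true m k :=
  go_sum true m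

theorem zoM_sum (m : ℕ) : zo (-1) 8 m * no 1 m
    = ZO false m (m + 2) + 2 * ∑ k ∈ Finset.range (m + 2), ZO false m k := by
  rw [← sum_sym (m + 2) (ZO false m) (ZO_flip m)]
  exact zo_sum false m

theorem goM_sum (m : ℕ) : go (-1) 8 m * no 1 m = (-1) ^ (m + 2 + m) * ZO false m (m + 2)
    + 2 * ∑ k ∈ Finset.range (m + 2), (-1) ^ (k + m) * ZO false m k := by
  rw [← sum_sym (m + 2) (fun k => (-1) ^ (k + m) * ZO false m k) fun k k' h => by
    rw [ZO_flip m k k' h, neg_pow_sym _ h]]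
  exact go_sum false m

/-! ### The sector bounds in the form used for the data -/

section

variable (h l k : ℕ) (d : SD) (xs : List CD) {p : PD} {c : List (ℕ × ℕ)} {rows : List ℕ} {v : V2}
  {lon : ℕ}

/-- The fields of `d` and the lists of representatives fit together. -/
def Fit (d : SD) (xs : List CD) (c : List (ℕ × ℕ)) (lon En : ℕ) : Prop :=
  xs.flatMap CD.c = c ∧ d.den = 1000 ∧ d.lon = lon ∧ d.En = En

instance (d : SD) (xs : List CD) (c : List (ℕ × ℕ)) (lon En : ℕ) : Decidable (Fit d xs c lon En) :=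
  inferInstanceAs (Decidable (_ ∧ _ ∧ _ ∧ _))

theorem aP (hp : d.p = p) (hx : ∀ x ∈ xs, okP h l k p x = true)
    (ho : orbChk 0 h l k c rows = true) (hg : gershR h l k 1000 lon v = true)
    (hf : Fit d xs c lon (1401474 * (h + l + 1 + 1)))
    (he : PCert 1 ((d.p.cb : ℤ) - (h + l + 2 : ℕ)) d.p.q d.p.cs d.b d.En d.en)
    (hn : numOK d 1 ((d.p.cb : ℤ) - (h + l + 2 : ℕ)) (h + l + 2 : ℕ) 1 (wtot (xs.flatMap CD.c))
      (sum2 (h + 1) (l + 1) k fun _ _ => 1) (xs.map CD.A).sum (xs.map CD.B).sum = true) :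
    Btw (ZR 1 (h + l + 1) k) d.zl d.zu := by
  obtain ⟨h1, h2, h3, h4⟩ := hf
  subst hp h1 h3
  rw [← h2] at hg
  have := secP h l k d xs v hx (orbChk_sound 0 h l k _ rows ho) hg he hn
  rwa [nr_eq h4] at this

theorem aM (hp : d.p = p) (hx : ∀ x ∈ xs, okM h l k p x = true)
    (ho : orbChk 0 h l k c rows = true) (hg : gershR h l k 1000 lon v = true)
    (hf : Fit d xs c lon (1401474 * (h + l + 1 + 1)))
    (he : PCert 1 ((d.p.cb : ℤ) - (h + l + 2 : ℕ)) d.p.q d.p.cs d.b d.En d.en)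
    (hn : numOK d 1 ((d.p.cb : ℤ) - (h + l + 2 : ℕ)) (h + l + 2 : ℕ) 1 (wtot (xs.flatMap CD.c))
      (sum2 (h + 1) (l + 1) k fun _ _ => 1) (xs.map CD.A).sum (xs.map CD.B).sum = true) :
    Btw (ZR (-1) (h + l + 1) k) d.zl d.zu := by
  obtain ⟨h1, h2, h3, h4⟩ := hf
  subst hp h1 h3
  rw [← h2] at hg
  have := secM h l k d xs v hx (orbChk_sound 0 h l k _ rows ho) hg he hn
  rwa [nr_eq h4] at this

theorem aW (hp : d.p = p) (hx : ∀ x ∈ xs, okW h l k p x = true)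
    (ho : orbChk 0 h l k c rows = true) (hg : gershR h l k 1000 lon v = true)
    (hf : Fit d xs c lon (1401474 * (h + l + 1 + 1)))
    (he : PCert 1 ((d.p.cb : ℤ) - (h + l + 2 : ℕ)) d.p.q d.p.cs d.b d.En d.en)
    (hn : numOK d 1 ((d.p.cb : ℤ) - (h + l + 2 : ℕ)) (h + l + 2 : ℕ) 4 (wtot (xs.flatMap CD.c))
      (sum2 (h + 1) (l + 1) k fun _ _ => 1) (xs.map fun x => x.A + 3 * x.C).sum
      (xs.map CD.B).sum = true) :
    Btw (ZR om (h + l + 1) k) d.zl d.zu := by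
  obtain ⟨h1, h2, h3, h4⟩ := hf
  subst hp h1 h3
  rw [← h2] at hg
  have := secW h l k d xs v hx (orbChk_sound 0 h l k _ rows ho) hg he hn
  rwa [nr_eq h4] at this

theorem aF (hk : h + l + 2 = k) (hp : d.p = p) (hx : ∀ x ∈ xs, okF h l k p x = true)
    (ho : orbChk 0 h l k c rows = true) (hg : gershR h l k 1000 lon v = true)
    (hf : Fit d xs c lon (1401474 * (h + l + 1 + 1)))
    (he : PCert 1 ((d.p.cb : ℤ) - (h + l + 2 : ℕ)) d.p.q d.p.cs d.b d.En d.en)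
    (hn : numOK d 1 ((d.p.cb : ℤ) - (h + l + 2 : ℕ)) (h + l + 2 : ℕ) 1 (wtot (xs.flatMap CD.c))
      (sum2 (h + 1) (l + 1) k fun _ _ => 1) (xs.map CD.A).sum (xs.map CD.B).sum = true)
    (hn' : numG d (wtot (xs.flatMap CD.c)) (sum2 (h + 1) (l + 1) k fun _ _ => 1)
      (xs.map CD.A).sum (xs.map CD.B).sum (xs.map CD.C).sum = true) :
    Btw (ZR (-1) (h + l + 1) k) d.zl d.zu ∧ Btw (GR (h + l + 1)) d.gl d.gu := by
  obtain ⟨h1, h2, h3, h4⟩ := hf
  subst hp h1 h3 hk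
  rw [← h2] at hg
  have := secF h l d xs v hx (orbChk_sound 0 h l _ _ rows ho) hg he hn hn'
  rwa [nr_eq h4] at this

theorem aO (sg : Bool) (hp : d.p = p) (hx : ∀ x ∈ xs, okO sg h l k p x = true)
    (ho : orbChk (if sg then 1 else 2) h l k c rows = true)
    (hg : gershO sg h l k 1000 lon v = true) (hf : Fit d xs c lon (1401474 * (h + l) + 2399300))
    (he : PCert 5 ((d.p.cb : ℤ) - (5 * (h + l + 1) + 6 : ℕ)) d.p.q d.p.cs d.b d.En d.en)
    (hn : numOK d 5 ((d.p.cb : ℤ) - (5 * (h + l + 1) + 6 : ℕ)) ((h + l + 1 : ℕ) + 6 / 5) 1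
      (wtot (xs.flatMap CD.c)) (sum2 (h + 1) (l + 1) k fun _ _ => 1) (xs.map CD.A).sum
      (xs.map CD.B).sum = true) :
    Btw (ZO sg (h + l) k) d.zl d.zu := by
  obtain ⟨h1, h2, h3, h4⟩ := hf
  subst hp h1 h3
  rw [← h2] at hg
  have := secO sg h l k d xs v hx (orbChk_sound _ h l k _ rows ho) hg he hn
  rwa [no_eq h4] at this

theorem cR (φ : ℂ) (hφ : ‖φ‖ = 1) (j zu : ℕ) (hg : gershR h l k 1000 lon v = true)
    (hn : numC 1000 lon (1401474 * (h + l + 1 + 1)) j (sum2 (h + 1) (l + 1) k fun _ _ => 1) zu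
      = true) : Btw (ZR φ (h + l + 1) k) 0 zu := by
  have := crudeR φ hφ h l k 1000 lon _ j zu v hg hn
  rwa [nr_eq rfl] at this

theorem cO (sg : Bool) (j zu : ℕ) (hg : gershO sg h l k 1000 lon v = true)
    (hn : numC 1000 lon (1401474 * (h + l) + 2399300) j (sum2 (h + 1) (l + 1) k fun _ _ => 1) zu
      = true) : Btw (ZO sg (h + l) k) 0 zu := by
  have := crudeO sg h l k 1000 lon _ j zu v hg hn
  rwa [no_eq rfl] at this

end

theorem all_nil {α : Type} {P : α → Prop} : ∀ x ∈ ([] : List α), P x := by simp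

theorem all_cons {α : Type} {P : α → Prop} {a : α} {l : List α} (h : P a) (h' : ∀ x ∈ l, P x) :
    ∀ x ∈ a :: l, P x := List.forall_mem_cons.2 ⟨h, h'⟩

end Crest.Agent.R347
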