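import Crest.Agent.R347.Step

set_option autoImplicit false

namespace Crest.Agent.R347

open Matrix Crest.MathPhysics.SpinChain Filter Topology

theorem boot_mul {t T x y a b c : ℝ} (h0 : 0 ≤ t) (h1 : t ≤ T) (hx : x ≤ 1 + a * t) (hy0 : 0 ≤ y)
    (hy : y ≤ 1 + b * t) (ha : 0 ≤ a) (hb : 0 ≤ b) (hc : a + b + a * b * T ≤ c) :
    x * y ≤ 1 + c * t := by
  have h2 : x * y ≤ (1 + a * t) * y := mul_le_mul_of_nonneg_right hx hy0
  have h3 : (1 + a * t) * y ≤ (1 + a * t) * (1 + b * t) :=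
    mul_le_mul_of_nonneg_left hy (by positivity)
  have h4 : a * b * t * t ≤ a * b * T * t :=
    mul_le_mul_of_nonneg_right (mul_le_mul_of_nonneg_left h1 (mul_nonneg ha hb)) h0
  have h5 := mul_le_mul_of_nonneg_right hc h0
  nlinarith

theorem boot_psi {t T τ c k : ℝ} (h0 : 0 ≤ t) (h1 : t ≤ T) (hτ : τ ≤ 1 + c * t) (hc : 0 ≤ c)
    (hk : 0 ≤ k) (hkT : k * T ≤ 1) (h : c * (1 + k ^ 2 * T ^ 2) ≤ 2 * k) : Psi τ (k * t) := by
  refine ⟨mul_nonneg hk h0, (mul_le_mul_of_nonneg_left h1 hk).trans hkT, ?_⟩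
  have h2 : τ * (1 + (k * t) ^ 2) ≤ (1 + c * t) * (1 + (k * t) ^ 2) :=
    mul_le_mul_of_nonneg_right hτ (by positivity)
  have h3 : t ^ 2 ≤ T ^ 2 := pow_le_pow_left₀ h0 h1 2
  have h4 : c * t * (k ^ 2 * t ^ 2) ≤ c * t * (k ^ 2 * T ^ 2) :=
    mul_le_mul_of_nonneg_left (mul_le_mul_of_nonneg_left h3 (sq_nonneg k)) (mul_nonneg hc h0)
  have h5 := mul_le_mul_of_nonneg_right h h0
  nlinarith

theorem boot_cover {b L : ℕ} (hb : 0 < b) (hL : b ≤ L) :
    ∃ j : ℕ, b * 2 ^ j ≤ L ∧ L ≤ 2 * (b * 2 ^ j) := by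
  refine ⟨Nat.log 2 (L / b), ?_, ?_⟩
  · have h1 : 2 ^ Nat.log 2 (L / b) ≤ L / b :=
      Nat.pow_log_le_self 2 (Nat.div_pos hL hb).ne'
    rw [Nat.le_div_iff_mul_le hb, mul_comm] at h1
    exact h1
  · have h1 : L / b < 2 ^ (Nat.log 2 (L / b)).succ := Nat.lt_pow_succ_log_self (by norm_num) _
    rw [Nat.div_lt_iff_lt_mul hb, Nat.pow_succ] at h1
    nlinarith

theorem boot_exp {q N γ : ℝ} {k l : ℕ} (hq : 0 < q) (hN : 0 < N) (hl : 0 < l)
    (hγ : 192 * γ * l = k * Real.log N) (h : N ^ k * q ^ l ≤ 1) (j : ℕ) :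
    q ^ (2 ^ j) ≤ Real.exp (-(8 * ((24 * 2 ^ j : ℕ) : ℝ) * γ)) := by
  have h1 : q ≤ Real.exp (-(192 * γ)) := by
    rw [← Real.log_le_iff_le_exp hq]
    have h2 := Real.log_le_log (by positivity) h
    rw [Real.log_mul (by positivity) (by positivity), Real.log_pow, Real.log_pow,
      Real.log_one] at h2
    have h3 : (0 : ℝ) < l := Nat.cast_pos.2 hl
    refine le_of_mul_le_mul_left ?_ h3
    linarith
  refine (pow_le_pow_left₀ hq.le h1 _).trans_eq ?_
  rw [← Real.exp_nat_mul]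
  congr 1
  push_cast
  ring

/-- Three explicit doubling steps. -/
theorem boot_three {S : Sys} (h : State S 3 36 0.0382 0.272 0.1288 0.1019 0.0950 0.0059) :
    State S 24 288 0.012 0.012 0.012 0.012 0.012 0.012 ∧
      ∀ L, 72 ≤ L → L ≤ 864 → Even L →
        ∃ a : ℕ, 1 ≤ a ∧ a ≤ 12 ∧ S.Z a L ≤ (1 + 0.11) * S.X L ^ a := by
  have s1 : State S 6 72 0.01176 0.1873 0.07399 0.06513 0.03284 0.00192 :=
    (step_state (G := 0.1084) (Kn := 0.1873) (Go := 0.2552) (R := 0.405) (s := 0.08107)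
      (by norm_num) (by norm_num) (by decide) h (by norm_num) (by norm_num) (by norm_num)
      (by norm_num) (by norm_num) (by norm_num) (by norm_num) (by norm_num)
      ⟨by norm_num, by norm_num, by norm_num⟩ ⟨by norm_num, by norm_num, by norm_num⟩
      ⟨by norm_num, by norm_num, by norm_num⟩ (by norm_num) (by norm_num) (by norm_num)
      (by norm_num) (by norm_num)).mono (by norm_num) (by norm_num) (by norm_num) (by norm_num)
      (by norm_num) (by norm_num) (by norm_num) (by norm_num)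
  have s2 : State S 12 144 0.00099 0.0756 0.03509 0.01152 0.00195 0.00022 :=
    (step_state (G := 0.0314) (Kn := 0.0756) (Go := 0.1073) (R := 0.0936) (s := 0.02079)
      (by norm_num) (by norm_num) (by decide) s1 (by norm_num) (by norm_num) (by norm_num)
      (by norm_num) (by norm_num) (by norm_num) (by norm_num) (by norm_num)
      ⟨by norm_num, by norm_num, by norm_num⟩ ⟨by norm_num, by norm_num, by norm_num⟩
      ⟨by norm_num, by norm_num, by norm_num⟩ (by norm_num) (by norm_num) (by norm_num)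
      (by norm_num) (by norm_num)).mono (by norm_num) (by norm_num) (by norm_num) (by norm_num)
      (by norm_num) (by norm_num) (by norm_num) (by norm_num)
  have s3 : State S 24 288 0.012 0.012 0.012 0.012 0.012 0.012 :=
    (step_state (G := 0.00247) (Kn := 0.01154) (Go := 0.01406) (R := 0.00431) (s := 0.00124)
      (by norm_num) (by norm_num) (by decide) s2 (by norm_num) (by norm_num) (by norm_num)
      (by norm_num) (by norm_num) (by norm_num) (by norm_num) (by norm_num)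
      ⟨by norm_num, by norm_num, by norm_num⟩ ⟨by norm_num, by norm_num, by norm_num⟩
      ⟨by norm_num, by norm_num, by norm_num⟩ (by norm_num) (by norm_num) (by norm_num)
      (by norm_num) (by norm_num)).mono (by norm_num) (by norm_num) (by norm_num) (by norm_num)
      (by norm_num) (by norm_num) (by norm_num) (by norm_num)
  refine ⟨s3, fun L h1 h2 he => ?_⟩
  have hX := (S.tZ L (by omega)).pos
  by_cases c1 : L ≤ 216
  · refine ⟨3, by norm_num, by norm_num, le_trans (step_G (G := 0.1084) (by norm_num)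
      (by norm_num) (by decide) h (by norm_num) (by norm_num) (by norm_num) (by norm_num)
      (by norm_num) ⟨by norm_num, by norm_num, by norm_num⟩ L (by omega) (by omega) he) ?_⟩
    exact mul_le_mul_of_nonneg_right (by norm_num) (pow_pos hX _).le
  by_cases c2 : L ≤ 432
  · refine ⟨6, by norm_num, by norm_num, le_trans (step_G (G := 0.0314) (by norm_num)
      (by norm_num) (by decide) s1 (by norm_num) (by norm_num) (by norm_num) (by norm_num)
      (by norm_num) ⟨by norm_num, by norm_num, by norm_num⟩ L (by omega) (by omega) he) ?_⟩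
    exact mul_le_mul_of_nonneg_right (by norm_num) (pow_pos hX _).le
  · refine ⟨12, by norm_num, by norm_num, le_trans (step_G (G := 0.00247) (by norm_num)
      (by norm_num) (by decide) s2 (by norm_num) (by norm_num) (by norm_num) (by norm_num)
      (by norm_num) ⟨by norm_num, by norm_num, by norm_num⟩ L (by omega) (by omega) he) ?_⟩
    exact mul_le_mul_of_nonneg_right (by norm_num) (pow_pos hX _).le

/-- The generic step. -/
theorem boot_generic {S : Sys} {a L : ℕ} {ε : ℝ} (ha : 1 ≤ a) (hL : 4 ≤ L) (hLe : Even L)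
    (h0 : 0 ≤ ε) (h1 : ε ≤ 0.012) (h : State S a L ε ε ε ε ε ε) :
    State S (2 * a) (2 * L) (16 * ε ^ 2) (16 * ε ^ 2) (16 * ε ^ 2) (16 * ε ^ 2) (16 * ε ^ 2)
        (16 * ε ^ 2) ∧
      (∀ L', 2 * L ≤ L' → L' ≤ 6 * L → Even L' → S.Z a L' ≤ (1 + 3 * ε) * S.X L' ^ a) ∧
      (∀ m, 3 * L ≤ m → m ≤ 9 * L → S.Yp a m ≤ (1 + 6 * ε) * S.Xp m ^ a) := by
  have q2 : ε ^ 2 ≤ 0.000144 := by nlinarith
  have q20 : 0 ≤ ε ^ 2 := sq_nonneg ε
  have q3 : ε ^ 3 ≤ 0.000144 * ε := by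
    rw [pow_succ]; exact mul_le_mul_of_nonneg_right q2 h0
  have q30 : 0 ≤ ε ^ 3 := pow_nonneg h0 3
  have b1 : 1 + ε ≤ 1 + 1 * ε := by linarith
  have b2 : (1 + ε) ^ 2 ≤ 1 + 2.012 * ε := by nlinarith
  have b3 : 1 + ε ^ 3 ≤ 1 + 0.000144 * ε := by linarith
  have b4 : (1 + ε) ^ 2 * (1 + ε ^ 3) ≤ 1 + 2.013 * ε :=
    boot_mul h0 h1 b2 (by positivity) b3 (by norm_num) (by norm_num) (by norm_num)
  have b5 : ((1 + ε) ^ 2 * (1 + ε ^ 3)) ^ 2 ≤ 1 + 4.08 * ε := by
    rw [sq ((1 + ε) ^ 2 * (1 + ε ^ 3))]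
    exact boot_mul h0 h1 b4 (by positivity) b4 (by norm_num) (by norm_num) (by norm_num)
  have b6 : (1 + ε ^ 3) ^ 2 ≤ 1 + 0.0003 * ε := by
    rw [sq (1 + ε ^ 3)]
    exact boot_mul h0 h1 b3 (by positivity) b3 (by norm_num) (by norm_num) (by norm_num)
  have hG : Psi (((1 + ε) ^ 2 * (1 + ε ^ 3)) ^ 2 * (1 + ε ^ 3) ^ 2) (3 * ε) :=
    boot_psi (c := 4.1) h0 h1
      (boot_mul h0 h1 b5 (by positivity) b6 (by norm_num) (by norm_num) (by norm_num))
      (by norm_num) (by norm_num) (by norm_num) (by norm_num)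
  have c1 : (1 + ε ^ 2) ^ 2 ≤ 1 + 2.001 * ε ^ 2 := by nlinarith
  have c2 : (1 + ε ^ 2) ^ 4 ≤ 1 + 4.01 * ε ^ 2 := by
    rw [show (1 + ε ^ 2) ^ 4 = (1 + ε ^ 2) ^ 2 * (1 + ε ^ 2) ^ 2 by ring]
    exact boot_mul q20 q2 c1 (by positivity) c1 (by norm_num) (by norm_num) (by norm_num)
  have c3 : (1 + (3 * ε) ^ 2) ^ 2 ≤ 1 + 18.1 * ε ^ 2 := by nlinarith
  have hKn : Psi ((1 + ε ^ 2) ^ 4 * (1 + (3 * ε) ^ 2) ^ 2) (16 * ε ^ 2) :=
    boot_psi (c := 23) q20 q2
      (boot_mul q20 q2 c2 (by positivity) c3 (by norm_num) (by norm_num) (by norm_num))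
      (by norm_num) (by norm_num) (by norm_num) (by norm_num)
  have d1 : (1 + ε) ^ 2 * (1 + ε) ^ 2 ≤ 1 + 4.08 * ε :=
    boot_mul h0 h1 b2 (by positivity) b2 (by norm_num) (by norm_num) (by norm_num)
  have d2 : (1 + ε) ^ 2 * (1 + ε) ^ 2 * (1 + ε) ≤ 1 + 5.13 * ε :=
    boot_mul h0 h1 d1 (by positivity) b1 (by norm_num) (by norm_num) (by norm_num)
  have hGo : Psi ((1 + ε) ^ 2 * (1 + ε) ^ 2 * (1 + ε) * ((1 + ε) ^ 2 * (1 + ε ^ 3))) (4 * ε) :=
    boot_psi (c := 7.3) h0 h1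
      (boot_mul h0 h1 d2 (by positivity) b4 (by norm_num) (by norm_num) (by norm_num))
      (by norm_num) (by norm_num) (by norm_num) (by norm_num)
  have d3 : (1 + ε) ^ 2 * (1 + ε) ^ 2 * (1 + ε) * ((1 + ε) ^ 2 * (1 + ε ^ 3)) ^ 2 ≤ 1 + 9.5 * ε :=
    boot_mul h0 h1 d2 (by positivity) b5 (by norm_num) (by norm_num) (by norm_num)
  have hGp : Psi ((1 + ε) ^ 2 * (1 + ε) ^ 2 * (1 + ε) * ((1 + ε) ^ 2 * (1 + ε ^ 3)) ^ 2 / (1 - ε))
      (6 * ε) := by
    refine boot_psi (c := 11) h0 h1 ?_ (by norm_num) (by norm_num) (by norm_num) (by norm_num)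
    rw [div_le_iff₀ (by linarith)]
    nlinarith
  have e1 : (1 + (4 * ε) ^ 2) ^ 2 ≤ 1 + 0.4 * ε := by nlinarith
  have e2 : (1 + ε) ^ 2 * (1 + (4 * ε) ^ 2) ^ 2 ≤ 1 + 2.5 * ε :=
    boot_mul h0 h1 b2 (by positivity) e1 (by norm_num) (by norm_num) (by norm_num)
  have e3 : 64 * ε ^ 3 * ((1 + ε) ^ 2 * (1 + (4 * ε) ^ 2) ^ 2) ≤ 0.001 * 2 :=
    mul_le_mul (by linarith) (by linarith) (by positivity) (by norm_num)
  refine ⟨?_, step_G ha hL hLe h h0 h0 h0 (by linarith) (by linarith) hG,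
    step_Gp ha hL hLe h h0 h0 h0 h0 (by linarith) h0 hGp⟩
  refine (step_state (R := 1 / 10) (s := 64 * ε ^ 3) ha hL hLe h h0 h0 h0 (by linarith) h0 h0 h0
    (by linarith) hG hKn hGo (by positivity) (le_of_eq (by ring)) (by norm_num) (by linarith)
    (by linarith)).mono (by omega) (by omega) (by nlinarith) le_rfl (by linarith)
    (le_of_eq (by ring)) (by nlinarith) (by nlinarith)

theorem boot_final {S : Sys} (h : State S 3 36 0.0382 0.272 0.1288 0.1019 0.0950 0.0059)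
    (h60 : ∀ L, 60 ≤ L → L ≤ 108 → Even L → S.Z 3 L ≤ (1 + 0.0382) * S.X L ^ 3) :
    (∀ L, 60 ≤ L → Even L → ∃ (a : ℕ) (r : ℝ), 1 ≤ a ∧ S.Z a L ≤ (1 + r) * S.X L ^ a ∧
      r < Real.exp (-(8 * a * γ1))) ∧
    (∀ L, 2304 ≤ L → Even L → ∃ (a : ℕ) (r : ℝ), 1 ≤ a ∧ S.Z a L ≤ (1 + r) * S.X L ^ a ∧
      r < Real.exp (-(8 * a * γ2))) ∧
    (∀ m, 1919 ≤ m → ∃ (a : ℕ) (r : ℝ), 1 ≤ a ∧ S.Yp a m ≤ (1 + r) * S.Xp m ^ a ∧
      r < Real.exp (-(8 * a * γ3))) := by
  obtain ⟨h24, hwin⟩ := boot_three h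
  set e : ℕ → ℝ := fun j => 0.192 ^ (2 ^ j) / 16 with he
  have e0 : ∀ j, 0 ≤ e j := fun j => by simp only [he]; positivity
  have e1 : ∀ j, e j ≤ 0.012 := fun j => by
    have : (0.192 : ℝ) ^ (2 ^ j) ≤ 0.192 ^ 1 :=
      pow_le_pow_of_le_one (by norm_num) (by norm_num) Nat.one_le_two_pow
    simp only [he]
    linarith
  have e2 : ∀ j, e (j + 1) = 16 * e j ^ 2 := fun j => by
    simp only [he]
    rw [pow_succ, pow_mul]
    ring
  have hpos : ∀ j : ℕ, 1 ≤ 2 ^ j := fun j => Nat.one_le_two_pow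
  have hev : ∀ j : ℕ, Even (288 * 2 ^ j) := fun j => Even.mul_right (by decide) _
  have hst : ∀ j, State S (24 * 2 ^ j) (288 * 2 ^ j) (e j) (e j) (e j) (e j) (e j) (e j) := by
    intro j
    induction j with
    | zero =>
      have : e 0 = 0.012 := by simp only [he]; norm_num
      rw [this]
      exact h24
    | succ j ih =>
      have := (boot_generic (by have := hpos j; omega) (by have := hpos j; omega) (hev j) (e0 j)
        (e1 j) ih).1
      rw [e2, show 24 * 2 ^ (j + 1) = 2 * (24 * 2 ^ j) by ring,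
        show 288 * 2 ^ (j + 1) = 2 * (288 * 2 ^ j) by ring]
      exact this
  have hgen := fun j => (boot_generic (by have := hpos j; omega) (by have := hpos j; omega) (hev j)
    (e0 j) (e1 j) (hst j)).2
  have hq : ∀ (j : ℕ) (q k : ℝ), 0.192 ≤ q → k < 16 → k * e j < q ^ (2 ^ j) := by
    intro j q k h1 h2
    have h3 : (0.192 : ℝ) ^ (2 ^ j) ≤ q ^ (2 ^ j) := pow_le_pow_left₀ (by norm_num) h1 _
    have h4 : (0 : ℝ) < 0.192 ^ (2 ^ j) := by positivity
    simp only [he]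
    nlinarith
  have g1 : γ1 ≤ 4 / 105 * (1 / 79) := by
    have := Real.log_le_sub_one_of_pos (x := 80 / 79) (by norm_num)
    unfold γ1
    linarith
  have g10 : 0 ≤ γ1 := mul_nonneg (by norm_num) (Real.log_nonneg (by norm_num))
  have g12 : γ1 ≤ γ2 := by
    have := Real.one_sub_inv_le_log_of_pos (x := 20) (by norm_num)
    unfold γ2
    linarith
  have part2 : ∀ L, 576 ≤ L → Even L → ∃ (a : ℕ) (r : ℝ), 1 ≤ a ∧
      S.Z a L ≤ (1 + r) * S.X L ^ a ∧ r < Real.exp (-(8 * a * γ2)) := by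
    intro L hL hLe
    obtain ⟨j, j1, j2⟩ := boot_cover (b := 576) (by norm_num) hL
    refine ⟨24 * 2 ^ j, 3 * e j, by have := hpos j; omega,
      (hgen j).1 L (by omega) (by omega) hLe, ?_⟩
    refine (hq j 0.48 3 (by norm_num) (by norm_num)).trans_le ?_
    exact boot_exp (N := 20) (k := 12) (l := 49) (by norm_num) (by norm_num) (by norm_num)
      (by unfold γ2; push_cast; ring) (by norm_num) j
  have small : ∀ a : ℕ, a ≤ 12 → (0.11 : ℝ) < Real.exp (-(8 * a * γ1)) := by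
    intro a ha
    have h1 : (a : ℝ) ≤ 12 := by exact_mod_cast ha
    have h2 := Real.add_one_le_exp (-(8 * a * γ1))
    have h3 : (a : ℝ) * γ1 ≤ 12 * γ1 := mul_le_mul_of_nonneg_right h1 g10
    linarith
  refine ⟨fun L hL hLe => ?_, fun L hL hLe => part2 L (by omega) hLe, fun m hm => ?_⟩
  · by_cases c1 : L ≤ 108
    · exact ⟨3, 0.0382, by norm_num, h60 L hL c1 hLe, lt_trans (by norm_num) (small 3 (by norm_num))⟩
    by_cases c2 : L ≤ 864
    · obtain ⟨a, a1, a2, a3⟩ := hwin L (by omega) c2 hLe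
      exact ⟨a, 0.11, a1, a3, small a a2⟩
    · obtain ⟨a, r, a1, a2, a3⟩ := part2 L (by omega) hLe
      refine ⟨a, r, a1, a2, a3.trans_le (Real.exp_le_exp.2 ?_)⟩
      have : (a : ℝ) * γ1 ≤ a * γ2 := mul_le_mul_of_nonneg_left g12 (Nat.cast_nonneg a)
      linarith
  · obtain ⟨j, j1, j2⟩ := boot_cover (b := 864) (L := m) (by norm_num) (by omega)
    refine ⟨24 * 2 ^ j, 6 * e j, by have := hpos j; omega,
      (hgen j).2 m (by omega) (by omega), ?_⟩
    refine (hq j 0.32 6 (by norm_num) (by norm_num)).trans_le ?_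
    exact boot_exp (N := 10) (k := 24) (l := 49) (by norm_num) (by norm_num) (by norm_num)
      (by unfold γ3; push_cast; ring) (by norm_num) j

end Crest.Agent.R347
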