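import Crest.Agent.R347.Norm

set_option autoImplicit false

namespace Crest.Agent.R347

open Matrix Crest.MathPhysics.SpinChain Filter Topology

theorem tops_pow_le {ι : Type*} {y : ι → ℝ} (hy : ∀ i, 0 ≤ y i) {S T : ℝ} {k : ℕ} (hk : 1 ≤ k)
    (hS : HasSum y S) (hT : HasSum (fun i => y i ^ k) T) : T ≤ S ^ k := by
  obtain ⟨j, rfl⟩ : ∃ j, k = j + 1 := ⟨k - 1, by omega⟩
  have h := hS.mul_left (S ^ j)
  rw [pow_succ]
  refine hasSum_le (fun i => ?_) hT h
  rw [pow_succ]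
  exact mul_le_mul_of_nonneg_right
    (pow_le_pow_left₀ (hy i) (le_hasSum hS i fun j _ => hy j) j) (hy i)

theorem tops_inv {u R Q τ r : ℝ} (hu : 0 < u) (hR : 0 ≤ R) (hQ0 : 0 ≤ Q) (hQ1 : Q ≤ u * R)
    (hQ2 : Q ≤ R ^ 2) (hr0 : 0 ≤ r) (hτ : τ ≤ 2) (hτr : τ * (1 + r ^ 2) ≤ (1 + r) ^ 2)
    (h : (u + R) ^ 2 ≤ τ * (u ^ 2 + Q)) : u + R ≤ (1 + r) * u := by
  by_contra hc
  push Not at hc
  have hRr : r * u < R := by linarith
  have hpos : 0 < u ^ 2 + Q := by positivity
  have hτ0 : 0 < τ := by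
    by_contra h0
    push Not at h0
    have h1 : τ * (u ^ 2 + Q) ≤ 0 := mul_nonpos_of_nonpos_of_nonneg h0 hpos.le
    have h2 : 0 < (u + R) ^ 2 := by positivity
    linarith
  rcases le_or_gt R u with hRu | hRu
  · have h1 : τ * (u ^ 2 + Q) ≤ τ * (u ^ 2 + R ^ 2) :=
      mul_le_mul_of_nonneg_left (by linarith) hτ0.le
    have h2 : (u + R) ^ 2 * (1 + r ^ 2) ≤ τ * (u ^ 2 + R ^ 2) * (1 + r ^ 2) :=
      mul_le_mul_of_nonneg_right (h.trans h1) (by positivity)
    have h3 : τ * (1 + r ^ 2) * (u ^ 2 + R ^ 2) ≤ (1 + r) ^ 2 * (u ^ 2 + R ^ 2) :=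
      mul_le_mul_of_nonneg_right hτr (by positivity)
    have hr1 : r < 1 := by
      by_contra h1
      push Not at h1
      nlinarith
    have h4 : 0 < (R - r * u) * (u - r * R) := by
      apply mul_pos (by linarith)
      nlinarith
    nlinarith
  · have h1 : τ * (u ^ 2 + Q) ≤ 2 * (u ^ 2 + u * R) :=
      mul_le_mul hτ (by linarith) hpos.le (by norm_num)
    nlinarith

theorem tops_grow {u X C : ℝ} (hX : 0 ≤ X) (h : ∀ k, 1 ≤ k → u ^ k ≤ C * X ^ k) : u ≤ X := by
  by_contra hc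
  push Not at hc
  have hu : 0 < u := lt_of_le_of_lt hX hc
  have hq : X / u < 1 := (div_lt_one hu).2 hc
  have hq0 : 0 ≤ X / u := div_nonneg hX hu.le
  have ht : Tendsto (fun k : ℕ => C * (X / u) ^ k) atTop (𝓝 (C * 0)) :=
    (tendsto_pow_atTop_nhds_zero_of_lt_one hq0 hq).const_mul C
  rw [mul_zero] at ht
  have he := (ht.eventually (gt_mem_nhds (show (0 : ℝ) < 1 by norm_num))).and
    (eventually_ge_atTop 1)
  obtain ⟨k, hk1, hk2⟩ := he.exists
  have h1 := h k hk2
  have hup : 0 < u ^ k := pow_pos hu k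
  rw [div_pow, ← mul_div_assoc, div_lt_one hup] at hk1
  linarith

theorem tops_rest {ι : Type*} [DecidableEq ι] {f : ι → ℝ} {a : ℝ} (hf : HasSum f a) (b : ι) :
    HasSum (fun n => if n = b then 0 else f n) (a - f b) :=
  hasSum_ite_sub_hasSum hf b

theorem tops_rest_pow {ι : Type*} {y : ι → ℝ} (hy : ∀ i, 0 ≤ y i) {S T : ℝ} {k : ℕ} (hk : 1 ≤ k)
    (hS : HasSum y S) (hT : HasSum (fun i => y i ^ k) T) (b : ι) :
    T - y b ^ k ≤ (S - y b) ^ k := by
  classical
  refine tops_pow_le (y := fun n => if n = b then 0 else y n) (fun i => ?_) hk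
    (tops_rest hS b) ?_
  · split_ifs
    · exact le_rfl
    · exact hy i
  · convert tops_rest hT b using 2 with i
    split_ifs
    · exact zero_pow (by omega)
    · rfl

theorem tops_inv' {ι : Type*} {y : ι → ℝ} (hy : ∀ i, 0 ≤ y i) {S T : ℝ} (b : ι)
    (hb : ∀ i, y i ≤ y b) (hpos : 0 < y b)
    (hS : HasSum y S) (hT : HasSum (fun i => y i ^ 2) T) {τ r : ℝ}
    (hr0 : 0 ≤ r) (hτ : τ ≤ 2) (hτr : τ * (1 + r ^ 2) ≤ (1 + r) ^ 2)
    (h : S ^ 2 ≤ τ * T) : S ≤ (1 + r) * y b := by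
  classical
  have h1 := tops_rest_pow hy (by norm_num : 1 ≤ 2) hS hT b
  have h2 : 0 ≤ S - y b := sub_nonneg.2 (le_hasSum hS b fun j _ => hy j)
  have h3 : 0 ≤ T - y b ^ 2 := sub_nonneg.2 (le_hasSum hT b fun j _ => sq_nonneg _)
  have h4 : T - y b ^ 2 ≤ y b * (S - y b) := by
    refine hasSum_le (fun i => ?_) (tops_rest hT b) ((tops_rest hS b).mul_left (y b))
    split_ifs
    · simp
    · rw [sq]
      exact mul_le_mul_of_nonneg_right (hb i) (hy i)
  have h5 := tops_inv hpos h2 h3 h4 h1 hr0 hτ hτr (by simpa using h)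
  linarith

theorem timeTop_exists {p : ℕ → ℝ} (h : PS0 p) (hp : 0 < p 1) : ∃ X, TimeTop p X := by
  classical
  obtain ⟨ι, _, x, hx, hs⟩ := h
  have hS : ∀ k, 1 ≤ k → HasSum (fun i => x i ^ k) (p k) := fun k hk => by
    rw [hs k hk]; exact hasSum_fintype _
  have hne : ∃ i, 0 < x i := by
    by_contra hc
    push Not at hc
    have : p 1 ≤ 0 := by
      rw [hs 1 le_rfl]
      exact Finset.sum_nonpos fun i _ => by simpa using hc i
    linarith
  obtain ⟨i1, hi1⟩ := hne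
  haveI : Nonempty ι := ⟨i1⟩
  obtain ⟨b, hb⟩ := Finite.exists_max x
  have hX : 0 < x b := lt_of_lt_of_le hi1 (hb i1)
  have hmul : ∀ a k, 1 ≤ a → 1 ≤ k → HasSum (fun i => (x i ^ a) ^ k) (p (k * a)) := by
    intro a k ha hk
    have := hS (k * a) (Nat.mul_pos hk ha)
    simpa only [← pow_mul, mul_comm a k] using this
  refine ⟨x b, hX, fun k hk => le_hasSum (hS k hk) b fun j _ => pow_nonneg (hx j) k,
    fun a k ha hk => tops_pow_le (fun i => pow_nonneg (hx i) a) hk (hS a ha) (hmul a k ha hk),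
    fun a k r ha hk hr hle => ?_, fun a τ r ha hr0 _ hτ hτr hle => ?_, fun u hu hle => ?_⟩
  · have h1 := tops_rest_pow (fun i => pow_nonneg (hx i) a) hk (hS a ha) (hmul a k ha hk) b
    have h2 : 0 ≤ p a - x b ^ a :=
      sub_nonneg.2 (le_hasSum (hS a ha) b fun j _ => pow_nonneg (hx j) a)
    have h3 : (p a - x b ^ a) ^ k ≤ (r * x b ^ a) ^ k :=
      pow_le_pow_left₀ h2 (by linarith) k
    rw [mul_pow] at h3
    rw [mul_comm k a, pow_mul]
    rw [mul_comm k a] at h1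
    linarith
  · exact tops_inv' (fun i => pow_nonneg (hx i) a) b
      (fun i => pow_le_pow_left₀ (hx i) (hb i) a) (pow_pos hX a) (hS a ha)
      (hmul a 2 ha (by norm_num)) hr0 hτ hτr hle
  · refine tops_grow (C := Fintype.card ι) hX.le fun k hk => (hle k hk).trans ?_
    rw [hs k hk]
    calc ∑ i, x i ^ k ≤ ∑ _i : ι, x b ^ k :=
          Finset.sum_le_sum fun i _ => pow_le_pow_left₀ (hx i) (hb i) k
      _ = Fintype.card ι * x b ^ k := by simp

theorem tops_space {ι : Type*} {lam c s : ι → ℝ} {P Y Yp : ℕ → ℝ} (hc : ∀ i, 0 ≤ c i)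
    (hs : ∀ i, |s i| = 1) (hP : ∀ L, 4 ≤ L → HasSum (fun i => lam i ^ L) (P L))
    (hY : ∀ m, 4 ≤ m → HasSum (fun i => c i * lam i ^ m) (Y m))
    (hYp : ∀ m, 4 ≤ m → HasSum (fun i => s i * (c i * lam i ^ m)) (Yp m))
    (hpos : 0 < P 4) : ∃ Λ c0, SpaceTop P Y Yp Λ c0 := by
  classical
  have hev : ∀ i L, Even L → lam i ^ L = |lam i| ^ L := fun i L hL => (hL.pow_abs _).symm
  have hnn : ∀ i L, Even L → 0 ≤ lam i ^ L := fun i L hL => hL.pow_nonneg _
  obtain ⟨i1, hi1⟩ : ∃ i, lam i ≠ 0 := by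
    by_contra hcon
    push Not at hcon
    have h0 := hP 4 le_rfl
    simp only [hcon] at h0
    have : P 4 = 0 := h0.unique (by simpa using (hasSum_zero : HasSum (fun _ : ι => (0 : ℝ)) 0))
    linarith
  obtain ⟨b, hb⟩ : ∃ b, ∀ i, |lam i| ≤ |lam b| := by
    have ht := (hP 4 le_rfl).summable.tendsto_cofinite_zero
    have hp4 : 0 < lam i1 ^ 4 := by positivity
    have hfin := ht.eventually (gt_mem_nhds hp4)
    rw [Filter.eventually_cofinite] at hfin
    obtain ⟨b, hb1, hb2⟩ := Set.exists_max_image _ (fun i => |lam i|) hfin ⟨i1, by simp⟩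
    refine ⟨b, fun i => ?_⟩
    by_cases hi : lam i ^ 4 < lam i1 ^ 4
    · refine le_trans ?_ (hb2 i1 (by simp))
      rw [hev i 4 (by decide), hev i1 4 (by decide)] at hi
      exact (lt_of_pow_lt_pow_left₀ 4 (abs_nonneg _) hi).le
    · exact hb2 i hi
  have hΛ : 0 < |lam b| := lt_of_lt_of_le (abs_pos.2 hi1) (hb i1)
  have hstep : ∀ i (t : ℝ) L j, |lam i| ≤ t → Even L → |lam i ^ (L + j)| ≤ t ^ j * lam i ^ L := by
    intro i t L j ht hL
    rw [abs_pow, pow_add, hev i L hL, mul_comm]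
    exact mul_le_mul_of_nonneg_right (pow_le_pow_left₀ (abs_nonneg _) ht j) (by positivity)
  have hθ : ∀ L θ, 4 ≤ L → Even L → 0 ≤ θ → P L ≤ (1 + θ ^ L) * |lam b| ^ L →
      ∀ i, i ≠ b → |lam i| ≤ θ * |lam b| := by
    intro L θ hL hLe hθ0 hle i hi
    have h1 := le_hasSum (tops_rest (hP L hL) b) i (fun j _ => by
      split_ifs
      · exact le_rfl
      · exact hnn j L hLe)
    rw [if_neg hi, hev i L hLe, hev b L hLe] at h1
    have h2 : |lam i| ^ L ≤ (θ * |lam b|) ^ L := by rw [mul_pow]; linarith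
    exact le_of_pow_le_pow_left₀ (by omega) (by positivity) h2
  refine ⟨|lam b|, c b, hΛ, hc b, fun L hL hLe => ?_, fun L j hL hLe hj => ?_,
    fun m hm hme => ?_, fun m j hm hme hj => ?_, fun L θ hL hLe hθ0 hle j hj => ?_,
    fun L θ hL hLe hθ0 hle m j hm hme hj => ?_, fun m j hm hme => ?_,
    fun L τ r hL hLe hr0 _ hτ hτr hle => ?_⟩
  · rw [← hev b L hLe]
    exact le_hasSum (hP L hL) b fun j _ => hnn j L hLe
  · exact hasSum_le (fun i => (le_abs_self _).trans (hstep i _ L j (hb i) hLe))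
      (hP (L + j) (by omega)) ((hP L hL).mul_left _)
  · rw [← hev b m hme]
    exact le_hasSum (hY m hm) b fun j _ => mul_nonneg (hc j) (hnn j m hme)
  · refine hasSum_le (fun i => ?_) (hY (m + j) (by omega)) ((hY m hm).mul_left _)
    have := mul_le_mul_of_nonneg_left ((le_abs_self _).trans (hstep i _ m j (hb i) hme)) (hc i)
    linarith
  · have h1 : P (L + j) - lam b ^ (L + j) ≤ (θ * |lam b|) ^ j * (P L - lam b ^ L) := by
      refine hasSum_le (fun i => ?_) (tops_rest (hP (L + j) (by omega)) b)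
        ((tops_rest (hP L hL) b).mul_left _)
      split_ifs with hi
      · simp
      · exact (le_abs_self _).trans (hstep i _ L j (hθ L θ hL hLe hθ0 hle i hi) hLe)
    rw [hev b L hLe, hev b (L + j) (hLe.add hj)] at h1
    have h2 : (θ * |lam b|) ^ j * (P L - |lam b| ^ L) ≤
        (θ * |lam b|) ^ j * (θ ^ L * |lam b| ^ L) :=
      mul_le_mul_of_nonneg_left (by linarith) (by positivity)
    have h3 : (θ * |lam b|) ^ j * (θ ^ L * |lam b| ^ L) = θ ^ (L + j) * |lam b| ^ (L + j) := by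
      rw [mul_pow, pow_add, pow_add]; ring
    linarith
  · rw [← hev b m hme, ← hev b (m + j) (hme.add hj)]
    refine hasSum_le (fun i => ?_) (tops_rest (hY (m + j) (by omega)) b)
      ((tops_rest (hY m hm) b).mul_left _)
    split_ifs with hi
    · simp
    · have := mul_le_mul_of_nonneg_left
        ((le_abs_self _).trans (hstep i _ m j (hθ L θ hL hLe hθ0 hle i hi) hme)) (hc i)
      linarith
  · have hterm : ∀ i, |s i * (c i * lam i ^ (m + j))| ≤ |lam b| ^ j * (c i * lam i ^ m) := by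
      intro i
      rw [abs_mul, hs i, one_mul, abs_mul, abs_of_nonneg (hc i)]
      have := mul_le_mul_of_nonneg_left (hstep i _ m j (hb i) hme) (hc i)
      linarith
    have h1 := tops_rest (hYp (m + j) (by omega)) b
    have h2 := (tops_rest (hY m hm) b).mul_left (|lam b| ^ j)
    have h3 : |Yp (m + j) - s b * (c b * lam b ^ (m + j))| ≤
        |lam b| ^ j * (Y m - c b * lam b ^ m) := by
      rw [abs_le]
      constructor
      · refine hasSum_le (fun i => ?_) h2.neg h1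
        split_ifs
        · simp
        · exact (abs_le.1 (hterm i)).1
      · refine hasSum_le (fun i => ?_) h1 h2
        split_ifs
        · simp
        · exact (abs_le.1 (hterm i)).2
    have h4 : |s b * (c b * lam b ^ (m + j))| = c b * |lam b| ^ (m + j) := by
      rw [abs_mul, hs b, one_mul, abs_mul, abs_of_nonneg (hc b), abs_pow]
    rw [← h4, ← hev b m hme]
    exact (abs_abs_sub_abs_le_abs_sub _ _).trans h3
  · rw [← hev b L hLe]
    refine tops_inv' (y := fun i => lam i ^ L) (fun i => hnn i L hLe) b (fun i => ?_) ?_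
      (hP L hL) ?_ hr0 hτ hτr hle
    · rw [hev i L hLe, hev b L hLe]
      exact pow_le_pow_left₀ (abs_nonneg _) (hb i) L
    · rw [hev b L hLe]
      exact pow_pos hΛ L
    · have := hP (2 * L) (by omega)
      simpa only [← pow_mul, mul_comm L 2] using this

theorem spaceTop_exists {p q y z : ℕ → ℝ} (ha : Spec p y) (hb : Spec q z)
    (hpos : 0 < p 4 + 3 * q 4) :
    ∃ Λ c, SpaceTop (fun L => p L + 3 * q L) (fun m => y m + z m) (fun m => y m - z m) Λ c := by
  obtain ⟨l1, c1, hc1, hp1, hy1, -⟩ := ha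
  obtain ⟨l2, c2, hc2, hp2, hy2, -⟩ := hb
  refine tops_space (ι := ℕ ⊕ ℕ ⊕ ℕ ⊕ ℕ)
    (lam := Sum.elim l1 (Sum.elim l2 (Sum.elim l2 l2)))
    (c := Sum.elim c1 (Sum.elim c2 fun _ => 0))
    (s := Sum.elim (fun _ => 1) fun _ => -1) ?_ ?_ ?_ ?_ ?_ hpos
  · rintro (i | i | i)
    · exact hc1 i
    · exact hc2 i
    · exact le_rfl
  · rintro (i | i) <;> simp
  · intro L hL
    have h1 := hp1 L (by omega)
    have h2 := hp2 L (by omega)
    have h3 : p L + 3 * q L = p L + (q L + (q L + q L)) := by ring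
    show HasSum _ (p L + 3 * q L)
    rw [h3]
    exact HasSum.sum h1 (HasSum.sum h2 (HasSum.sum h2 h2))
  · intro m hm
    have h1 := hy1 m (by omega)
    have h2 := hy2 m (by omega)
    have h3 : y m + z m = y m + (z m + 0) := by ring
    show HasSum _ (y m + z m)
    rw [h3]
    refine HasSum.sum h1 (HasSum.sum h2 ?_)
    convert hasSum_zero using 1
    funext i
    simp
  · intro m hm
    have h1 := hy1 m (by omega)
    have h2 := hy2 m (by omega)
    have h3 : y m - z m = 1 * y m + (-1 * z m + 0) := by ring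
    show HasSum _ (y m - z m)
    rw [h3]
    refine HasSum.sum (h1.mul_left 1) (HasSum.sum (h2.mul_left (-1)) ?_)
    convert hasSum_zero using 1
    funext i
    simp

theorem tops_ps_nonneg {A : ℕ → ℝ} (hA : PS0 A) (k : ℕ) (hk : 1 ≤ k) : 0 ≤ A k := by
  obtain ⟨ι, _, x, hx, hs⟩ := hA
  rw [hs k hk]
  exact Finset.sum_nonneg fun i _ => pow_nonneg (hx i) k

theorem tops_ps_le {A : ℕ → ℝ} (hA : PS0 A) (k : ℕ) (hk : 1 ≤ k) : A k ≤ A 1 ^ k := by
  obtain ⟨ι, _, x, hx, hs⟩ := hA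
  refine tops_pow_le hx hk ?_ ?_
  · rw [hs 1 le_rfl]
    simpa using hasSum_fintype x
  · rw [hs k hk]
    exact hasSum_fintype _

theorem time_split {A B : ℕ → ℝ} (hA : PS0 A) (hB : PS0 B) (d : ℕ) {X zu au : ℝ}
    (hX : TimeTop (fun k => A k + d * B k) X) (h1 : 1 ≤ X) (hz : A 1 + d * B 1 ≤ zu)
    (hzd : zu < d) (ha : A 1 ≤ au) (k : ℕ) (hk : 1 ≤ k) :
    A k + d * B k ≤ (1 + ((au - 1) ^ k + d * ((zu - 1) / d) ^ k)) * X ^ k ∧
      A k + d * B k ≤ au ^ k + d * ((zu - 1) / d) ^ k := by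
  have hA1 := tops_ps_nonneg hA 1 le_rfl
  have hB1 := tops_ps_nonneg hB 1 le_rfl
  have hd0 : (0 : ℝ) ≤ d := Nat.cast_nonneg d
  have hd : (0 : ℝ) < d := by
    have := mul_nonneg hd0 hB1
    linarith
  have hb1 : B 1 < 1 := by
    by_contra hc
    push Not at hc
    have := mul_le_mul_of_nonneg_left hc hd0
    linarith
  have hAle := tops_ps_le hA k hk
  obtain ⟨ι, _, x, hx, hs⟩ := hA
  have hS : ∀ k, 1 ≤ k → HasSum (fun i => x i ^ k) (A k) := fun k hk => by
    rw [hs k hk]; exact hasSum_fintype _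
  have hxX : ∀ i, x i ≤ X := fun i => hX.grow _ (hx i) fun k hk => by
    have h2 := le_hasSum (hS k hk) i fun j _ => pow_nonneg (hx j) k
    have h3 := mul_nonneg hd0 (tops_ps_nonneg hB k hk)
    linarith
  obtain ⟨b, hb⟩ : ∃ b, x b = X := by
    obtain ⟨o, ho⟩ := Finite.exists_max fun o : Option ι => o.elim (B 1) x
    have hM0 : 0 ≤ o.elim (B 1) x := hB1.trans (ho none)
    have hXM : X ≤ o.elim (B 1) x := by
      refine tops_grow (C := Fintype.card ι + d) hM0 fun k hk => (hX.le k hk).trans ?_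
      have h2 : A k ≤ Fintype.card ι * o.elim (B 1) x ^ k := by
        rw [hs k hk]
        calc ∑ i, x i ^ k ≤ ∑ _i : ι, o.elim (B 1) x ^ k :=
              Finset.sum_le_sum fun i _ => pow_le_pow_left₀ (hx i) (ho (some i)) k
          _ = Fintype.card ι * o.elim (B 1) x ^ k := by simp
      have h3 : B k ≤ o.elim (B 1) x ^ k :=
        (tops_ps_le hB k hk).trans (pow_le_pow_left₀ hB1 (ho none) k)
      have h4 := mul_le_mul_of_nonneg_left h3 hd0
      show A k + d * B k ≤ _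
      linarith
    cases o with
    | none =>
      simp only [Option.elim] at hXM
      linarith
    | some b => exact ⟨b, le_antisymm (hxX b) hXM⟩
  have hS1 : HasSum x (A 1) := by simpa using hS 1 le_rfl
  have hXA : X ≤ A 1 := hb ▸ le_hasSum hS1 b fun j _ => hx j
  have hBk : B k ≤ ((zu - 1) / d) ^ k := by
    refine (tops_ps_le hB k hk).trans (pow_le_pow_left₀ hB1 ?_ k)
    rw [le_div_iff₀ hd]
    linarith
  have hBk' := mul_le_mul_of_nonneg_left hBk hd0
  constructor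
  · have h2 := tops_rest_pow hx hk hS1 (hS k hk) b
    rw [hb] at h2
    have h3 : (A 1 - X) ^ k ≤ (au - 1) ^ k := pow_le_pow_left₀ (by linarith) (by linarith) k
    have h4 : 1 ≤ X ^ k := one_le_pow₀ h1
    have h5 : 0 ≤ (au - 1) ^ k + d * ((zu - 1) / d) ^ k := by
      have h6 : 0 ≤ (au - 1) ^ k := pow_nonneg (by linarith) k
      have h7 := mul_nonneg hd0 ((tops_ps_nonneg hB k hk).trans hBk)
      linarith
    have h6 := mul_le_mul_of_nonneg_left h4 h5
    linarith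
  · have h2 : A 1 ^ k ≤ au ^ k := pow_le_pow_left₀ hA1 ha k
    linarith

theorem time_convex {A B : ℕ → ℝ} (hA : PS0 A) (hB : PS0 B) (d : ℕ) (hd : 0 < d) {zu au : ℝ}
    (hz : A 1 + d * B 1 ≤ zu) (ha : A 1 ≤ au) (hau : au ≤ zu) (k : ℕ) (hk : 1 ≤ k) :
    A k + d * B k ≤ max (au ^ k + d * ((zu - au) / d) ^ k) (d * (zu / d) ^ k) := by
  have hA1 := tops_ps_nonneg hA 1 le_rfl
  have hB1 := tops_ps_nonneg hB 1 le_rfl
  have hd' : (0 : ℝ) < d := Nat.cast_pos.2 hd
  have hau0 : 0 ≤ au := hA1.trans ha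
  have hmem : A 1 ∈ segment ℝ 0 au := by
    rw [segment_eq_Icc hau0]
    exact ⟨hA1, ha⟩
  obtain ⟨s, t, hs, ht, hst, hA1e⟩ := hmem
  simp only [smul_eq_mul, mul_zero, zero_add] at hA1e
  have hBk : B k ≤ ((zu - A 1) / d) ^ k := by
    refine (tops_ps_le hB k hk).trans (pow_le_pow_left₀ hB1 ?_ k)
    rw [le_div_iff₀ hd']
    linarith
  have hc1 := (convexOn_pow (𝕜 := ℝ) k).2 (Set.mem_Ici.2 (le_refl (0 : ℝ)))
    (Set.mem_Ici.2 hau0) hs ht hst
  have hc2 := (convexOn_pow (𝕜 := ℝ) k).2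
    (Set.mem_Ici.2 (div_nonneg (hau0.trans hau) hd'.le))
    (Set.mem_Ici.2 (div_nonneg (sub_nonneg.2 hau) hd'.le)) hs ht hst
  simp only [smul_eq_mul, mul_zero, zero_add, zero_pow (show k ≠ 0 by omega)] at hc1 hc2
  have he : s * (zu / d) + t * ((zu - au) / d) = (zu - A 1) / d := by
    rw [← hA1e]
    have : s = 1 - t := by linarith
    rw [this]
    field_simp
    ring
  rw [he] at hc2
  rw [hA1e] at hc1
  have h1 := tops_ps_le hA k hk
  have h2 := mul_le_mul_of_nonneg_left (hBk.trans hc2) hd'.le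
  have h3 := mul_le_mul_of_nonneg_left
    (le_max_left (au ^ k + d * ((zu - au) / d) ^ k) (d * (zu / d) ^ k)) ht
  have h4 := mul_le_mul_of_nonneg_left
    (le_max_right (au ^ k + d * ((zu - au) / d) ^ k) (d * (zu / d) ^ k)) hs
  have h5 : s * max (au ^ k + d * ((zu - au) / d) ^ k) (d * (zu / d) ^ k) +
      t * max (au ^ k + d * ((zu - au) / d) ^ k) (d * (zu / d) ^ k) =
      max (au ^ k + d * ((zu - au) / d) ^ k) (d * (zu / d) ^ k) := by
    rw [← add_mul, hst, one_mul]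
  nlinarith

end Crest.Agent.R347
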