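import Crest.Agent.R347.Step
import Crest.Agent.R347.Tops

set_option autoImplicit false

namespace Crest.Agent.R347

open Matrix Crest.MathPhysics.SpinChain Filter Topology

/-- Decay of the rest in the chain sum. -/
theorem boot0_dec {p y yp : ℕ → ℝ} {Λ c θ R : ℝ} (h : SpaceTop p y yp Λ c) (hθ : 0 ≤ θ)
    (hp : p 36 ≤ (1 + θ ^ 36) * Λ ^ 36) {m : ℕ} (hm : 4 ≤ m) (hme : Even m)
    (hw : y m - c * Λ ^ m ≤ R * (c * Λ ^ m)) (j : ℕ) (hj : Even j) :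
    y (m + j) ≤ (1 + R * θ ^ j) * (c * Λ ^ (m + j)) := by
  have h1 := h.ydec 36 θ (by norm_num) (by decide) hθ hp m j hm hme hj
  have h2 : (θ * Λ) ^ j * (y m - c * Λ ^ m) ≤ (θ * Λ) ^ j * (R * (c * Λ ^ m)) :=
    mul_le_mul_of_nonneg_left hw (pow_nonneg (mul_nonneg hθ h.pos.le) _)
  have h3 : (θ * Λ) ^ j * (R * (c * Λ ^ m)) = R * θ ^ j * (c * Λ ^ (m + j)) := by
    rw [mul_pow, pow_add]; ring
  linarith

theorem boot0_up {p y yp : ℕ → ℝ} {Λ c θ K : ℝ} (h : SpaceTop p y yp Λ c) (hθ : 0 ≤ θ)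
    (hK : θ ^ 36 ≤ K) (hp : p 36 ≤ (1 + θ ^ 36) * Λ ^ 36) {m : ℕ} (hm : 4 ≤ m) (hme : Even m) :
    y (m + 36) ≤ Λ ^ 36 * (c * Λ ^ m + K * (y m - c * Λ ^ m)) := by
  have h1 := h.ydec 36 θ (by norm_num) (by decide) hθ hp m 36 hm hme (by decide)
  have h2 : 0 ≤ y m - c * Λ ^ m := sub_nonneg.2 (h.yle m hm hme)
  have h3 : θ ^ 36 * (Λ ^ 36 * (y m - c * Λ ^ m)) ≤ K * (Λ ^ 36 * (y m - c * Λ ^ m)) :=
    mul_le_mul_of_nonneg_right hK (mul_nonneg (pow_pos h.pos _).le h2)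
  rw [mul_pow, pow_add] at h1
  linarith

/-- The state at the first scale `a = 3`, `L = 36`. -/
theorem boot_base (S : Sys) (A B O Q : ℕ → ℕ → ℝ)
    (hA : ∀ L, 4 ≤ L → PS0 fun a => A a L) (hB : ∀ L, 4 ≤ L → PS0 fun a => B a L)
    (hO : ∀ m, 4 ≤ m → PS0 fun a => O a m) (hQ : ∀ m, 4 ≤ m → PS0 fun a => Q a m)
    (hZ : ∀ a L, S.Z a L = A a L + 3 * B a L) (hY : ∀ a m, S.Y a m = O a m + 2 * Q a m)
    (hU : BaseUp (S.Z 1) (A 1) (S.Y 1) (O 1)) :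
    State S 3 36 0.0382 0.272 0.1288 0.1019 0.0950 0.0059 ∧
      ∀ L, 60 ≤ L → L ≤ 108 → Even L → S.Z 3 L ≤ (1 + 0.0382) * S.X L ^ 3 := by
  have tsZ : ∀ L, 4 ≤ L → Even L → ∀ zu au : ℝ, S.Z 1 L ≤ zu → zu < 3 → A 1 L ≤ au →
      ∀ k, 1 ≤ k → S.Z k L ≤ (1 + ((au - 1) ^ k + 3 * ((zu - 1) / 3) ^ k)) * S.X L ^ k ∧
        S.Z k L ≤ au ^ k + 3 * ((zu - 1) / 3) ^ k := by
    intro L hL hLe zu au h1 h2 h3 k hk
    have e : (fun a => S.Z a L) = fun k => A k L + ((3 : ℕ) : ℝ) * B k L := by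
      funext k; rw [hZ]; norm_num
    have ht := S.tZ L hL
    rw [e] at ht
    have := time_split (hA L hL) (hB L hL) 3 ht (S.one_le_X hL hLe) (zu := zu) (au := au)
      (by rw [hZ] at h1; exact_mod_cast h1) (by exact_mod_cast h2) h3 k hk
    rw [hZ]
    exact_mod_cast this
  have tsY : ∀ m, 64 ≤ m → Even m → ∀ zu au : ℝ, S.Y 1 m ≤ zu → zu < 2 → O 1 m ≤ au →
      S.Y 3 m ≤ (1 + ((au - 1) ^ 3 + 2 * ((zu - 1) / 2) ^ 3)) * S.Xo m ^ 3 := by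
    intro m hm hme zu au h1 h2 h3
    have hm4 : 4 ≤ m := by omega
    have e : (fun a => S.Y a m) = fun k => O k m + ((2 : ℕ) : ℝ) * Q k m := by
      funext k; rw [hY]; norm_num
    have ht := S.tY m hm4
    rw [e] at ht
    have := (time_split (hO m hm4) (hQ m hm4) 2 ht (S.one_le_Xo hm hme) (zu := zu) (au := au)
      (by rw [hY] at h1; exact_mod_cast h1) (by exact_mod_cast h2) h3 3 (by norm_num)).1
    rw [hY]
    exact_mod_cast this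
  have hg : ∀ L, 60 ≤ L → L ≤ 108 → Even L → S.Z 3 L ≤ (1 + 0.0382) * S.X L ^ 3 := by
    intro L h1 h2 h3
    have hL : 4 ≤ L := by omega
    refine (tsZ L hL h3 _ _ (hU.zL L h1 h2 h3) (by norm_num) (hU.aL L h1 h2 h3) 3
      (by norm_num)).1.trans ?_
    exact mul_le_mul_of_nonneg_right (by norm_num) (pow_pos (S.tZ L hL).pos _).le
  have hZ3 : S.Z 3 36 ≤ 1.1288 :=
    (tsZ 36 (by norm_num) (by decide) _ _ hU.z36 (by norm_num) hU.a36 3 (by norm_num)).2.trans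
      (by norm_num)
  have hZ6 : S.Z 6 36 ≤ 1.272 :=
    (tsZ 36 (by norm_num) (by decide) _ _ hU.z36 (by norm_num) hU.a36 6 (by norm_num)).2.trans
      (by norm_num)
  have s3 := S.sp 3 (by norm_num)
  have s6 := S.sp 6 (by norm_num)
  have hΛ3 : 1 ≤ S.Λ 3 ^ 36 := one_le_pow₀ (S.one_le_Λ (by norm_num))
  have hΛ6 : 1 ≤ S.Λ 6 ^ 36 := one_le_pow₀ (S.one_le_Λ (by norm_num))
  have hgo : S.Y 3 108 ≤ (1 + 0.1019) * S.Xo 108 ^ 3 :=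
    (tsY 108 (by norm_num) (by decide) _ _ hU.y108 (by norm_num) hU.o108).trans
      (mul_le_mul_of_nonneg_right (by norm_num) (pow_pos (S.tY 108 (by norm_num)).pos _).le)
  have h96 : S.Y 3 96 ≤ 1.0646 * S.Xo 96 ^ 3 :=
    (tsY 96 (by norm_num) (by decide) _ _ hU.y96 (by norm_num) hU.o96).trans
      (mul_le_mul_of_nonneg_right (by norm_num) (pow_pos (S.tY 96 (by norm_num)).pos _).le)
  have hY3 : S.Y 3 28 ≤ 1.2768 := by
    have h1 := hU.y28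
    rw [hY] at h1
    have := time_convex (hO 28 (by norm_num)) (hQ 28 (by norm_num)) 2 (by norm_num)
      (zu := 1.1686) (au := 1.0848) (by exact_mod_cast h1) hU.o28 (by norm_num) 3 (by norm_num)
    rw [hY]
    refine le_trans (by exact_mod_cast this) (max_le ?_ ?_) <;> norm_num
  -- scale `a = 3`
  have t1 : (0.9447 : ℝ) ^ 36 ≤ 0.129 := by norm_num
  have t1' : (0.1288 : ℝ) ≤ 0.9447 ^ 36 := by norm_num
  have hp3 : S.Z 3 36 ≤ (1 + (0.9447 : ℝ) ^ 36) * S.Λ 3 ^ 36 := by nlinarith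
  have hw3 : S.Y 3 28 - S.c 3 * S.Λ 3 ^ 28 ≤ 0.5421 * (S.c 3 * S.Λ 3 ^ 28) := by
    have h1 := boot0_up s3 (by norm_num) t1 hp3 (m := 28) (by norm_num) (by decide)
    have h2 := S.var 3 64 (by norm_num) le_rfl (by decide)
    have h3 := s3.le 36 (by norm_num) (by decide)
    have h4 := s3.yle 28 (by norm_num) (by decide)
    have h5 : 0 ≤ S.c 3 * S.Λ 3 ^ 28 := mul_nonneg s3.cnn (pow_pos s3.pos _).le
    generalize S.c 3 * S.Λ 3 ^ 28 = u at *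
    have h6 : S.Λ 3 ^ 36 * (u + 0.129 * (S.Y 3 28 - u)) ≤ 1.1288 * (u + 0.129 * (S.Y 3 28 - u)) :=
      mul_le_mul_of_nonneg_right (h3.trans hZ3) (by linarith)
    have h7 : S.Y 3 64 ≤ S.Λ 3 ^ 36 * (u + 0.129 * (S.Y 3 28 - u)) := h1
    linarith
  have h60 : S.Y 3 60 ≤ 1.0878 * (S.c 3 * S.Λ 3 ^ 60) :=
    (boot0_dec s3 (by norm_num) hp3 (m := 28) (by norm_num) (by decide) hw3 32 (by decide)).trans
      (mul_le_mul_of_nonneg_right (by norm_num) (mul_nonneg s3.cnn (pow_pos s3.pos _).le))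
  have h108 : S.Y 3 108 ≤ (1 + 0.0059) * (S.c 3 * S.Λ 3 ^ 108) :=
    (boot0_dec s3 (by norm_num) hp3 (m := 28) (by norm_num) (by decide) hw3 80 (by decide)).trans
      (mul_le_mul_of_nonneg_right (by norm_num) (mul_nonneg s3.cnn (pow_pos s3.pos _).le))
  -- scale `a = 6`
  have t2 : (0.9645 : ℝ) ^ 36 ≤ 0.2722 := by norm_num
  have t2' : (0.272 : ℝ) ≤ 0.9645 ^ 36 := by norm_num
  have hp6 : S.Z 6 36 ≤ (1 + (0.9645 : ℝ) ^ 36) * S.Λ 6 ^ 36 := by nlinarith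
  have hw6 : S.Y 6 60 - S.c 6 * S.Λ 6 ^ 60 ≤ 0.5374 * (S.c 6 * S.Λ 6 ^ 60) := by
    have h1 : S.Y 6 96 ≤ _ := boot0_up s6 (by norm_num) t2 hp6 (m := 60) (by norm_num) (by decide)
    have h4 := s6.yle 60 (by norm_num) (by decide)
    have h5 : 0 ≤ S.c 6 * S.Λ 6 ^ 60 := mul_nonneg s6.cnn (pow_pos s6.pos _).le
    generalize S.c 6 * S.Λ 6 ^ 60 = u at *
    have hv : 0 ≤ u + 0.2722 * (S.Y 6 60 - u) := by linarith
    have a1 : S.Y 6 60 ≤ S.Y 3 60 ^ 2 := (S.tY 60 (by norm_num)).sub 3 2 (by norm_num) (by norm_num)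
    have a0 : 0 ≤ S.c 3 * S.Λ 3 ^ 60 := mul_nonneg s3.cnn (pow_pos s3.pos _).le
    have a2 : S.Y 3 60 ^ 2 ≤ (1.0878 * (S.c 3 * S.Λ 3 ^ 60)) ^ 2 :=
      pow_le_pow_left₀ (a0.trans (s3.yle 60 (by norm_num) (by decide))) h60 2
    have a3 : (S.c 3 * S.Λ 3 ^ 96) ^ 2 ≤ (1.0646 * S.Xo 96 ^ 3) ^ 2 :=
      pow_le_pow_left₀ (mul_nonneg s3.cnn (pow_pos s3.pos _).le)
        ((s3.yle 96 (by norm_num) (by decide)).trans h96) 2
    have a4 : S.Xo 96 ^ 6 ≤ S.Y 6 96 := (S.tY 96 (by norm_num)).le 6 (by norm_num)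
    have a5 : S.Λ 6 ^ 36 ≤ (S.Λ 3 ^ 2) ^ 36 :=
      pow_le_pow_left₀ s6.pos.le (S.Λ_two (a := 3) (by norm_num)) 36
    have a6 := mul_le_mul_of_nonneg_right a5 hv
    have a7 : (S.Λ 3 ^ 2) ^ 36 * (S.c 3 * S.Λ 3 ^ 60) ^ 2 ≤
        (S.Λ 3 ^ 2) ^ 36 * (1.0646 ^ 2 * (u + 0.2722 * (S.Y 6 60 - u))) := by
      have b1 : (S.Λ 3 ^ 2) ^ 36 * (S.c 3 * S.Λ 3 ^ 60) ^ 2 = (S.c 3 * S.Λ 3 ^ 96) ^ 2 := by ring
      have b2 : (1.0646 * S.Xo 96 ^ 3) ^ 2 = 1.0646 ^ 2 * S.Xo 96 ^ 6 := by ring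
      rw [b1, mul_left_comm]
      refine a3.trans ?_
      rw [b2]
      exact mul_le_mul_of_nonneg_left (a4.trans (h1.trans a6)) (by norm_num)
    have a8 := le_of_mul_le_mul_left a7 (pow_pos (pow_pos s3.pos 2) 36)
    rw [mul_pow] at a2
    generalize (S.c 3 * S.Λ 3 ^ 60) ^ 2 = v at *
    norm_num at a2 a8 ⊢
    linarith
  have hKo : S.Y 6 108 ≤ (1 + 0.0950) * (S.c 6 * S.Λ 6 ^ 108) :=
    (boot0_dec s6 (by norm_num) hp6 (m := 60) (by norm_num) (by decide) hw6 48 (by decide)).trans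
      (mul_le_mul_of_nonneg_right (by norm_num) (mul_nonneg s6.cnn (pow_pos s6.pos _).le))
  refine ⟨⟨fun L h1 h2 h3 => hg L (by omega) (by omega) h3, by linarith, ?_, hgo, h108, hKo⟩, hg⟩
  show S.Z 6 36 ≤ (1 + 0.272) * S.Λ 6 ^ 36
  linarith

end Crest.Agent.R347
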