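import Crest.Agent.R347.Defs

set_option autoImplicit false

namespace Crest.Agent.R347

open Matrix Crest.MathPhysics.SpinChain Filter Topology

namespace LimitAux

/-- Spectral form of traces of powers and of the moments of a vector. -/
theorem spectral_fin {ι : Type} [Fintype ι] [DecidableEq ι] (X : Matrix ι ι ℂ)
    (hX : X.IsHermitian) (v : ι → ℂ) :
    ∃ lam c : ι → ℝ, (∀ i, 0 ≤ c i) ∧ (∀ L : ℕ, (Matrix.trace (X ^ L)).re = ∑ i, lam i ^ L) ∧
      ∀ m : ℕ, (star v ⬝ᵥ (X ^ m *ᵥ v)).re = ∑ i, c i * lam i ^ m := by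
  set U : Matrix ι ι ℂ := (hX.eigenvectorUnitary : Matrix ι ι ℂ) with hU
  set d : ι → ℂ := fun i => (hX.eigenvalues i : ℂ) with hd
  have h1 : star U * U = 1 := by
    rw [hU]; exact Matrix.mem_unitaryGroup_iff'.mp hX.eigenvectorUnitary.2
  have h2 : U * star U = 1 := by
    rw [hU]; exact Matrix.mem_unitaryGroup_iff.mp hX.eigenvectorUnitary.2
  have hXe : X = U * Matrix.diagonal d * star U := by
    have := hX.spectral_theorem
    rw [Unitary.conjStarAlgAut_apply] at this
    exact this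
  have hpow : ∀ L : ℕ, X ^ L = U * Matrix.diagonal (fun i => d i ^ L) * star U := by
    intro L
    induction L with
    | zero => simp [h2]
    | succ L ih =>
      rw [pow_succ, ih]
      conv_lhs => rw [hXe]
      calc U * Matrix.diagonal (fun i => d i ^ L) * star U * (U * Matrix.diagonal d * star U)
          = U * (Matrix.diagonal (fun i => d i ^ L) * (star U * U) * Matrix.diagonal d) * star U := by
            simp only [Matrix.mul_assoc]
        _ = _ := by
            rw [h1, Matrix.mul_one, Matrix.diagonal_mul_diagonal]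
            simp only [pow_succ]
  refine ⟨hX.eigenvalues, fun i => Complex.normSq ((star U *ᵥ v) i), fun i => Complex.normSq_nonneg _,
    ?_, ?_⟩
  · intro L
    rw [hpow, Matrix.trace_mul_comm, ← Matrix.mul_assoc, h1, Matrix.one_mul, Matrix.trace_diagonal,
      Complex.re_sum]
    refine Finset.sum_congr rfl fun i _ => ?_
    simp only [hd]
    rw [← Complex.ofReal_pow, Complex.ofReal_re]
  · intro m
    have hs : star v ᵥ* U = star (star U *ᵥ v) := by
      rw [Matrix.star_mulVec, Matrix.star_eq_conjTranspose, Matrix.conjTranspose_conjTranspose]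
    rw [hpow, ← Matrix.mulVec_mulVec, ← Matrix.mulVec_mulVec, Matrix.dotProduct_mulVec, hs]
    simp only [dotProduct, Matrix.mulVec_diagonal, Complex.re_sum]
    refine Finset.sum_congr rfl fun i _ => ?_
    simp only [hd, Pi.star_apply]
    set w := (star U *ᵥ v) i
    have : star w * ((hX.eigenvalues i : ℂ) ^ m * w)
        = ((Complex.normSq w * hX.eigenvalues i ^ m : ℝ) : ℂ) := by
      push_cast
      rw [Complex.normSq_eq_conj_mul_self]
      simp only [RCLike.star_def]
      ring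
    rw [this, Complex.ofReal_re]

/-- Enumeration of a finite family by decreasing absolute value, padded by zeros. -/
theorem enum_fin {ι : Type} [Fintype ι] (lam c : ι → ℝ) (hc : ∀ i, 0 ≤ c i) :
    ∃ lam' c' : ℕ → ℝ, (∀ i, 0 ≤ c' i) ∧
      (∀ L : ℕ, 1 ≤ L → HasSum (fun i => lam' i ^ L) (∑ i, lam i ^ L)) ∧
      (∀ m : ℕ, HasSum (fun i => c' i * lam' i ^ m) (∑ i, c i * lam i ^ m)) ∧
      ∀ i : ℕ, ((i : ℝ) + 1) * lam' i ^ 2 ≤ ∑ j, lam j ^ 2 := by
  classical
  set n := Fintype.card ι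
  let e0 : Fin n ≃ ι := (Fintype.equivFin ι).symm
  let f : Fin n → ℝ := fun k => -(lam (e0 k) ^ 2)
  let e : Fin n ≃ ι := (Tuple.sort f).trans e0
  have hmono : ∀ a b : Fin n, a ≤ b → lam (e b) ^ 2 ≤ lam (e a) ^ 2 := by
    intro a b hab
    have := Tuple.monotone_sort f hab
    simp only [Function.comp, f] at this
    simp only [e, Equiv.trans_apply]
    linarith
  have key : ∀ (F : ι → ℝ), HasSum (fun i : ℕ => if h : i < n then F (e ⟨i, h⟩) else 0)
      (∑ i, F i) := by
    intro F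
    have h1 : ∑ i, F i = ∑ i ∈ Finset.range n, (if h : i < n then F (e ⟨i, h⟩) else 0) := by
      rw [← Equiv.sum_comp e F, Finset.sum_range]
      refine Finset.sum_congr rfl fun i _ => ?_
      rw [dif_pos i.2]
    rw [h1]
    refine hasSum_sum_of_ne_finset_zero fun i hi => ?_
    rw [dif_neg (by simpa using hi)]
  refine ⟨fun i => if h : i < n then lam (e ⟨i, h⟩) else 0,
    fun i => if h : i < n then c (e ⟨i, h⟩) else 0, ?_, ?_, ?_, ?_⟩
  · intro i
    dsimp only
    split_ifs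
    · exact hc _
    · exact le_rfl
  · intro L hL
    convert key (fun i => lam i ^ L) using 2 with i
    dsimp only
    split_ifs
    · rfl
    · exact zero_pow (by omega)
  · intro m
    convert key (fun i => c i * lam i ^ m) using 2 with i
    dsimp only
    split_ifs
    · rfl
    · exact zero_mul _
  · intro i
    dsimp only
    split_ifs with h
    · rw [← Equiv.sum_comp e (fun j => lam j ^ 2)]
      calc ((i : ℝ) + 1) * lam (e ⟨i, h⟩) ^ 2
          = ∑ _j ∈ Finset.Iic (⟨i, h⟩ : Fin n), lam (e ⟨i, h⟩) ^ 2 := by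
            rw [Finset.sum_const, Fin.card_Iic, nsmul_eq_mul]; push_cast; ring
        _ ≤ ∑ j ∈ Finset.Iic (⟨i, h⟩ : Fin n), lam (e j) ^ 2 :=
            Finset.sum_le_sum fun j hj => hmono _ _ (Finset.mem_Iic.mp hj)
        _ ≤ ∑ j, lam (e j) ^ 2 :=
            Finset.sum_le_sum_of_subset_of_nonneg (Finset.subset_univ _)
              fun j _ _ => sq_nonneg _
    · rw [zero_pow two_ne_zero, mul_zero]
      exact Finset.sum_nonneg fun j _ => sq_nonneg _

/-- The dominating sequence. -/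
noncomputable def bb (D : ℝ) (i : ℕ) : ℝ := Real.sqrt (D / ((i : ℝ) + 1))

theorem bb_nonneg (D : ℝ) (i : ℕ) : 0 ≤ bb D i := Real.sqrt_nonneg _

theorem bb_anti {D : ℝ} (hD : 0 ≤ D) {i j : ℕ} (h : i ≤ j) : bb D j ≤ bb D i := by
  unfold bb
  apply Real.sqrt_le_sqrt
  apply div_le_div_of_nonneg_left hD (by positivity)
  have : (i : ℝ) ≤ j := by exact_mod_cast h
  linarith

theorem bb_tendsto (D : ℝ) : Tendsto (bb D) atTop (𝓝 0) := by
  have h1 : Tendsto (fun i : ℕ => D / ((i : ℝ) + 1)) atTop (𝓝 0) := by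
    have := tendsto_one_div_add_atTop_nhds_zero_nat (𝕜 := ℝ)
    have h2 := this.const_mul D
    simp only [mul_zero] at h2
    refine h2.congr fun i => ?_
    ring
  have := (Real.continuous_sqrt.tendsto 0).comp h1
  rw [Real.sqrt_zero] at this
  exact this

theorem bb_summable {D : ℝ} (hD : 0 ≤ D) {L : ℕ} (hL : 3 ≤ L) :
    Summable fun i => bb D i ^ L := by
  have h3 : Summable fun i => bb D i ^ 3 := by
    have h0 : Summable fun i : ℕ => 1 / (i : ℝ) ^ (3 / 2 : ℝ) :=
      Real.summable_one_div_nat_rpow.mpr (by norm_num)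
    have h1 := ((summable_nat_add_iff 1).mpr h0).mul_left (D ^ (3 / 2 : ℝ))
    refine h1.congr fun i => ?_
    have hi : (0 : ℝ) ≤ (i : ℝ) + 1 := by positivity
    rw [bb, Real.sqrt_eq_rpow, ← Real.rpow_natCast, ← Real.rpow_mul (by positivity),
      Real.div_rpow hD hi]
    push_cast
    norm_num
    ring
  obtain ⟨k, rfl⟩ := Nat.exists_eq_add_of_le hL
  refine Summable.of_nonneg_of_le (fun i => pow_nonneg (bb_nonneg D i) _) (fun i => ?_)
    (h3.mul_right (bb D 0 ^ k))
  rw [pow_add]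
  exact mul_le_mul_of_nonneg_left
    (pow_le_pow_left₀ (bb_nonneg D i) (bb_anti hD (Nat.zero_le i)) k) (pow_nonneg (bb_nonneg D i) _)

/-- The limiting argument for enumerated families. -/
theorem spec_of_seq (lam c : ℕ → ℕ → ℝ) (P Y : ℕ → ℕ → ℝ) (p y : ℕ → ℝ) (D C : ℝ) (hD : 0 ≤ D)
    (hc : ∀ N i, 0 ≤ c N i) (hlam : ∀ N i, |lam N i| ≤ bb D i)
    (hP : ∀ N L, 1 ≤ L → HasSum (fun i => lam N i ^ L) (P N L))
    (hY : ∀ N m, HasSum (fun i => c N i * lam N i ^ m) (Y N m))
    (hC : ∀ N, Y N 0 ≤ C)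
    (hp : ∀ L, 3 ≤ L → Tendsto (fun N => P N L) atTop (𝓝 (p L)))
    (hy : ∀ m, 2 ≤ m → Tendsto (fun N => Y N m) atTop (𝓝 (y m))) : Spec p y := by
  let U : Ultrafilter ℕ := Ultrafilter.of atTop
  have hU : (U : Filter ℕ) ≤ atTop := Ultrafilter.of_le _
  have hcs : ∀ N, HasSum (c N) (Y N 0) := fun N => by simpa using hY N 0
  have hcsum : ∀ N (s : Finset ℕ), ∑ i ∈ s, c N i ≤ C := fun N s =>
    (sum_le_hasSum s (fun i _ => hc N i) (hcs N)).trans (hC N)
  have hcC : ∀ N i, c N i ≤ C := fun N i => by simpa using hcsum N {i}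
  have lim : ∀ (f : ℕ → ℝ) (a b : ℝ), (∀ N, f N ∈ Set.Icc a b) →
      ∃ x, Tendsto f (U : Filter ℕ) (𝓝 x) := by
    intro f a b hf
    obtain ⟨x, -, hx⟩ := (isCompact_Icc (a := a) (b := b)).ultrafilter_le_nhds (U.map f)
      (by rw [Ultrafilter.coe_map, le_principal_iff, mem_map]; exact univ_mem' hf)
    exact ⟨x, hx⟩
  choose l hl using fun i => lim (fun N => lam N i) (-bb D i) (bb D i) fun N => abs_le.mp (hlam N i)
  choose w hw using fun i => lim (fun N => c N i) 0 C fun N => ⟨hc N i, hcC N i⟩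
  have hw0 : ∀ i, 0 ≤ w i := fun i => ge_of_tendsto' (hw i) fun N => hc N i
  have hlb : ∀ i, |l i| ≤ bb D i := fun i => le_of_tendsto' (hl i).abs fun N => hlam N i
  have hwsum : ∀ s : Finset ℕ, ∑ i ∈ s, w i ≤ C := fun s =>
    le_of_tendsto' (tendsto_finsetSum s fun i _ => hw i) fun N => hcsum N s
  have hws : Summable w := summable_of_sum_le hw0 hwsum
  refine ⟨l, w, hw0, ?_, ?_, ?_⟩
  · intro L hL
    have hs := bb_summable hD hL
    have hb : ∀ (x : ℝ) (i : ℕ), |x| ≤ bb D i → ‖x ^ L‖ ≤ bb D i ^ L := by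
      intro x i hx
      rw [Real.norm_eq_abs, abs_pow]
      exact pow_le_pow_left₀ (abs_nonneg _) hx L
    have h1 : Tendsto (fun N => ∑' i, lam N i ^ L) (U : Filter ℕ) (𝓝 (∑' i, l i ^ L)) :=
      tendsto_tsum_of_dominated_convergence hs (fun i => (hl i).pow L)
        (Eventually.of_forall fun N i => hb _ _ (hlam N i))
    have h2 : Tendsto (fun N => ∑' i, lam N i ^ L) (U : Filter ℕ) (𝓝 (p L)) := by
      refine ((hp L hL).mono_left hU).congr fun N => ?_
      exact (hP N L (by omega)).tsum_eq.symm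
    rw [← tendsto_nhds_unique h1 h2]
    exact (Summable.of_norm_bounded hs fun i => hb _ _ (hlb i)).hasSum
  · intro m hm
    have hsum : Summable fun i => w i * l i ^ m := by
      refine Summable.of_norm_bounded (hws.mul_right (bb D 0 ^ m)) fun i => ?_
      rw [Real.norm_eq_abs, abs_mul, abs_of_nonneg (hw0 i), abs_pow]
      exact mul_le_mul_of_nonneg_left (pow_le_pow_left₀ (abs_nonneg _)
        ((hlb i).trans (bb_anti hD (Nat.zero_le i))) m) (hw0 i)
    rw [hsum.hasSum_iff_tendsto_nat]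
    have tail : ∀ N k, |Y N m - ∑ i ∈ Finset.range k, c N i * lam N i ^ m| ≤ C * bb D k ^ m := by
      intro N k
      have h1 := (hasSum_nat_add_iff' k).mpr (hY N m)
      have h2 := ((hasSum_nat_add_iff' k).mpr (hcs N)).mul_right (bb D k ^ m)
      have h3 : ‖Y N m - ∑ i ∈ Finset.range k, c N i * lam N i ^ m‖
          ≤ (Y N 0 - ∑ i ∈ Finset.range k, c N i) * bb D k ^ m := by
        refine h1.norm_le_of_bounded h2 fun i => ?_
        rw [Real.norm_eq_abs, abs_mul, abs_of_nonneg (hc N _), abs_pow]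
        exact mul_le_mul_of_nonneg_left (pow_le_pow_left₀ (abs_nonneg _)
          ((hlam N _).trans (bb_anti hD (Nat.le_add_left k i))) m) (hc N _)
      rw [Real.norm_eq_abs] at h3
      refine h3.trans (mul_le_mul_of_nonneg_right ?_ (pow_nonneg (bb_nonneg D k) _))
      have : 0 ≤ ∑ i ∈ Finset.range k, c N i := Finset.sum_nonneg fun i _ => hc N i
      linarith [hC N]
    have tail' : ∀ k, |y m - ∑ i ∈ Finset.range k, w i * l i ^ m| ≤ C * bb D k ^ m := by
      intro k
      refine le_of_tendsto' (Tendsto.abs (((hy m (by omega)).mono_left hU).sub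
        (tendsto_finsetSum (Finset.range k) fun i _ => (hw i).mul ((hl i).pow m)))) fun N => ?_
      exact tail N k
    have h0 : Tendsto (fun k => C * bb D k ^ m) atTop (𝓝 0) := by
      have := ((bb_tendsto D).pow m).const_mul C
      rwa [zero_pow (by omega), mul_zero] at this
    rw [tendsto_iff_dist_tendsto_zero]
    refine squeeze_zero (fun k => dist_nonneg) (fun k => ?_) h0
    rw [Real.dist_eq, abs_sub_comm]
    exact tail' k
  · intro s
    refine le_of_tendsto_of_tendsto' (b := (U : Filter ℕ))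
      (tendsto_finsetSum s fun i _ => (hw i).mul ((hl i).pow 2))
      ((hy 2 le_rfl).mono_left hU) fun N => ?_
    exact sum_le_hasSum s (fun i _ => mul_nonneg (hc N i) (sq_nonneg _)) (hY N 2)

end LimitAux

/-- Limits of power sums of Hermitian matrices are power sums of a real family. -/
theorem spec_of_limit (ι : ℕ → Type) [∀ N, Fintype (ι N)] [∀ N, DecidableEq (ι N)]
    (X : ∀ N, Matrix (ι N) (ι N) ℂ) (hX : ∀ N, (X N).IsHermitian) (v : ∀ N, ι N → ℂ)
    (p y : ℕ → ℝ)
    (hp : ∀ L, 2 ≤ L → Tendsto (fun N => (Matrix.trace (X N ^ L)).re) atTop (𝓝 (p L)))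
    (hy : ∀ m, 2 ≤ m → Tendsto (fun N => (star (v N) ⬝ᵥ (X N ^ m *ᵥ v N)).re) atTop (𝓝 (y m)))
    (hv : ∃ C : ℝ, ∀ N, (star (v N) ⬝ᵥ v N).re ≤ C) : Spec p y := by
  obtain ⟨C, hC⟩ := hv
  choose lam0 c0 hc0 hP0 hY0 using fun N => LimitAux.spectral_fin (X N) (hX N) (v N)
  choose lam c hc hP hY hb using fun N => LimitAux.enum_fin (lam0 N) (c0 N) (hc0 N)
  obtain ⟨D0, hD0⟩ := (hp 2 le_rfl).bddAbove_range
  have hD : ∀ N, ∑ j, lam0 N j ^ 2 ≤ max D0 0 := fun N => by
    rw [← hP0 N 2]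
    exact (hD0 ⟨N, rfl⟩).trans (le_max_left _ _)
  refine LimitAux.spec_of_seq lam c (fun N L => (Matrix.trace (X N ^ L)).re)
    (fun N m => (star (v N) ⬝ᵥ (X N ^ m *ᵥ v N)).re) p y (max D0 0) C (le_max_right _ _) hc ?_ ?_ ?_
    ?_ (fun L hL => hp L (by omega)) hy
  · intro N i
    unfold LimitAux.bb
    apply Real.abs_le_sqrt
    rw [le_div_iff₀ (by positivity), mul_comm]
    exact (hb N i).trans (hD N)
  · intro N L hL
    rw [hP0]
    exact hP N L hL
  · intro N m
    rw [hY0]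
    exact hY N m
  · intro N
    simpa using hC N

theorem Spec.congr {p y p' y' : ℕ → ℝ} (h : Spec p y) (hp : ∀ L, 3 ≤ L → p' L = p L)
    (hy : ∀ m, 2 ≤ m → y' m = y m) : Spec p' y' := by
  obtain ⟨lam, c, h0, h1, h2, h3⟩ := h
  refine ⟨lam, c, h0, fun L hL => ?_, fun m hm => ?_, fun s => ?_⟩
  · rw [hp L hL]; exact h1 L hL
  · rw [hy m (by omega)]; exact h2 m hm
  · rw [hy 2 le_rfl]; exact h3 s

theorem Spec.scale {p y : ℕ → ℝ} (h : Spec p y) (s t : ℝ) (ht : 0 ≤ t) :
    Spec (fun L => p L * s ^ L) (fun m => y m * s ^ m * t) := by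
  obtain ⟨lam, c, h0, h1, h2, h3⟩ := h
  refine ⟨fun i => lam i * s, fun i => c i * t, fun i => mul_nonneg (h0 i) ht, fun L hL => ?_,
    fun m hm => ?_, fun u => ?_⟩
  · simpa only [mul_pow] using (h1 L hL).mul_right (s ^ L)
  · have h4 := ((h2 m hm).mul_right (s ^ m)).mul_right t
    have h5 : (fun i => c i * t * (lam i * s) ^ m) = fun i => c i * lam i ^ m * s ^ m * t := by
      funext i; rw [mul_pow]; ring
    rw [h5]; exact h4
  · have := mul_le_mul_of_nonneg_right (h3 u) (mul_nonneg (sq_nonneg s) ht)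
    rw [Finset.sum_mul] at this
    calc ∑ i ∈ u, c i * t * (lam i * s) ^ 2 = ∑ i ∈ u, c i * lam i ^ 2 * (s ^ 2 * t) :=
          Finset.sum_congr rfl fun i _ => by ring
      _ ≤ y 2 * (s ^ 2 * t) := this
      _ = _ := by ring

end Crest.Agent.R347
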