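import Crest.Agent.R347.Tens

set_option autoImplicit false

namespace Crest.Agent.R347

open Matrix Crest.MathPhysics.SpinChain Filter Topology

theorem MM_comm (δ : ℝ) (a b : Fin 4) : MM δ a b = MM δ b a := by
  unfold MM
  rw [add_comm]

theorem BB_zero (δ : ℝ) : BB δ 0 = 1 := rfl

theorem BB_succ (δ : ℝ) (a : Fin 3) :
    BB δ a.succ = (Complex.I * ((Real.sqrt δ : ℝ) : ℂ)) • cart a := rfl

theorem cart_map_star (a : Fin 3) : (cart a).map star = -cart a := by
  ext i j
  fin_cases a <;> fin_cases i <;> fin_cases j <;> simp [cart]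

theorem map_star_mul (A B : M3) : (A * B).map star = A.map star * B.map star :=
  Matrix.map_mul (f := starRingEnd ℂ)

theorem map_star_smul (c : ℂ) (A : M3) : (c • A).map star = star c • A.map star := by
  ext i j
  simp

theorem map_star_add (A B : M3) : (A + B).map star = A.map star + B.map star := by
  ext i j
  simp

theorem BB_map_star (δ : ℝ) (a : Fin 4) : (BB δ a).map star = BB δ a := by
  refine Fin.cases ?_ (fun a => ?_) a
  · rw [BB_zero]
    ext i j
    simp [Matrix.one_apply]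
  · rw [BB_succ, map_star_smul, cart_map_star]
    simp

theorem MM_map_star (δ : ℝ) (a b : Fin 4) : (MM δ a b).map star = MM δ a b := by
  unfold MM
  rw [map_star_smul, map_star_add, map_star_mul, map_star_mul, BB_map_star, BB_map_star]
  simp

theorem ofFn_prod_map_star : ∀ {N : ℕ} (f : Fin N → M3),
    (List.ofFn f).prod.map star = (List.ofFn fun t => (f t).map star).prod
  | 0, f => by
    ext i j
    simp [Matrix.one_apply]
  | N + 1, f => by
    rw [List.ofFn_succ, List.prod_cons, map_star_mul, ofFn_prod_map_star fun t => f t.succ,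
      List.ofFn_succ, List.prod_cons]

theorem star_trace_ofFn (g : M3) (hg : g.map star = g) {N : ℕ} (f : Fin N → M3) :
    star (Matrix.trace (g * (List.ofFn f).prod)) =
      Matrix.trace (g * (List.ofFn fun t => (f t).map star).prod) := by
  have h : ∀ A : M3, star (Matrix.trace A) = Matrix.trace (A.map star) := by
    intro A
    simp [Matrix.trace, star_sum]
  rw [h, map_star_mul, hg, ofFn_prod_map_star]

theorem ofFn_prod_smul : ∀ {N : ℕ} (c : Fin N → ℂ) (f : Fin N → M3),
    (List.ofFn fun t => c t • f t).prod = (∏ t, c t) • (List.ofFn f).prod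
  | 0, c, f => by simp
  | N + 1, c, f => by
    rw [List.ofFn_succ, List.prod_cons, ofFn_prod_smul (fun t => c t.succ) fun t => f t.succ,
      Fin.prod_univ_succ, List.ofFn_succ (f := f), List.prod_cons, smul_mul_smul_comm]

theorem ofFn_prod_conj {V W : M3} (vw : V * W = 1) (wv : W * V = 1) : ∀ {N : ℕ} (f : Fin N → M3),
    (List.ofFn fun t => W * f t * V).prod = W * (List.ofFn f).prod * V
  | 0, f => by simp [wv]
  | N + 1, f => by
    rw [List.ofFn_succ, List.prod_cons, ofFn_prod_conj vw wv fun t => f t.succ,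
      List.ofFn_succ (f := f), List.prod_cons]
    calc W * f 0 * V * (W * (List.ofFn fun t => f t.succ).prod * V)
        = W * f 0 * (V * W) * (List.ofFn fun t => f t.succ).prod * V := by
          simp only [Matrix.mul_assoc]
      _ = _ := by rw [vw]; simp only [Matrix.mul_assoc, Matrix.mul_one]

/-- Multilinear expansion of a trace. -/
theorem sum_prod_mul_trace (g : M3) {N : ℕ} (c : Fin N → Fin 4 → ℂ) (f : Fin N → Fin 4 → M3) :
    ∑ β : Fin N → Fin 4, (∏ t, c t (β t)) * Matrix.trace (g * (List.ofFn fun t => f t (β t)).prod) =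
      Matrix.trace (g * (List.ofFn fun t => ∑ b, c t b • f t b).prod) := by
  rw [ofFn_prod_sum, Finset.mul_sum, Matrix.trace_sum]
  refine Finset.sum_congr rfl fun β _ => ?_
  rw [ofFn_prod_smul, Matrix.mul_smul, Matrix.trace_smul, smul_eq_mul]

theorem Cov.trace_conj {g R V W : M3} (h : Cov g R V W) {N : ℕ} (f : Fin N → M3) :
    Matrix.trace (g * (List.ofFn fun t => W * f t * V).prod) =
      Matrix.trace (g * (List.ofFn f).prod) := by
  rw [ofFn_prod_conj h.vw h.wv, ← Matrix.mul_assoc, Matrix.trace_mul_comm, ← Matrix.mul_assoc,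
    ← Matrix.mul_assoc, h.gv, Matrix.mul_assoc g, h.vw, Matrix.mul_one]

@[simp] theorem Rh_zero_zero (R : M3) : Rh R 0 0 = 1 := rfl
@[simp] theorem Rh_zero_succ (R : M3) (b : Fin 3) : Rh R 0 b.succ = 0 := rfl
@[simp] theorem Rh_succ_zero (R : M3) (a : Fin 3) : Rh R a.succ 0 = 0 := rfl
@[simp] theorem Rh_succ_succ (R : M3) (a b : Fin 3) : Rh R a.succ b.succ = R a b := rfl

theorem Rh_mul (R R' : M3) : Rh R * Rh R' = Rh (R * R') := by
  ext a b
  rw [Matrix.mul_apply, Fin.sum_univ_succ]
  refine Fin.cases ?_ (fun a => ?_) a <;> refine Fin.cases ?_ (fun b => ?_) b <;>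
    simp only [Rh_zero_zero, Rh_zero_succ, Rh_succ_zero, Rh_succ_succ, Matrix.mul_apply, mul_one,
      mul_zero, zero_mul, Finset.sum_const_zero, add_zero, zero_add]

theorem Rh_one : Rh 1 = 1 := by
  ext a b
  refine Fin.cases ?_ (fun a => ?_) a <;> refine Fin.cases ?_ (fun b => ?_) b
  · simp
  · rw [Rh_zero_succ, Matrix.one_apply_ne (Fin.succ_ne_zero b).symm]
  · rw [Rh_succ_zero, Matrix.one_apply_ne (Fin.succ_ne_zero a)]
  · rw [Rh_succ_succ, Matrix.one_apply, Matrix.one_apply]
    simp only [Fin.succ_inj]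

theorem Rh_transpose (R : M3) (a b : Fin 4) : Rh Rᵀ a b = Rh R b a := by
  refine Fin.cases ?_ (fun a => ?_) a <;> refine Fin.cases ?_ (fun b => ?_) b <;> rfl

theorem Rh_conjTranspose (R : M3) (a b : Fin 4) : Rh Rᴴ a b = star (Rh R b a) := by
  refine Fin.cases ?_ (fun a => ?_) a <;> refine Fin.cases ?_ (fun b => ?_) b <;>
    simp only [Rh_zero_zero, Rh_zero_succ, Rh_succ_zero, Rh_succ_succ, star_one, star_zero,
      Matrix.conjTranspose_apply]

theorem Rh_apply_zero (R : M3) (a : Fin 4) : Rh R a 0 = if a = 0 then 1 else 0 := by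
  refine Fin.cases ?_ (fun a => ?_) a
  · simp
  · rw [Rh_succ_zero, if_neg (Fin.succ_ne_zero a)]

theorem Cov.sum_BB {g R V W : M3} (h : Cov g R V W) (δ : ℝ) (a : Fin 4) :
    ∑ b, Rh R a b • BB δ b = W * BB δ a * V := by
  rw [Fin.sum_univ_succ]
  refine Fin.cases ?_ (fun a => ?_) a
  · simp only [Rh_zero_zero, Rh_zero_succ, zero_smul, Finset.sum_const_zero, add_zero, BB_zero,
      one_smul, Matrix.mul_one, h.wv]
  · simp only [Rh_succ_zero, Rh_succ_succ, zero_smul, zero_add, BB_succ]
    rw [Matrix.mul_smul, Matrix.smul_mul, ← h.cov, Finset.smul_sum]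
    exact Finset.sum_congr rfl fun b _ => smul_comm _ _ _

theorem sum_smul_MM_left (δ : ℝ) (c : Fin 4 → ℂ) (b' : Fin 4) :
    ∑ b, c b • MM δ b b' =
      (1 / 2 : ℂ) • ((∑ b, c b • BB δ b) * BB δ b' + BB δ b' * ∑ b, c b • BB δ b) := by
  rw [Finset.sum_mul, Finset.mul_sum, ← Finset.sum_add_distrib, Finset.smul_sum]
  refine Finset.sum_congr rfl fun b _ => ?_
  rw [MM, Matrix.smul_mul, Matrix.mul_smul, ← smul_add, smul_comm]

theorem Cov.sum_MM {g R V W : M3} (h : Cov g R V W) (δ : ℝ) (a a' : Fin 4) :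
    ∑ b', Rh R a' b' • ∑ b, Rh R a b • MM δ b b' = W * MM δ a a' * V := by
  simp only [sum_smul_MM_left, h.sum_BB]
  have e : ∑ b', Rh R a' b' • (1 / 2 : ℂ) • (W * BB δ a * V * BB δ b' + BB δ b' * (W * BB δ a * V)) =
      (1 / 2 : ℂ) • (W * BB δ a * V * (∑ b', Rh R a' b' • BB δ b') +
        (∑ b', Rh R a' b' • BB δ b') * (W * BB δ a * V)) := by
    rw [Finset.sum_mul, Finset.mul_sum, ← Finset.sum_add_distrib, Finset.smul_sum]
    refine Finset.sum_congr rfl fun b _ => ?_
    rw [Matrix.smul_mul, Matrix.mul_smul, ← smul_add, smul_comm]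
  have e2 : ∀ X Y : M3, W * X * V * (W * Y * V) = W * (X * Y) * V := by
    intro X Y
    calc W * X * V * (W * Y * V) = W * X * (V * W) * Y * V := by simp only [Matrix.mul_assoc]
      _ = _ := by rw [h.vw]; simp only [Matrix.mul_assoc, Matrix.mul_one]
  rw [e, h.sum_BB, e2, e2, MM, Matrix.mul_smul, Matrix.smul_mul, Matrix.mul_add, Matrix.add_mul]

theorem MM_zero_left (δ : ℝ) (b : Fin 4) : MM δ 0 b = BB δ b := by
  rw [MM, BB_zero, Matrix.one_mul, Matrix.mul_one, ← two_smul ℂ, smul_smul]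
  norm_num

theorem TM_transpose (g : M3) (β : ℝ) (N : ℕ) : (TM g β N)ᵀ = TM g β N := by
  ext α α'
  simp only [TM, TT, Matrix.transpose_apply, Matrix.of_apply]
  simp only [MM_comm _ (α' _) (α _)]

theorem TM_isHermitian (g : M3) (hg : g.map star = g) (β : ℝ) (N : ℕ) :
    (TM g β N).IsHermitian := by
  ext α α'
  rw [Matrix.conjTranspose_apply, ← Matrix.transpose_apply (TM g β N) α α', TM_transpose]
  simp only [TM, TT, Matrix.of_apply]
  rw [star_trace_ofFn g hg]
  simp only [MM_map_star]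

theorem SM_mul (R R' : M3) (N : ℕ) : SM R N * SM R' N = SM (R * R') N := by
  ext α α'
  simp only [SM, Matrix.mul_apply, Matrix.of_apply, ← Rh_mul]
  rw [Finset.prod_univ_sum, Fintype.piFinset_univ]
  exact Finset.sum_congr rfl fun ρ _ => Finset.prod_mul_distrib.symm

theorem SM_one (N : ℕ) : SM 1 N = 1 := by
  ext σ τ
  simp only [SM, Rh_one, Matrix.of_apply, Matrix.one_apply]
  by_cases h : σ = τ
  · simp [h]
  · rw [if_neg h]
    obtain ⟨j, hj⟩ := Function.ne_iff.1 h
    exact Finset.prod_eq_zero (Finset.mem_univ j) (if_neg hj)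

theorem SM_transpose (R : M3) (N : ℕ) : (SM R N)ᵀ = SM Rᵀ N := by
  ext σ τ
  simp only [SM, Matrix.transpose_apply, Matrix.of_apply, Rh_transpose]

theorem SM_conjTranspose (R : M3) (N : ℕ) : (SM R N)ᴴ = SM Rᴴ N := by
  ext σ τ
  simp only [SM, Matrix.conjTranspose_apply, Matrix.of_apply, Rh_conjTranspose, star_prod]

theorem SM_comm {g R V W : M3} (h : Cov g R V W) (β : ℝ) (N : ℕ) :
    SM R N * TM g β N = TM g β N * SM R N := by
  have h1 : SM R N * (SM R N)ᵀ = 1 := by rw [SM_transpose, SM_mul, h.orth, SM_one]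
  have h2 : (SM R N)ᵀ * SM R N = 1 := mul_eq_one_comm.1 h1
  have h3 : SM R N * TM g β N * (SM R N)ᵀ = TM g β N := by
    ext α α'
    have e1 : ∀ γ, (SM R N * TM g β N) α γ = Matrix.trace (g * (List.ofFn fun t =>
        ∑ b, Rh R (α t) b • MM (β / N) b (γ t)).prod) := by
      intro γ
      rw [← sum_prod_mul_trace g (fun t => Rh R (α t)) fun t b => MM (β / N) b (γ t)]
      rfl
    rw [Matrix.mul_apply]
    simp only [e1]
    have e2 := sum_prod_mul_trace g (fun t => Rh R (α' t))
      fun t b' => ∑ b, Rh R (α t) b • MM (β / N) b b'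
    simp only [h.sum_MM] at e2
    rw [h.trace_conj] at e2
    refine Eq.trans (Finset.sum_congr rfl fun γ _ => ?_) e2
    rw [mul_comm]
    rfl
  calc SM R N * TM g β N = SM R N * TM g β N * ((SM R N)ᵀ * SM R N) := by rw [h2, Matrix.mul_one]
    _ = _ := by rw [← Matrix.mul_assoc, h3]

theorem SM_mulVec_wv {g R V W : M3} (h : Cov g R V W) (F : M3) (β : ℝ) (N : ℕ) :
    SM R N *ᵥ wv g F β N = wv g (V * F * W) β N := by
  funext α
  have e := sum_prod_mul_trace g (fun t => Rh R (α t))
    fun _ b => MM (β / N) 0 b + if b = 0 then ((β / N : ℝ) : ℂ) • F else 0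
  have e2 : ∀ a : Fin 4, ∑ b, Rh R a b • (MM (β / N) 0 b + if b = 0 then ((β / N : ℝ) : ℂ) • F else 0) =
      W * (MM (β / N) 0 a + if a = 0 then ((β / N : ℝ) : ℂ) • (V * F * W) else 0) * V := by
    intro a
    simp only [smul_add, Finset.sum_add_distrib, MM_zero_left, h.sum_BB, smul_ite, smul_zero,
      Finset.sum_ite_eq', Finset.mem_univ, if_true, Rh_apply_zero, Matrix.mul_add, Matrix.add_mul]
    congr 1
    split_ifs
    · rw [one_smul, Matrix.mul_smul, Matrix.smul_mul]
      congr 1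
      calc F = (W * V) * F * (W * V) := by rw [h.wv, Matrix.one_mul, Matrix.mul_one]
        _ = _ := by simp only [Matrix.mul_assoc]
    · simp
  simp only [e2] at e
  rw [h.trace_conj] at e
  exact e

theorem star_wv (g F : M3) (hg : g.map star = g) (β : ℝ) (N : ℕ) :
    star (wv g F β N) = wv g (F.map star) β N := by
  funext α
  simp only [wv, Pi.star_apply]
  rw [star_trace_ofFn g hg]
  congr 4
  funext t
  rw [map_star_add, MM_map_star]
  congr 1
  split_ifs
  · rw [map_star_smul]
    simp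
  · ext i j
    simp

end Crest.Agent.R347
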