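import Crest.Agent.R347.Trotter
import Crest.Agent.R347.Limit
import Crest.Agent.R347.Sym

set_option autoImplicit false

namespace Crest.Agent.R347

open Matrix Crest.MathPhysics.SpinChain Filter Topology

/-- Field along `z` and along `(1,1,1)`. -/
noncomputable def Fz : M3 := (3 / 5 : ℂ) • cart 2
noncomputable def Fn : M3 := (3 / 5 : ℂ) • Sn

/-- General statement: `P = ∑ κ_i S_{R_i}` is a Hermitian idempotent commuting with the transfer
matrix. `mul` and `inv` are the tables of a finite group of label matrices. -/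
theorem spec_group {G : Type} [Fintype G] [DecidableEq G] (g F : M3) (hg : g.map star = g)
    (hF : F.map star = -F) (R V W : G → M3) (κ : G → ℂ) (ε : G → ℂ)
    (mul : G → G → G) (inv : G ≃ G)
    (hcov : ∀ i, Cov g (R i) (V i) (W i)) (hreal : ∀ i, (R i).map star = R i)
    (hmul : ∀ i j, R (mul i j) = R i * R j)
    (hκ : ∀ k, ∑ i, ∑ j, (if mul i j = k then κ i * κ j else 0) = κ k)
    (hinv : ∀ i, R (inv i) = (R i)ᵀ) (hκinv : ∀ i, κ (inv i) = star (κ i))
    (hε : ∀ i, V i * F * W i = ε i • F) (β : ℝ) (hβ : 0 ≤ β) :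
    Spec (fun L => (∑ i, κ i * Zf g (R i) 0 0 (L - 1) β).re)
      (fun m => (∑ i, κ i * Zf g 0 F (-(ε i • F)) (m + 1) β).re) := by
  set P : ∀ N : ℕ, Matrix (Fin N → Fin 4) (Fin N → Fin 4) ℂ := fun N => ∑ i, κ i • SM (R i) N
    with hP
  have hPP : ∀ N, P N * P N = P N := by
    intro N
    simp only [hP]
    rw [Finset.sum_mul_sum]
    have h1 : ∀ i j, (κ i • SM (R i) N) * (κ j • SM (R j) N) =
        ∑ k, (if mul i j = k then κ i * κ j else 0) • SM (R k) N := by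
      intro i j
      rw [Matrix.smul_mul, Matrix.mul_smul, smul_smul, SM_mul, ← hmul]
      simp [ite_smul]
    simp_rw [h1]
    symm
    calc ∑ k, κ k • SM (R k) N
        = ∑ k, ∑ i, ∑ j, (if mul i j = k then κ i * κ j else 0) • SM (R k) N := by
          refine Finset.sum_congr rfl fun k _ => ?_
          conv_lhs => rw [← hκ k]
          simp only [Finset.sum_smul]
      _ = ∑ i, ∑ k, ∑ j, (if mul i j = k then κ i * κ j else 0) • SM (R k) N :=
          Finset.sum_comm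
      _ = _ := Finset.sum_congr rfl fun i _ => Finset.sum_comm
  have hPH : ∀ N, (P N)ᴴ = P N := by
    intro N
    simp only [hP]
    rw [Matrix.conjTranspose_sum, ← Equiv.sum_comp inv fun i => κ i • SM (R i) N]
    refine Finset.sum_congr rfl fun i _ => ?_
    have h1 : (R i)ᴴ = (R i)ᵀ := by
      rw [Matrix.conjTranspose, Matrix.transpose_map, hreal]
    rw [Matrix.conjTranspose_smul, SM_conjTranspose, h1, hinv, hκinv]
  have hPT : ∀ N, P N * TM g β N = TM g β N * P N := by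
    intro N
    simp only [hP]
    rw [Finset.sum_mul, Finset.mul_sum]
    refine Finset.sum_congr rfl fun i _ => ?_
    rw [Matrix.smul_mul, Matrix.mul_smul, SM_comm (hcov i)]
  have hPTm : ∀ N m, P N * TM g β N ^ m = TM g β N ^ m * P N := fun N m =>
    (Commute.pow_right (hPT N) m).eq
  have hpow : ∀ N m, P N * (P N * TM g β N) ^ m = P N * TM g β N ^ m := by
    intro N m
    induction m with
    | zero => simp
    | succ m ih =>
      rw [pow_succ, ← Matrix.mul_assoc, ih, hPTm, Matrix.mul_assoc, ← Matrix.mul_assoc (P N), hPP,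
        ← Matrix.mul_assoc, ← hPTm, Matrix.mul_assoc, ← pow_succ]
  have hpow' : ∀ N m, (P N * TM g β N) ^ (m + 1) = P N * TM g β N ^ (m + 1) := by
    intro N m
    rw [← hpow, pow_succ', ← Matrix.mul_assoc, ← Matrix.mul_assoc, hPP]
  have hw : ∀ N, star (wv g (-F) β N) = wv g F β N := by
    intro N
    rw [star_wv g (-F) hg]
    congr 1
    have : (-F).map star = -(F.map star) := by ext a b; simp
    rw [this, hF, neg_neg]
  have hdot : ∀ N m, star (P N *ᵥ wv g (-F) β N) ⬝ᵥ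
      ((P N * TM g β N) ^ m *ᵥ (P N *ᵥ wv g (-F) β N)) =
      ∑ i, κ i * (wv g F β N ⬝ᵥ (TM g β N ^ m *ᵥ wv g (-(ε i • F)) β N)) := by
    intro N m
    rw [Matrix.star_mulVec, hPH, ← Matrix.dotProduct_mulVec, Matrix.mulVec_mulVec,
      Matrix.mulVec_mulVec, hpow, hPTm, Matrix.mul_assoc, hPP, hw, ← Matrix.mulVec_mulVec]
    simp only [hP]
    rw [Matrix.sum_mulVec, Matrix.mulVec_sum, dotProduct_sum]
    refine Finset.sum_congr rfl fun i _ => ?_
    rw [Matrix.smul_mulVec, Matrix.mulVec_smul, dotProduct_smul, smul_eq_mul,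
      SM_mulVec_wv (hcov i), Matrix.mul_neg, Matrix.neg_mul, hε]
  have hlim : ∀ m, Tendsto (fun N => (star (P N *ᵥ wv g (-F) β N) ⬝ᵥ
      ((P N * TM g β N) ^ m *ᵥ (P N *ᵥ wv g (-F) β N))).re) atTop
      (𝓝 (∑ i, κ i * Zf g 0 F (-(ε i • F)) (m + 1) β).re) := by
    intro m
    simp_rw [hdot]
    exact (Complex.continuous_re.tendsto _).comp
      (tendsto_finsetSum _ fun i _ => (open_tendsto g F _ m β hβ).const_mul (κ i))
  refine spec_of_limit (fun N => Fin N → Fin 4) (fun N => P N * TM g β N) (fun N => ?_)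
    (fun N => P N *ᵥ wv g (-F) β N) _ _ (fun L hL => ?_) (fun m _ => hlim m) ?_
  · rw [Matrix.IsHermitian, Matrix.conjTranspose_mul, hPH, (TM_isHermitian g hg β N).eq, hPT]
  · obtain ⟨n, rfl⟩ : ∃ n, L = n + 1 := ⟨L - 1, by omega⟩
    have h1 : ∀ N, Matrix.trace ((P N * TM g β N) ^ (n + 1)) =
        ∑ i, κ i * Matrix.trace (SM (R i) N * TM g β N ^ (n + 1)) := by
      intro N
      rw [hpow']
      simp only [hP]
      rw [Finset.sum_mul, Matrix.trace_sum]
      refine Finset.sum_congr rfl fun i _ => ?_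
      rw [Matrix.smul_mul, Matrix.trace_smul, smul_eq_mul]
    simp_rw [h1, Nat.add_sub_cancel]
    exact (Complex.continuous_re.tendsto _).comp
      (tendsto_finsetSum _ fun i _ => (ring_tendsto g (R i) n (by omega) β hβ).const_mul (κ i))
  · obtain ⟨C, hC⟩ := (hlim 0).bddAbove_range
    refine ⟨C, fun N => ?_⟩
    have := hC ⟨N, rfl⟩
    simpa using this

namespace SC

abbrev M3Z := Matrix (Fin 3) (Fin 3) ℤ

/-- `ε_{abc}` as integer matrices. -/
def ee : Fin 3 → M3Z :=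
  ![!![0, 0, 0; 0, 0, 1; 0, -1, 0], !![0, 0, -1; 0, 0, 0; 1, 0, 0], !![0, 1, 0; -1, 0, 0; 0, 0, 0]]

def G1 : M3Z := !![-1, 2, 2; 2, -1, 2; 2, 2, -1]

theorem cz_mul (A B : M3Z) : cz (A * B) = cz A * cz B := by
  ext a b; simp [cz, Matrix.mul_apply]

theorem cz_one : cz 1 = 1 := by
  ext a b; simp [cz, Matrix.one_apply]

theorem cz_zero : cz 0 = 0 := by
  ext a b; simp [cz]

theorem cz_add (A B : M3Z) : cz (A + B) = cz A + cz B := by
  ext a b; simp [cz]

theorem cz_smul (z : ℤ) (A : M3Z) : cz (z • A) = (z : ℂ) • cz A := by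
  ext a b
  simp only [cz, Matrix.map_apply, Matrix.smul_apply, smul_eq_mul, Int.cast_mul]

theorem cz_transpose (A : M3Z) : cz Aᵀ = (cz A)ᵀ := rfl

theorem cz_star (A : M3Z) : (cz A).map star = cz A := by
  ext a b; simp [cz]

theorem cart_eq (a : Fin 3) : cart a = (-Complex.I) • cz (ee a) := by
  ext b c
  fin_cases a <;> fin_cases b <;> fin_cases c <;> simp [cart, cz, ee]

theorem g1_eq : g1 = (1 / 3 : ℂ) • cz G1 := by
  ext b c
  fin_cases b <;> fin_cases c <;> simp [g1, cz, G1] <;> norm_num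

theorem Fz_eq : Fz = (3 / 5 * -Complex.I) • cz (ee 2) := by
  rw [Fz, cart_eq, smul_smul]

theorem Fn_eq : Fn = (3 / 5 * (((Real.sqrt 3 : ℝ) : ℂ)⁻¹ * -Complex.I)) • cz (ee 0 + ee 1 + ee 2) := by
  rw [Fn, Sn, cart_eq, cart_eq, cart_eq, ← smul_add, ← smul_add, smul_smul, smul_smul, cz_add,
    cz_add, mul_assoc]

/-- Multiplication table by search. -/
def mulT {G : Type} (l : List G) (d : G) (A : G → M3Z) (i j : G) : G :=
  (l.find? fun k => A k = A i * A j).getD d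

/-- Inversion table by search. -/
def invT {G : Type} (l : List G) (d : G) (A : G → M3Z) (i : G) : G :=
  (l.find? fun k => A k = (A i)ᵀ).getD d

/-- The decidable conditions on a family of integer matrices. -/
def IntOK {G : Type} (A : G → M3Z) (mul : G → G → G) (inv : G → G) (Gz E : M3Z) (e : G → ℤ) :
    Prop :=
  ∀ i, A i * (A i)ᵀ = 1 ∧ (A i)ᵀ * A i = 1 ∧ (∀ a, ∑ b, A i a b • ee b = (A i)ᵀ * ee a * A i) ∧
    A i * Gz = Gz * A i ∧ A i * E * (A i)ᵀ = e i • E ∧ (∀ j, A (mul i j) = A i * A j) ∧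
    A (inv i) = (A i)ᵀ ∧ inv (inv i) = i

instance {G : Type} [Fintype G] [DecidableEq G] (A : G → M3Z) (mul : G → G → G) (inv : G → G)
    (Gz E : M3Z) (e : G → ℤ) : Decidable (IntOK A mul inv Gz E e) := by
  unfold IntOK; infer_instance

theorem spec_int {G : Type} [Fintype G] [DecidableEq G] (g F : M3) (a c : ℂ) (Gz E : M3Z)
    (hg : g = a • cz Gz) (ha : star a = a) (hF : F = c • cz E) (hc : star c = -c)
    (A : G → M3Z) (κ : G → ℂ) (e : G → ℤ) (mul : G → G → G) (inv : G → G)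
    (h : IntOK A mul inv Gz E e)
    (hκ : ∀ k, ∑ i, ∑ j, (if mul i j = k then κ i * κ j else 0) = κ k)
    (hκinv : ∀ i, κ (inv i) = star (κ i)) (β : ℝ) (hβ : 0 ≤ β) :
    Spec (fun L => (∑ i, κ i * Zf g (cz (A i)) 0 0 (L - 1) β).re)
      (fun m => (∑ i, κ i * Zf g 0 F (-((e i : ℂ) • F)) (m + 1) β).re) := by
  have hs : ∀ (z : ℂ) (B : M3Z), (z • cz B).map star = star z • cz B := by
    intro z B; ext x y; simp [cz]
  refine spec_group g F (by rw [hg, hs, ha]) (by rw [hF, hs, hc, neg_smul]) (fun i => cz (A i))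
    (fun i => cz (A i)) (fun i => cz (A i)ᵀ) κ (fun i => (e i : ℂ)) mul
    (Function.Involutive.toPerm inv fun i => (h i).2.2.2.2.2.2.2) (fun i => ?_)
    (fun i => cz_star _) (fun i j => by rw [(h i).2.2.2.2.2.1 j, cz_mul]) hκ
    (fun i => ?_) hκinv (fun i => ?_) β hβ
  · obtain ⟨h1, h2, h3, h4, -⟩ := h i
    refine ⟨by rw [← cz_mul, h1, cz_one], by rw [← cz_mul, h2, cz_one], fun x => ?_, ?_, ?_⟩
    · have h5 := congrArg cz (h3 x)
      rw [cz_mul, cz_mul, Fin.sum_univ_three, cz_add, cz_add, cz_smul, cz_smul, cz_smul] at h5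
      rw [Fin.sum_univ_three, cart_eq, cart_eq, cart_eq, cart_eq, Matrix.mul_smul, Matrix.smul_mul,
        ← h5, smul_add, smul_add, smul_comm (-Complex.I), smul_comm (-Complex.I),
        smul_comm (-Complex.I)]
      rfl
    · rw [hg, Matrix.mul_smul, Matrix.smul_mul, ← cz_mul, ← cz_mul, h4]
    · rw [← cz_transpose, ← cz_mul, h1, cz_one]
  · change cz (A (inv i)) = _
    rw [(h i).2.2.2.2.2.2.1, cz_transpose]
  · rw [hF, Matrix.mul_smul, Matrix.smul_mul, ← cz_mul, ← cz_mul, (h i).2.2.2.2.1, cz_smul,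
      smul_comm]

/-- Integer weights over a common denominator. -/
theorem spec_int' {G : Type} [Fintype G] [DecidableEq G] (g F : M3) (a c : ℂ) (Gz E : M3Z)
    (hg : g = a • cz Gz) (ha : star a = a) (hF : F = c • cz E) (hc : star c = -c)
    (A : G → M3Z) (z : G → ℤ) (d : ℤ) (hd : d ≠ 0) (e : G → ℤ) (mul : G → G → G) (inv : G → G)
    (h : IntOK A mul inv Gz E e)
    (hκ : ∀ k, ∑ i, ∑ j, (if mul i j = k then z i * z j else 0) = d * z k)
    (hκinv : ∀ i, z (inv i) = z i) (β : ℝ) (hβ : 0 ≤ β) :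
    Spec (fun L => (∑ i, (z i : ℂ) * Zf g (cz (A i)) 0 0 (L - 1) β).re / d)
      (fun m => (∑ i, (z i : ℂ) * Zf g 0 F (-((e i : ℂ) • F)) (m + 1) β).re / d) := by
  have hd' : (d : ℂ) ≠ 0 := by exact_mod_cast hd
  have key : ∀ f : G → ℂ, (∑ i, (z i : ℂ) * f i).re / d = (∑ i, (z i : ℂ) / d * f i).re := by
    intro f
    have : ∑ i, (z i : ℂ) / d * f i = (∑ i, (z i : ℂ) * f i) / ((d : ℝ) : ℂ) := by
      rw [Finset.sum_div]
      refine Finset.sum_congr rfl fun i _ => ?_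
      push_cast; ring
    rw [this, Complex.div_ofReal_re]
  simp_rw [key]
  refine spec_int g F a c Gz E hg ha hF hc A (fun i => (z i : ℂ) / d) e mul inv h (fun k => ?_)
    (fun i => by simp [hκinv]) β hβ
  have h1 := congrArg (fun x : ℤ => (x : ℂ) / (d * d)) (hκ k)
  simp only [Int.cast_sum, Int.cast_ite, Int.cast_mul, Int.cast_zero, Finset.sum_div] at h1
  rw [show (z k : ℂ) / d = d * z k / (d * d) by field_simp, ← h1]
  refine Finset.sum_congr rfl fun i _ => Finset.sum_congr rfl fun j _ => ?_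
  split_ifs
  · field_simp
  · simp

def mul4 : Fin 4 → Fin 4 → Fin 4 := mulT (List.finRange 4) 0 V4

theorem ok4 : IntOK V4 mul4 id 1 (ee 2) ![1, -1, -1, 1] := by decide +kernel

def A12 (x : Fin 4 × Fin 3) : M3Z := V4 x.1 * Cy ^ x.2.val
def l12 : List (Fin 4 × Fin 3) := (List.finRange 4) ×ˢ (List.finRange 3)
def mul12 := mulT l12 (0, 0) A12
def inv12 := invT l12 (0, 0) A12

theorem ok12 : IntOK A12 mul12 inv12 1 0 fun _ => 1 := by decide +kernel

def A6 (x : Fin 3 × Fin 2) : M3Z := if x.2 = 0 then Cy ^ x.1.val else Fl * Cy ^ x.1.val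
def l6 : List (Fin 3 × Fin 2) := (List.finRange 3) ×ˢ (List.finRange 2)
def mul6 := mulT l6 (0, 0) A6
def inv6 := invT l6 (0, 0) A6
def sg6 (x : Fin 3 × Fin 2) : ℤ := if x.2 = 0 then 1 else -1

theorem ok6 : IntOK A6 mul6 inv6 G1 (ee 0 + ee 1 + ee 2) sg6 := by decide +kernel

theorem ok3 : IntOK (fun k : Fin 3 => Cy ^ k.val) (fun i j => i + j) (fun i => -i) G1 0
    fun _ => 1 := by decide +kernel

theorem one_eq_cz : (1 : M3) = (1 : ℂ) • cz 1 := by rw [cz_one, one_smul]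

theorem zero_eq_cz : (0 : M3) = (0 : ℂ) • cz 0 := by rw [zero_smul]

theorem star_cz' : star (3 / 5 * -Complex.I : ℂ) = -(3 / 5 * -Complex.I) := by simp

theorem star_cn' : star (3 / 5 * (((Real.sqrt 3 : ℝ) : ℂ)⁻¹ * -Complex.I) : ℂ) =
    -(3 / 5 * (((Real.sqrt 3 : ℝ) : ℂ)⁻¹ * -Complex.I)) := by simp

end SC

theorem spec_a (β : ℝ) (hβ : 0 ≤ β) :
    Spec (fun L => (∑ i : Fin 4, Zf 1 (cz (V4 i)) 0 0 (L - 1) β).re / 4)
      (fun m => (Zf 1 0 Fz (-Fz) (m + 1) β + Zf 1 0 Fz Fz (m + 1) β).re / 2) := by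
  refine (SC.spec_int' 1 Fz 1 _ 1 (SC.ee 2) SC.one_eq_cz (star_one ℂ) SC.Fz_eq SC.star_cz' V4 (fun _ => 1) 4
    (by norm_num) _ SC.mul4 id SC.ok4 (by decide +kernel) (fun _ => rfl) β hβ).congr
    (fun L _ => by simp) fun m _ => ?_
  simp [Fin.sum_univ_four]
  ring

theorem spec_b (β : ℝ) (hβ : 0 ≤ β) :
    Spec (fun L => (Zf 1 1 0 0 (L - 1) β - Zf 1 (cz Dx) 0 0 (L - 1) β
        - Zf 1 (cz Dy) 0 0 (L - 1) β + Zf 1 (cz Dz) 0 0 (L - 1) β).re / 4)
      (fun m => (Zf 1 0 Fz (-Fz) (m + 1) β - Zf 1 0 Fz Fz (m + 1) β).re / 2) := by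
  refine (SC.spec_int' 1 Fz 1 _ 1 (SC.ee 2) SC.one_eq_cz (star_one ℂ) SC.Fz_eq SC.star_cz' V4 ![1, -1, -1, 1] 4
    (by norm_num) _ SC.mul4 id SC.ok4 (by decide +kernel) (fun _ => rfl) β hβ).congr
    (fun L _ => ?_) fun m _ => ?_
  · simp [Fin.sum_univ_four, V4, SC.cz_one]
    ring
  · simp [Fin.sum_univ_four]
    ring

theorem spec_T (β : ℝ) (hβ : 0 ≤ β) : ∃ y,
    Spec (fun L => (∑ i : Fin 4, ∑ k : Fin 3,
      Zf 1 (cz (V4 i * Cy ^ k.val)) 0 0 (L - 1) β).re / 12) y := by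
  refine ⟨_, (SC.spec_int' 1 0 1 0 1 0 SC.one_eq_cz (star_one ℂ) SC.zero_eq_cz (by simp) SC.A12 (fun _ => 1) 12
    (by norm_num) _ SC.mul12 SC.inv12 SC.ok12 (by decide +kernel) (fun _ => rfl) β hβ).congr
    (fun L _ => ?_) fun m _ => rfl⟩
  simp [Fintype.sum_prod_type, SC.A12]

theorem spec_E0 (β : ℝ) (hβ : 0 ≤ β) : ∃ y,
    Spec (fun L => (∑ i : Fin 4, Zf 1 (cz (V4 i)) 0 0 (L - 1) β).re / 4
      - (∑ i : Fin 4, ∑ k : Fin 3, Zf 1 (cz (V4 i * Cy ^ k.val)) 0 0 (L - 1) β).re / 12) y := by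
  refine ⟨_, (SC.spec_int' 1 0 1 0 1 0 SC.one_eq_cz (star_one ℂ) SC.zero_eq_cz (by simp) SC.A12
    (fun x => if x.2 = 0 then 2 else -1) 12
    (by norm_num) _ SC.mul12 SC.inv12 SC.ok12 (by decide +kernel) (by decide +kernel) β hβ).congr
    (fun L _ => ?_) fun m _ => rfl⟩
  simp [Fintype.sum_prod_type, SC.A12, Fin.sum_univ_four, Fin.sum_univ_three]
  ring

theorem spec_D (β : ℝ) (hβ : 0 ≤ β) :
    Spec (fun L => (∑ k : Fin 3, (Zf g1 (cz (Cy ^ k.val)) 0 0 (L - 1) β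
        - Zf g1 (cz (Fl * Cy ^ k.val)) 0 0 (L - 1) β)).re / 6)
      (fun m => (Zf g1 0 Fn (-Fn) (m + 1) β - Zf g1 0 Fn Fn (m + 1) β).re / 2) := by
  refine (SC.spec_int' g1 Fn (1 / 3) _ SC.G1 _ SC.g1_eq (by simp) SC.Fn_eq SC.star_cn' SC.A6 SC.sg6 6
    (by norm_num) _ SC.mul6 SC.inv6 SC.ok6 (by decide +kernel) (by decide +kernel) β hβ).congr
    (fun L _ => ?_) fun m _ => ?_
  · simp [Fintype.sum_prod_type, SC.A6, SC.sg6, Fin.sum_univ_three]
    ring
  · simp [Fintype.sum_prod_type, SC.sg6]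
    ring

theorem spec_D' (β : ℝ) (hβ : 0 ≤ β) :
    Spec (fun L => (∑ k : Fin 3, (Zf g1 (cz (Cy ^ k.val)) 0 0 (L - 1) β
        + Zf g1 (cz (Fl * Cy ^ k.val)) 0 0 (L - 1) β)).re / 6)
      (fun m => (Zf g1 0 Fn (-Fn) (m + 1) β + Zf g1 0 Fn Fn (m + 1) β).re / 2) := by
  refine (SC.spec_int' g1 Fn (1 / 3) _ SC.G1 _ SC.g1_eq (by simp) SC.Fn_eq SC.star_cn' SC.A6 (fun _ => 1) 6
    (by norm_num) _ SC.mul6 SC.inv6 SC.ok6 (by decide +kernel) (fun _ => rfl) β hβ).congr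
    (fun L _ => ?_) fun m _ => ?_
  · simp [Fintype.sum_prod_type, SC.A6, Fin.sum_univ_three]
  · simp [Fintype.sum_prod_type, SC.sg6]
    ring

theorem spec_E (β : ℝ) (hβ : 0 ≤ β) : ∃ y,
    Spec (fun L => (∑ k : Fin 3, om ^ k.val * Zf g1 (cz (Cy ^ k.val)) 0 0 (L - 1) β).re / 3) y := by
  have h3 : (Real.sqrt 3) ^ 2 = 3 := Real.sq_sqrt (by norm_num)
  have h2 : om ^ 2 = star om := by
    apply Complex.ext <;> simp [om, pow_two] <;> nlinarith
  have h1 : om * star om = 1 := by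
    apply Complex.ext <;> simp [om] <;> nlinarith
  have h4 : om ^ 3 = 1 := by rw [pow_succ', h2, h1]
  refine ⟨_, (SC.spec_int g1 0 (1 / 3) 0 SC.G1 0 SC.g1_eq (by simp) SC.zero_eq_cz (by simp)
    (fun k : Fin 3 => Cy ^ k.val) (fun k => om ^ k.val / 3) _ _ _ SC.ok3 (fun k => ?_) (fun k => ?_)
    β hβ).congr (fun L _ => ?_) fun m _ => rfl⟩
  · fin_cases k <;> simp [Fin.sum_univ_three] <;> grind
  · fin_cases k
    · simp
    · simp [← h2]
    · change om ^ 1 / 3 = star (om ^ 2 / 3)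
      simp [h2]
  · have : ∑ k : Fin 3, om ^ k.val / 3 * Zf g1 (cz (Cy ^ k.val)) 0 0 (L - 1) β =
        (∑ k : Fin 3, om ^ k.val * Zf g1 (cz (Cy ^ k.val)) 0 0 (L - 1) β) / ((3 : ℝ) : ℂ) := by
      rw [Finset.sum_div]
      refine Finset.sum_congr rfl fun i _ => ?_
      push_cast; ring
    rw [this, Complex.div_ofReal_re]

end Crest.Agent.R347
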