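import Crest.Agent.R347.Tens
import Crest.Agent.R347.SpaceCart

set_option autoImplicit false

namespace Crest.Agent.R347

open Matrix Crest.MathPhysics.SpinChain Filter Topology

theorem br_bnd_star (φ : ℂ) (hφ : φ⁻¹ = star φ) (a b c d : Fin 3) :
    star (bnd φ c d a b) = bnd φ a b c d := by
  have h2 : star φ⁻¹ = φ := by rw [hφ, star_star]
  have h3 : star φ = φ⁻¹ := hφ.symm
  have h4 : ∀ x y : Fin 3, star (mg x * mg y) = mg x * mg y := fun x y => by simp [mg]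
  unfold bnd
  by_cases h : a = c ∧ b = d
  · obtain ⟨rfl, rfl⟩ := h
    rw [if_pos ⟨rfl, rfl⟩, h4]
  · rw [if_neg h, if_neg (fun h' => h ⟨h'.1.symm, h'.2.symm⟩)]
    split_ifs <;> first | omega | assumption | exact star_zero _

theorem br_bondAt_herm {n : ℕ} (φ : ℂ) (hφ : φ⁻¹ = star φ) (j k : Fin n) :
    (bondAt φ j k).IsHermitian := by
  ext σ τ
  simp only [bondAt, conjTranspose_apply, of_apply]
  by_cases h : ∀ i, i ≠ j → i ≠ k → σ i = τ i
  · rw [if_pos h, if_pos (fun i a b => (h i a b).symm), br_bnd_star φ hφ]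
  · rw [if_neg h, if_neg (fun h' => h fun i a b => (h' i a b).symm), star_zero]

theorem br_sum_herm (n : ℕ) :
    (∑ j : Fin n, bondAt 1 j.castSucc j.succ : Op (n + 1)).IsHermitian := by
  rw [IsHermitian, conjTranspose_sum]
  exact Finset.sum_congr rfl fun j _ => br_bondAt_herm 1 (by simp) _ _

theorem HR_isHermitian (φ : ℂ) (hφ : φ⁻¹ = star φ) (n : ℕ) : (HR φ n).IsHermitian := by
  exact (br_sum_herm n).add (br_bondAt_herm φ hφ _ _)

theorem HO_isHermitian (h h' : ℝ) (n : ℕ) : (HO h h' n).IsHermitian := by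
  refine (br_sum_herm n).sub ?_
  rw [isHermitian_diagonal_iff]
  intro σ
  simp [IsSelfAdjoint, mg]

/-- The trace of a product of two Hermitian matrices is real. -/
theorem trg_real {n : ℕ} (g : M3) (hg : g.IsHermitian) (H : Op n) (hH : H.IsHermitian) (β : ℝ) :
    trg g H β = ((trg g H β).re : ℂ) := by
  have h1 : (tens fun _ : Fin n => g).IsHermitian := by
    rw [IsHermitian, tens_conjTranspose, hg.eq]
  have h2 : (NormedSpace.exp (-(β : ℂ) • H)).IsHermitian :=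
    IsHermitian.exp (by rw [IsHermitian, conjTranspose_smul, hH.eq]; simp)
  refine (Complex.conj_eq_iff_re.1 ?_).symm
  show star (trg g H β) = _
  rw [trg, ← trace_conjTranspose, conjTranspose_mul, h1.eq, h2.eq, trace_mul_comm]

theorem br_on_mul {n : ℕ} (A B : M3) {j k : Fin n} (hjk : j ≠ k) (σ τ : Cfg n) :
    (onSite A j * onSite B k) σ τ =
      if (∀ i, i ≠ j → i ≠ k → σ i = τ i) then A (σ j) (τ j) * B (σ k) (τ k) else 0 := by
  rw [mul_apply, Finset.sum_eq_single (Function.update σ j (τ j))]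
  · simp only [onSite, of_apply, Function.update_self, Function.update_of_ne hjk.symm]
    rw [if_pos (fun i hi => by rw [Function.update_of_ne hi])]
    by_cases h : ∀ i, i ≠ j → i ≠ k → σ i = τ i
    · rw [if_pos h, if_pos]
      intro i hi
      by_cases hij : i = j
      · rw [hij, Function.update_self]
      · rw [Function.update_of_ne hij, h i hij hi]
    · rw [if_neg h, if_neg, mul_zero]
      intro h'
      exact h fun i a b => by rw [← h' i b, Function.update_of_ne a]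
  · intro ρ _ hρ
    simp only [onSite, of_apply]
    split_ifs with h1 h2 <;> try simp
    exfalso; apply hρ
    ext1 i
    by_cases hij : i = j
    · rw [hij, Function.update_self, h2 j hjk]
    · rw [Function.update_of_ne hij, h1 i hij]
  · simp

theorem br_on_sum {n : ℕ} (r : Fin 3 → ℂ) (A : Fin 3 → M3) (k : Fin n) :
    onSite (∑ b, r b • A b) k = ∑ b, r b • onSite (A b) k := by
  ext σ τ
  simp only [onSite, of_apply, Matrix.sum_apply, Matrix.smul_apply]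
  split_ifs <;> simp

theorem br_on_zero {n : ℕ} (k : Fin n) : onSite (0 : M3) k = 0 := by
  ext σ τ; simp [onSite]

theorem br_conj2 {n : ℕ} (V W : M3) (hVW : V * W = 1) (A B : M3) (j k : Fin n) :
    tens (fun _ => V) * (onSite A j * onSite B k) * tens (fun _ => W) =
      onSite (V * A * W) j * onSite (V * B * W) k := by
  have h : tens (fun _ : Fin n => W) * tens (fun _ => V) = 1 := by
    rw [tens_mul, mul_eq_one_comm.1 hVW, tens_one]
  rw [← tens_conj_onSite V W A hVW, ← tens_conj_onSite V W B hVW]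
  simp only [Matrix.mul_assoc]
  rw [← Matrix.mul_assoc (tens fun _ => W) (tens fun _ => V), h, Matrix.one_mul]

theorem br_key (V W V' W' : M3) (a b c d : Fin 3) :
    ∑ x, (V * cart x * W) a c * (V' * cart x * W') b d =
      (V * W') a d * (V' * W) b c - (V * V'ᵀ) a b * (Wᵀ * W') c d := by
  simp only [Fin.sum_univ_three, mul_apply, transpose_apply, cart, of_apply, cons_val', cons_val_zero,
    cons_val_one, cons_val_two, cons_val_fin_one, head_cons, tail_cons, empty_val', head_fin_const]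
  ring_nf
  simp only [Complex.I_sq]
  ring

/-- the matrix `Σ` -/
noncomputable def brS : M3 := !![0, 0, 1; 0, -1, 0; 1, 0, 0]

/-- the diagonal phase matrix -/
noncomputable def brD (φ : ℂ) : M3 := !![φ, 0, 0; 0, 1, 0; 0, 0, φ⁻¹]

theorem brS_sq : brS * brS = 1 := by
  ext a b; fin_cases a <;> fin_cases b <;> simp [brS, mul_apply, Fin.sum_univ_three]

theorem brD_inv {φ : ℂ} (hφ : φ ≠ 0) : brD φ⁻¹ * brD φ = 1 := by
  ext a b; fin_cases a <;> fin_cases b <;> simp [brD, mul_apply, Fin.sum_univ_three, hφ]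

theorem brD_one : brD 1 = 1 := by
  ext a b; fin_cases a <;> fin_cases b <;> simp [brD]

theorem br_bnd {φ : ℂ} (hφ : φ ≠ 0) (a b c d : Fin 3) :
    brD φ a d * brD φ⁻¹ b c - (brD φ * brS) a b * (brS * brD φ) c d = bnd φ a b c d := by
  have e1 : brD φ * brS = !![0, 0, φ; 0, -1, 0; φ⁻¹, 0, 0] := by
    ext a b; fin_cases a <;> fin_cases b <;> simp [brD, brS, mul_apply, Fin.sum_univ_three]
  have e2 : brS * brD φ = !![0, 0, φ⁻¹; 0, -1, 0; φ, 0, 0] := by
    ext a b; fin_cases a <;> fin_cases b <;> simp [brD, brS, mul_apply, Fin.sum_univ_three]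
  rw [e1, e2]
  fin_cases a <;> fin_cases b <;> fin_cases c <;> fin_cases d <;>
    simp [brD, bnd, mg, magneticNumber, hφ]

theorem br_bond {n : ℕ} (V W R : M3) (c φ : ℂ) (hc : c ≠ 0) (hφ : φ ≠ 0) (hVW : V * W = 1)
    (hV : V * Vᵀ = c • brS) (hRc : ∀ a, ∑ b, R a b • cart b = Rᵀ * cart a * R) (hRo : R * Rᵀ = 1)
    (hD : V * R * W = brD φ) {j k : Fin n} (hjk : j ≠ k) :
    tens (fun _ => V) * (∑ a : Fin 3, ∑ b : Fin 3,
      R a b • (onSite (cart a) j * onSite (cart b) k)) * tens (fun _ => W) = bondAt φ j k := by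
  have hWV : W * V = 1 := mul_eq_one_comm.1 hVW
  have e1 : V * (R * W) = brD φ := by rw [← hD, Matrix.mul_assoc]
  have e2 : V * Rᵀ * W = brD φ⁻¹ := by
    have : brD φ * (V * Rᵀ * W) = 1 := by
      rw [← hD]
      calc V * R * W * (V * Rᵀ * W) = V * (R * ((W * V) * Rᵀ)) * W := by
            simp only [Matrix.mul_assoc]
        _ = 1 := by rw [hWV, Matrix.one_mul, hRo, Matrix.mul_one, hVW]
    rw [← Matrix.one_mul (V * Rᵀ * W), ← brD_inv hφ, Matrix.mul_assoc, this, Matrix.mul_one]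
  have e3 : V * (V * Rᵀ)ᵀ = c • (brD φ * brS) := by
    rw [transpose_mul, transpose_transpose, ← Matrix.mul_smul, ← hV, ← hD]
    calc V * (R * Vᵀ) = V * (R * ((W * V) * Vᵀ)) := by rw [hWV, Matrix.one_mul]
      _ = _ := by simp only [Matrix.mul_assoc]
  have e4 : Wᵀ * (R * W) = c⁻¹ • (brS * brD φ) := by
    have h1 : Wᵀ * W = c⁻¹ • brS := by
      have h2 : W = c⁻¹ • (Vᵀ * brS) := by
        calc W = c⁻¹ • (W * (c • brS) * brS) := by
              rw [Matrix.mul_smul, Matrix.smul_mul, smul_smul, inv_mul_cancel₀ hc, one_smul,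
                Matrix.mul_assoc, brS_sq, Matrix.mul_one]
          _ = _ := by rw [← hV, ← Matrix.mul_assoc W, hWV, Matrix.one_mul]
      conv_lhs => enter [2]; rw [h2]
      rw [Matrix.mul_smul, ← Matrix.mul_assoc, ← transpose_mul, hVW, transpose_one, Matrix.one_mul]
    rw [← Matrix.smul_mul, ← h1, ← e1]
    calc Wᵀ * (R * W) = Wᵀ * ((W * V) * (R * W)) := by rw [hWV, Matrix.one_mul]
      _ = _ := by simp only [Matrix.mul_assoc]
  have h1 : ∀ a, ∑ b : Fin 3, R a b • (onSite (cart a) j * onSite (cart b) k) =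
      onSite (cart a) j * onSite (Rᵀ * cart a * R) k := by
    intro a
    rw [← hRc, br_on_sum, Matrix.mul_sum]
    simp only [Matrix.mul_smul]
  simp only [h1, Matrix.mul_sum, Matrix.sum_mul, br_conj2 V W hVW]
  ext σ τ
  simp only [Matrix.sum_apply, br_on_mul _ _ hjk, bondAt, of_apply]
  split_ifs
  · have h2 : ∀ a, V * (Rᵀ * cart a * R) * W = V * Rᵀ * cart a * (R * W) := fun a => by
      simp only [Matrix.mul_assoc]
    simp only [h2]
    rw [br_key, e1, e2, e3, e4, ← br_bnd hφ]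
    simp only [Matrix.smul_apply, smul_eq_mul]
    field_simp
  · simp

theorem br_bulk (V W : M3) (c : ℂ) (hc : c ≠ 0) (hVW : V * W = 1) (hV : V * Vᵀ = c • brS) (n : ℕ) :
    tens (fun _ => V) * (∑ j : Fin n, ∑ a : Fin 3,
      onSite (cart a) j.castSucc * onSite (cart a) j.succ) * tens (fun _ => W) =
      ∑ j : Fin n, bondAt 1 j.castSucc j.succ := by
  rw [Matrix.mul_sum, Matrix.sum_mul]
  refine Finset.sum_congr rfl fun j _ => ?_
  rw [← br_bond V W 1 c 1 hc one_ne_zero hVW hV (by simp [one_apply]) (by simp)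
    (by rw [Matrix.mul_one, hVW, brD_one]) (Fin.castSucc_lt_succ (i := j)).ne]
  simp [one_apply]

/-- Change of the one-site basis: `V Vᵀ = c Σ` turns the Cartesian bond into `bnd 1`, and a label
matrix `R` diagonalised by `V` into the phase `φ`. -/
theorem Ham_conj_ring (V W R : M3) (c φ : ℂ) (hc : c ≠ 0) (hφ : φ ≠ 0) (hVW : V * W = 1)
    (hV : V * Vᵀ = c • !![0, 0, 1; 0, -1, 0; 1, 0, 0])
    (hRc : ∀ a, ∑ b, R a b • cart b = Rᵀ * cart a * R) (hRo : R * Rᵀ = 1)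
    (hD : V * R * W = !![φ, 0, 0; 0, 1, 0; 0, 0, φ⁻¹]) (n : ℕ) (hn : 1 ≤ n) :
    tens (fun _ => V) * Ham R 0 0 n * tens (fun _ => W) = HR φ n := by
  have hne : Fin.last n ≠ 0 := by
    intro h; have := congrArg Fin.val h; simp at this; omega
  rw [Ham, br_on_zero, br_on_zero, add_zero, sub_zero, Matrix.mul_add, Matrix.add_mul,
    br_bulk V W c hc hVW hV, br_bond V W R c φ hc hφ hVW hV hRc hRo hD hne, HR]

theorem br_W {V : M3} {c : ℂ} (hc : c ≠ 0) (hV : V * Vᵀ = c • brS) :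
    V * (c⁻¹ • (Vᵀ * brS)) = 1 := by
  rw [Matrix.mul_smul, ← Matrix.mul_assoc, hV, Matrix.smul_mul, smul_smul, inv_mul_cancel₀ hc,
    one_smul, brS_sq]

theorem br_intertwine {V W A A' : M3} (hVW : V * W = 1) (h : V * A = A' * V) : V * A * W = A' := by
  rw [h, Matrix.mul_assoc, hVW, Matrix.mul_one]

/-- integer structure constants -/
def brE : Fin 3 → Matrix (Fin 3) (Fin 3) ℤ :=
  ![!![0, 0, 0; 0, 0, 1; 0, -1, 0], !![0, 0, -1; 0, 0, 0; 1, 0, 0], !![0, 1, 0; -1, 0, 0; 0, 0, 0]]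

/-- integer rotation matrices -/
def BrRot (R : Matrix (Fin 3) (Fin 3) ℤ) : Prop :=
  (∀ a, ∑ b, R a b • brE b = Rᵀ * brE a * R) ∧ R * Rᵀ = 1

instance (R : Matrix (Fin 3) (Fin 3) ℤ) : Decidable (BrRot R) := by unfold BrRot; infer_instance

theorem br_cz_mul (A B : Matrix (Fin 3) (Fin 3) ℤ) : cz (A * B) = cz A * cz B :=
  Matrix.map_mul (f := Int.castRingHom ℂ)

theorem br_cz_one : cz 1 = 1 := Matrix.map_one _ Int.cast_zero Int.cast_one

theorem br_cz_transpose (A : Matrix (Fin 3) (Fin 3) ℤ) : cz Aᵀ = (cz A)ᵀ := rfl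

theorem br_cart (a : Fin 3) : cart a = (-Complex.I) • cz (brE a) := by
  ext b c; fin_cases a <;> fin_cases b <;> fin_cases c <;> simp [cart, cz, brE]

theorem br_cov {R : Matrix (Fin 3) (Fin 3) ℤ} (h : BrRot R) (a : Fin 3) :
    ∑ b, cz R a b • cart b = (cz R)ᵀ * cart a * cz R := by
  have h1 := congrArg cz (h.1 a)
  rw [br_cz_mul, br_cz_mul, br_cz_transpose] at h1
  simp only [br_cart, Matrix.mul_smul, Matrix.smul_mul, ← h1]
  ext b c
  simp [cz, Matrix.sum_apply, Finset.mul_sum, mul_left_comm, -zsmul_eq_mul]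

theorem br_ring {V g g' : M3} {R R₀ P : Matrix (Fin 3) (Fin 3) ℤ} {c φ : ℂ} (hc : c ≠ 0)
    (hφ : φ ≠ 0) (hφ' : φ⁻¹ = star φ) (hV : V * Vᵀ = c • brS) (hR : BrRot R) (hP : P * Pᵀ = 1)
    (hPR : P * R = R₀ * P) (hD : V * cz R₀ = brD φ * V) (hg : V * cz P * g = g' * (V * cz P))
    (hg' : g'.IsHermitian) (n : ℕ) (hn : 1 ≤ n) (β : ℝ) :
    Zf g (cz R) 0 0 n β = ((trg g' (HR φ n) β).re : ℂ) := by
  have hV' : V * cz P * (V * cz P)ᵀ = c • brS := by
    rw [transpose_mul, Matrix.mul_assoc, ← Matrix.mul_assoc (cz P), ← br_cz_transpose,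
      ← br_cz_mul, hP, br_cz_one, Matrix.one_mul, hV]
  have hVW := br_W hc hV'
  rw [← trg_real g' hg' _ (HR_isHermitian φ hφ' n), Zf, ← trg_conj _ _ g hVW,
    br_intertwine hVW hg, Ham_conj_ring _ _ (cz R) c φ hc hφ hVW hV' (br_cov hR)
      (by rw [← br_cz_transpose, ← br_cz_mul, hR.2, br_cz_one]) (br_intertwine hVW ?_) n hn]
  rw [Matrix.mul_assoc, ← br_cz_mul, hPR, br_cz_mul, ← Matrix.mul_assoc, hD, Matrix.mul_assoc]
  rfl

theorem br_open {V g g' F : M3} {c : ℂ} (hc : c ≠ 0) (hV : V * Vᵀ = c • brS)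
    (hg : V * g = g' * V) (hg' : g'.IsHermitian)
    (hF : V * F = ((3 / 5 : ℂ) • Matrix.diagonal mg) * V) (s : ℝ) (n : ℕ) (β : ℝ) :
    Zf g 0 F ((s : ℂ) • F) n β = ((trg g' (HO (3 / 5) (s * (3 / 5)) n) β).re : ℂ) := by
  have hVW := br_W hc hV
  rw [← trg_real g' hg' _ (HO_isHermitian _ _ n), Zf, ← trg_conj _ _ g hVW, br_intertwine hVW hg]
  congr 1
  simp only [Ham, Matrix.zero_apply, zero_smul, Finset.sum_const_zero, add_zero, Matrix.mul_sub,
    Matrix.sub_mul, Matrix.mul_add, Matrix.add_mul, br_bulk _ _ c hc hVW hV,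
    tens_conj_onSite _ _ _ hVW, Matrix.mul_smul V, Matrix.smul_mul _ (V * F), br_intertwine hVW hF,
    HO]
  congr 1
  ext σ τ
  simp only [onSite, Matrix.add_apply, of_apply, Matrix.smul_apply, diagonal_apply, smul_eq_mul]
  by_cases h : σ = τ
  · subst h; simp; ring
  · have key : ∀ j, (∀ k, k ≠ j → σ k = τ k) → σ j ≠ τ j := fun j hj e => h (funext fun k => by
      by_cases hk : k = j
      · rw [hk, e]
      · exact hj k hk)
    rw [if_neg h]
    split_ifs with h1 h2 h3 <;> simp_all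

theorem br_uz : uz.IsHermitian := by
  ext a b; fin_cases a <;> fin_cases b <;> simp [uz]

theorem br_ux : ux.IsHermitian := by
  ext a b; fin_cases a <;> fin_cases b <;> simp [ux]

/-- the frame adapted to the `z` axis -/
noncomputable def brVz : M3 := !![1, -Complex.I, 0; 0, 0, 2; -2, -2 * Complex.I, 0]

theorem brVz_sq : brVz * brVzᵀ = (-4 : ℂ) • brS := by
  ext a b; fin_cases a <;> fin_cases b <;>
    simp [brVz, brS, mul_apply, Fin.sum_univ_three] <;> ring_nf <;> simp <;> norm_num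

theorem brVz_Dz : brVz * cz Dz = uz * brVz := by
  ext a b; fin_cases a <;> fin_cases b <;> simp [brVz, uz, cz, Dz, mul_apply, Fin.sum_univ_three]

theorem brD_neg : brD (-1) = uz := by
  ext a b; fin_cases a <;> fin_cases b <;> simp [brD, uz]

theorem br_om : om ^ 2 + om + 1 = 0 := by
  have h : Real.sqrt 3 * Real.sqrt 3 = 3 := Real.mul_self_sqrt (by norm_num)
  apply Complex.ext <;> simp [om, sq] <;> nlinarith

theorem br_om_ne : om ≠ 0 := by
  intro h; have := br_om; rw [h] at this; simp at this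

theorem br_om_inv : om⁻¹ = om ^ 2 := by
  apply inv_eq_of_mul_eq_one_right
  linear_combination (om - 1) * br_om

theorem br_om_star : om⁻¹ = star om := by
  have h : om ^ 2 = -1 - om := by linear_combination br_om
  rw [br_om_inv, h]
  apply Complex.ext <;> simp [om]; norm_num

/-- the frame adapted to the axis `(1,1,1)` -/
noncomputable def brVn : M3 := !![1, om ^ 2, om; 1, 1, 1; -1, -om, -om ^ 2]

theorem brVn_sq : brVn * brVnᵀ = (-3 : ℂ) • brS := by
  have h := br_om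
  ext a b; fin_cases a <;> fin_cases b <;> simp [brVn, brS, mul_apply, Fin.sum_univ_three] <;>
    grind

theorem brVn_Cy : brVn * cz Cy = brD om * brVn := by
  have h := br_om
  ext a b; fin_cases a <;> fin_cases b <;>
    simp [brVn, brD, br_om_inv, cz, Cy, mul_apply, Fin.sum_univ_three] <;> grind

theorem brVn_g1 : brVn * g1 = uz * brVn := by
  have h := br_om
  ext a b; fin_cases a <;> fin_cases b <;>
    simp [brVn, uz, g1, mul_apply, Fin.sum_univ_three] <;> grind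

/-- a permutation matrix commutes with `g1` -/
theorem br_g1_comm {P : Matrix (Fin 3) (Fin 3) ℤ}
    (h : P * (Matrix.of fun _ _ => 1) = (Matrix.of fun _ _ => 1) * P) : cz P * g1 = g1 * cz P := by
  have e : g1 = (2 / 3 : ℂ) • cz (Matrix.of fun _ _ => 1) - 1 := by
    ext a b; by_cases hab : a = b <;> simp [g1, cz, hab, one_apply]; norm_num
  rw [e, Matrix.mul_sub, Matrix.sub_mul, Matrix.mul_smul, Matrix.smul_mul, ← br_cz_mul,
    ← br_cz_mul, h, Matrix.mul_one, Matrix.one_mul]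

/-- transposition -/
def brT : Matrix (Fin 3) (Fin 3) ℤ := !![0, 1, 0; 1, 0, 0; 0, 0, 1]

theorem Zf_one_one (n : ℕ) (hn : 1 ≤ n) (β : ℝ) : Zf 1 1 0 0 n β = zr 1 β (n + 1) := by
  rw [← br_cz_one]
  exact br_ring (V := brVz) (P := 1) (R₀ := 1) (by norm_num) one_ne_zero (by simp) brVz_sq
    (by decide) (by decide) rfl (by simp [br_cz_one, brD_one]) (by simp [br_cz_one])
    isHermitian_one n hn β

theorem Zf_one_D (i : Fin 4) (hi : i ≠ 0) (n : ℕ) (hn : 1 ≤ n) (β : ℝ) :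
    Zf 1 (cz (V4 i)) 0 0 n β = zr (-1) β (n + 1) := by
  obtain ⟨j, h1, h2, h3⟩ : ∃ j : Fin 3, BrRot (V4 i) ∧ Cy ^ j.val * (Cy ^ j.val)ᵀ = 1 ∧
      Cy ^ j.val * V4 i = Dz * Cy ^ j.val := by revert i; decide +kernel
  exact br_ring (V := brVz) (by norm_num) (by norm_num) (by simp) brVz_sq h1 h2 h3
    (by rw [brD_neg, brVz_Dz]) (by simp) isHermitian_one n hn β

theorem Zf_one_C (i : Fin 4) (k : Fin 3) (hk : k ≠ 0) (n : ℕ) (hn : 1 ≤ n) (β : ℝ) :
    Zf 1 (cz (V4 i * Cy ^ k.val)) 0 0 n β = zr om β (n + 1) := by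
  obtain ⟨t, j, h1, h2, h3⟩ : ∃ (t : Fin 2) (j : Fin 4), BrRot (V4 i * Cy ^ k.val) ∧
      brT ^ t.val * V4 j * (brT ^ t.val * V4 j)ᵀ = 1 ∧
      brT ^ t.val * V4 j * (V4 i * Cy ^ k.val) = Cy * (brT ^ t.val * V4 j) := by
    revert i k; decide +kernel
  exact br_ring (V := brVn) (by norm_num) br_om_ne br_om_star brVn_sq h1 h2 h3 brVn_Cy (by simp)
    isHermitian_one n hn β

theorem Zf_D_one (i : Fin 4) (hi : i ≠ 0) (n : ℕ) (hn : 1 ≤ n) (β : ℝ) :
    Zf (cz (V4 i)) 1 0 0 n β = gr 1 β (n + 1) := by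
  obtain ⟨j, h2, h3⟩ : ∃ j : Fin 3, Cy ^ j.val * (Cy ^ j.val)ᵀ = 1 ∧
      Cy ^ j.val * V4 i = Dz * Cy ^ j.val := by revert i; decide +kernel
  rw [← br_cz_one]
  refine br_ring (V := brVz) (R₀ := 1) (by norm_num) one_ne_zero (by simp) brVz_sq (by decide) h2
    (by simp) (by simp [br_cz_one, brD_one]) ?_ br_uz n hn β
  rw [Matrix.mul_assoc, ← br_cz_mul, h3, br_cz_mul, ← Matrix.mul_assoc, brVz_Dz, Matrix.mul_assoc]

theorem Zf_g_one (n : ℕ) (hn : 1 ≤ n) (β : ℝ) : Zf g1 1 0 0 n β = gr 1 β (n + 1) := by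
  rw [← br_cz_one]
  exact br_ring (V := brVn) (P := 1) (R₀ := 1) (by norm_num) one_ne_zero (by simp) brVn_sq
    (by decide) (by decide) rfl (by simp [br_cz_one, brD_one]) (by simp [br_cz_one, brVn_g1])
    br_uz n hn β

theorem Zf_g_C (k : Fin 3) (hk : k ≠ 0) (n : ℕ) (hn : 1 ≤ n) (β : ℝ) :
    Zf g1 (cz (Cy ^ k.val)) 0 0 n β = gr om β (n + 1) := by
  obtain ⟨t, h1, h2, h3, h4⟩ : ∃ t : Fin 2, BrRot (Cy ^ k.val) ∧
      brT ^ t.val * (brT ^ t.val)ᵀ = 1 ∧ brT ^ t.val * Cy ^ k.val = Cy * brT ^ t.val ∧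
      brT ^ t.val * (Matrix.of fun _ _ => 1) = (Matrix.of fun _ _ => 1) * brT ^ t.val := by
    revert k; decide +kernel
  refine br_ring (V := brVn) (by norm_num) br_om_ne br_om_star brVn_sq h1 h2 h3 brVn_Cy ?_
    br_uz n hn β
  rw [Matrix.mul_assoc, br_g1_comm h4, ← Matrix.mul_assoc, brVn_g1, Matrix.mul_assoc]

theorem Zf_g_F (k : Fin 3) (n : ℕ) (hn : 1 ≤ n) (β : ℝ) :
    Zf g1 (cz (Fl * Cy ^ k.val)) 0 0 n β = fr β (n + 1) := by
  obtain ⟨t, h1, h2, h3, h4⟩ : ∃ t : Fin 3, BrRot (Fl * Cy ^ k.val) ∧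
      Cy ^ t.val * (Cy ^ t.val)ᵀ = 1 ∧ Cy ^ t.val * (Fl * Cy ^ k.val) = Fl * Cy ^ t.val ∧
      Cy ^ t.val * (Matrix.of fun _ _ => 1) = (Matrix.of fun _ _ => 1) * Cy ^ t.val := by
    revert k; decide +kernel
  obtain ⟨x, hx⟩ := IsAlgClosed.exists_pow_nat_eq (-2 : ℂ) two_pos
  obtain ⟨z, hz⟩ := IsAlgClosed.exists_pow_nat_eq (-6 : ℂ) two_pos
  have hg : !![x + 1, x + 1, x - 2; z, -z, 0; -x + 1, -x + 1, -x - 2] * g1 =
      ux * !![x + 1, x + 1, x - 2; z, -z, 0; -x + 1, -x + 1, -x - 2] := by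
    ext a b; fin_cases a <;> fin_cases b <;> simp [ux, g1, mul_apply, Fin.sum_univ_three] <;> ring
  refine br_ring (V := !![x + 1, x + 1, x - 2; z, -z, 0; -x + 1, -x + 1, -x - 2]) (c := 12)
    (by norm_num) (by norm_num) (by simp) ?_ h1 h2 h3 ?_ ?_ br_ux n hn β
  · ext a b; fin_cases a <;> fin_cases b <;> simp [brS, mul_apply, Fin.sum_univ_three] <;> grind
  · rw [brD_neg]
    ext a b; fin_cases a <;> fin_cases b <;> simp [uz, cz, Fl, mul_apply, Fin.sum_univ_three]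
  · rw [Matrix.mul_assoc, br_g1_comm h4, ← Matrix.mul_assoc, hg, Matrix.mul_assoc]

theorem Zf_open_z (s : ℝ) (m : ℕ) (β : ℝ) :
    Zf 1 0 Fz ((s : ℂ) • Fz) (m + 1) β = zo s β m := by
  refine br_open (V := brVz) (by norm_num) brVz_sq (by simp) isHermitian_one ?_ s (m + 1) β
  ext a b; fin_cases a <;> fin_cases b <;>
    simp [brVz, Fz, cart, mg, magneticNumber, mul_apply, Fin.sum_univ_three, diagonal_apply] <;>
    ring_nf <;> simp <;> norm_num

theorem Zf_open_n (s : ℝ) (m : ℕ) (β : ℝ) :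
    Zf g1 0 Fn ((s : ℂ) • Fn) (m + 1) β = go s β m := by
  refine br_open (V := brVn) (by norm_num) brVn_sq brVn_g1 br_uz ?_ s (m + 1) β
  have h := br_om
  have hI := Complex.I_sq
  have h3 : ((Real.sqrt 3 : ℝ) : ℂ) = -Complex.I * (2 * om + 1) := by
    apply Complex.ext <;> simp [om] <;> ring
  have h4 : ((Real.sqrt 3 : ℝ) : ℂ)⁻¹ = -Complex.I * (2 * om + 1) / 3 := by
    rw [h3]; apply inv_eq_of_mul_eq_one_right; grind
  rw [Fn, Sn, h4]
  ext a b; fin_cases a <;> fin_cases b <;>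
    simp [brVn, cart, mg, magneticNumber, mul_apply, Fin.sum_univ_three, diagonal_apply] <;> grind

/-! ### The spectral representations in final form -/

theorem br_neg (F g : M3) (n : ℕ) (β : ℝ) :
    Zf g 0 F (-F) n β = Zf g 0 F (((-1 : ℝ) : ℂ) • F) n β := by simp

theorem br_pos (F g : M3) (n : ℕ) (β : ℝ) :
    Zf g 0 F F n β = Zf g 0 F (((1 : ℝ) : ℂ) • F) n β := by simp

theorem br_a (n : ℕ) (hn : 1 ≤ n) (β : ℝ) :
    (∑ i : Fin 4, Zf 1 (cz (V4 i)) 0 0 n β).re / 4 = pa β (n + 1) := by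
  have h0 : Zf 1 (cz (V4 0)) 0 0 n β = zr 1 β (n + 1) := by
    rw [← Zf_one_one n hn, ← br_cz_one]; rfl
  rw [Fin.sum_univ_four, h0, Zf_one_D 1 (by decide) n hn, Zf_one_D 2 (by decide) n hn,
    Zf_one_D 3 (by decide) n hn, pa]
  simp; ring

theorem br_T (n : ℕ) (hn : 1 ≤ n) (β : ℝ) :
    (∑ i : Fin 4, ∑ k : Fin 3, Zf 1 (cz (V4 i * Cy ^ k.val)) 0 0 n β).re / 12 = pT β (n + 1) := by
  have h := br_a n hn β
  simp only [Fin.sum_univ_three, Zf_one_C _ 1 (by decide) n hn, Zf_one_C _ 2 (by decide) n hn,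
    Fin.val_zero, pow_zero, mul_one, Finset.sum_add_distrib, Complex.add_re]
  rw [pa, Complex.re_sum] at h
  rw [pT]
  simp
  linarith

theorem br_g0 (n : ℕ) (hn : 1 ≤ n) (β : ℝ) :
    Zf g1 (cz (Cy ^ (0 : Fin 3).val)) 0 0 n β = gr 1 β (n + 1) := by
  rw [← Zf_g_one n hn, ← br_cz_one]; rfl

theorem spec_pa (β : ℝ) (hβ : 0 ≤ β) : Spec (pa β) (y0 β) := by
  refine (spec_a β hβ).congr (fun L hL => ?_) fun m _ => ?_
  · obtain ⟨n, rfl⟩ : ∃ n, L = n + 1 := ⟨L - 1, by omega⟩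
    exact (br_a n (by omega) β).symm
  · rw [br_neg Fz, br_pos Fz, Zf_open_z, Zf_open_z, y0]; simp

theorem spec_pb (β : ℝ) (hβ : 0 ≤ β) : Spec (pb β) (yz β) := by
  refine (spec_b β hβ).congr (fun L hL => ?_) fun m _ => ?_
  · obtain ⟨n, rfl⟩ : ∃ n, L = n + 1 := ⟨L - 1, by omega⟩
    have h1 := Zf_one_D 1 (by decide) n (by omega) β
    have h2 := Zf_one_D 2 (by decide) n (by omega) β
    have h3 := Zf_one_D 3 (by decide) n (by omega) β
    show _ = (Zf 1 1 0 0 n β - Zf 1 (cz (V4 1)) 0 0 n β - Zf 1 (cz (V4 2)) 0 0 n β +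
      Zf 1 (cz (V4 3)) 0 0 n β).re / 4
    rw [h1, h2, h3, Zf_one_one n (by omega), pb]; simp
  · rw [br_neg Fz, br_pos Fz, Zf_open_z, Zf_open_z, yz]; simp

theorem spec_pT (β : ℝ) (hβ : 0 ≤ β) : ∃ y, Spec (pT β) y := by
  obtain ⟨y, hy⟩ := spec_T β hβ
  refine ⟨y, hy.congr (fun L hL => ?_) fun _ _ => rfl⟩
  obtain ⟨n, rfl⟩ : ∃ n, L = n + 1 := ⟨L - 1, by omega⟩
  exact (br_T n (by omega) β).symm

theorem spec_pE0 (β : ℝ) (hβ : 0 ≤ β) : ∃ y, Spec (fun L => pa β L - pT β L) y := by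
  obtain ⟨y, hy⟩ := spec_E0 β hβ
  refine ⟨y, hy.congr (fun L hL => ?_) fun _ _ => rfl⟩
  obtain ⟨n, rfl⟩ : ∃ n, L = n + 1 := ⟨L - 1, by omega⟩
  rw [← br_a n (by omega) β, ← br_T n (by omega) β]; rfl

theorem spec_pD (β : ℝ) (hβ : 0 ≤ β) : Spec (pD β) (yD β) := by
  refine (spec_D β hβ).congr (fun L hL => ?_) fun m _ => ?_
  · obtain ⟨n, rfl⟩ : ∃ n, L = n + 1 := ⟨L - 1, by omega⟩
    have hn : 1 ≤ n := by omega
    simp only [Nat.add_sub_cancel, Fin.sum_univ_three, Zf_g_F _ n hn, br_g0 n hn,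
      Zf_g_C 1 (by decide) n hn, Zf_g_C 2 (by decide) n hn, pD]
    simp; ring
  · rw [br_neg Fn, br_pos Fn, Zf_open_n, Zf_open_n, yD]; simp

theorem spec_pD' (β : ℝ) (hβ : 0 ≤ β) : Spec (pD' β) (yD' β) := by
  refine (spec_D' β hβ).congr (fun L hL => ?_) fun m _ => ?_
  · obtain ⟨n, rfl⟩ : ∃ n, L = n + 1 := ⟨L - 1, by omega⟩
    have hn : 1 ≤ n := by omega
    simp only [Nat.add_sub_cancel, Fin.sum_univ_three, Zf_g_F _ n hn, br_g0 n hn,
      Zf_g_C 1 (by decide) n hn, Zf_g_C 2 (by decide) n hn, pD']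
    simp; ring
  · rw [br_neg Fn, br_pos Fn, Zf_open_n, Zf_open_n, yD']; simp

theorem spec_pE (β : ℝ) (hβ : 0 ≤ β) : ∃ y, Spec (pE β) y := by
  obtain ⟨y, hy⟩ := spec_E β hβ
  refine ⟨y, hy.congr (fun L hL => ?_) fun _ _ => rfl⟩
  obtain ⟨n, rfl⟩ : ∃ n, L = n + 1 := ⟨L - 1, by omega⟩
  have hn : 1 ≤ n := by omega
  have h : om ^ 2 = -1 - om := by linear_combination br_om
  simp only [Nat.add_sub_cancel, Fin.sum_univ_three, br_g0 n hn,
    Zf_g_C 1 (by decide) n hn, Zf_g_C 2 (by decide) n hn, pE]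
  simp [h]; ring

end Crest.Agent.R347
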