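import Crest.Agent.R347.KSpec

/-! Checkers for spectral bounds, orbit representatives and matrix product states. -/

set_option autoImplicit false

namespace Crest.Agent.R347

open Matrix Crest.MathPhysics.SpinChain Filter Topology K

/-! ### Tables -/

noncomputable def nthN (l : List ℕ) : ℕ → ℕ :=
  @List.rec ℕ (fun _ => ℕ → ℕ) (fun _ => 0)
    (fun a _ ih n => @Nat.rec (fun _ => ℕ) a (fun m _ => ih m) n) l

/-- Slot `b` (sixteen bits) of the row `a`. -/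
noncomputable def tab16 (rows : List ℕ) (a b : ℕ) : ℕ :=
  Nat.mod (Nat.shiftRight (nthN rows a) (Nat.mul 16 b)) 65536

/-- The slot read as mantissa and exponent. -/
noncomputable def vtab (rows : List ℕ) (a b : ℕ) : ℕ :=
  frc (tab16 rows a b) fun x => Nat.shiftLeft (Nat.mod x 2048) (Nat.div x 2048)

/-! ### Weighted Gershgorin bound, `lo = -lon / den` -/

noncomputable def gershR (h l k den lon : ℕ) (v : V2) : Bool :=
  all2 (Nat.succ h) (Nat.succ l) k fun a b =>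
    both (halfH h a) (halfL l b) fun gl gh gm D ht lb htu htd lbu lbd =>
      cross ht lb htu lbd htd lbu fun gc dc =>
        ifb% (Nat.ble 1 (v a b))
          (Nat.ble
            (Nat.mul den (gl (v a) (gh v b (gm v (gc v
              (Nat.mul (Nat.add (Nat.add h l) 2) (v a b)))))))
            (Nat.mul (Nat.add (Nat.mul den (Nat.add D dc)) lon) (v a b))) false

noncomputable def gershO (sg : Bool) (h l k den lon : ℕ) (v : V2) : Bool :=
  all2 (Nat.succ h) (Nat.succ l) k fun a b =>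
    both (halfH h a) (halfL l b) fun gl gh gm D ht lb _ _ _ _ =>
      ifb% (Nat.ble 1 (v a b))
        (Nat.ble
          (Nat.mul den (Nat.add (Nat.mul 5 (gl (v a) (gh v b (gm v 0))))
            (Nat.mul (Nat.add (Nat.mul 5 (Nat.add h l)) 11) (v a b))))
          (Nat.mul (Nat.add (Nat.mul den (Nat.add (Nat.mul 5 D)
            (Nat.mul 3 (Nat.add lb (ifn% sg ht (Nat.sub 2 ht)))))) (Nat.mul 5 lon)) (v a b)))
        false

/-! ### Orbit representatives -/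

/-- Rotation of a code, `T = 3 ^ (n - 1)`. -/
noncomputable def rotN (T r x : ℕ) : ℕ :=
  @Nat.rec (fun _ => ℕ → ℕ) (fun x => x)
    (fun _ ih x => frc (Nat.add (Nat.div x 3) (Nat.mul (Nat.mod x 3) T)) ih) r x

/-- Reversal of the `n` lowest digits. -/
noncomputable def revN (n x : ℕ) : ℕ :=
  @Nat.rec (fun _ => ℕ → ℕ → ℕ) (fun _ acc => acc)
    (fun _ ih x acc => ih (Nat.div x 3) (Nat.add (Nat.mul 3 acc) (Nat.mod x 3))) n x 0

/-- The group element `g = r + 16 e₁ + 32 e₂`: flip if `e₂`, reverse if `e₁`, rotate `r` times. -/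
noncomputable def actN (n T g x : ℕ) : ℕ :=
  frc (ifn% (Nat.ble 32 g) (Nat.sub (Nat.sub (Nat.mul 3 T) 1) x) x) fun y =>
  frc (ifn% (Nat.ble 16 (Nat.mod g 32)) (revN n y) y) fun z => rotN T (Nat.mod g 16) z

/-- Admissible group elements: mode `0` all, mode `1` the reversal, mode `2` reversal with flip. -/
noncomputable def okg (md g : ℕ) : Bool :=
  dig% Bool md true (ifb% (Nat.beq g 0) true (Nat.beq g 16))
    (ifb% (Nat.beq g 0) true (Nat.beq g 48))

noncomputable def dsN (n x : ℕ) : ℕ :=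
  @Nat.rec (fun _ => ℕ → ℕ) (fun _ => 0)
    (fun _ ih x => Nat.add (Nat.mod x 3) (ih (Nat.div x 3))) n x

/-- `c` lists representatives with weights; the witness table gives for each configuration the
position `j` of its representative and the group element, as `j + 1024 g`. -/
noncomputable def orbChk (md h l k : ℕ) (c : List (ℕ × ℕ)) (rows : List ℕ) : Bool :=
  frc (Nat.add (Nat.add h l) 2) fun n => frc (Nat.pow 3 (Nat.succ (Nat.add h l))) fun T =>
  frc (Nat.pow 3 (Nat.succ l)) fun Tl => frc c.length fun len =>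
  ifb% (Nat.ble (Nat.mul 3 T) 65535)
    (ifb% (allL (c.map Prod.fst) fun r => ifb% (Nat.blt r (Nat.mul 3 T)) (Nat.beq (dsN n r) k) false)
      (ifb% (allL (c.map Prod.snd) fun w => Nat.ble w 65535)
        (ifb% (all2 (Nat.succ h) (Nat.succ l) k fun a b =>
            frc (Nat.mod (tab16 rows a b) 1024) fun j => frc (Nat.div (tab16 rows a b) 1024) fun g =>
              ifb% (Nat.blt j len) (ifb% (okg md g)
                (frc (nthN (c.map Prod.fst) j) fun r =>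
                  Nat.beq (actN n T g r) (Nat.add (Nat.mul a Tl) b)) false) false)
          (Nat.beq (sum2 (Nat.succ h) (Nat.succ l) k fun a b =>
              Nat.shiftLeft 1 (Nat.mul 16 (Nat.mod (tab16 rows a b) 1024)))
            (@List.rec ℕ (fun _ => ℕ) 0 (fun w _ ih => Nat.add w (Nat.shiftLeft ih 16))
              (c.map Prod.snd))) false) false) false) false

def OrbInv {n : ℕ} (md : ℕ) (F : Cfg n → ℝ) : Prop :=
  (md = 0 → (∀ σ, F (rot σ) = F σ) ∧ (∀ σ, F (rfl' σ) = F σ) ∧ ∀ σ, F (flp σ) = F σ) ∧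
  (md = 1 → ∀ σ, F (rfl' σ) = F σ) ∧ (2 ≤ md → ∀ σ, F (flp (rfl' σ)) = F σ)

/-- `c` is a weighted list of representatives of the sector. -/
def OrbF (md n k : ℕ) (c : List (ℕ × ℕ)) : Prop :=
  (∀ p ∈ c, dec n p.1 ∈ Sec n k) ∧
    ∀ F : Cfg n → ℝ, OrbInv md F → ∑ σ ∈ Sec n k, F σ = wsum n c F

/-! ### Polynomial approximation and numerical side conditions -/

def PApx (s : ℕ) (c : ℤ) (q : ℕ) (cs : List ℕ) (Sc E η lo hi : ℝ) : Prop :=
  ∀ x : ℝ, lo ≤ x → x ≤ hi →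
    |Sc * Real.exp (-(4 * (x + E))) - clen ((c : ℝ) - s * x) q cs 0 0| ≤ η

/-- The approximation on the natural interval of the recurrence. -/
def PCert (s : ℕ) (c : ℤ) (q : ℕ) (cs : List ℕ) (b En en : ℕ) : Prop :=
  ∀ x : ℝ, ((c : ℝ) - s * x) ^ 2 ≤ 4 * q →
    |2 ^ b * Real.exp (-(4 * (x + En / 10 ^ 6))) - clen ((c : ℝ) - s * x) q cs 0 0|
      ≤ en * 2 ^ b / 10 ^ 12

/-- Data of a sector. The bounds are in units of `10⁻⁹`. -/
structure SD where
  p : PD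
  b : ℕ
  En : ℕ
  en : ℕ
  den : ℕ
  lon : ℕ
  j : ℕ
  kap : ℕ
  zl : ℤ
  zu : ℤ
  gl : ℤ
  gu : ℤ

def yyQ (u W N A : ℕ) : ℚ := (W : ℚ) * N * (2 ^ u - 1) ^ 2 / 4 - A

def valQ (d : SD) (m W N A : ℕ) : ℚ := 4 ^ (d.p.w - d.p.u) * yyQ d.p.u (m * W) N A / m / 4 ^ d.b

def rndQ (d : SD) (m W N A : ℕ) : ℚ :=
  4 ^ (d.p.w - d.p.u) * (yyQ d.p.u (m * W) N A / d.kap + (m * W : ℕ) * N * (d.kap + 1) / 4) / m
    / 4 ^ d.b

def polQ (d : SD) (W B : ℕ) : ℚ :=
  2 * (d.en / 10 ^ 12) * (((B : ℚ) - W * 2 ^ (d.p.w - 1)) / 2 ^ d.b) + 3 * (d.en / 10 ^ 12) ^ 2 * W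

def numOK (d : SD) (s : ℕ) (c : ℤ) (hi : ℚ) (m W N A B : ℕ) : Bool :=
  decide (0 < d.den ∧ 0 < d.kap ∧ ((c : ℚ) + s * (d.lon / d.den)) ^ 2 ≤ 4 * d.p.q ∧
    ((c : ℚ) - s * hi) ^ 2 ≤ 4 * d.p.q ∧
    4 * ((d.lon : ℚ) / d.den - d.En / 10 ^ 6) ≤ 693 / 1000 * d.j ∧
    (2 : ℚ) ^ (d.b + d.j) + d.en * 2 ^ d.b / 10 ^ 12 < 2 ^ (d.p.w - 2) ∧
    (d.zl : ℚ) / 10 ^ 9 ≤ valQ d m W N A - rndQ d m W N A - polQ d W B ∧
    valQ d m W N A + rndQ d m W N A + polQ d W B ≤ d.zu / 10 ^ 9)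

def numG (d : SD) (W N A B C : ℕ) : Bool :=
  decide ((d.gl : ℚ) / 10 ^ 9 ≤ valQ d 1 W N C / 2 - valQ d 1 W N A
      - (rndQ d 1 W N C / 2 + rndQ d 1 W N A + polQ d W B) ∧
    valQ d 1 W N C / 2 - valQ d 1 W N A
      + (rndQ d 1 W N C / 2 + rndQ d 1 W N A + polQ d W B) ≤ d.gu / 10 ^ 9)

/-- `zl ≤ x ≤ zu` in units of `10⁻⁹`. -/
def Btw (x : ℝ) (zl zu : ℤ) : Prop := (zl : ℝ) / 10 ^ 9 ≤ x ∧ x ≤ (zu : ℝ) / 10 ^ 9

/-! ### Matrix product states -/

abbrev RM := ℕ → ℕ → ℝ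

def uu (s s' : Fin 3) : ℝ := if s.val + 1 = s'.val then 1 else 0
def mz (s : Fin 3) : ℝ := 1 - (s.val : ℝ)

noncomputable def qform (D : ℕ) (Q : RM) (x : ℕ → ℝ) : ℝ :=
  ∑ α ∈ Finset.range D, ∑ β ∈ Finset.range D, x α * Q α β * x β

/-- `D` orthonormal states of a block of `n + 1` sites with the field `h` on the first site:
matrix elements of the spin of the last site and an upper bound `Q + c` for the energy. -/
def MInv (h : ℝ) (n D : ℕ) (Q : RM) (c : ℝ) (Wz Wu : RM) : Prop :=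
  ∃ Ψ : ℕ → Cfg (n + 1) → ℝ,
    (∀ α < D, ∀ β < D, ∑ σ, Ψ α σ * Ψ β σ = if α = β then 1 else 0) ∧
    (∀ α < D, ∀ β < D, ∑ σ, Ψ α σ * mz (σ (Fin.last n)) * Ψ β σ = Wz α β) ∧
    (∀ α < D, ∀ β < D, ∑ σ, ∑ s : Fin 3,
      Ψ α σ * uu (σ (Fin.last n)) s * Ψ β (Function.update σ (Fin.last n) s) = Wu α β) ∧
    ∀ x : ℕ → ℝ, ∑ σ, ∑ τ, (∑ α ∈ Finset.range D, x α * Ψ α σ) * (HO h 0 n σ τ).re *
        (∑ β ∈ Finset.range D, x β * Ψ β τ)
      ≤ qform D Q x + c * ∑ α ∈ Finset.range D, x α ^ 2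

def Iso (D D' : ℕ) (A : Fin 3 → RM) : Prop :=
  ∀ β < D', ∀ γ < D', ∑ s, ∑ α ∈ Finset.range D, A s α β * A s α γ = if β = γ then 1 else 0

noncomputable def WZ (D : ℕ) (A : Fin 3 → RM) : RM := fun β γ =>
  ∑ s, ∑ α ∈ Finset.range D, mz s * A s α β * A s α γ

noncomputable def WU (D : ℕ) (A : Fin 3 → RM) : RM := fun β γ =>
  ∑ s, ∑ s', ∑ α ∈ Finset.range D, uu s s' * A s α β * A s' α γ

/-- Energy of the enlarged block. -/
noncomputable def Nxt (D : ℕ) (A : Fin 3 → RM) (Q Wz Wu : RM) : RM := fun β γ =>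
  ∑ s, ∑ s', ∑ α ∈ Finset.range D, ∑ α' ∈ Finset.range D,
    A s α β * ((if s = s' then Q α α' + mz s * Wz α α' else 0) + uu s' s * Wu α α'
      + uu s s' * Wu α' α) * A s' α' γ

/-- Sparse integer vectors. -/
inductive SL : Type
  | nil : SL
  | cons (i : ℕ) (v : ℤ) (t : SL) : SL

noncomputable def nthS (l : List SL) : ℕ → SL :=
  @List.rec SL (fun _ => ℕ → SL) (fun _ => SL.nil)
    (fun a _ ih n => @Nat.rec (fun _ => SL) a (fun m _ => ih m) n) l

/-- `fz x = x`, in normal form. -/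
noncomputable def fz (x : ℤ) : ℤ :=
  @Int.rec (fun _ => ℤ) (fun n => frc n Int.ofNat) (fun n => frc n Int.negSucc) x

/-- `∑ v * f i` over the entries. -/
noncomputable def SL.dot (t : SL) (f : ℕ → ℤ) : ℤ :=
  @SL.rec (fun _ => ℤ) (Int.ofNat 0) (fun i v _ ih => Int.add (Int.mul v (f i)) ih) t

/-- The entry at `a`. -/
noncomputable def SL.get (t : SL) (a : ℕ) : ℤ :=
  @SL.rec (fun _ => ℤ) (Int.ofNat 0) (fun i v _ ih => ift% ℤ (Nat.beq i a) (Int.add v ih) ih) t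

noncomputable def SL.lt (t : SL) (D : ℕ) : Bool :=
  @SL.rec (fun _ => Bool) true (fun i _ _ ih => ifb% (Nat.blt i D) ih false) t

/-- A tensor: three lists of columns. -/
structure Tn : Type where
  c0 : List SL
  c1 : List SL
  c2 : List SL

noncomputable def Tn.col (A : Tn) (s β : ℕ) : SL :=
  nthS (dig% (List SL) s A.1 A.2 A.3) β

noncomputable def Tn.val (A : Tn) (s α β : ℕ) : ℤ := fz ((A.col s β).get α)

noncomputable def xval (X : List SL) (α β : ℕ) : ℤ := fz ((nthS X α).get β)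

noncomputable def Tn.real (A : Tn) (b : ℕ) : Fin 3 → RM := fun s α β => A.val s α β / 2 ^ b

noncomputable def xreal (X : List SL) (r : ℕ) : RM := fun α β => xval X α β / 2 ^ r

noncomputable def allLt (n : ℕ) (f : ℕ → Bool) : Bool :=
  @Nat.rec (fun _ => Bool) true (fun i ih => ifb% (f i) ih false) n

noncomputable def sumLt (n : ℕ) (f : ℕ → ℕ) : ℕ :=
  @Nat.rec (fun _ => ℕ) 0 (fun i ih => Nat.add (f i) ih) n

/-- `∑_α A s α β * A s' α γ`. -/
noncomputable def gram (A : Tn) (s s' β γ : ℕ) : ℤ := (A.col s β).dot fun α => A.val s' α γ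

noncomputable def wzI (A : Tn) (β γ : ℕ) : ℤ := fz (Int.sub (gram A 0 0 β γ) (gram A 2 2 β γ))
noncomputable def wuI (A : Tn) (β γ : ℕ) : ℤ := fz (Int.add (gram A 0 1 β γ) (gram A 1 2 β γ))

/-- All row indices are below `D` and the columns are orthonormal (`B2 = 4 ^ b`). -/
noncomputable def isoChk (D D' B2 : ℕ) (A : Tn) : Bool :=
  allLt D' fun β =>
    ifb% (ifb% ((A.col 0 β).lt D) (ifb% ((A.col 1 β).lt D) ((A.col 2 β).lt D) false) false)
      (allLt D' fun γ => Nat.beq (Int.natAbs (Int.sub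
        (Int.add (Int.add (gram A 0 0 β γ) (gram A 1 1 β γ)) (gram A 2 2 β γ))
        (Int.ofNat (ifn% (Nat.beq β γ) B2 0)))) 0) false

/-- Diagonal blocks `4^b X ± 2^r Wz` and off-diagonal block `2^r Wu`. -/
noncomputable def kD (B2 R : ℤ) (A' : Tn) (X : List SL) (s α α' : ℕ) : ℤ :=
  fz (dig% ℤ s (Int.add (Int.mul B2 (xval X α α')) (Int.mul R (wzI A' α α')))
    (Int.mul B2 (xval X α α')) (Int.sub (Int.mul B2 (xval X α α')) (Int.mul R (wzI A' α α'))))

noncomputable def kU (R : ℤ) (A' : Tn) (α α' : ℕ) : ℤ := fz (Int.mul R (wuI A' α α'))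

noncomputable def tI (B2 R : ℤ) (A' A : Tn) (X : List SL) (s α γ : ℕ) : ℤ :=
  fz (Int.add ((A.col s γ).dot (kD B2 R A' X s α))
    (dig% ℤ s ((A.col 1 γ).dot fun α' => kU R A' α' α)
      (Int.add ((A.col 0 γ).dot (kU R A' α)) ((A.col 2 γ).dot fun α' => kU R A' α' α))
      ((A.col 1 γ).dot (kU R A' α))))

/-- `16^b (X' + e) - ∑ Aᵀ K A`. -/
noncomputable def mI (B2 B4 R e : ℤ) (A' A : Tn) (X X' : List SL) (β γ : ℕ) : ℤ :=
  fz (Int.sub (Int.mul B4 (ift% ℤ (Nat.beq β γ) (Int.add (xval X' β γ) e) (xval X' β γ)))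
    (Int.add (Int.add ((A.col 0 β).dot fun α => tI B2 R A' A X 0 α γ)
      ((A.col 1 β).dot fun α => tI B2 R A' A X 1 α γ))
      ((A.col 2 β).dot fun α => tI B2 R A' A X 2 α γ)))

/-- Diagonal dominance. -/
noncomputable def ddChk (D : ℕ) (m : ℕ → ℕ → ℤ) : Bool :=
  allLt D fun β => Nat.ble
    (sumLt D fun γ => Nat.add (Int.natAbs (m β γ)) (Int.natAbs (m γ β)))
    (Nat.mul 4 (Int.toNat (m β β)))

/-- One step: from the bound `X` after the tensor `A'` to the bound `X' + e` after `A`. -/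
noncomputable def stepChk (D' b r : ℕ) (e : ℤ) (A' A : Tn) (X X' : List SL) : Bool :=
  frc (Nat.shiftLeft 1 (Nat.mul 2 b)) fun B2 => frc (Nat.mul B2 B2) fun B4 =>
  frc (Nat.shiftLeft 1 r) fun R =>
    ddChk D' (mI (Int.ofNat B2) (Int.ofNat B4) (Int.ofNat R) e A' A X X')

/-- State of the recursion after the tensor `A` (dimensions `D0 → D`). -/
def MI (n D0 D b r : ℕ) (A : Tn) (X : List SL) (c : ℝ) : Prop :=
  isoChk D0 D (4 ^ b) A = true ∧
    MInv (3 / 5) n D (xreal X r) c (WZ D0 (A.real b)) (WU D0 (A.real b))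

end Crest.Agent.R347
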