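import Crest.Agent.R347.CDefs

/-! Polynomials, number formats and outputs of the runs. -/

set_option autoImplicit false
set_option maxRecDepth 100000
set_option Elab.async false

namespace Crest.Agent.R347.Dat

open Crest.Agent.R347 Crest.Agent.R347.K

noncomputable def pOp4_2 : PD :=
  ⟨49, 20, 193, 8, 101, 22,
    [123272, 1647181, 8235863, 77573736, 609847556, 3373959253]⟩

noncomputable def dOp4_2 : SD :=
  ⟨pOp4_2, 46, 5202248, 676366009, 1000, 3806, 0, 97, -7392, 28353, 0, 0⟩

noncomputable def cOp4_2_0 : CD :=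
  ⟨[(2, 2), (4, 2), (6, 2), (10, 2), (12, 1), (28, 1)],
    6, 27487738085574,
    2814952506196277,
    0⟩

noncomputable def pOp4_3 : PD :=
  ⟨76, 33, 225, 8, 133, 19,
    [5, 128, 2409, 53765, 1150284, 23386827, 451024240, 8229850029, 141665452256, 2292310559873,
    34712221399847, 488999638848926, 6353908775791835, 75127511856892936, 788770089771532129,
    6967904762912213476, 43678688266844859093]⟩

noncomputable def dOp4_3 : SD :=
  ⟨pOp4_3, 73, 5202248, 83014936, 1000, 4823, 0, 29304245, 47620419, 47693836, 0, 0⟩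

noncomputable def cOp4_3_0 : CD :=
  ⟨[(5, 2), (7, 2), (11, 2), (13, 2), (15, 2), (19, 2), (29, 2), (31, 2)],
    8, 4722311536842642033060,
    606532066356719848440016,
    0⟩

noncomputable def pOp4_4 : PD :=
  ⟨70, 30, 222, 8, 130, 20,
    [1, 20, 318, 7214, 147165, 2824273, 51251194, 876980684, 14099927788, 212046865724,
    2965094447523, 38221906397235, 448084384109728, 4661625139398415, 40779547815631393,
    252978190810138382]⟩

noncomputable def dOp4_4 : SD :=
  ⟨pOp4_4, 67, 5202248, 86294543, 1000, 4753, 0, 2335893, 27300111, 27363512, 0, 0⟩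

noncomputable def cOp4_4_0 : CD :=
  ⟨[(8, 2), (14, 2), (16, 2), (20, 2), (22, 2), (24, 1), (32, 2), (34, 2), (38, 2), (40, 1), (56, 1)],
    11, 104050673230811537398,
    11242342674396662049547,
    0⟩

noncomputable def pOp4_5 : PD :=
  ⟨48, 19, 194, 8, 102, 23,
    [4952566, 58643238, 146608110, 814712288]⟩

noncomputable def dOp4_5 : SD :=
  ⟨pOp4_5, 45, 5202248, 744512031, 1000, 3627, 0, 14, -26367, 29935, 0, 0⟩

noncomputable def cOp4_5_0 : CD :=
  ⟨[(17, 2), (23, 2), (25, 2), (35, 2), (41, 2), (43, 2), (47, 2), (59, 2)],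
    8, 17592118927952,
    2251828009901748,
    0⟩

noncomputable def pOm4_3 : PD :=
  ⟨57, 23, 210, 8, 118, 21,
    [138, 2565, 28883, 451624, 6600076, 89473364, 1115500393, 12616073313, 126287699742,
    1060067576658, 6292400659168]⟩

noncomputable def dOm4_3 : SD :=
  ⟨pOm4_3, 54, 5202248, 404050934, 1000, 4333, 0, 3999, 885066, 951761, 0, 0⟩

noncomputable def cOm4_3_0 : CD :=
  ⟨[(5, 1), (7, 1), (11, 1), (13, 1), (15, 1), (19, 1), (21, 1), (29, 1), (31, 1), (33, 1),
    (37, 1), (39, 1), (45, 1), (55, 1), (57, 1), (63, 1)],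
    16, 4503597543822392,
    1153479875044819768,
    0⟩

noncomputable def pOm4_4 : PD :=
  ⟨95, 42, 236, 9, 144, 18,
    [7, 199, 4687, 128159, 3332346, 83048522, 1980560293, 45123918692, 980437602582, 20276144854694,
    398259542718094, 7411381666534224, 130300258963290338, 2156793757617640357,
    33465574383042866752, 483925533695526657290, 6466707950710022185370, 78790390988320670033408,
    854187533147548429440528, 7808376984027959316006798, 50761472821117273758157272]⟩

noncomputable def dOm4_4 : SD :=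
  ⟨pOm4_4, 91, 5202248, 13996650, 1000, 5357, 1, 53237480170, 3385333377, 3385436590, 0, 0⟩

noncomputable def cOm4_4_0 : CD :=
  ⟨[(8, 1), (14, 1), (16, 2), (20, 1), (22, 2), (24, 2), (34, 1), (40, 1), (42, 2), (46, 1),
    (48, 2), (60, 1), (66, 1), (72, 1)],
    14, 1745433091065480109070125546,
    380897120538412708734026277950,
    0⟩


end Crest.Agent.R347.Dat
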