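import Crest.Agent.R347.ExpCert
import Crest.Agent.R347.DO4

/-! Approximation of the exponential. -/

set_option autoImplicit false
set_option maxRecDepth 100000
set_option Elab.async false

namespace Crest.Agent.R347.Dat

open Crest.Agent.R347 Crest.Agent.R347.K

theorem eOp4_2 : PCert 5 ((dOp4_2.p.cb : ℤ) - (5 * (1 + 1 + 1) + 6 : ℕ)) dOp4_2.p.q dOp4_2.p.cs dOp4_2.b dOp4_2.En
    dOp4_2.en :=
  expChk_sound _ _ _ _ _ _ _ 120 10050 (by decide +kernel)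

theorem eOp4_3 : PCert 5 ((dOp4_3.p.cb : ℤ) - (5 * (1 + 1 + 1) + 6 : ℕ)) dOp4_3.p.q dOp4_3.p.cs dOp4_3.b dOp4_3.En
    dOp4_3.en :=
  expChk_sound _ _ _ _ _ _ _ 120 11533 (by decide +kernel)

theorem eOp4_4 : PCert 5 ((dOp4_4.p.cb : ℤ) - (5 * (1 + 1 + 1) + 6 : ℕ)) dOp4_4.p.q dOp4_4.p.cs dOp4_4.b dOp4_4.En
    dOp4_4.en :=
  expChk_sound _ _ _ _ _ _ _ 120 11402 (by decide +kernel)

theorem eOp4_5 : PCert 5 ((dOp4_5.p.cb : ℤ) - (5 * (1 + 1 + 1) + 6 : ℕ)) dOp4_5.p.q dOp4_5.p.cs dOp4_5.b dOp4_5.En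
    dOp4_5.en :=
  expChk_sound _ _ _ _ _ _ _ 120 10100 (by decide +kernel)

theorem eOm4_3 : PCert 5 ((dOm4_3.p.cb : ℤ) - (5 * (1 + 1 + 1) + 6 : ℕ)) dOm4_3.p.q dOm4_3.p.cs dOm4_3.b dOm4_3.En
    dOm4_3.en :=
  expChk_sound _ _ _ _ _ _ _ 120 10863 (by decide +kernel)

theorem eOm4_4 : PCert 5 ((dOm4_4.p.cb : ℤ) - (5 * (1 + 1 + 1) + 6 : ℕ)) dOm4_4.p.q dOm4_4.p.cs dOm4_4.b dOm4_4.En
    dOm4_4.en :=
  expChk_sound _ _ _ _ _ _ _ 120 12000 (by decide +kernel)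


end Crest.Agent.R347.Dat
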