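import Crest.Agent.R347.CDefs

/-! Weights for the Gershgorin bounds and orbit representatives. -/

set_option autoImplicit false
set_option maxRecDepth 100000
set_option Elab.async false

namespace Crest.Agent.R347.Dat

open Crest.Agent.R347 Crest.Agent.R347.K

noncomputable def vOm4 : List ℕ :=
  [0xbc70e488fd73d6baf44dff2edecdf4b8fffd,
    0xd6f0fc6dd431f52afffde674f771fffd,
    0xe7240000e545fc2ade85f6f9fed8,
    0xe402fffdd6f0f6e2fed7e6e5f579fc56,
    0xf6740000eefefdf4e545f6f1fcbe,
    0xedf50000ec57f40b,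
    0xfffd0000f674fc8de724f44def21,
    0xf58a0000edf5ee5e,
    0xe44c]

noncomputable def rOm4_3 : List (ℕ × ℕ) :=
  [(5, 1), (7, 1), (11, 1), (13, 1), (15, 1), (19, 1), (21, 1), (29, 1), (31, 1), (33, 1),
    (37, 1), (39, 1), (45, 1), (55, 1), (57, 1), (63, 1)]

noncomputable def rOm4_4 : List (ℕ × ℕ) :=
  [(8, 1), (14, 1), (16, 2), (20, 1), (22, 2), (24, 2), (34, 1), (40, 1), (42, 2), (46, 1),
    (48, 2), (60, 1), (66, 1), (72, 1)]

noncomputable def wOm4 : List ℕ :=
  [0x10000000000000000000000000000,
    0x20004000100030000000200000000,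
    0x5000000040006000300050000,
    0x60009c00200080000000700000000,
    0x800000007000bc004000a0000,
    0xa00000009000c,
    0xb0000c008000ec005000d0000,
    0xc0000c00a000f,
    0xd]

theorem gOm4_0 : gershO false 1 1 0 1000 0 (vtab vOm4) = true := by decide +kernel

theorem gOm4_1 : gershO false 1 1 1 1000 444 (vtab vOm4) = true := by decide +kernel

theorem gOm4_2 : gershO false 1 1 2 1000 2862 (vtab vOm4) = true := by decide +kernel

theorem gOm4_3 : gershO false 1 1 3 1000 4333 (vtab vOm4) = true := by decide +kernel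

theorem gOm4_4 : gershO false 1 1 4 1000 5357 (vtab vOm4) = true := by decide +kernel

theorem oOm4_3 : orbChk 2 1 1 3 rOm4_3 wOm4 = true := by decide +kernel

theorem oOm4_4 : orbChk 2 1 1 4 rOm4_4 wOm4 = true := by decide +kernel


end Crest.Agent.R347.Dat
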