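import Crest.Agent.R347.CDefs

/-! Weights for the Gershgorin bounds and orbit representatives. -/

set_option autoImplicit false
set_option maxRecDepth 100000
set_option Elab.async false

namespace Crest.Agent.R347.Dat

open Crest.Agent.R347 Crest.Agent.R347.K

noncomputable def vOp4 : List ℕ :=
  [0xdfd8ed8ffe9ae462f535fffde456f56ffffd,
    0xed1cf636fffdf5a4fd52fffdef32f799fffd,
    0xed70f735fda2fc2cff30fffdfffdffa2fe9a,
    0xeef3f5c7ffa2ef3ef74ef799ec06ee53f56f,
    0xf7dafebaff30fe10fdebfd52f7f7f74ef535,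
    0xfc29fc98f735fea2febaf636fffdf5c7ed8f,
    0xfdb4fffdfffdfcfaf7f7ef32ee6fec06e456,
    0xfffdfea2fc2cfffdfe10f5a4fcfaef3ee462,
    0xfffdfc29ed70fffdf7daed1cfdb4eef3dfd8]

noncomputable def rOp4_2 : List (ℕ × ℕ) :=
  [(2, 2), (4, 2), (6, 2), (10, 2), (12, 1), (28, 1)]

noncomputable def rOp4_3 : List (ℕ × ℕ) :=
  [(5, 2), (7, 2), (11, 2), (13, 2), (15, 2), (19, 2), (29, 2), (31, 2)]

noncomputable def rOp4_4 : List (ℕ × ℕ) :=
  [(8, 2), (14, 2), (16, 2), (20, 2), (22, 2), (24, 1), (32, 2), (34, 2), (38, 2), (40, 1), (56, 1)]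

noncomputable def rOp4_5 : List (ℕ × ℕ) :=
  [(17, 2), (23, 2), (25, 2), (35, 2), (41, 2), (43, 2), (47, 2), (59, 2)]

noncomputable def wOp4 : List ℕ :=
  [0x10002000000010000000000000000,
    0x20004000100030004000200030000,
    0x20005000100044004000300054002,
    0x300074005000600074003000600050000,
    0x54004000400094003000840074001,
    0x4002000040054002000640074001,
    0x40064003000740084002000a40064000,
    0x4001000040044001400740064000,
    0x4000000040034000]

theorem gOp4_0 : gershO true 1 1 0 1000 0 (vtab vOp4) = true := by decide +kernel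

theorem gOp4_1 : gershO true 1 1 1 1000 1541 (vtab vOp4) = true := by decide +kernel

theorem gOp4_2 : gershO true 1 1 2 1000 3806 (vtab vOp4) = true := by decide +kernel

theorem gOp4_3 : gershO true 1 1 3 1000 4823 (vtab vOp4) = true := by decide +kernel

theorem gOp4_4 : gershO true 1 1 4 1000 4753 (vtab vOp4) = true := by decide +kernel

theorem gOp4_5 : gershO true 1 1 5 1000 3627 (vtab vOp4) = true := by decide +kernel

theorem gOp4_6 : gershO true 1 1 6 1000 1890 (vtab vOp4) = true := by decide +kernel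

theorem gOp4_7 : gershO true 1 1 7 1000 0 (vtab vOp4) = true := by decide +kernel

theorem gOp4_8 : gershO true 1 1 8 1000 0 (vtab vOp4) = true := by decide +kernel

theorem oOp4_2 : orbChk 1 1 1 2 rOp4_2 wOp4 = true := by decide +kernel

theorem oOp4_3 : orbChk 1 1 1 3 rOp4_3 wOp4 = true := by decide +kernel

theorem oOp4_4 : orbChk 1 1 1 4 rOp4_4 wOp4 = true := by decide +kernel

theorem oOp4_5 : orbChk 1 1 1 5 rOp4_5 wOp4 = true := by decide +kernel


end Crest.Agent.R347.Dat
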