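import Crest.Agent.R347.DO4
import Crest.Agent.R347.DO5
import Crest.Agent.R347.DO6
import Crest.Agent.R347.DO7
import Crest.Agent.R347.X18

/-! Kernel runs. -/

set_option autoImplicit false
set_option maxRecDepth 100000
set_option Elab.async false

namespace Crest.Agent.R347.Dat

open Crest.Agent.R347 Crest.Agent.R347.K

theorem xOp7_5_0 : okO true 3 2 5 pOp7_5 cOp7_5_0 = true := by decide +kernel

theorem xOp7_6_0 : okO true 3 2 6 pOp7_6 cOp7_6_0 = true := by decide +kernel

theorem xOp7_6_1 : okO true 3 2 6 pOp7_6 cOp7_6_1 = true := by decide +kernel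

theorem xOp7_7_0 : okO true 3 2 7 pOp7_7 cOp7_7_0 = true := by decide +kernel

theorem xOp7_7_1 : okO true 3 2 7 pOp7_7 cOp7_7_1 = true := by decide +kernel

theorem xOp7_8_0 : okO true 3 2 8 pOp7_8 cOp7_8_0 = true := by decide +kernel

theorem xOp7_8_1 : okO true 3 2 8 pOp7_8 cOp7_8_1 = true := by decide +kernel

theorem xOm7_5_0 : okO false 3 2 5 pOm7_5 cOm7_5_0 = true := by decide +kernel

theorem xOm7_5_1 : okO false 3 2 5 pOm7_5 cOm7_5_1 = true := by decide +kernel

theorem xOm7_6_0 : okO false 3 2 6 pOm7_6 cOm7_6_0 = true := by decide +kernel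

theorem xOm7_6_1 : okO false 3 2 6 pOm7_6 cOm7_6_1 = true := by decide +kernel

theorem xOm7_6_2 : okO false 3 2 6 pOm7_6 cOm7_6_2 = true := by decide +kernel

theorem xOm7_7_0 : okO false 3 2 7 pOm7_7 cOm7_7_0 = true := by decide +kernel

theorem xOm7_7_1 : okO false 3 2 7 pOm7_7 cOm7_7_1 = true := by decide +kernel

theorem xOp6_4_0 : okO true 2 2 4 pOp6_4 cOp6_4_0 = true := by decide +kernel

theorem xOp6_5_0 : okO true 2 2 5 pOp6_5 cOp6_5_0 = true := by decide +kernel

theorem xOp6_6_0 : okO true 2 2 6 pOp6_6 cOp6_6_0 = true := by decide +kernel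

theorem xOp6_7_0 : okO true 2 2 7 pOp6_7 cOp6_7_0 = true := by decide +kernel

theorem xOm6_4_0 : okO false 2 2 4 pOm6_4 cOm6_4_0 = true := by decide +kernel

theorem xOm6_5_0 : okO false 2 2 5 pOm6_5 cOm6_5_0 = true := by decide +kernel

theorem xOm6_6_0 : okO false 2 2 6 pOm6_6 cOm6_6_0 = true := by decide +kernel

theorem xOp5_3_0 : okO true 2 1 3 pOp5_3 cOp5_3_0 = true := by decide +kernel

theorem xOp5_4_0 : okO true 2 1 4 pOp5_4 cOp5_4_0 = true := by decide +kernel

theorem xOp5_5_0 : okO true 2 1 5 pOp5_5 cOp5_5_0 = true := by decide +kernel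

theorem xOp5_6_0 : okO true 2 1 6 pOp5_6 cOp5_6_0 = true := by decide +kernel

theorem xOm5_4_0 : okO false 2 1 4 pOm5_4 cOm5_4_0 = true := by decide +kernel

theorem xOm5_5_0 : okO false 2 1 5 pOm5_5 cOm5_5_0 = true := by decide +kernel

theorem xOp4_2_0 : okO true 1 1 2 pOp4_2 cOp4_2_0 = true := by decide +kernel

theorem xOp4_3_0 : okO true 1 1 3 pOp4_3 cOp4_3_0 = true := by decide +kernel

theorem xOp4_4_0 : okO true 1 1 4 pOp4_4 cOp4_4_0 = true := by decide +kernel

theorem xOp4_5_0 : okO true 1 1 5 pOp4_5 cOp4_5_0 = true := by decide +kernel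

theorem xOm4_3_0 : okO false 1 1 3 pOm4_3 cOm4_3_0 = true := by decide +kernel

theorem xOm4_4_0 : okO false 1 1 4 pOm4_4 cOm4_4_0 = true := by decide +kernel


end Crest.Agent.R347.Dat
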