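import Crest.Agent.R347.Asm
import Crest.Agent.R347.EO4
import Crest.Agent.R347.TOm4
import Crest.Agent.R347.TOp4
import Crest.Agent.R347.X26

/-! Bounds for the sector sums and their totals. -/

set_option autoImplicit false
set_option maxRecDepth 100000
set_option Elab.async false

namespace Crest.Agent.R347.Dat

open Crest.Agent.R347 Crest.Agent.R347.K

theorem sOp4_2 : Btw (ZO true 2 2) (-7392) 28353 :=
  aO 1 1 2 dOp4_2 [cOp4_2_0] true rfl
    (all_cons xOp4_2_0 all_nil)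
    oOp4_2 gOp4_2 (by decide +kernel) eOp4_2 (by decide +kernel)

theorem sOp4_3 : Btw (ZO true 2 3) 47620419 47693836 :=
  aO 1 1 3 dOp4_3 [cOp4_3_0] true rfl
    (all_cons xOp4_3_0 all_nil)
    oOp4_3 gOp4_3 (by decide +kernel) eOp4_3 (by decide +kernel)

theorem sOp4_4 : Btw (ZO true 2 4) 27300111 27363512 :=
  aO 1 1 4 dOp4_4 [cOp4_4_0] true rfl
    (all_cons xOp4_4_0 all_nil)
    oOp4_4 gOp4_4 (by decide +kernel) eOp4_4 (by decide +kernel)

theorem sOp4_5 : Btw (ZO true 2 5) (-26367) 29935 :=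
  aO 1 1 5 dOp4_5 [cOp4_5_0] true rfl
    (all_cons xOp4_5_0 all_nil)
    oOp4_5 gOp4_5 (by decide +kernel) eOp4_5 (by decide +kernel)

theorem sOm4_3 : Btw (ZO false 2 3) 885066 951761 :=
  aO 1 1 3 dOm4_3 [cOm4_3_0] false rfl
    (all_cons xOm4_3_0 all_nil)
    oOm4_3 gOm4_3 (by decide +kernel) eOm4_3 (by decide +kernel)

theorem sOm4_4 : Btw (ZO false 2 4) 3385333377 3385436590 :=
  aO 1 1 4 dOm4_4 [cOm4_4_0] false rfl
    (all_cons xOm4_4_0 all_nil)
    oOm4_4 gOm4_4 (by decide +kernel) eOm4_4 (by decide +kernel)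

theorem sOp4_0 : Btw (ZO true 2 0) 0 1 :=
  cO 1 1 0 true 60 1 gOp4_0 (by decide +kernel)

theorem sOp4_1 : Btw (ZO true 2 1) 0 1 :=
  cO 1 1 1 true 42 1 gOp4_1 (by decide +kernel)

theorem sOp4_6 : Btw (ZO true 2 6) 0 1 :=
  cO 1 1 6 true 38 1 gOp4_6 (by decide +kernel)

theorem sOp4_7 : Btw (ZO true 2 7) 0 1 :=
  cO 1 1 7 true 60 1 gOp4_7 (by decide +kernel)

theorem sOp4_8 : Btw (ZO true 2 8) 0 1 :=
  cO 1 1 8 true 60 1 gOp4_8 (by decide +kernel)

theorem sOm4_0 : Btw (ZO false 2 0) 0 1 :=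
  cO 1 1 0 false 60 1 gOm4_0 (by decide +kernel)

theorem sOm4_1 : Btw (ZO false 2 1) 0 1 :=
  cO 1 1 1 false 54 1 gOm4_1 (by decide +kernel)

theorem sOm4_2 : Btw (ZO false 2 2) 0 75 :=
  cO 1 1 2 false 27 75 gOm4_2 (by decide +kernel)

theorem zOp4 : Btw (zo 1 8 2 * no 1 2) 74886771 75115641 := by
  have h := zoP_sum 2
  have h0 := sOp4_0
  have h1 := sOp4_1
  have h2 := sOp4_2
  have h3 := sOp4_3
  have h4 := sOp4_4
  have h5 := sOp4_5
  have h6 := sOp4_6
  have h7 := sOp4_7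
  have h8 := sOp4_8
  simp only [Finset.sum_range_succ, Finset.sum_range_zero, Nat.reduceAdd, Nat.reduceMul] at h
  unfold Btw at *
  push_cast at *
  constructor <;> linarith [h0.1, h0.2, h1.1, h1.2, h2.1, h2.2, h3.1, h3.2, h4.1, h4.2, h5.1, h5.2, h6.1, h6.2, h7.1, h7.2,
    h8.1, h8.2]

theorem uOp4 : Btw (go 1 8 2 * no 1 2) (-20431054) (-20202184) := by
  have h := goP_sum 2
  have h0 := sOp4_0
  have h1 := sOp4_1
  have h2 := sOp4_2
  have h3 := sOp4_3
  have h4 := sOp4_4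
  have h5 := sOp4_5
  have h6 := sOp4_6
  have h7 := sOp4_7
  have h8 := sOp4_8
  simp only [Finset.sum_range_succ, Finset.sum_range_zero, Nat.reduceAdd, Nat.reduceMul] at h
  unfold Btw at *
  push_cast at *
  constructor <;> linarith [h0.1, h0.2, h1.1, h1.2, h2.1, h2.2, h3.1, h3.2, h4.1, h4.2, h5.1, h5.2, h6.1, h6.2, h7.1, h7.2,
    h8.1, h8.2]

theorem zOm4 : Btw (zo (-1) 8 2 * no 1 2) 3387103509 3387340266 := by
  have h := zoM_sum 2
  have h0 := sOm4_0
  have h1 := sOm4_1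
  have h2 := sOm4_2
  have h3 := sOm4_3
  have h4 := sOm4_4
  simp only [Finset.sum_range_succ, Finset.sum_range_zero, Nat.reduceAdd, Nat.reduceMul] at h
  unfold Btw at *
  push_cast at *
  constructor <;> linarith [h0.1, h0.2, h1.1, h1.2, h2.1, h2.2, h3.1, h3.2, h4.1, h4.2]

theorem uOm4 : Btw (go (-1) 8 2 * no 1 2) 3383429853 3383666610 := by
  have h := goM_sum 2
  have h0 := sOm4_0
  have h1 := sOm4_1
  have h2 := sOm4_2
  have h3 := sOm4_3
  have h4 := sOm4_4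
  simp only [Finset.sum_range_succ, Finset.sum_range_zero, Nat.reduceAdd, Nat.reduceMul] at h
  unfold Btw at *
  push_cast at *
  constructor <;> linarith [h0.1, h0.2, h1.1, h1.2, h2.1, h2.2, h3.1, h3.2, h4.1, h4.2]


end Crest.Agent.R347.Dat
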