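import Crest.Agent.R347.ExpCert
import Crest.Agent.R347.DO5

/-! Approximation of the exponential. -/

set_option autoImplicit false
set_option maxRecDepth 100000
set_option Elab.async false

namespace Crest.Agent.R347.Dat

open Crest.Agent.R347 Crest.Agent.R347.K

theorem eOp5_3 : PCert 5 ((dOp5_3.p.cb : ℤ) - (5 * (2 + 1 + 1) + 6 : ℕ)) dOp5_3.p.q dOp5_3.p.cs dOp5_3.b dOp5_3.En
    dOp5_3.en :=
  expChk_sound _ _ _ _ _ _ _ 120 13380 (by decide +kernel)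

theorem eOp5_4 : PCert 5 ((dOp5_4.p.cb : ℤ) - (5 * (2 + 1 + 1) + 6 : ℕ)) dOp5_4.p.q dOp5_4.p.cs dOp5_4.b dOp5_4.En
    dOp5_4.en :=
  expChk_sound _ _ _ _ _ _ _ 120 15000 (by decide +kernel)

theorem eOp5_5 : PCert 5 ((dOp5_5.p.cb : ℤ) - (5 * (2 + 1 + 1) + 6 : ℕ)) dOp5_5.p.q dOp5_5.p.cs dOp5_5.b dOp5_5.En
    dOp5_5.en :=
  expChk_sound _ _ _ _ _ _ _ 120 14036 (by decide +kernel)

theorem eOp5_6 : PCert 5 ((dOp5_6.p.cb : ℤ) - (5 * (2 + 1 + 1) + 6 : ℕ)) dOp5_6.p.q dOp5_6.p.cs dOp5_6.b dOp5_6.En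
    dOp5_6.en :=
  expChk_sound _ _ _ _ _ _ _ 120 13039 (by decide +kernel)

theorem eOm5_4 : PCert 5 ((dOm5_4.p.cb : ℤ) - (5 * (2 + 1 + 1) + 6 : ℕ)) dOm5_4.p.q dOm5_4.p.cs dOm5_4.b dOm5_4.En
    dOm5_4.en :=
  expChk_sound _ _ _ _ _ _ _ 120 14000 (by decide +kernel)

theorem eOm5_5 : PCert 5 ((dOm5_5.p.cb : ℤ) - (5 * (2 + 1 + 1) + 6 : ℕ)) dOm5_5.p.q dOm5_5.p.cs dOm5_5.b dOm5_5.En
    dOm5_5.en :=
  expChk_sound _ _ _ _ _ _ _ 120 14867 (by decide +kernel)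


end Crest.Agent.R347.Dat
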