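import Crest.Agent.R347.CDefs

/-! Weights for the Gershgorin bounds and orbit representatives. -/

set_option autoImplicit false
set_option maxRecDepth 100000
set_option Elab.async false

namespace Crest.Agent.R347.Dat

open Crest.Agent.R347 Crest.Agent.R347.K

noncomputable def vOm5 : List ℕ :=
  [0xae4ad72ff4faccd9e7d0fe09d58eef78fffd,
    0xaf8ecefcf4f3c736ed2cfd0fddbcf47efffd,
    0xc5e3e47cc481ddf1f510d5fbef56fc9b,
    0xc481de62ff4fd512f5fdfffde564f601ff01,
    0xdd47f5f5d6c7ee57ff14e451f763fe1d,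
    0xe52a0000e4d6ee83deeeece0f6bb,
    0xe735fffddeeef678fffde6e0f6f4f700,
    0xefc40000edcdf65fe571eef8f699,
    0xe7f40000e77ee5fe,
    0xc5e3ddf1fdb7d489f499fd33dfcdef6af6e4,
    0xe433f61edd47eeb6fef4e45af6e6fcd8,
    0xee2c0000ed56f4b1e735ef5dfcc3,
    0xed56fe61e4d6f541fe1be560f524f4bf,
    0xfd540000f717f77aedcdf426f6f7,
    0xf6d70000f63ced2b,
    0xfece0000f63cedafe77ee575e695,
    0xf5f70000efb3e43c,
    0xe4c1,
    0xee2cfc1ee52aee9ef5a0de3bec65e5e3,
    0xfffd0000fd54f6caefc4ef0bf426,
    0xff330000feceefb5,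
    0xff330000f6d7ed13e7f4e4a9e460,
    0xfc5c0000f5f7e54c,
    0xec15,
    0xec150000e4c1ce41,
    0xdc93]

noncomputable def rOm5_4 : List (ℕ × ℕ) :=
  [(8, 1), (14, 1), (16, 1), (20, 1), (22, 1), (24, 1), (32, 1), (34, 1), (38, 1), (40, 1),
    (42, 1), (46, 1), (48, 1), (56, 1), (58, 1), (60, 1), (64, 1), (66, 1), (72, 1), (86, 1),
    (88, 1), (92, 1), (94, 1), (96, 1), (100, 1), (102, 1), (110, 1), (112, 1), (114, 1), (118, 1),
    (120, 1), (126, 1), (136, 1), (138, 1), (144, 1), (164, 1), (166, 1), (168, 1), (172, 1),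
    (174, 1), (180, 1), (190, 1), (192, 1), (198, 1), (216, 1)]

noncomputable def rOm5_5 : List (ℕ × ℕ) :=
  [(17, 1), (23, 2), (25, 2), (41, 1), (43, 2), (47, 2), (49, 2), (51, 2), (61, 2), (65, 1),
    (67, 2), (69, 2), (73, 2), (75, 2), (97, 1), (103, 2), (105, 2), (121, 1), (123, 2), (127, 2),
    (129, 2), (141, 2), (145, 1), (147, 2), (153, 2), (177, 1), (183, 2), (201, 1), (207, 2),
    (225, 1)]

noncomputable def wOm5 : List ℕ :=
  [0,
    0x20000000100000000000000000000,
    0x20005000100040000000300000000,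
    0xc00100070000000600000000000000000000,
    0x4000a000300090000000800000000,
    0x700000006000c0005000b0000,
    0x8000fc005000e0000000d00000000,
    0xb0000000a0011000900100000,
    0xd0000000c0012,
    0xc00200140000001300000000000000000000,
    0xe0017c00400160000001500000000,
    0x100000000f0019c00800180000,
    0xc00f001cc006001b0000001a00000000,
    0x1200000011001ec00a001d0000,
    0x1400000013001f,
    0x150000c0130021c00c00200000,
    0x17000000160022,
    0x18,
    0xc0100025c00700240000002300000000,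
    0x190000c0120027c00b00260000,
    0x1a0000c0150028,
    0xc01a0000c014002ac00d00290000,
    0x1b0000c017002b,
    0x1c,
    0xc01c0000c018002c,
    0x1d]

theorem gOm5_0 : gershO false 2 1 0 1000 0 (vtab vOm5) = true := by decide +kernel

theorem gOm5_1 : gershO false 2 1 1 1000 0 (vtab vOm5) = true := by decide +kernel

theorem gOm5_2 : gershO false 2 1 2 1000 2427 (vtab vOm5) = true := by decide +kernel

theorem gOm5_3 : gershO false 2 1 3 1000 4501 (vtab vOm5) = true := by decide +kernel

theorem gOm5_4 : gershO false 2 1 4 1000 5979 (vtab vOm5) = true := by decide +kernel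

theorem gOm5_5 : gershO false 2 1 5 1000 6340 (vtab vOm5) = true := by decide +kernel

theorem oOm5_4 : orbChk 2 2 1 4 rOm5_4 wOm5 = true := by decide +kernel

theorem oOm5_5 : orbChk 2 2 1 5 rOm5_5 wOm5 = true := by decide +kernel


end Crest.Agent.R347.Dat
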