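import Crest.Agent.R347.Asm
import Crest.Agent.R347.EO5
import Crest.Agent.R347.TOm5
import Crest.Agent.R347.TOp5
import Crest.Agent.R347.X26

/-! Bounds for the sector sums and their totals. -/

set_option autoImplicit false
set_option maxRecDepth 100000
set_option Elab.async false

namespace Crest.Agent.R347.Dat

open Crest.Agent.R347 Crest.Agent.R347.K

theorem sOp5_3 : Btw (ZO true 3 3) 13231 61076 :=
  aO 2 1 3 dOp5_3 [cOp5_3_0] true rfl
    (all_cons xOp5_3_0 all_nil)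
    oOp5_3 gOp5_3 (by decide +kernel) eOp5_3 (by decide +kernel)

theorem sOp5_4 : Btw (ZO true 3 4) 2650062513 2650136056 :=
  aO 2 1 4 dOp5_4 [cOp5_4_0] true rfl
    (all_cons xOp5_4_0 all_nil)
    oOp5_4 gOp5_4 (by decide +kernel) eOp5_4 (by decide +kernel)

theorem sOp5_5 : Btw (ZO true 3 5) 8476892 8540805 :=
  aO 2 1 5 dOp5_5 [cOp5_5_0] true rfl
    (all_cons xOp5_5_0 all_nil)
    oOp5_5 gOp5_5 (by decide +kernel) eOp5_5 (by decide +kernel)

theorem sOp5_6 : Btw (ZO true 3 6) (-11533) 35963 :=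
  aO 2 1 6 dOp5_6 [cOp5_6_0] true rfl
    (all_cons xOp5_6_0 all_nil)
    oOp5_6 gOp5_6 (by decide +kernel) eOp5_6 (by decide +kernel)

theorem sOm5_4 : Btw (ZO false 3 4) 6500522 6599258 :=
  aO 2 1 4 dOm5_4 [cOm5_4_0] false rfl
    (all_cons xOm5_4_0 all_nil)
    oOm5_4 gOm5_4 (by decide +kernel) eOm5_4 (by decide +kernel)

theorem sOm5_5 : Btw (ZO false 3 5) 117878437 117980505 :=
  aO 2 1 5 dOm5_5 [cOm5_5_0] false rfl
    (all_cons xOm5_5_0 all_nil)
    oOm5_5 gOm5_5 (by decide +kernel) eOm5_5 (by decide +kernel)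

theorem sOp5_0 : Btw (ZO true 3 0) 0 1 :=
  cO 2 1 0 true 76 1 gOp5_0 (by decide +kernel)

theorem sOp5_1 : Btw (ZO true 3 1) 0 1 :=
  cO 2 1 1 true 67 1 gOp5_1 (by decide +kernel)

theorem sOp5_2 : Btw (ZO true 3 2) 0 1 :=
  cO 2 1 2 true 36 1 gOp5_2 (by decide +kernel)

theorem sOp5_7 : Btw (ZO true 3 7) 0 2 :=
  cO 2 1 7 true 34 2 gOp5_7 (by decide +kernel)

theorem sOp5_8 : Btw (ZO true 3 8) 0 1 :=
  cO 2 1 8 true 60 1 gOp5_8 (by decide +kernel)

theorem sOp5_9 : Btw (ZO true 3 9) 0 1 :=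
  cO 2 1 9 true 76 1 gOp5_9 (by decide +kernel)

theorem sOp5_10 : Btw (ZO true 3 10) 0 1 :=
  cO 2 1 10 true 76 1 gOp5_10 (by decide +kernel)

theorem sOm5_0 : Btw (ZO false 3 0) 0 1 :=
  cO 2 1 0 false 76 1 gOm5_0 (by decide +kernel)

theorem sOm5_1 : Btw (ZO false 3 1) 0 1 :=
  cO 2 1 1 false 76 1 gOm5_1 (by decide +kernel)

theorem sOm5_2 : Btw (ZO false 3 2) 0 1 :=
  cO 2 1 2 false 48 1 gOm5_2 (by decide +kernel)

theorem sOm5_3 : Btw (ZO false 3 3) 0 1789 :=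
  cO 2 1 3 false 24 1789 gOm5_3 (by decide +kernel)

theorem zOp5 : Btw (zo 1 8 3 * no 1 3) 2658541103 2658773908 := by
  have h := zoP_sum 3
  have h0 := sOp5_0
  have h1 := sOp5_1
  have h2 := sOp5_2
  have h3 := sOp5_3
  have h4 := sOp5_4
  have h5 := sOp5_5
  have h6 := sOp5_6
  have h7 := sOp5_7
  have h8 := sOp5_8
  have h9 := sOp5_9
  have h10 := sOp5_10
  simp only [Finset.sum_range_succ, Finset.sum_range_zero, Nat.reduceAdd, Nat.reduceMul] at h
  unfold Btw at *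
  push_cast at *
  constructor <;> linarith [h0.1, h0.2, h1.1, h1.2, h2.1, h2.2, h3.1, h3.2, h4.1, h4.2, h5.1, h5.2, h6.1, h6.2, h7.1, h7.2,
    h8.1, h8.2, h9.1, h9.2, h10.1, h10.2]

theorem uOp5 : Btw (go 1 8 3 * no 1 3) (-2641681900) (-2641449095) := by
  have h := goP_sum 3
  have h0 := sOp5_0
  have h1 := sOp5_1
  have h2 := sOp5_2
  have h3 := sOp5_3
  have h4 := sOp5_4
  have h5 := sOp5_5
  have h6 := sOp5_6
  have h7 := sOp5_7
  have h8 := sOp5_8
  have h9 := sOp5_9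
  have h10 := sOp5_10
  simp only [Finset.sum_range_succ, Finset.sum_range_zero, Nat.reduceAdd, Nat.reduceMul] at h
  unfold Btw at *
  push_cast at *
  constructor <;> linarith [h0.1, h0.2, h1.1, h1.2, h2.1, h2.2, h3.1, h3.2, h4.1, h4.2, h5.1, h5.2, h6.1, h6.2, h7.1, h7.2,
    h8.1, h8.2, h9.1, h9.2, h10.1, h10.2]

theorem zOm5 : Btw (zo (-1) 8 3 * no 1 3) 130879481 131182605 := by
  have h := zoM_sum 3
  have h0 := sOm5_0
  have h1 := sOm5_1
  have h2 := sOm5_2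
  have h3 := sOm5_3
  have h4 := sOm5_4
  have h5 := sOm5_5
  simp only [Finset.sum_range_succ, Finset.sum_range_zero, Nat.reduceAdd, Nat.reduceMul] at h
  unfold Btw at *
  push_cast at *
  constructor <;> linarith [h0.1, h0.2, h1.1, h1.2, h2.1, h2.2, h3.1, h3.2, h4.1, h4.2, h5.1, h5.2]

theorem uOm5 : Btw (go (-1) 8 3 * no 1 3) 104679917 104983041 := by
  have h := goM_sum 3
  have h0 := sOm5_0
  have h1 := sOm5_1
  have h2 := sOm5_2
  have h3 := sOm5_3
  have h4 := sOm5_4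
  have h5 := sOm5_5
  simp only [Finset.sum_range_succ, Finset.sum_range_zero, Nat.reduceAdd, Nat.reduceMul] at h
  unfold Btw at *
  push_cast at *
  constructor <;> linarith [h0.1, h0.2, h1.1, h1.2, h2.1, h2.2, h3.1, h3.2, h4.1, h4.2, h5.1, h5.2]


end Crest.Agent.R347.Dat
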