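import Crest.Agent.R347.ExpCert
import Crest.Agent.R347.DO6

/-! Approximation of the exponential. -/

set_option autoImplicit false
set_option maxRecDepth 100000
set_option Elab.async false

namespace Crest.Agent.R347.Dat

open Crest.Agent.R347 Crest.Agent.R347.K

theorem eOp6_4 : PCert 5 ((dOp6_4.p.cb : ℤ) - (5 * (2 + 2 + 1) + 6 : ℕ)) dOp6_4.p.q dOp6_4.p.cs dOp6_4.b dOp6_4.En
    dOp6_4.en :=
  expChk_sound _ _ _ _ _ _ _ 120 16523 (by decide +kernel)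

theorem eOp6_5 : PCert 5 ((dOp6_5.p.cb : ℤ) - (5 * (2 + 2 + 1) + 6 : ℕ)) dOp6_5.p.q dOp6_5.p.cs dOp6_5.b dOp6_5.En
    dOp6_5.en :=
  expChk_sound _ _ _ _ _ _ _ 120 17522 (by decide +kernel)

theorem eOp6_6 : PCert 5 ((dOp6_6.p.cb : ℤ) - (5 * (2 + 2 + 1) + 6 : ℕ)) dOp6_6.p.q dOp6_6.p.cs dOp6_6.b dOp6_6.En
    dOp6_6.en :=
  expChk_sound _ _ _ _ _ _ _ 120 17379 (by decide +kernel)

theorem eOp6_7 : PCert 5 ((dOp6_7.p.cb : ℤ) - (5 * (2 + 2 + 1) + 6 : ℕ)) dOp6_7.p.q dOp6_7.p.cs dOp6_7.b dOp6_7.En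
    dOp6_7.en :=
  expChk_sound _ _ _ _ _ _ _ 120 16094 (by decide +kernel)

theorem eOm6_4 : PCert 5 ((dOm6_4.p.cb : ℤ) - (5 * (2 + 2 + 1) + 6 : ℕ)) dOm6_4.p.q dOm6_4.p.cs dOm6_4.b dOm6_4.En
    dOm6_4.en :=
  expChk_sound _ _ _ _ _ _ _ 120 15812 (by decide +kernel)

theorem eOm6_5 : PCert 5 ((dOm6_5.p.cb : ℤ) - (5 * (2 + 2 + 1) + 6 : ℕ)) dOm6_5.p.q dOm6_5.p.cs dOm6_5.b dOm6_5.En
    dOm6_5.en :=
  expChk_sound _ _ _ _ _ _ _ 120 17000 (by decide +kernel)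

theorem eOm6_6 : PCert 5 ((dOm6_6.p.cb : ℤ) - (5 * (2 + 2 + 1) + 6 : ℕ)) dOm6_6.p.q dOm6_6.p.cs dOm6_6.b dOm6_6.En
    dOm6_6.en :=
  expChk_sound _ _ _ _ _ _ _ 120 18000 (by decide +kernel)


end Crest.Agent.R347.Dat
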