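import Crest.Agent.R347.Asm
import Crest.Agent.R347.EO6
import Crest.Agent.R347.TOm6
import Crest.Agent.R347.TOp6
import Crest.Agent.R347.X26

/-! Bounds for the sector sums and their totals. -/

set_option autoImplicit false
set_option maxRecDepth 100000
set_option Elab.async false

namespace Crest.Agent.R347.Dat

open Crest.Agent.R347 Crest.Agent.R347.K

theorem sOp6_4 : Btw (ZO true 4 4) 189588 258244 :=
  aO 2 2 4 dOp6_4 [cOp6_4_0] true rfl
    (all_cons xOp6_4_0 all_nil)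
    oOp6_4 gOp6_4 (by decide +kernel) eOp6_4 (by decide +kernel)

theorem sOp6_5 : Btw (ZO true 4 5) 178075981 178140291 :=
  aO 2 2 5 dOp6_5 [cOp6_5_0] true rfl
    (all_cons xOp6_5_0 all_nil)
    oOp6_5 gOp6_5 (by decide +kernel) eOp6_5 (by decide +kernel)

theorem sOp6_6 : Btw (ZO true 4 6) 25110001 25185874 :=
  aO 2 2 6 dOp6_6 [cOp6_6_0] true rfl
    (all_cons xOp6_6_0 all_nil)
    oOp6_6 gOp6_6 (by decide +kernel) eOp6_6 (by decide +kernel)

theorem sOp6_7 : Btw (ZO true 4 7) (-13139) 43227 :=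
  aO 2 2 7 dOp6_7 [cOp6_7_0] true rfl
    (all_cons xOp6_7_0 all_nil)
    oOp6_7 gOp6_7 (by decide +kernel) eOp6_7 (by decide +kernel)

theorem sOm6_4 : Btw (ZO false 4 4) (-18580) 19051 :=
  aO 2 2 4 dOm6_4 [cOm6_4_0] false rfl
    (all_cons xOm6_4_0 all_nil)
    oOm6_4 gOm6_4 (by decide +kernel) eOm6_4 (by decide +kernel)

theorem sOm6_5 : Btw (ZO false 4 5) 3230323 3289954 :=
  aO 2 2 5 dOm6_5 [cOm6_5_0] false rfl
    (all_cons xOm6_5_0 all_nil)
    oOm6_5 gOm6_5 (by decide +kernel) eOm6_5 (by decide +kernel)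

theorem sOm6_6 : Btw (ZO false 4 6) 2367317914 2367369513 :=
  aO 2 2 6 dOm6_6 [cOm6_6_0] false rfl
    (all_cons xOm6_6_0 all_nil)
    oOm6_6 gOm6_6 (by decide +kernel) eOm6_6 (by decide +kernel)

theorem sOp6_0 : Btw (ZO true 4 0) 0 1 :=
  cO 2 2 0 true 92 1 gOp6_0 (by decide +kernel)

theorem sOp6_1 : Btw (ZO true 4 1) 0 1 :=
  cO 2 2 1 true 92 1 gOp6_1 (by decide +kernel)

theorem sOp6_2 : Btw (ZO true 4 2) 0 1 :=
  cO 2 2 2 true 58 1 gOp6_2 (by decide +kernel)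

theorem sOp6_3 : Btw (ZO true 4 3) 0 12 :=
  cO 2 2 3 true 32 12 gOp6_3 (by decide +kernel)

theorem sOp6_8 : Btw (ZO true 4 8) 0 42 :=
  cO 2 2 8 true 31 42 gOp6_8 (by decide +kernel)

theorem sOp6_9 : Btw (ZO true 4 9) 0 1 :=
  cO 2 2 9 true 54 1 gOp6_9 (by decide +kernel)

theorem sOp6_10 : Btw (ZO true 4 10) 0 1 :=
  cO 2 2 10 true 83 1 gOp6_10 (by decide +kernel)

theorem sOp6_11 : Btw (ZO true 4 11) 0 1 :=
  cO 2 2 11 true 92 1 gOp6_11 (by decide +kernel)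

theorem sOp6_12 : Btw (ZO true 4 12) 0 1 :=
  cO 2 2 12 true 92 1 gOp6_12 (by decide +kernel)

theorem sOm6_0 : Btw (ZO false 4 0) 0 1 :=
  cO 2 2 0 false 92 1 gOm6_0 (by decide +kernel)

theorem sOm6_1 : Btw (ZO false 4 1) 0 1 :=
  cO 2 2 1 false 92 1 gOm6_1 (by decide +kernel)

theorem sOm6_2 : Btw (ZO false 4 2) 0 1 :=
  cO 2 2 2 false 71 1 gOm6_2 (by decide +kernel)

theorem sOm6_3 : Btw (ZO false 4 3) 0 1 :=
  cO 2 2 3 false 43 1 gOm6_3 (by decide +kernel)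

theorem zOp6 : Btw (zo 1 8 4 * no 1 4) 203362431 203627697 := by
  have h := zoP_sum 4
  have h0 := sOp6_0
  have h1 := sOp6_1
  have h2 := sOp6_2
  have h3 := sOp6_3
  have h4 := sOp6_4
  have h5 := sOp6_5
  have h6 := sOp6_6
  have h7 := sOp6_7
  have h8 := sOp6_8
  have h9 := sOp6_9
  have h10 := sOp6_10
  have h11 := sOp6_11
  have h12 := sOp6_12
  simp only [Finset.sum_range_succ, Finset.sum_range_zero, Nat.reduceAdd, Nat.reduceMul] at h
  unfold Btw at *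
  push_cast at *
  constructor <;> linarith [h0.1, h0.2, h1.1, h1.2, h2.1, h2.2, h3.1, h3.2, h4.1, h4.2, h5.1, h5.2, h6.1, h6.2, h7.1, h7.2,
    h8.1, h8.2, h9.1, h9.2, h10.1, h10.2, h11.1, h11.2, h12.1, h12.2]

theorem uOp6 : Btw (go 1 8 4 * no 1 4) (-152883944) (-152618678) := by
  have h := goP_sum 4
  have h0 := sOp6_0
  have h1 := sOp6_1
  have h2 := sOp6_2
  have h3 := sOp6_3
  have h4 := sOp6_4
  have h5 := sOp6_5
  have h6 := sOp6_6
  have h7 := sOp6_7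
  have h8 := sOp6_8
  have h9 := sOp6_9
  have h10 := sOp6_10
  have h11 := sOp6_11
  have h12 := sOp6_12
  simp only [Finset.sum_range_succ, Finset.sum_range_zero, Nat.reduceAdd, Nat.reduceMul] at h
  unfold Btw at *
  push_cast at *
  constructor <;> linarith [h0.1, h0.2, h1.1, h1.2, h2.1, h2.2, h3.1, h3.2, h4.1, h4.2, h5.1, h5.2, h6.1, h6.2, h7.1, h7.2,
    h8.1, h8.2, h9.1, h9.2, h10.1, h10.2, h11.1, h11.2, h12.1, h12.2]

theorem zOm6 : Btw (zo (-1) 8 4 * no 1 4) 2373741400 2373987531 := by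
  have h := zoM_sum 4
  have h0 := sOm6_0
  have h1 := sOm6_1
  have h2 := sOm6_2
  have h3 := sOm6_3
  have h4 := sOm6_4
  have h5 := sOm6_5
  have h6 := sOm6_6
  simp only [Finset.sum_range_succ, Finset.sum_range_zero, Nat.reduceAdd, Nat.reduceMul] at h
  unfold Btw at *
  push_cast at *
  constructor <;> linarith [h0.1, h0.2, h1.1, h1.2, h2.1, h2.2, h3.1, h3.2, h4.1, h4.2, h5.1, h5.2, h6.1, h6.2]

theorem uOm6 : Btw (go (-1) 8 4 * no 1 4) 2360700842 2360946973 := by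
  have h := goM_sum 4
  have h0 := sOm6_0
  have h1 := sOm6_1
  have h2 := sOm6_2
  have h3 := sOm6_3
  have h4 := sOm6_4
  have h5 := sOm6_5
  have h6 := sOm6_6
  simp only [Finset.sum_range_succ, Finset.sum_range_zero, Nat.reduceAdd, Nat.reduceMul] at h
  unfold Btw at *
  push_cast at *
  constructor <;> linarith [h0.1, h0.2, h1.1, h1.2, h2.1, h2.2, h3.1, h3.2, h4.1, h4.2, h5.1, h5.2, h6.1, h6.2]


end Crest.Agent.R347.Dat
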