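import Crest.Agent.R347.ExpCert
import Crest.Agent.R347.DO7

/-! Approximation of the exponential. -/

set_option autoImplicit false
set_option maxRecDepth 100000
set_option Elab.async false

namespace Crest.Agent.R347.Dat

open Crest.Agent.R347 Crest.Agent.R347.K

theorem eOp7_5 : PCert 5 ((dOp7_5.p.cb : ℤ) - (5 * (3 + 2 + 1) + 6 : ℕ)) dOp7_5.p.q dOp7_5.p.cs dOp7_5.b dOp7_5.En
    dOp7_5.en :=
  expChk_sound _ _ _ _ _ _ _ 120 19571 (by decide +kernel)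

theorem eOp7_6 : PCert 5 ((dOp7_6.p.cb : ℤ) - (5 * (3 + 2 + 1) + 6 : ℕ)) dOp7_6.p.q dOp7_6.p.cs dOp7_6.b dOp7_6.En
    dOp7_6.en :=
  expChk_sound _ _ _ _ _ _ _ 120 21261 (by decide +kernel)

theorem eOp7_7 : PCert 5 ((dOp7_7.p.cb : ℤ) - (5 * (3 + 2 + 1) + 6 : ℕ)) dOp7_7.p.q dOp7_7.p.cs dOp7_7.b dOp7_7.En
    dOp7_7.en :=
  expChk_sound _ _ _ _ _ _ _ 120 20175 (by decide +kernel)

theorem eOp7_8 : PCert 5 ((dOp7_8.p.cb : ℤ) - (5 * (3 + 2 + 1) + 6 : ℕ)) dOp7_8.p.q dOp7_8.p.cs dOp7_8.b dOp7_8.En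
    dOp7_8.en :=
  expChk_sound _ _ _ _ _ _ _ 120 19340 (by decide +kernel)

theorem eOm7_5 : PCert 5 ((dOm7_5.p.cb : ℤ) - (5 * (3 + 2 + 1) + 6 : ℕ)) dOm7_5.p.q dOm7_5.p.cs dOm7_5.b dOm7_5.En
    dOm7_5.en :=
  expChk_sound _ _ _ _ _ _ _ 120 18628 (by decide +kernel)

theorem eOm7_6 : PCert 5 ((dOm7_6.p.cb : ℤ) - (5 * (3 + 2 + 1) + 6 : ℕ)) dOm7_6.p.q dOm7_6.p.cs dOm7_6.b dOm7_6.En
    dOm7_6.en :=
  expChk_sound _ _ _ _ _ _ _ 120 20100 (by decide +kernel)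

theorem eOm7_7 : PCert 5 ((dOm7_7.p.cb : ℤ) - (5 * (3 + 2 + 1) + 6 : ℕ)) dOm7_7.p.q dOm7_7.p.cs dOm7_7.b dOm7_7.En
    dOm7_7.en :=
  expChk_sound _ _ _ _ _ _ _ 120 20640 (by decide +kernel)


end Crest.Agent.R347.Dat
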