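import Crest.Agent.R347.Asm
import Crest.Agent.R347.EO7
import Crest.Agent.R347.TOm7
import Crest.Agent.R347.TOp7
import Crest.Agent.R347.X26

/-! Bounds for the sector sums and their totals. -/

set_option autoImplicit false
set_option maxRecDepth 100000
set_option Elab.async false

namespace Crest.Agent.R347.Dat

open Crest.Agent.R347 Crest.Agent.R347.K

theorem sOp7_5 : Btw (ZO true 5 5) 322451 401766 :=
  aO 3 2 5 dOp7_5 [cOp7_5_0] true rfl
    (all_cons xOp7_5_0 all_nil)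
    oOp7_5 gOp7_5 (by decide +kernel) eOp7_5 (by decide +kernel)

theorem sOp7_6 : Btw (ZO true 5 6) 2053153889 2053231531 :=
  aO 3 2 6 dOp7_6 [cOp7_6_0, cOp7_6_1] true rfl
    (all_cons xOp7_6_0 (all_cons xOp7_6_1 all_nil))
    oOp7_6 gOp7_6 (by decide +kernel) eOp7_6 (by decide +kernel)

theorem sOp7_7 : Btw (ZO true 5 7) 13043659 13115912 :=
  aO 3 2 7 dOp7_7 [cOp7_7_0, cOp7_7_1] true rfl
    (all_cons xOp7_7_0 (all_cons xOp7_7_1 all_nil))
    oOp7_7 gOp7_7 (by decide +kernel) eOp7_7 (by decide +kernel)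

theorem sOp7_8 : Btw (ZO true 5 8) 2268 68194 :=
  aO 3 2 8 dOp7_8 [cOp7_8_0, cOp7_8_1] true rfl
    (all_cons xOp7_8_0 (all_cons xOp7_8_1 all_nil))
    oOp7_8 gOp7_8 (by decide +kernel) eOp7_8 (by decide +kernel)

theorem sOm7_5 : Btw (ZO false 5 5) (-18207) 19716 :=
  aO 3 2 5 dOm7_5 [cOm7_5_0, cOm7_5_1] false rfl
    (all_cons xOm7_5_0 (all_cons xOm7_5_1 all_nil))
    oOm7_5 gOm7_5 (by decide +kernel) eOm7_5 (by decide +kernel)

theorem sOm7_6 : Btw (ZO false 5 6) 9501180 9553507 :=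
  aO 3 2 6 dOm7_6 [cOm7_6_0, cOm7_6_1, cOm7_6_2] false rfl
    (all_cons xOm7_6_0 (all_cons xOm7_6_1 (all_cons xOm7_6_2 all_nil)))
    oOm7_6 gOm7_6 (by decide +kernel) eOm7_6 (by decide +kernel)

theorem sOm7_7 : Btw (ZO false 5 7) 269996680 270056145 :=
  aO 3 2 7 dOm7_7 [cOm7_7_0, cOm7_7_1] false rfl
    (all_cons xOm7_7_0 (all_cons xOm7_7_1 all_nil))
    oOm7_7 gOm7_7 (by decide +kernel) eOm7_7 (by decide +kernel)

theorem sOp7_0 : Btw (ZO true 5 0) 0 1 :=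
  cO 3 2 0 true 108 1 gOp7_0 (by decide +kernel)

theorem sOp7_1 : Btw (ZO true 5 1) 0 1 :=
  cO 3 2 1 true 108 1 gOp7_1 (by decide +kernel)

theorem sOp7_2 : Btw (ZO true 5 2) 0 1 :=
  cO 3 2 2 true 82 1 gOp7_2 (by decide +kernel)

theorem sOp7_3 : Btw (ZO true 5 3) 0 1 :=
  cO 3 2 3 true 52 1 gOp7_3 (by decide +kernel)

theorem sOp7_4 : Btw (ZO true 5 4) 0 600 :=
  cO 3 2 4 true 28 600 gOp7_4 (by decide +kernel)

theorem sOp7_9 : Btw (ZO true 5 9) 0 496 :=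
  cO 3 2 9 true 29 496 gOp7_9 (by decide +kernel)

theorem sOp7_10 : Btw (ZO true 5 10) 0 1 :=
  cO 3 2 10 true 50 1 gOp7_10 (by decide +kernel)

theorem sOp7_11 : Btw (ZO true 5 11) 0 1 :=
  cO 3 2 11 true 76 1 gOp7_11 (by decide +kernel)

theorem sOp7_12 : Btw (ZO true 5 12) 0 1 :=
  cO 3 2 12 true 108 1 gOp7_12 (by decide +kernel)

theorem sOp7_13 : Btw (ZO true 5 13) 0 1 :=
  cO 3 2 13 true 108 1 gOp7_13 (by decide +kernel)

theorem sOp7_14 : Btw (ZO true 5 14) 0 1 :=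
  cO 3 2 14 true 108 1 gOp7_14 (by decide +kernel)

theorem sOm7_0 : Btw (ZO false 5 0) 0 1 :=
  cO 3 2 0 false 108 1 gOm7_0 (by decide +kernel)

theorem sOm7_1 : Btw (ZO false 5 1) 0 1 :=
  cO 3 2 1 false 108 1 gOm7_1 (by decide +kernel)

theorem sOm7_2 : Btw (ZO false 5 2) 0 1 :=
  cO 3 2 2 false 95 1 gOm7_2 (by decide +kernel)

theorem sOm7_3 : Btw (ZO false 5 3) 0 1 :=
  cO 3 2 3 false 64 1 gOm7_3 (by decide +kernel)

theorem sOm7_4 : Btw (ZO false 5 4) 0 1 :=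
  cO 3 2 4 false 39 1 gOm7_4 (by decide +kernel)

theorem zOp7 : Btw (zo 1 8 5 * no 1 5) 2066522267 2066818508 := by
  have h := zoP_sum 5
  have h0 := sOp7_0
  have h1 := sOp7_1
  have h2 := sOp7_2
  have h3 := sOp7_3
  have h4 := sOp7_4
  have h5 := sOp7_5
  have h6 := sOp7_6
  have h7 := sOp7_7
  have h8 := sOp7_8
  have h9 := sOp7_9
  have h10 := sOp7_10
  have h11 := sOp7_11
  have h12 := sOp7_12
  have h13 := sOp7_13
  have h14 := sOp7_14
  simp only [Finset.sum_range_succ, Finset.sum_range_zero, Nat.reduceAdd, Nat.reduceMul] at h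
  unfold Btw at *
  push_cast at *
  constructor <;> linarith [h0.1, h0.2, h1.1, h1.2, h2.1, h2.2, h3.1, h3.2, h4.1, h4.2, h5.1, h5.2, h6.1, h6.2, h7.1, h7.2,
    h8.1, h8.2, h9.1, h9.2, h10.1, h10.2, h11.1, h11.2, h12.1, h12.2, h13.1, h13.2, h14.1, h14.2]

theorem uOp7 : Btw (go 1 8 5 * no 1 5) (-2039934220) (-2039637979) := by
  have h := goP_sum 5
  have h0 := sOp7_0
  have h1 := sOp7_1
  have h2 := sOp7_2
  have h3 := sOp7_3
  have h4 := sOp7_4
  have h5 := sOp7_5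
  have h6 := sOp7_6
  have h7 := sOp7_7
  have h8 := sOp7_8
  have h9 := sOp7_9
  have h10 := sOp7_10
  have h11 := sOp7_11
  have h12 := sOp7_12
  have h13 := sOp7_13
  have h14 := sOp7_14
  simp only [Finset.sum_range_succ, Finset.sum_range_zero, Nat.reduceAdd, Nat.reduceMul] at h
  unfold Btw at *
  push_cast at *
  constructor <;> linarith [h0.1, h0.2, h1.1, h1.2, h2.1, h2.2, h3.1, h3.2, h4.1, h4.2, h5.1, h5.2, h6.1, h6.2, h7.1, h7.2,
    h8.1, h8.2, h9.1, h9.2, h10.1, h10.2, h11.1, h11.2, h12.1, h12.2, h13.1, h13.2, h14.1, h14.2]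

theorem zOm7 : Btw (zo (-1) 8 5 * no 1 5) 288962626 289202601 := by
  have h := zoM_sum 5
  have h0 := sOm7_0
  have h1 := sOm7_1
  have h2 := sOm7_2
  have h3 := sOm7_3
  have h4 := sOm7_4
  have h5 := sOm7_5
  have h6 := sOm7_6
  have h7 := sOm7_7
  simp only [Finset.sum_range_succ, Finset.sum_range_zero, Nat.reduceAdd, Nat.reduceMul] at h
  unfold Btw at *
  push_cast at *
  constructor <;> linarith [h0.1, h0.2, h1.1, h1.2, h2.1, h2.2, h3.1, h3.2, h4.1, h4.2, h5.1, h5.2, h6.1, h6.2, h7.1, h7.2]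

theorem uOm7 : Btw (go (-1) 8 5 * no 1 5) 250853246 251093221 := by
  have h := goM_sum 5
  have h0 := sOm7_0
  have h1 := sOm7_1
  have h2 := sOm7_2
  have h3 := sOm7_3
  have h4 := sOm7_4
  have h5 := sOm7_5
  have h6 := sOm7_6
  have h7 := sOm7_7
  simp only [Finset.sum_range_succ, Finset.sum_range_zero, Nat.reduceAdd, Nat.reduceMul] at h
  unfold Btw at *
  push_cast at *
  constructor <;> linarith [h0.1, h0.2, h1.1, h1.2, h2.1, h2.2, h3.1, h3.2, h4.1, h4.2, h5.1, h5.2, h6.1, h6.2, h7.1, h7.2]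


end Crest.Agent.R347.Dat
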