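import Crest.Agent.R347.ExpCert
import Crest.Agent.R347.DO8

/-! Approximation of the exponential. -/

set_option autoImplicit false
set_option maxRecDepth 100000
set_option Elab.async false

namespace Crest.Agent.R347.Dat

open Crest.Agent.R347 Crest.Agent.R347.K

theorem eOp8_6 : PCert 5 ((dOp8_6.p.cb : ℤ) - (5 * (3 + 3 + 1) + 6 : ℕ)) dOp8_6.p.q dOp8_6.p.cs dOp8_6.b dOp8_6.En
    dOp8_6.en :=
  expChk_sound _ _ _ _ _ _ _ 120 22892 (by decide +kernel)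

theorem eOp8_7 : PCert 5 ((dOp8_7.p.cb : ℤ) - (5 * (3 + 3 + 1) + 6 : ℕ)) dOp8_7.p.q dOp8_7.p.cs dOp8_7.b dOp8_7.En
    dOp8_7.en :=
  expChk_sound _ _ _ _ _ _ _ 120 23707 (by decide +kernel)

theorem eOp8_8 : PCert 5 ((dOp8_8.p.cb : ℤ) - (5 * (3 + 3 + 1) + 6 : ℕ)) dOp8_8.p.q dOp8_8.p.cs dOp8_8.b dOp8_8.En
    dOp8_8.en :=
  expChk_sound _ _ _ _ _ _ _ 120 23389 (by decide +kernel)

theorem eOp8_9 : PCert 5 ((dOp8_9.p.cb : ℤ) - (5 * (3 + 3 + 1) + 6 : ℕ)) dOp8_9.p.q dOp8_9.p.cs dOp8_9.b dOp8_9.En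
    dOp8_9.en :=
  expChk_sound _ _ _ _ _ _ _ 120 22384 (by decide +kernel)

theorem eOm8_6 : PCert 5 ((dOm8_6.p.cb : ℤ) - (5 * (3 + 3 + 1) + 6 : ℕ)) dOm8_6.p.q dOm8_6.p.cs dOm8_6.b dOm8_6.En
    dOm8_6.en :=
  expChk_sound _ _ _ _ _ _ _ 120 21978 (by decide +kernel)

theorem eOm8_7 : PCert 5 ((dOm8_7.p.cb : ℤ) - (5 * (3 + 3 + 1) + 6 : ℕ)) dOm8_7.p.q dOm8_7.p.cs dOm8_7.b dOm8_7.En
    dOm8_7.en :=
  expChk_sound _ _ _ _ _ _ _ 120 23000 (by decide +kernel)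

theorem eOm8_8 : PCert 5 ((dOm8_8.p.cb : ℤ) - (5 * (3 + 3 + 1) + 6 : ℕ)) dOm8_8.p.q dOm8_8.p.cs dOm8_8.b dOm8_8.En
    dOm8_8.en :=
  expChk_sound _ _ _ _ _ _ _ 120 24249 (by decide +kernel)


end Crest.Agent.R347.Dat
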