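import Crest.Agent.R347.DR10
import Crest.Agent.R347.X09

/-! Kernel runs. -/

set_option autoImplicit false
set_option maxRecDepth 100000
set_option Elab.async false

namespace Crest.Agent.R347.Dat

open Crest.Agent.R347 Crest.Agent.R347.K

theorem xM10_9_2 : okM 4 4 9 pM10_9 cM10_9_2 = true := by decide +kernel

theorem xM10_9_3 : okM 4 4 9 pM10_9 cM10_9_3 = true := by decide +kernel

theorem xM10_9_4 : okM 4 4 9 pM10_9 cM10_9_4 = true := by decide +kernel

theorem xM10_9_5 : okM 4 4 9 pM10_9 cM10_9_5 = true := by decide +kernel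


end Crest.Agent.R347.Dat
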