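import Crest.Agent.R347.DO8
import Crest.Agent.R347.DR6
import Crest.Agent.R347.X17

/-! Kernel runs. -/

set_option autoImplicit false
set_option maxRecDepth 100000
set_option Elab.async false

namespace Crest.Agent.R347.Dat

open Crest.Agent.R347 Crest.Agent.R347.K

theorem xW6_6_0 : okW 2 2 6 pW6_6 cW6_6_0 = true := by decide +kernel

theorem xW6_5_0 : okW 2 2 5 pW6_5 cW6_5_0 = true := by decide +kernel

theorem xW6_4_0 : okW 2 2 4 pW6_4 cW6_4_0 = true := by decide +kernel

theorem xM6_6_0 : okF 2 2 6 pM6_6 cM6_6_0 = true := by decide +kernel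

theorem xM6_5_0 : okM 2 2 5 pM6_5 cM6_5_0 = true := by decide +kernel

theorem xM6_4_0 : okM 2 2 4 pM6_4 cM6_4_0 = true := by decide +kernel

theorem xP6_6_0 : okP 2 2 6 pP6_6 cP6_6_0 = true := by decide +kernel

theorem xP6_5_0 : okP 2 2 5 pP6_5 cP6_5_0 = true := by decide +kernel

theorem xP6_4_0 : okP 2 2 4 pP6_4 cP6_4_0 = true := by decide +kernel

theorem xOp8_6_0 : okO true 3 3 6 pOp8_6 cOp8_6_0 = true := by decide +kernel

theorem xOp8_6_1 : okO true 3 3 6 pOp8_6 cOp8_6_1 = true := by decide +kernel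

theorem xOp8_6_2 : okO true 3 3 6 pOp8_6 cOp8_6_2 = true := by decide +kernel

theorem xOp8_7_0 : okO true 3 3 7 pOp8_7 cOp8_7_0 = true := by decide +kernel

theorem xOp8_7_1 : okO true 3 3 7 pOp8_7 cOp8_7_1 = true := by decide +kernel

theorem xOp8_7_2 : okO true 3 3 7 pOp8_7 cOp8_7_2 = true := by decide +kernel

theorem xOp8_7_3 : okO true 3 3 7 pOp8_7 cOp8_7_3 = true := by decide +kernel

theorem xOp8_8_0 : okO true 3 3 8 pOp8_8 cOp8_8_0 = true := by decide +kernel

theorem xOp8_8_1 : okO true 3 3 8 pOp8_8 cOp8_8_1 = true := by decide +kernel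

theorem xOp8_8_2 : okO true 3 3 8 pOp8_8 cOp8_8_2 = true := by decide +kernel

theorem xOp8_8_3 : okO true 3 3 8 pOp8_8 cOp8_8_3 = true := by decide +kernel

theorem xOp8_9_0 : okO true 3 3 9 pOp8_9 cOp8_9_0 = true := by decide +kernel

theorem xOp8_9_1 : okO true 3 3 9 pOp8_9 cOp8_9_1 = true := by decide +kernel

theorem xOp8_9_2 : okO true 3 3 9 pOp8_9 cOp8_9_2 = true := by decide +kernel

theorem xOp8_9_3 : okO true 3 3 9 pOp8_9 cOp8_9_3 = true := by decide +kernel

theorem xOm8_6_0 : okO false 3 3 6 pOm8_6 cOm8_6_0 = true := by decide +kernel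

theorem xOm8_6_1 : okO false 3 3 6 pOm8_6 cOm8_6_1 = true := by decide +kernel

theorem xOm8_6_2 : okO false 3 3 6 pOm8_6 cOm8_6_2 = true := by decide +kernel

theorem xOm8_6_3 : okO false 3 3 6 pOm8_6 cOm8_6_3 = true := by decide +kernel

theorem xOm8_6_4 : okO false 3 3 6 pOm8_6 cOm8_6_4 = true := by decide +kernel

theorem xOm8_7_0 : okO false 3 3 7 pOm8_7 cOm8_7_0 = true := by decide +kernel

theorem xOm8_7_1 : okO false 3 3 7 pOm8_7 cOm8_7_1 = true := by decide +kernel

theorem xOm8_7_2 : okO false 3 3 7 pOm8_7 cOm8_7_2 = true := by decide +kernel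

theorem xOm8_7_3 : okO false 3 3 7 pOm8_7 cOm8_7_3 = true := by decide +kernel

theorem xOm8_7_4 : okO false 3 3 7 pOm8_7 cOm8_7_4 = true := by decide +kernel

theorem xOm8_7_5 : okO false 3 3 7 pOm8_7 cOm8_7_5 = true := by decide +kernel

theorem xOm8_7_6 : okO false 3 3 7 pOm8_7 cOm8_7_6 = true := by decide +kernel

theorem xOm8_8_0 : okO false 3 3 8 pOm8_8 cOm8_8_0 = true := by decide +kernel

theorem xOm8_8_1 : okO false 3 3 8 pOm8_8 cOm8_8_1 = true := by decide +kernel

theorem xOm8_8_2 : okO false 3 3 8 pOm8_8 cOm8_8_2 = true := by decide +kernel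

theorem xOm8_8_3 : okO false 3 3 8 pOm8_8 cOm8_8_3 = true := by decide +kernel


end Crest.Agent.R347.Dat
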