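import Crest.Agent.R347.Asm
import Crest.Agent.R347.EO8
import Crest.Agent.R347.TOm8
import Crest.Agent.R347.TOp8
import Crest.Agent.R347.X25

/-! Bounds for the sector sums and their totals. -/

set_option autoImplicit false
set_option maxRecDepth 100000
set_option Elab.async false

namespace Crest.Agent.R347.Dat

open Crest.Agent.R347 Crest.Agent.R347.K

theorem sOp8_6 : Btw (ZO true 6 6) 949726 1012345 :=
  aO 3 3 6 dOp8_6 [cOp8_6_0, cOp8_6_1, cOp8_6_2] true rfl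
    (all_cons xOp8_6_0 (all_cons xOp8_6_1 (all_cons xOp8_6_2 all_nil)))
    oOp8_6 gOp8_6 (by decide +kernel) eOp8_6 (by decide +kernel)

theorem sOp8_7 : Btw (ZO true 6 7) 345395593 345468700 :=
  aO 3 3 7 dOp8_7 [cOp8_7_0, cOp8_7_1, cOp8_7_2, cOp8_7_3] true rfl
    (all_cons xOp8_7_0 (all_cons xOp8_7_1 (all_cons xOp8_7_2 (all_cons xOp8_7_3 all_nil))))
    oOp8_7 gOp8_7 (by decide +kernel) eOp8_7 (by decide +kernel)

theorem sOp8_8 : Btw (ZO true 6 8) 25599690 25657174 :=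
  aO 3 3 8 dOp8_8 [cOp8_8_0, cOp8_8_1, cOp8_8_2, cOp8_8_3] true rfl
    (all_cons xOp8_8_0 (all_cons xOp8_8_1 (all_cons xOp8_8_2 (all_cons xOp8_8_3 all_nil))))
    oOp8_8 gOp8_8 (by decide +kernel) eOp8_8 (by decide +kernel)

theorem sOp8_9 : Btw (ZO true 6 9) 1806 79528 :=
  aO 3 3 9 dOp8_9 [cOp8_9_0, cOp8_9_1, cOp8_9_2, cOp8_9_3] true rfl
    (all_cons xOp8_9_0 (all_cons xOp8_9_1 (all_cons xOp8_9_2 (all_cons xOp8_9_3 all_nil))))
    oOp8_9 gOp8_9 (by decide +kernel) eOp8_9 (by decide +kernel)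

theorem sOm8_6 : Btw (ZO false 6 6) (-15172) 19656 :=
  aO 3 3 6 dOm8_6 [cOm8_6_0, cOm8_6_1, cOm8_6_2, cOm8_6_3, cOm8_6_4] false rfl
    (all_cons xOm8_6_0 (all_cons xOm8_6_1 (all_cons xOm8_6_2 (all_cons xOm8_6_3 (all_cons
    xOm8_6_4 all_nil)))))
    oOm8_6 gOm8_6 (by decide +kernel) eOm8_6 (by decide +kernel)

theorem sOm8_7 : Btw (ZO false 6 7) 6351629 6409227 :=
  aO 3 3 7 dOm8_7 [cOm8_7_0, cOm8_7_1, cOm8_7_2, cOm8_7_3, cOm8_7_4, cOm8_7_5, cOm8_7_6] false rfl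
    (all_cons xOm8_7_0 (all_cons xOm8_7_1 (all_cons xOm8_7_2 (all_cons xOm8_7_3 (all_cons
    xOm8_7_4 (all_cons xOm8_7_5 (all_cons xOm8_7_6 all_nil)))))))
    oOm8_7 gOm8_7 (by decide +kernel) eOm8_7 (by decide +kernel)

theorem sOm8_8 : Btw (ZO false 6 8) 1874268288 1874324275 :=
  aO 3 3 8 dOm8_8 [cOm8_8_0, cOm8_8_1, cOm8_8_2, cOm8_8_3] false rfl
    (all_cons xOm8_8_0 (all_cons xOm8_8_1 (all_cons xOm8_8_2 (all_cons xOm8_8_3 all_nil))))
    oOm8_8 gOm8_8 (by decide +kernel) eOm8_8 (by decide +kernel)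

theorem sOp8_0 : Btw (ZO true 6 0) 0 1 :=
  cO 3 3 0 true 124 1 gOp8_0 (by decide +kernel)

theorem sOp8_1 : Btw (ZO true 6 1) 0 1 :=
  cO 3 3 1 true 124 1 gOp8_1 (by decide +kernel)

theorem sOp8_2 : Btw (ZO true 6 2) 0 1 :=
  cO 3 3 2 true 108 1 gOp8_2 (by decide +kernel)

theorem sOp8_3 : Btw (ZO true 6 3) 0 1 :=
  cO 3 3 3 true 75 1 gOp8_3 (by decide +kernel)

theorem sOp8_4 : Btw (ZO true 6 4) 0 1 :=
  cO 3 3 4 true 48 1 gOp8_4 (by decide +kernel)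

theorem sOp8_5 : Btw (ZO true 6 5) 0 7511 :=
  cO 3 3 5 true 26 7511 gOp8_5 (by decide +kernel)

theorem sOp8_10 : Btw (ZO true 6 10) 0 5842 :=
  cO 3 3 10 true 27 5842 gOp8_10 (by decide +kernel)

theorem sOp8_11 : Btw (ZO true 6 11) 0 1 :=
  cO 3 3 11 true 46 1 gOp8_11 (by decide +kernel)

theorem sOp8_12 : Btw (ZO true 6 12) 0 1 :=
  cO 3 3 12 true 70 1 gOp8_12 (by decide +kernel)

theorem sOp8_13 : Btw (ZO true 6 13) 0 1 :=
  cO 3 3 13 true 100 1 gOp8_13 (by decide +kernel)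

theorem sOp8_14 : Btw (ZO true 6 14) 0 1 :=
  cO 3 3 14 true 124 1 gOp8_14 (by decide +kernel)

theorem sOp8_15 : Btw (ZO true 6 15) 0 1 :=
  cO 3 3 15 true 124 1 gOp8_15 (by decide +kernel)

theorem sOp8_16 : Btw (ZO true 6 16) 0 1 :=
  cO 3 3 16 true 124 1 gOp8_16 (by decide +kernel)

theorem sOm8_0 : Btw (ZO false 6 0) 0 1 :=
  cO 3 3 0 false 124 1 gOm8_0 (by decide +kernel)

theorem sOm8_1 : Btw (ZO false 6 1) 0 1 :=
  cO 3 3 1 false 124 1 gOm8_1 (by decide +kernel)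

theorem sOm8_2 : Btw (ZO false 6 2) 0 1 :=
  cO 3 3 2 false 121 1 gOm8_2 (by decide +kernel)

theorem sOm8_3 : Btw (ZO false 6 3) 0 1 :=
  cO 3 3 3 false 87 1 gOm8_3 (by decide +kernel)

theorem sOm8_4 : Btw (ZO false 6 4) 0 1 :=
  cO 3 3 4 false 59 1 gOm8_4 (by decide +kernel)

theorem sOm8_5 : Btw (ZO false 6 5) 0 8 :=
  cO 3 3 5 false 36 8 gOm8_5 (by decide +kernel)

theorem zOp8 : Btw (zo 1 8 6 * no 1 6) 371946815 372231111 := by
  have h := zoP_sum 6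
  have h0 := sOp8_0
  have h1 := sOp8_1
  have h2 := sOp8_2
  have h3 := sOp8_3
  have h4 := sOp8_4
  have h5 := sOp8_5
  have h6 := sOp8_6
  have h7 := sOp8_7
  have h8 := sOp8_8
  have h9 := sOp8_9
  have h10 := sOp8_10
  have h11 := sOp8_11
  have h12 := sOp8_12
  have h13 := sOp8_13
  have h14 := sOp8_14
  have h15 := sOp8_15
  have h16 := sOp8_16
  simp only [Finset.sum_range_succ, Finset.sum_range_zero, Nat.reduceAdd, Nat.reduceMul] at h
  unfold Btw at *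
  push_cast at *
  constructor <;> linarith [h0.1, h0.2, h1.1, h1.2, h2.1, h2.2, h3.1, h3.2, h4.1, h4.2, h5.1, h5.2, h6.1, h6.2, h7.1, h7.2,
    h8.1, h8.2, h9.1, h9.2, h10.1, h10.2, h11.1, h11.2, h12.1, h12.2, h13.1, h13.2, h14.1, h14.2,
    h15.1, h15.2, h16.1, h16.2]

theorem uOp8 : Btw (go 1 8 6 * no 1 6) (-319006328) (-318722032) := by
  have h := goP_sum 6
  have h0 := sOp8_0
  have h1 := sOp8_1
  have h2 := sOp8_2
  have h3 := sOp8_3
  have h4 := sOp8_4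
  have h5 := sOp8_5
  have h6 := sOp8_6
  have h7 := sOp8_7
  have h8 := sOp8_8
  have h9 := sOp8_9
  have h10 := sOp8_10
  have h11 := sOp8_11
  have h12 := sOp8_12
  have h13 := sOp8_13
  have h14 := sOp8_14
  have h15 := sOp8_15
  have h16 := sOp8_16
  simp only [Finset.sum_range_succ, Finset.sum_range_zero, Nat.reduceAdd, Nat.reduceMul] at h
  unfold Btw at *
  push_cast at *
  constructor <;> linarith [h0.1, h0.2, h1.1, h1.2, h2.1, h2.2, h3.1, h3.2, h4.1, h4.2, h5.1, h5.2, h6.1, h6.2, h7.1, h7.2,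
    h8.1, h8.2, h9.1, h9.2, h10.1, h10.2, h11.1, h11.2, h12.1, h12.2, h13.1, h13.2, h14.1, h14.2,
    h15.1, h15.2, h16.1, h16.2]

theorem zOm8 : Btw (zo (-1) 8 6 * no 1 6) 1886941202 1887182067 := by
  have h := zoM_sum 6
  have h0 := sOm8_0
  have h1 := sOm8_1
  have h2 := sOm8_2
  have h3 := sOm8_3
  have h4 := sOm8_4
  have h5 := sOm8_5
  have h6 := sOm8_6
  have h7 := sOm8_7
  have h8 := sOm8_8
  simp only [Finset.sum_range_succ, Finset.sum_range_zero, Nat.reduceAdd, Nat.reduceMul] at h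
  unfold Btw at *
  push_cast at *
  constructor <;> linarith [h0.1, h0.2, h1.1, h1.2, h2.1, h2.2, h3.1, h3.2, h4.1, h4.2, h5.1, h5.2, h6.1, h6.2, h7.1, h7.2,
    h8.1, h8.2]

theorem uOm8 : Btw (go (-1) 8 6 * no 1 6) 1861419470 1861660335 := by
  have h := goM_sum 6
  have h0 := sOm8_0
  have h1 := sOm8_1
  have h2 := sOm8_2
  have h3 := sOm8_3
  have h4 := sOm8_4
  have h5 := sOm8_5
  have h6 := sOm8_6
  have h7 := sOm8_7
  have h8 := sOm8_8
  simp only [Finset.sum_range_succ, Finset.sum_range_zero, Nat.reduceAdd, Nat.reduceMul] at h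
  unfold Btw at *
  push_cast at *
  constructor <;> linarith [h0.1, h0.2, h1.1, h1.2, h2.1, h2.2, h3.1, h3.2, h4.1, h4.2, h5.1, h5.2, h6.1, h6.2, h7.1, h7.2,
    h8.1, h8.2]


end Crest.Agent.R347.Dat
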