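import Crest.Agent.R347.ExpCert
import Crest.Agent.R347.DR10

/-! Approximation of the exponential. -/

set_option autoImplicit false
set_option maxRecDepth 100000
set_option Elab.async false

namespace Crest.Agent.R347.Dat

open Crest.Agent.R347 Crest.Agent.R347.K

theorem eW10_10 : PCert 1 ((dW10_10.p.cb : ℤ) - (4 + 4 + 2 : ℕ)) dW10_10.p.q dW10_10.p.cs dW10_10.b dW10_10.En
    dW10_10.en :=
  expChk_sound _ _ _ _ _ _ _ 120 6083 (by decide +kernel)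

theorem eW10_9 : PCert 1 ((dW10_9.p.cb : ℤ) - (4 + 4 + 2 : ℕ)) dW10_9.p.q dW10_9.p.cs dW10_9.b dW10_9.En
    dW10_9.en :=
  expChk_sound _ _ _ _ _ _ _ 120 6325 (by decide +kernel)

theorem eW10_8 : PCert 1 ((dW10_8.p.cb : ℤ) - (4 + 4 + 2 : ℕ)) dW10_8.p.q dW10_8.p.cs dW10_8.b dW10_8.En
    dW10_8.en :=
  expChk_sound _ _ _ _ _ _ _ 120 5831 (by decide +kernel)

theorem eM10_10 : PCert 1 ((dM10_10.p.cb : ℤ) - (4 + 4 + 2 : ℕ)) dM10_10.p.q dM10_10.p.cs dM10_10.b dM10_10.En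
    dM10_10.en :=
  expChk_sound _ _ _ _ _ _ _ 120 6083 (by decide +kernel)

theorem eM10_9 : PCert 1 ((dM10_9.p.cb : ℤ) - (4 + 4 + 2 : ℕ)) dM10_9.p.q dM10_9.p.cs dM10_9.b dM10_9.En
    dM10_9.en :=
  expChk_sound _ _ _ _ _ _ _ 120 6325 (by decide +kernel)

theorem eM10_8 : PCert 1 ((dM10_8.p.cb : ℤ) - (4 + 4 + 2 : ℕ)) dM10_8.p.q dM10_8.p.cs dM10_8.b dM10_8.En
    dM10_8.en :=
  expChk_sound _ _ _ _ _ _ _ 120 5831 (by decide +kernel)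

theorem eP10_10 : PCert 1 ((dP10_10.p.cb : ℤ) - (4 + 4 + 2 : ℕ)) dP10_10.p.q dP10_10.p.cs dP10_10.b dP10_10.En
    dP10_10.en :=
  expChk_sound _ _ _ _ _ _ _ 120 6083 (by decide +kernel)

theorem eP10_9 : PCert 1 ((dP10_9.p.cb : ℤ) - (4 + 4 + 2 : ℕ)) dP10_9.p.q dP10_9.p.cs dP10_9.b dP10_9.En
    dP10_9.en :=
  expChk_sound _ _ _ _ _ _ _ 120 6325 (by decide +kernel)

theorem eP10_8 : PCert 1 ((dP10_8.p.cb : ℤ) - (4 + 4 + 2 : ℕ)) dP10_8.p.q dP10_8.p.cs dP10_8.b dP10_8.En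
    dP10_8.en :=
  expChk_sound _ _ _ _ _ _ _ 120 5831 (by decide +kernel)


end Crest.Agent.R347.Dat
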