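import Crest.Agent.R347.DR10

/-! Kernel runs. -/

set_option autoImplicit false
set_option maxRecDepth 100000
set_option Elab.async false

namespace Crest.Agent.R347.Dat

open Crest.Agent.R347 Crest.Agent.R347.K

theorem xW10_10_15 : okW 4 4 10 pW10_10 cW10_10_15 = true := by decide +kernel

theorem xW10_10_16 : okW 4 4 10 pW10_10 cW10_10_16 = true := by decide +kernel

theorem xW10_10_17 : okW 4 4 10 pW10_10 cW10_10_17 = true := by decide +kernel


end Crest.Agent.R347.Dat
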