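import Crest.Agent.R347.DR10
import Crest.Agent.R347.X05

/-! Kernel runs. -/

set_option autoImplicit false
set_option maxRecDepth 100000
set_option Elab.async false

namespace Crest.Agent.R347.Dat

open Crest.Agent.R347 Crest.Agent.R347.K

theorem xW10_9_18 : okW 4 4 9 pW10_9 cW10_9_18 = true := by decide +kernel

theorem xW10_8_0 : okW 4 4 8 pW10_8 cW10_8_0 = true := by decide +kernel

theorem xW10_8_1 : okW 4 4 8 pW10_8 cW10_8_1 = true := by decide +kernel

theorem xW10_8_2 : okW 4 4 8 pW10_8 cW10_8_2 = true := by decide +kernel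

theorem xW10_8_3 : okW 4 4 8 pW10_8 cW10_8_3 = true := by decide +kernel


end Crest.Agent.R347.Dat
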