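import Crest.Agent.R347.DR10
import Crest.Agent.R347.DR9
import Crest.Agent.R347.X15

/-! Kernel runs. -/

set_option autoImplicit false
set_option maxRecDepth 100000
set_option Elab.async false

namespace Crest.Agent.R347.Dat

open Crest.Agent.R347 Crest.Agent.R347.K

theorem xP10_8_2 : okP 4 4 8 pP10_8 cP10_8_2 = true := by decide +kernel

theorem xW9_9_0 : okW 4 3 9 pW9_9 cW9_9_0 = true := by decide +kernel

theorem xW9_9_1 : okW 4 3 9 pW9_9 cW9_9_1 = true := by decide +kernel

theorem xW9_8_0 : okW 4 3 8 pW9_8 cW9_8_0 = true := by decide +kernel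

theorem xW9_8_1 : okW 4 3 8 pW9_8 cW9_8_1 = true := by decide +kernel

theorem xW9_7_0 : okW 4 3 7 pW9_7 cW9_7_0 = true := by decide +kernel

theorem xM9_9_0 : okF 4 3 9 pM9_9 cM9_9_0 = true := by decide +kernel

theorem xM9_8_0 : okM 4 3 8 pM9_8 cM9_8_0 = true := by decide +kernel

theorem xM9_8_1 : okM 4 3 8 pM9_8 cM9_8_1 = true := by decide +kernel

theorem xM9_7_0 : okM 4 3 7 pM9_7 cM9_7_0 = true := by decide +kernel

theorem xP9_9_0 : okP 4 3 9 pP9_9 cP9_9_0 = true := by decide +kernel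


end Crest.Agent.R347.Dat
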