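import Crest.Agent.R347.Asm
import Crest.Agent.R347.ER10
import Crest.Agent.R347.TR10
import Crest.Agent.R347.X00
import Crest.Agent.R347.X01
import Crest.Agent.R347.X02
import Crest.Agent.R347.X03
import Crest.Agent.R347.X04
import Crest.Agent.R347.X05
import Crest.Agent.R347.X06
import Crest.Agent.R347.X07
import Crest.Agent.R347.X08
import Crest.Agent.R347.X09
import Crest.Agent.R347.X10
import Crest.Agent.R347.X11
import Crest.Agent.R347.X12
import Crest.Agent.R347.X13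
import Crest.Agent.R347.X14
import Crest.Agent.R347.X15
import Crest.Agent.R347.X16
import Crest.Agent.R347.X17
import Crest.Agent.R347.X18
import Crest.Agent.R347.X19
import Crest.Agent.R347.X20
import Crest.Agent.R347.X21
import Crest.Agent.R347.X22
import Crest.Agent.R347.X23

/-! Bounds for the sector sums and their totals. -/

set_option autoImplicit false
set_option maxRecDepth 100000
set_option Elab.async false

namespace Crest.Agent.R347.Dat

open Crest.Agent.R347 Crest.Agent.R347.K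

theorem hm1_10 : ‖(-1 : ℂ)‖ = 1 := by simp

theorem sW10_10 : Btw (ZR om 9 10) 1023785988 1023800990 :=
  aW 4 4 10 dW10_10 [cW10_10_0, cW10_10_1, cW10_10_2, cW10_10_3, cW10_10_4, cW10_10_5, cW10_10_6, cW10_10_7,
    cW10_10_8, cW10_10_9, cW10_10_10, cW10_10_11, cW10_10_12, cW10_10_13, cW10_10_14, cW10_10_15,
    cW10_10_16, cW10_10_17, cW10_10_18, cW10_10_19, cW10_10_20] rfl
    (all_cons xW10_10_0 (all_cons xW10_10_1 (all_cons xW10_10_2 (all_cons xW10_10_3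
    (all_cons xW10_10_4 (all_cons xW10_10_5 (all_cons xW10_10_6 (all_cons xW10_10_7
    (all_cons xW10_10_8 (all_cons xW10_10_9 (all_cons xW10_10_10 (all_cons xW10_10_11
    (all_cons xW10_10_12 (all_cons xW10_10_13 (all_cons xW10_10_14 (all_cons xW10_10_15
    (all_cons xW10_10_16 (all_cons xW10_10_17 (all_cons xW10_10_18 (all_cons xW10_10_19
    (all_cons xW10_10_20 all_nil)))))))))))))))))))))
    oR10_10 gR10_10 (by decide +kernel) eW10_10 (by decide +kernel)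

theorem sW10_9 : Btw (ZR om 9 9) 6536701 6546397 :=
  aW 4 4 9 dW10_9 [cW10_9_0, cW10_9_1, cW10_9_2, cW10_9_3, cW10_9_4, cW10_9_5, cW10_9_6, cW10_9_7, cW10_9_8,
    cW10_9_9, cW10_9_10, cW10_9_11, cW10_9_12, cW10_9_13, cW10_9_14, cW10_9_15, cW10_9_16,
    cW10_9_17, cW10_9_18] rfl
    (all_cons xW10_9_0 (all_cons xW10_9_1 (all_cons xW10_9_2 (all_cons xW10_9_3 (all_cons
    xW10_9_4 (all_cons xW10_9_5 (all_cons xW10_9_6 (all_cons xW10_9_7 (all_cons xW10_9_8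
    (all_cons xW10_9_9 (all_cons xW10_9_10 (all_cons xW10_9_11 (all_cons xW10_9_12
    (all_cons xW10_9_13 (all_cons xW10_9_14 (all_cons xW10_9_15 (all_cons xW10_9_16
    (all_cons xW10_9_17 (all_cons xW10_9_18 all_nil)))))))))))))))))))
    oR10_9 gR10_9 (by decide +kernel) eW10_9 (by decide +kernel)

theorem sW10_8 : Btw (ZR om 9 8) 993 3645 :=
  aW 4 4 8 dW10_8 [cW10_8_0, cW10_8_1, cW10_8_2, cW10_8_3, cW10_8_4, cW10_8_5] rfl
    (all_cons xW10_8_0 (all_cons xW10_8_1 (all_cons xW10_8_2 (all_cons xW10_8_3 (all_cons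
    xW10_8_4 (all_cons xW10_8_5 all_nil))))))
    oR10_8 gR10_8 (by decide +kernel) eW10_8 (by decide +kernel)

theorem sF10 : Btw (ZR (-1) 9 10) 802684673 802698287 ∧ Btw (GR 9) (-738209939) (-738196321) :=
  aF 4 4 10 dM10_10 [cM10_10_0, cM10_10_1, cM10_10_2, cM10_10_3, cM10_10_4, cM10_10_5, cM10_10_6] rfl rfl
    (all_cons xM10_10_0 (all_cons xM10_10_1 (all_cons xM10_10_2 (all_cons xM10_10_3
    (all_cons xM10_10_4 (all_cons xM10_10_5 (all_cons xM10_10_6 all_nil)))))))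
    oR10_10 gR10_10 (by decide +kernel) eM10_10 (by decide +kernel)
    (by decide +kernel)

theorem sM10_10 : Btw (ZR (-1) 9 10) 802684673 802698287 := sF10.1

theorem sM10_9 : Btw (ZR (-1) 9 9) 2288629 2298351 :=
  aM 4 4 9 dM10_9 [cM10_9_0, cM10_9_1, cM10_9_2, cM10_9_3, cM10_9_4, cM10_9_5, cM10_9_6] rfl
    (all_cons xM10_9_0 (all_cons xM10_9_1 (all_cons xM10_9_2 (all_cons xM10_9_3 (all_cons
    xM10_9_4 (all_cons xM10_9_5 (all_cons xM10_9_6 all_nil)))))))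
    oR10_9 gR10_9 (by decide +kernel) eM10_9 (by decide +kernel)

theorem sM10_8 : Btw (ZR (-1) 9 8) (-703) 1956 :=
  aM 4 4 8 dM10_8 [cM10_8_0, cM10_8_1, cM10_8_2] rfl
    (all_cons xM10_8_0 (all_cons xM10_8_1 (all_cons xM10_8_2 all_nil)))
    oR10_8 gR10_8 (by decide +kernel) eM10_8 (by decide +kernel)

theorem sP10_10 : Btw (ZR 1 9 10) 1915609478 1915627276 :=
  aP 4 4 10 dP10_10 [cP10_10_0, cP10_10_1, cP10_10_2, cP10_10_3, cP10_10_4, cP10_10_5, cP10_10_6] rfl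
    (all_cons xP10_10_0 (all_cons xP10_10_1 (all_cons xP10_10_2 (all_cons xP10_10_3
    (all_cons xP10_10_4 (all_cons xP10_10_5 (all_cons xP10_10_6 all_nil)))))))
    oR10_10 gR10_10 (by decide +kernel) eP10_10 (by decide +kernel)

theorem sP10_9 : Btw (ZR 1 9 9) 28361469 28370572 :=
  aP 4 4 9 dP10_9 [cP10_9_0, cP10_9_1, cP10_9_2, cP10_9_3, cP10_9_4, cP10_9_5, cP10_9_6] rfl
    (all_cons xP10_9_0 (all_cons xP10_9_1 (all_cons xP10_9_2 (all_cons xP10_9_3 (all_cons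
    xP10_9_4 (all_cons xP10_9_5 (all_cons xP10_9_6 all_nil)))))))
    oR10_9 gR10_9 (by decide +kernel) eP10_9 (by decide +kernel)

theorem sP10_8 : Btw (ZR 1 9 8) 10579 13294 :=
  aP 4 4 8 dP10_8 [cP10_8_0, cP10_8_1, cP10_8_2] rfl
    (all_cons xP10_8_0 (all_cons xP10_8_1 (all_cons xP10_8_2 all_nil)))
    oR10_8 gR10_8 (by decide +kernel) eP10_8 (by decide +kernel)

theorem sP10_0 : Btw (ZR 1 9 0) 0 1 :=
  cR 4 4 0 1 norm_one 161 1 gR10_0 (by decide +kernel)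

theorem sP10_1 : Btw (ZR 1 9 1) 0 1 :=
  cR 4 4 1 1 norm_one 161 1 gR10_1 (by decide +kernel)

theorem sP10_2 : Btw (ZR 1 9 2) 0 1 :=
  cR 4 4 2 1 norm_one 161 1 gR10_2 (by decide +kernel)

theorem sP10_3 : Btw (ZR 1 9 3) 0 1 :=
  cR 4 4 3 1 norm_one 147 1 gR10_3 (by decide +kernel)

theorem sP10_4 : Btw (ZR 1 9 4) 0 1 :=
  cR 4 4 4 1 norm_one 111 1 gR10_4 (by decide +kernel)

theorem sP10_5 : Btw (ZR 1 9 5) 0 1 :=
  cR 4 4 5 1 norm_one 80 1 gR10_5 (by decide +kernel)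

theorem sP10_6 : Btw (ZR 1 9 6) 0 1 :=
  cR 4 4 6 1 norm_one 54 1 gR10_6 (by decide +kernel)

theorem sP10_7 : Btw (ZR 1 9 7) 0 1104 :=
  cR 4 4 7 1 norm_one 32 1104 gR10_7 (by decide +kernel)

theorem sM10_0 : Btw (ZR (-1) 9 0) 0 1 :=
  cR 4 4 0 (-1) hm1_10 161 1 gR10_0 (by decide +kernel)

theorem sM10_1 : Btw (ZR (-1) 9 1) 0 1 :=
  cR 4 4 1 (-1) hm1_10 161 1 gR10_1 (by decide +kernel)

theorem sM10_2 : Btw (ZR (-1) 9 2) 0 1 :=
  cR 4 4 2 (-1) hm1_10 161 1 gR10_2 (by decide +kernel)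

theorem sM10_3 : Btw (ZR (-1) 9 3) 0 1 :=
  cR 4 4 3 (-1) hm1_10 147 1 gR10_3 (by decide +kernel)

theorem sM10_4 : Btw (ZR (-1) 9 4) 0 1 :=
  cR 4 4 4 (-1) hm1_10 111 1 gR10_4 (by decide +kernel)

theorem sM10_5 : Btw (ZR (-1) 9 5) 0 1 :=
  cR 4 4 5 (-1) hm1_10 80 1 gR10_5 (by decide +kernel)

theorem sM10_6 : Btw (ZR (-1) 9 6) 0 1 :=
  cR 4 4 6 (-1) hm1_10 54 1 gR10_6 (by decide +kernel)

theorem sM10_7 : Btw (ZR (-1) 9 7) 0 1104 :=
  cR 4 4 7 (-1) hm1_10 32 1104 gR10_7 (by decide +kernel)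

theorem sW10_0 : Btw (ZR om 9 0) 0 1 :=
  cR 4 4 0 om sc_om 161 1 gR10_0 (by decide +kernel)

theorem sW10_1 : Btw (ZR om 9 1) 0 1 :=
  cR 4 4 1 om sc_om 161 1 gR10_1 (by decide +kernel)

theorem sW10_2 : Btw (ZR om 9 2) 0 1 :=
  cR 4 4 2 om sc_om 161 1 gR10_2 (by decide +kernel)

theorem sW10_3 : Btw (ZR om 9 3) 0 1 :=
  cR 4 4 3 om sc_om 147 1 gR10_3 (by decide +kernel)

theorem sW10_4 : Btw (ZR om 9 4) 0 1 :=
  cR 4 4 4 om sc_om 111 1 gR10_4 (by decide +kernel)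

theorem sW10_5 : Btw (ZR om 9 5) 0 1 :=
  cR 4 4 5 om sc_om 80 1 gR10_5 (by decide +kernel)

theorem sW10_6 : Btw (ZR om 9 6) 0 1 :=
  cR 4 4 6 om sc_om 54 1 gR10_6 (by decide +kernel)

theorem sW10_7 : Btw (ZR om 9 7) 0 1104 :=
  cR 4 4 7 om sc_om 32 1104 gR10_7 (by decide +kernel)

theorem zP10 : Btw (zr 1 8 10 * nr 1 10) 1972353574 1972397230 := by
  have h := zr_sum 1 norm_one 9 (by norm_num)
  have h0 := sP10_0
  have h1 := sP10_1
  have h2 := sP10_2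
  have h3 := sP10_3
  have h4 := sP10_4
  have h5 := sP10_5
  have h6 := sP10_6
  have h7 := sP10_7
  have h8 := sP10_8
  have h9 := sP10_9
  have h10 := sP10_10
  simp only [Finset.sum_range_succ, Finset.sum_range_zero, Nat.reduceAdd, Nat.reduceMul] at h
  unfold Btw at *
  push_cast at *
  constructor <;> linarith [h0.1, h0.2, h1.1, h1.2, h2.1, h2.2, h3.1, h3.2, h4.1, h4.2, h5.1, h5.2, h6.1, h6.2, h7.1, h7.2,
    h8.1, h8.2, h9.1, h9.2, h10.1, h10.2]

theorem uP10 : Btw (gr 1 8 10 * nr 1 10) 1858887278 1858930934 := by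
  have h := gr_sum 1 norm_one 9 (by norm_num)
  have h0 := sP10_0
  have h1 := sP10_1
  have h2 := sP10_2
  have h3 := sP10_3
  have h4 := sP10_4
  have h5 := sP10_5
  have h6 := sP10_6
  have h7 := sP10_7
  have h8 := sP10_8
  have h9 := sP10_9
  have h10 := sP10_10
  simp only [Finset.sum_range_succ, Finset.sum_range_zero, Nat.reduceAdd, Nat.reduceMul] at h
  unfold Btw at *
  push_cast at *
  constructor <;> linarith [h0.1, h0.2, h1.1, h1.2, h2.1, h2.2, h3.1, h3.2, h4.1, h4.2, h5.1, h5.2, h6.1, h6.2, h7.1, h7.2,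
    h8.1, h8.2, h9.1, h9.2, h10.1, h10.2]

theorem zM10 : Btw (zr (-1) 8 10 * nr 1 10) 807260525 807301123 := by
  have h := zr_sum (-1) hm1_10 9 (by norm_num)
  have h0 := sM10_0
  have h1 := sM10_1
  have h2 := sM10_2
  have h3 := sM10_3
  have h4 := sM10_4
  have h5 := sM10_5
  have h6 := sM10_6
  have h7 := sM10_7
  have h8 := sM10_8
  have h9 := sM10_9
  have h10 := sM10_10
  simp only [Finset.sum_range_succ, Finset.sum_range_zero, Nat.reduceAdd, Nat.reduceMul] at h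
  unfold Btw at *
  push_cast at *
  constructor <;> linarith [h0.1, h0.2, h1.1, h1.2, h2.1, h2.2, h3.1, h3.2, h4.1, h4.2, h5.1, h5.2, h6.1, h6.2, h7.1, h7.2,
    h8.1, h8.2, h9.1, h9.2, h10.1, h10.2]

theorem fM10 : Btw (fr 8 10 * nr 1 10) (-738209939) (-738196321) := by
  have h := fr_sum 9 (by norm_num)
  have h0 := sF10.2
  simp only [Finset.sum_range_succ, Finset.sum_range_zero, Nat.reduceAdd, Nat.reduceMul] at h
  unfold Btw at *
  push_cast at *
  constructor <;> linarith [h0.1, h0.2]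

theorem zW10 : Btw (zr om 8 10 * nr 1 10) 1036861376 1036903296 := by
  have h := zr_sum om sc_om 9 (by norm_num)
  have h0 := sW10_0
  have h1 := sW10_1
  have h2 := sW10_2
  have h3 := sW10_3
  have h4 := sW10_4
  have h5 := sW10_5
  have h6 := sW10_6
  have h7 := sW10_7
  have h8 := sW10_8
  have h9 := sW10_9
  have h10 := sW10_10
  simp only [Finset.sum_range_succ, Finset.sum_range_zero, Nat.reduceAdd, Nat.reduceMul] at h
  unfold Btw at *
  push_cast at *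
  constructor <;> linarith [h0.1, h0.2, h1.1, h1.2, h2.1, h2.2, h3.1, h3.2, h4.1, h4.2, h5.1, h5.2, h6.1, h6.2, h7.1, h7.2,
    h8.1, h8.2, h9.1, h9.2, h10.1, h10.2]

theorem uW10 : Btw (gr om 8 10 * nr 1 10) 1010692966 1010734886 := by
  have h := gr_sum om sc_om 9 (by norm_num)
  have h0 := sW10_0
  have h1 := sW10_1
  have h2 := sW10_2
  have h3 := sW10_3
  have h4 := sW10_4
  have h5 := sW10_5
  have h6 := sW10_6
  have h7 := sW10_7
  have h8 := sW10_8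
  have h9 := sW10_9
  have h10 := sW10_10
  simp only [Finset.sum_range_succ, Finset.sum_range_zero, Nat.reduceAdd, Nat.reduceMul] at h
  unfold Btw at *
  push_cast at *
  constructor <;> linarith [h0.1, h0.2, h1.1, h1.2, h2.1, h2.2, h3.1, h3.2, h4.1, h4.2, h5.1, h5.2, h6.1, h6.2, h7.1, h7.2,
    h8.1, h8.2, h9.1, h9.2, h10.1, h10.2]


end Crest.Agent.R347.Dat
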