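import Crest.Agent.R347.ExpCert
import Crest.Agent.R347.DR6

/-! Approximation of the exponential. -/

set_option autoImplicit false
set_option maxRecDepth 100000
set_option Elab.async false

namespace Crest.Agent.R347.Dat

open Crest.Agent.R347 Crest.Agent.R347.K

theorem eW6_6 : PCert 1 ((dW6_6.p.cb : ℤ) - (2 + 2 + 2 : ℕ)) dW6_6.p.q dW6_6.p.cs dW6_6.b dW6_6.En
    dW6_6.en :=
  expChk_sound _ _ _ _ _ _ _ 120 3873 (by decide +kernel)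

theorem eW6_5 : PCert 1 ((dW6_5.p.cb : ℤ) - (2 + 2 + 2 : ℕ)) dW6_5.p.q dW6_5.p.cs dW6_5.b dW6_5.En
    dW6_5.en :=
  expChk_sound _ _ _ _ _ _ _ 120 3606 (by decide +kernel)

theorem eW6_4 : PCert 1 ((dW6_4.p.cb : ℤ) - (2 + 2 + 2 : ℕ)) dW6_4.p.q dW6_4.p.cs dW6_4.b dW6_4.En
    dW6_4.en :=
  expChk_sound _ _ _ _ _ _ _ 120 3742 (by decide +kernel)

theorem eM6_6 : PCert 1 ((dM6_6.p.cb : ℤ) - (2 + 2 + 2 : ℕ)) dM6_6.p.q dM6_6.p.cs dM6_6.b dM6_6.En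
    dM6_6.en :=
  expChk_sound _ _ _ _ _ _ _ 120 3873 (by decide +kernel)

theorem eM6_5 : PCert 1 ((dM6_5.p.cb : ℤ) - (2 + 2 + 2 : ℕ)) dM6_5.p.q dM6_5.p.cs dM6_5.b dM6_5.En
    dM6_5.en :=
  expChk_sound _ _ _ _ _ _ _ 120 3606 (by decide +kernel)

theorem eM6_4 : PCert 1 ((dM6_4.p.cb : ℤ) - (2 + 2 + 2 : ℕ)) dM6_4.p.q dM6_4.p.cs dM6_4.b dM6_4.En
    dM6_4.en :=
  expChk_sound _ _ _ _ _ _ _ 120 3742 (by decide +kernel)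

theorem eP6_6 : PCert 1 ((dP6_6.p.cb : ℤ) - (2 + 2 + 2 : ℕ)) dP6_6.p.q dP6_6.p.cs dP6_6.b dP6_6.En
    dP6_6.en :=
  expChk_sound _ _ _ _ _ _ _ 120 3873 (by decide +kernel)

theorem eP6_5 : PCert 1 ((dP6_5.p.cb : ℤ) - (2 + 2 + 2 : ℕ)) dP6_5.p.q dP6_5.p.cs dP6_5.b dP6_5.En
    dP6_5.en :=
  expChk_sound _ _ _ _ _ _ _ 120 3606 (by decide +kernel)

theorem eP6_4 : PCert 1 ((dP6_4.p.cb : ℤ) - (2 + 2 + 2 : ℕ)) dP6_4.p.q dP6_4.p.cs dP6_4.b dP6_4.En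
    dP6_4.en :=
  expChk_sound _ _ _ _ _ _ _ 120 3742 (by decide +kernel)


end Crest.Agent.R347.Dat
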