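import Crest.Agent.R347.Asm
import Crest.Agent.R347.ER6
import Crest.Agent.R347.TR6
import Crest.Agent.R347.X25

/-! Bounds for the sector sums and their totals. -/

set_option autoImplicit false
set_option maxRecDepth 100000
set_option Elab.async false

namespace Crest.Agent.R347.Dat

open Crest.Agent.R347 Crest.Agent.R347.K

theorem hm1_6 : ‖(-1 : ℂ)‖ = 1 := by simp

theorem sW6_6 : Btw (ZR om 5 6) 970996875 971007483 :=
  aW 2 2 6 dW6_6 [cW6_6_0] rfl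
    (all_cons xW6_6_0 all_nil)
    oR6_6 gR6_6 (by decide +kernel) eW6_6 (by decide +kernel)

theorem sW6_5 : Btw (ZR om 5 5) 1010095 1016270 :=
  aW 2 2 5 dW6_5 [cW6_5_0] rfl
    (all_cons xW6_5_0 all_nil)
    oR6_5 gR6_5 (by decide +kernel) eW6_5 (by decide +kernel)

theorem sW6_4 : Btw (ZR om 5 4) (-1654) 1757 :=
  aW 2 2 4 dW6_4 [cW6_4_0] rfl
    (all_cons xW6_4_0 all_nil)
    oR6_4 gR6_4 (by decide +kernel) eW6_4 (by decide +kernel)

theorem sF6 : Btw (ZR (-1) 5 6) 463082427 463090178 ∧ Btw (GR 5) (-414821112) (-414813338) :=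
  aF 2 2 6 dM6_6 [cM6_6_0] rfl rfl
    (all_cons xM6_6_0 all_nil)
    oR6_6 gR6_6 (by decide +kernel) eM6_6 (by decide +kernel)
    (by decide +kernel)

theorem sM6_6 : Btw (ZR (-1) 5 6) 463082427 463090178 := sF6.1

theorem sM6_5 : Btw (ZR (-1) 5 5) 74302 83047 :=
  aM 2 2 5 dM6_5 [cM6_5_0] rfl
    (all_cons xM6_5_0 all_nil)
    oR6_5 gR6_5 (by decide +kernel) eM6_5 (by decide +kernel)

theorem sM6_4 : Btw (ZR (-1) 5 4) (-1640) 1689 :=
  aM 2 2 4 dM6_4 [cM6_4_0] rfl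
    (all_cons xM6_4_0 all_nil)
    oR6_4 gR6_4 (by decide +kernel) eM6_4 (by decide +kernel)

theorem sP6_6 : Btw (ZR 1 5 6) 5321538204 5321547848 :=
  aP 2 2 6 dP6_6 [cP6_6_0] rfl
    (all_cons xP6_6_0 all_nil)
    oR6_6 gR6_6 (by decide +kernel) eP6_6 (by decide +kernel)

theorem sP6_5 : Btw (ZR 1 5 5) 16625102 16634575 :=
  aP 2 2 5 dP6_5 [cP6_5_0] rfl
    (all_cons xP6_5_0 all_nil)
    oR6_5 gR6_5 (by decide +kernel) eP6_5 (by decide +kernel)

theorem sP6_4 : Btw (ZR 1 5 4) (-1563) 1867 :=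
  aP 2 2 4 dP6_4 [cP6_4_0] rfl
    (all_cons xP6_4_0 all_nil)
    oR6_4 gR6_4 (by decide +kernel) eP6_4 (by decide +kernel)

theorem sP6_0 : Btw (ZR 1 5 0) 0 1 :=
  cR 2 2 0 1 norm_one 97 1 gR6_0 (by decide +kernel)

theorem sP6_1 : Btw (ZR 1 5 1) 0 1 :=
  cR 2 2 1 1 norm_one 97 1 gR6_1 (by decide +kernel)

theorem sP6_2 : Btw (ZR 1 5 2) 0 1 :=
  cR 2 2 2 1 norm_one 79 1 gR6_2 (by decide +kernel)

theorem sP6_3 : Btw (ZR 1 5 3) 0 1 :=
  cR 2 2 3 1 norm_one 47 1 gR6_3 (by decide +kernel)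

theorem sM6_0 : Btw (ZR (-1) 5 0) 0 1 :=
  cR 2 2 0 (-1) hm1_6 97 1 gR6_0 (by decide +kernel)

theorem sM6_1 : Btw (ZR (-1) 5 1) 0 1 :=
  cR 2 2 1 (-1) hm1_6 97 1 gR6_1 (by decide +kernel)

theorem sM6_2 : Btw (ZR (-1) 5 2) 0 1 :=
  cR 2 2 2 (-1) hm1_6 79 1 gR6_2 (by decide +kernel)

theorem sM6_3 : Btw (ZR (-1) 5 3) 0 1 :=
  cR 2 2 3 (-1) hm1_6 47 1 gR6_3 (by decide +kernel)

theorem sW6_0 : Btw (ZR om 5 0) 0 1 :=
  cR 2 2 0 om sc_om 97 1 gR6_0 (by decide +kernel)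

theorem sW6_1 : Btw (ZR om 5 1) 0 1 :=
  cR 2 2 1 om sc_om 97 1 gR6_1 (by decide +kernel)

theorem sW6_2 : Btw (ZR om 5 2) 0 1 :=
  cR 2 2 2 om sc_om 79 1 gR6_2 (by decide +kernel)

theorem sW6_3 : Btw (ZR om 5 3) 0 1 :=
  cR 2 2 3 om sc_om 47 1 gR6_3 (by decide +kernel)

theorem zP6 : Btw (zr 1 8 6 * nr 1 6) 5354785282 5354820740 := by
  have h := zr_sum 1 norm_one 5 (by norm_num)
  have h0 := sP6_0
  have h1 := sP6_1
  have h2 := sP6_2
  have h3 := sP6_3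
  have h4 := sP6_4
  have h5 := sP6_5
  have h6 := sP6_6
  simp only [Finset.sum_range_succ, Finset.sum_range_zero, Nat.reduceAdd, Nat.reduceMul] at h
  unfold Btw at *
  push_cast at *
  constructor <;> linarith [h0.1, h0.2, h1.1, h1.2, h2.1, h2.2, h3.1, h3.2, h4.1, h4.2, h5.1, h5.2, h6.1, h6.2]

theorem uP6 : Btw (gr 1 8 6 * nr 1 6) 5288265924 5288301382 := by
  have h := gr_sum 1 norm_one 5 (by norm_num)
  have h0 := sP6_0
  have h1 := sP6_1
  have h2 := sP6_2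
  have h3 := sP6_3
  have h4 := sP6_4
  have h5 := sP6_5
  have h6 := sP6_6
  simp only [Finset.sum_range_succ, Finset.sum_range_zero, Nat.reduceAdd, Nat.reduceMul] at h
  unfold Btw at *
  push_cast at *
  constructor <;> linarith [h0.1, h0.2, h1.1, h1.2, h2.1, h2.2, h3.1, h3.2, h4.1, h4.2, h5.1, h5.2, h6.1, h6.2]

theorem zM6 : Btw (zr (-1) 8 6 * nr 1 6) 463227751 463259658 := by
  have h := zr_sum (-1) hm1_6 5 (by norm_num)
  have h0 := sM6_0
  have h1 := sM6_1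
  have h2 := sM6_2
  have h3 := sM6_3
  have h4 := sM6_4
  have h5 := sM6_5
  have h6 := sM6_6
  simp only [Finset.sum_range_succ, Finset.sum_range_zero, Nat.reduceAdd, Nat.reduceMul] at h
  unfold Btw at *
  push_cast at *
  constructor <;> linarith [h0.1, h0.2, h1.1, h1.2, h2.1, h2.2, h3.1, h3.2, h4.1, h4.2, h5.1, h5.2, h6.1, h6.2]

theorem fM6 : Btw (fr 8 6 * nr 1 6) (-414821112) (-414813338) := by
  have h := fr_sum 5 (by norm_num)
  have h0 := sF6.2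
  simp only [Finset.sum_range_succ, Finset.sum_range_zero, Nat.reduceAdd, Nat.reduceMul] at h
  unfold Btw at *
  push_cast at *
  constructor <;> linarith [h0.1, h0.2]

theorem zW6 : Btw (zr om 8 6 * nr 1 6) 973013757 973043545 := by
  have h := zr_sum om sc_om 5 (by norm_num)
  have h0 := sW6_0
  have h1 := sW6_1
  have h2 := sW6_2
  have h3 := sW6_3
  have h4 := sW6_4
  have h5 := sW6_5
  have h6 := sW6_6
  simp only [Finset.sum_range_succ, Finset.sum_range_zero, Nat.reduceAdd, Nat.reduceMul] at h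
  unfold Btw at *
  push_cast at *
  constructor <;> linarith [h0.1, h0.2, h1.1, h1.2, h2.1, h2.2, h3.1, h3.2, h4.1, h4.2, h5.1, h5.2, h6.1, h6.2]

theorem uW6 : Btw (gr om 8 6 * nr 1 6) 968961023 968990811 := by
  have h := gr_sum om sc_om 5 (by norm_num)
  have h0 := sW6_0
  have h1 := sW6_1
  have h2 := sW6_2
  have h3 := sW6_3
  have h4 := sW6_4
  have h5 := sW6_5
  have h6 := sW6_6
  simp only [Finset.sum_range_succ, Finset.sum_range_zero, Nat.reduceAdd, Nat.reduceMul] at h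
  unfold Btw at *
  push_cast at *
  constructor <;> linarith [h0.1, h0.2, h1.1, h1.2, h2.1, h2.2, h3.1, h3.2, h4.1, h4.2, h5.1, h5.2, h6.1, h6.2]


end Crest.Agent.R347.Dat
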