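import Crest.Agent.R347.ExpCert
import Crest.Agent.R347.DR7

/-! Approximation of the exponential. -/

set_option autoImplicit false
set_option maxRecDepth 100000
set_option Elab.async false

namespace Crest.Agent.R347.Dat

open Crest.Agent.R347 Crest.Agent.R347.K

theorem eW7_7 : PCert 1 ((dW7_7.p.cb : ℤ) - (3 + 2 + 2 : ℕ)) dW7_7.p.q dW7_7.p.cs dW7_7.b dW7_7.En
    dW7_7.en :=
  expChk_sound _ _ _ _ _ _ _ 120 4473 (by decide +kernel)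

theorem eW7_6 : PCert 1 ((dW7_6.p.cb : ℤ) - (3 + 2 + 2 : ℕ)) dW7_6.p.q dW7_6.p.cs dW7_6.b dW7_6.En
    dW7_6.en :=
  expChk_sound _ _ _ _ _ _ _ 120 4243 (by decide +kernel)

theorem eW7_5 : PCert 1 ((dW7_5.p.cb : ℤ) - (3 + 2 + 2 : ℕ)) dW7_5.p.q dW7_5.p.cs dW7_5.b dW7_5.En
    dW7_5.en :=
  expChk_sound _ _ _ _ _ _ _ 120 4124 (by decide +kernel)

theorem eM7_7 : PCert 1 ((dM7_7.p.cb : ℤ) - (3 + 2 + 2 : ℕ)) dM7_7.p.q dM7_7.p.cs dM7_7.b dM7_7.En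
    dM7_7.en :=
  expChk_sound _ _ _ _ _ _ _ 120 4473 (by decide +kernel)

theorem eM7_6 : PCert 1 ((dM7_6.p.cb : ℤ) - (3 + 2 + 2 : ℕ)) dM7_6.p.q dM7_6.p.cs dM7_6.b dM7_6.En
    dM7_6.en :=
  expChk_sound _ _ _ _ _ _ _ 120 4243 (by decide +kernel)

theorem eM7_5 : PCert 1 ((dM7_5.p.cb : ℤ) - (3 + 2 + 2 : ℕ)) dM7_5.p.q dM7_5.p.cs dM7_5.b dM7_5.En
    dM7_5.en :=
  expChk_sound _ _ _ _ _ _ _ 120 4124 (by decide +kernel)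

theorem eP7_7 : PCert 1 ((dP7_7.p.cb : ℤ) - (3 + 2 + 2 : ℕ)) dP7_7.p.q dP7_7.p.cs dP7_7.b dP7_7.En
    dP7_7.en :=
  expChk_sound _ _ _ _ _ _ _ 120 4473 (by decide +kernel)

theorem eP7_6 : PCert 1 ((dP7_6.p.cb : ℤ) - (3 + 2 + 2 : ℕ)) dP7_6.p.q dP7_6.p.cs dP7_6.b dP7_6.En
    dP7_6.en :=
  expChk_sound _ _ _ _ _ _ _ 120 4243 (by decide +kernel)

theorem eP7_5 : PCert 1 ((dP7_5.p.cb : ℤ) - (3 + 2 + 2 : ℕ)) dP7_5.p.q dP7_5.p.cs dP7_5.b dP7_5.En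
    dP7_5.en :=
  expChk_sound _ _ _ _ _ _ _ 120 4124 (by decide +kernel)


end Crest.Agent.R347.Dat
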