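import Crest.Agent.R347.DR7
import Crest.Agent.R347.DR8
import Crest.Agent.R347.DR9
import Crest.Agent.R347.X16

/-! Kernel runs. -/

set_option autoImplicit false
set_option maxRecDepth 100000
set_option Elab.async false

namespace Crest.Agent.R347.Dat

open Crest.Agent.R347 Crest.Agent.R347.K

theorem xP9_8_0 : okP 4 3 8 pP9_8 cP9_8_0 = true := by decide +kernel

theorem xP9_8_1 : okP 4 3 8 pP9_8 cP9_8_1 = true := by decide +kernel

theorem xP9_7_0 : okP 4 3 7 pP9_7 cP9_7_0 = true := by decide +kernel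

theorem xW8_8_0 : okW 3 3 8 pW8_8 cW8_8_0 = true := by decide +kernel

theorem xW8_7_0 : okW 3 3 7 pW8_7 cW8_7_0 = true := by decide +kernel

theorem xW8_6_0 : okW 3 3 6 pW8_6 cW8_6_0 = true := by decide +kernel

theorem xM8_8_0 : okF 3 3 8 pM8_8 cM8_8_0 = true := by decide +kernel

theorem xM8_7_0 : okM 3 3 7 pM8_7 cM8_7_0 = true := by decide +kernel

theorem xM8_6_0 : okM 3 3 6 pM8_6 cM8_6_0 = true := by decide +kernel

theorem xP8_8_0 : okP 3 3 8 pP8_8 cP8_8_0 = true := by decide +kernel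

theorem xP8_7_0 : okP 3 3 7 pP8_7 cP8_7_0 = true := by decide +kernel

theorem xP8_6_0 : okP 3 3 6 pP8_6 cP8_6_0 = true := by decide +kernel

theorem xW7_7_0 : okW 3 2 7 pW7_7 cW7_7_0 = true := by decide +kernel

theorem xW7_6_0 : okW 3 2 6 pW7_6 cW7_6_0 = true := by decide +kernel

theorem xW7_5_0 : okW 3 2 5 pW7_5 cW7_5_0 = true := by decide +kernel

theorem xM7_7_0 : okF 3 2 7 pM7_7 cM7_7_0 = true := by decide +kernel

theorem xM7_6_0 : okM 3 2 6 pM7_6 cM7_6_0 = true := by decide +kernel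

theorem xM7_5_0 : okM 3 2 5 pM7_5 cM7_5_0 = true := by decide +kernel

theorem xP7_7_0 : okP 3 2 7 pP7_7 cP7_7_0 = true := by decide +kernel

theorem xP7_6_0 : okP 3 2 6 pP7_6 cP7_6_0 = true := by decide +kernel

theorem xP7_5_0 : okP 3 2 5 pP7_5 cP7_5_0 = true := by decide +kernel


end Crest.Agent.R347.Dat
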