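import Crest.Agent.R347.Asm
import Crest.Agent.R347.ER7
import Crest.Agent.R347.TR7
import Crest.Agent.R347.X24

/-! Bounds for the sector sums and their totals. -/

set_option autoImplicit false
set_option maxRecDepth 100000
set_option Elab.async false

namespace Crest.Agent.R347.Dat

open Crest.Agent.R347 Crest.Agent.R347.K

theorem hm1_7 : ‖(-1 : ℂ)‖ = 1 := by simp

theorem sW7_7 : Btw (ZR om 6 7) 967928841 967938825 :=
  aW 3 2 7 dW7_7 [cW7_7_0] rfl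
    (all_cons xW7_7_0 all_nil)
    oR7_7 gR7_7 (by decide +kernel) eW7_7 (by decide +kernel)

theorem sW7_6 : Btw (ZR om 6 6) 13001700 13006431 :=
  aW 3 2 6 dW7_6 [cW7_6_0] rfl
    (all_cons xW7_6_0 all_nil)
    oR7_6 gR7_6 (by decide +kernel) eW7_6 (by decide +kernel)

theorem sW7_5 : Btw (ZR om 6 5) (-2274) 3334 :=
  aW 3 2 5 dW7_5 [cW7_5_0] rfl
    (all_cons xW7_5_0 all_nil)
    oR7_5 gR7_5 (by decide +kernel) eW7_5 (by decide +kernel)

theorem sF7 : Btw (ZR (-1) 6 7) 1528912042 1528924122 ∧ Btw (GR 6) 1528470472 1528482609 :=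
  aF 3 2 7 dM7_7 [cM7_7_0] rfl rfl
    (all_cons xM7_7_0 all_nil)
    oR7_7 gR7_7 (by decide +kernel) eM7_7 (by decide +kernel)
    (by decide +kernel)

theorem sM7_7 : Btw (ZR (-1) 6 7) 1528912042 1528924122 := sF7.1

theorem sM7_6 : Btw (ZR (-1) 6 6) 23509053 23515248 :=
  aM 3 2 6 dM7_6 [cM7_6_0] rfl
    (all_cons xM7_6_0 all_nil)
    oR7_6 gR7_6 (by decide +kernel) eM7_6 (by decide +kernel)

theorem sM7_5 : Btw (ZR (-1) 6 5) (-1899) 3737 :=
  aM 3 2 5 dM7_5 [cM7_5_0] rfl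
    (all_cons xM7_5_0 all_nil)
    oR7_5 gR7_5 (by decide +kernel) eM7_5 (by decide +kernel)

theorem sP7_7 : Btw (ZR 1 6 7) 149151652 149160407 :=
  aP 3 2 7 dP7_7 [cP7_7_0] rfl
    (all_cons xP7_7_0 all_nil)
    oR7_7 gR7_7 (by decide +kernel) eP7_7 (by decide +kernel)

theorem sP7_6 : Btw (ZR 1 6 6) 321529 328954 :=
  aP 3 2 6 dP7_6 [cP7_6_0] rfl
    (all_cons xP7_6_0 all_nil)
    oR7_6 gR7_6 (by decide +kernel) eP7_6 (by decide +kernel)

theorem sP7_5 : Btw (ZR 1 6 5) (-2711) 2820 :=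
  aP 3 2 5 dP7_5 [cP7_5_0] rfl
    (all_cons xP7_5_0 all_nil)
    oR7_5 gR7_5 (by decide +kernel) eP7_5 (by decide +kernel)

theorem sP7_0 : Btw (ZR 1 6 0) 0 1 :=
  cR 3 2 0 1 norm_one 113 1 gR7_0 (by decide +kernel)

theorem sP7_1 : Btw (ZR 1 6 1) 0 1 :=
  cR 3 2 1 1 norm_one 113 1 gR7_1 (by decide +kernel)

theorem sP7_2 : Btw (ZR 1 6 2) 0 1 :=
  cR 3 2 2 1 norm_one 106 1 gR7_2 (by decide +kernel)

theorem sP7_3 : Btw (ZR 1 6 3) 0 1 :=
  cR 3 2 3 1 norm_one 71 1 gR7_3 (by decide +kernel)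

theorem sP7_4 : Btw (ZR 1 6 4) 0 1 :=
  cR 3 2 4 1 norm_one 42 1 gR7_4 (by decide +kernel)

theorem sM7_0 : Btw (ZR (-1) 6 0) 0 1 :=
  cR 3 2 0 (-1) hm1_7 113 1 gR7_0 (by decide +kernel)

theorem sM7_1 : Btw (ZR (-1) 6 1) 0 1 :=
  cR 3 2 1 (-1) hm1_7 113 1 gR7_1 (by decide +kernel)

theorem sM7_2 : Btw (ZR (-1) 6 2) 0 1 :=
  cR 3 2 2 (-1) hm1_7 106 1 gR7_2 (by decide +kernel)

theorem sM7_3 : Btw (ZR (-1) 6 3) 0 1 :=
  cR 3 2 3 (-1) hm1_7 71 1 gR7_3 (by decide +kernel)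

theorem sM7_4 : Btw (ZR (-1) 6 4) 0 1 :=
  cR 3 2 4 (-1) hm1_7 42 1 gR7_4 (by decide +kernel)

theorem sW7_0 : Btw (ZR om 6 0) 0 1 :=
  cR 3 2 0 om sc_om 113 1 gR7_0 (by decide +kernel)

theorem sW7_1 : Btw (ZR om 6 1) 0 1 :=
  cR 3 2 1 om sc_om 113 1 gR7_1 (by decide +kernel)

theorem sW7_2 : Btw (ZR om 6 2) 0 1 :=
  cR 3 2 2 om sc_om 106 1 gR7_2 (by decide +kernel)

theorem sW7_3 : Btw (ZR om 6 3) 0 1 :=
  cR 3 2 3 om sc_om 71 1 gR7_3 (by decide +kernel)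

theorem sW7_4 : Btw (ZR om 6 4) 0 1 :=
  cR 3 2 4 om sc_om 42 1 gR7_4 (by decide +kernel)

theorem zP7 : Btw (zr 1 8 7 * nr 1 7) 149789288 149823965 := by
  have h := zr_sum 1 norm_one 6 (by norm_num)
  have h0 := sP7_0
  have h1 := sP7_1
  have h2 := sP7_2
  have h3 := sP7_3
  have h4 := sP7_4
  have h5 := sP7_5
  have h6 := sP7_6
  have h7 := sP7_7
  simp only [Finset.sum_range_succ, Finset.sum_range_zero, Nat.reduceAdd, Nat.reduceMul] at h
  unfold Btw at *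
  push_cast at *
  constructor <;> linarith [h0.1, h0.2, h1.1, h1.2, h2.1, h2.2, h3.1, h3.2, h4.1, h4.2, h5.1, h5.2, h6.1, h6.2, h7.1, h7.2]

theorem uP7 : Btw (gr 1 8 7 * nr 1 7) 148488316 148522993 := by
  have h := gr_sum 1 norm_one 6 (by norm_num)
  have h0 := sP7_0
  have h1 := sP7_1
  have h2 := sP7_2
  have h3 := sP7_3
  have h4 := sP7_4
  have h5 := sP7_5
  have h6 := sP7_6
  have h7 := sP7_7
  simp only [Finset.sum_range_succ, Finset.sum_range_zero, Nat.reduceAdd, Nat.reduceMul] at h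
  unfold Btw at *
  push_cast at *
  constructor <;> linarith [h0.1, h0.2, h1.1, h1.2, h2.1, h2.2, h3.1, h3.2, h4.1, h4.2, h5.1, h5.2, h6.1, h6.2, h7.1, h7.2]

theorem zM7 : Btw (zr (-1) 8 7 * nr 1 7) 1575926350 1575962102 := by
  have h := zr_sum (-1) hm1_7 6 (by norm_num)
  have h0 := sM7_0
  have h1 := sM7_1
  have h2 := sM7_2
  have h3 := sM7_3
  have h4 := sM7_4
  have h5 := sM7_5
  have h6 := sM7_6
  have h7 := sM7_7
  simp only [Finset.sum_range_succ, Finset.sum_range_zero, Nat.reduceAdd, Nat.reduceMul] at h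
  unfold Btw at *
  push_cast at *
  constructor <;> linarith [h0.1, h0.2, h1.1, h1.2, h2.1, h2.2, h3.1, h3.2, h4.1, h4.2, h5.1, h5.2, h6.1, h6.2, h7.1, h7.2]

theorem fM7 : Btw (fr 8 7 * nr 1 7) (-1528482609) (-1528470472) := by
  have h := fr_sum 6 (by norm_num)
  have h0 := sF7.2
  simp only [Finset.sum_range_succ, Finset.sum_range_zero, Nat.reduceAdd, Nat.reduceMul] at h
  unfold Btw at *
  push_cast at *
  constructor <;> linarith [h0.1, h0.2]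

theorem zW7 : Btw (zr om 8 7 * nr 1 7) 993927693 993958365 := by
  have h := zr_sum om sc_om 6 (by norm_num)
  have h0 := sW7_0
  have h1 := sW7_1
  have h2 := sW7_2
  have h3 := sW7_3
  have h4 := sW7_4
  have h5 := sW7_5
  have h6 := sW7_6
  have h7 := sW7_7
  simp only [Finset.sum_range_succ, Finset.sum_range_zero, Nat.reduceAdd, Nat.reduceMul] at h
  unfold Btw at *
  push_cast at *
  constructor <;> linarith [h0.1, h0.2, h1.1, h1.2, h2.1, h2.2, h3.1, h3.2, h4.1, h4.2, h5.1, h5.2, h6.1, h6.2, h7.1, h7.2]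

theorem uW7 : Btw (gr om 8 7 * nr 1 7) 941911425 941942097 := by
  have h := gr_sum om sc_om 6 (by norm_num)
  have h0 := sW7_0
  have h1 := sW7_1
  have h2 := sW7_2
  have h3 := sW7_3
  have h4 := sW7_4
  have h5 := sW7_5
  have h6 := sW7_6
  have h7 := sW7_7
  simp only [Finset.sum_range_succ, Finset.sum_range_zero, Nat.reduceAdd, Nat.reduceMul] at h
  unfold Btw at *
  push_cast at *
  constructor <;> linarith [h0.1, h0.2, h1.1, h1.2, h2.1, h2.2, h3.1, h3.2, h4.1, h4.2, h5.1, h5.2, h6.1, h6.2, h7.1, h7.2]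


end Crest.Agent.R347.Dat
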