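import Crest.Agent.R347.ExpCert
import Crest.Agent.R347.DR8

/-! Approximation of the exponential. -/

set_option autoImplicit false
set_option maxRecDepth 100000
set_option Elab.async false

namespace Crest.Agent.R347.Dat

open Crest.Agent.R347 Crest.Agent.R347.K

theorem eW8_8 : PCert 1 ((dW8_8.p.cb : ℤ) - (3 + 3 + 2 : ℕ)) dW8_8.p.q dW8_8.p.cs dW8_8.b dW8_8.En
    dW8_8.en :=
  expChk_sound _ _ _ _ _ _ _ 120 5197 (by decide +kernel)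

theorem eW8_7 : PCert 1 ((dW8_7.p.cb : ℤ) - (3 + 3 + 2 : ℕ)) dW8_7.p.q dW8_7.p.cs dW8_7.b dW8_7.En
    dW8_7.en :=
  expChk_sound _ _ _ _ _ _ _ 120 4899 (by decide +kernel)

theorem eW8_6 : PCert 1 ((dW8_6.p.cb : ℤ) - (3 + 3 + 2 : ℕ)) dW8_6.p.q dW8_6.p.cs dW8_6.b dW8_6.En
    dW8_6.en :=
  expChk_sound _ _ _ _ _ _ _ 120 4899 (by decide +kernel)

theorem eM8_8 : PCert 1 ((dM8_8.p.cb : ℤ) - (3 + 3 + 2 : ℕ)) dM8_8.p.q dM8_8.p.cs dM8_8.b dM8_8.En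
    dM8_8.en :=
  expChk_sound _ _ _ _ _ _ _ 120 5197 (by decide +kernel)

theorem eM8_7 : PCert 1 ((dM8_7.p.cb : ℤ) - (3 + 3 + 2 : ℕ)) dM8_7.p.q dM8_7.p.cs dM8_7.b dM8_7.En
    dM8_7.en :=
  expChk_sound _ _ _ _ _ _ _ 120 4899 (by decide +kernel)

theorem eM8_6 : PCert 1 ((dM8_6.p.cb : ℤ) - (3 + 3 + 2 : ℕ)) dM8_6.p.q dM8_6.p.cs dM8_6.b dM8_6.En
    dM8_6.en :=
  expChk_sound _ _ _ _ _ _ _ 120 4899 (by decide +kernel)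

theorem eP8_8 : PCert 1 ((dP8_8.p.cb : ℤ) - (3 + 3 + 2 : ℕ)) dP8_8.p.q dP8_8.p.cs dP8_8.b dP8_8.En
    dP8_8.en :=
  expChk_sound _ _ _ _ _ _ _ 120 5197 (by decide +kernel)

theorem eP8_7 : PCert 1 ((dP8_7.p.cb : ℤ) - (3 + 3 + 2 : ℕ)) dP8_7.p.q dP8_7.p.cs dP8_7.b dP8_7.En
    dP8_7.en :=
  expChk_sound _ _ _ _ _ _ _ 120 4899 (by decide +kernel)

theorem eP8_6 : PCert 1 ((dP8_6.p.cb : ℤ) - (3 + 3 + 2 : ℕ)) dP8_6.p.q dP8_6.p.cs dP8_6.b dP8_6.En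
    dP8_6.en :=
  expChk_sound _ _ _ _ _ _ _ 120 4899 (by decide +kernel)


end Crest.Agent.R347.Dat
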