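import Crest.Agent.R347.Asm
import Crest.Agent.R347.ER8
import Crest.Agent.R347.TR8
import Crest.Agent.R347.X24

/-! Bounds for the sector sums and their totals. -/

set_option autoImplicit false
set_option maxRecDepth 100000
set_option Elab.async false

namespace Crest.Agent.R347.Dat

open Crest.Agent.R347 Crest.Agent.R347.K

theorem hm1_8 : ‖(-1 : ℂ)‖ = 1 := by simp

theorem sW8_8 : Btw (ZR om 7 8) 1008318468 1008335994 :=
  aW 3 3 8 dW8_8 [cW8_8_0] rfl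
    (all_cons xW8_8_0 all_nil)
    oR8_8 gR8_8 (by decide +kernel) eW8_8 (by decide +kernel)

theorem sW8_7 : Btw (ZR om 7 7) 3263832 3272044 :=
  aW 3 3 7 dW8_7 [cW8_7_0] rfl
    (all_cons xW8_7_0 all_nil)
    oR8_7 gR8_7 (by decide +kernel) eW8_7 (by decide +kernel)

theorem sW8_6 : Btw (ZR om 7 6) (-1937) 2583 :=
  aW 3 3 6 dW8_6 [cW8_6_0] rfl
    (all_cons xW8_6_0 all_nil)
    oR8_6 gR8_6 (by decide +kernel) eW8_6 (by decide +kernel)

theorem sF8 : Btw (ZR (-1) 7 8) 670130742 670146651 ∧ Btw (GR 7) (-611770341) (-611754405) :=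
  aF 3 3 8 dM8_8 [cM8_8_0] rfl rfl
    (all_cons xM8_8_0 all_nil)
    oR8_8 gR8_8 (by decide +kernel) eM8_8 (by decide +kernel)
    (by decide +kernel)

theorem sM8_8 : Btw (ZR (-1) 7 8) 670130742 670146651 := sF8.1

theorem sM8_7 : Btw (ZR (-1) 7 7) 654352 660441 :=
  aM 3 3 7 dM8_7 [cM8_7_0] rfl
    (all_cons xM8_7_0 all_nil)
    oR8_7 gR8_7 (by decide +kernel) eM8_7 (by decide +kernel)

theorem sM8_6 : Btw (ZR (-1) 7 6) (-2162) 2329 :=
  aM 3 3 6 dM8_6 [cM8_6_0] rfl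
    (all_cons xM8_6_0 all_nil)
    oR8_6 gR8_6 (by decide +kernel) eM8_6 (by decide +kernel)

theorem sP8_8 : Btw (ZR 1 7 8) 2745437333 2745451439 :=
  aP 3 3 8 dP8_8 [cP8_8_0] rfl
    (all_cons xP8_8_0 all_nil)
    oR8_8 gR8_8 (by decide +kernel) eP8_8 (by decide +kernel)

theorem sP8_7 : Btw (ZR 1 7 7) 23587979 23595803 :=
  aP 3 3 7 dP8_7 [cP8_7_0] rfl
    (all_cons xP8_7_0 all_nil)
    oR8_7 gR8_7 (by decide +kernel) eP8_7 (by decide +kernel)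

theorem sP8_6 : Btw (ZR 1 7 6) 228 4889 :=
  aP 3 3 6 dP8_6 [cP8_6_0] rfl
    (all_cons xP8_6_0 all_nil)
    oR8_6 gR8_6 (by decide +kernel) eP8_6 (by decide +kernel)

theorem sP8_0 : Btw (ZR 1 7 0) 0 1 :=
  cR 3 3 0 1 norm_one 129 1 gR8_0 (by decide +kernel)

theorem sP8_1 : Btw (ZR 1 7 1) 0 1 :=
  cR 3 3 1 1 norm_one 129 1 gR8_1 (by decide +kernel)

theorem sP8_2 : Btw (ZR 1 7 2) 0 1 :=
  cR 3 3 2 1 norm_one 129 1 gR8_2 (by decide +kernel)

theorem sP8_3 : Btw (ZR 1 7 3) 0 1 :=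
  cR 3 3 3 1 norm_one 95 1 gR8_3 (by decide +kernel)

theorem sP8_4 : Btw (ZR 1 7 4) 0 1 :=
  cR 3 3 4 1 norm_one 64 1 gR8_4 (by decide +kernel)

theorem sP8_5 : Btw (ZR 1 7 5) 0 2 :=
  cR 3 3 5 1 norm_one 38 2 gR8_5 (by decide +kernel)

theorem sM8_0 : Btw (ZR (-1) 7 0) 0 1 :=
  cR 3 3 0 (-1) hm1_8 129 1 gR8_0 (by decide +kernel)

theorem sM8_1 : Btw (ZR (-1) 7 1) 0 1 :=
  cR 3 3 1 (-1) hm1_8 129 1 gR8_1 (by decide +kernel)

theorem sM8_2 : Btw (ZR (-1) 7 2) 0 1 :=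
  cR 3 3 2 (-1) hm1_8 129 1 gR8_2 (by decide +kernel)

theorem sM8_3 : Btw (ZR (-1) 7 3) 0 1 :=
  cR 3 3 3 (-1) hm1_8 95 1 gR8_3 (by decide +kernel)

theorem sM8_4 : Btw (ZR (-1) 7 4) 0 1 :=
  cR 3 3 4 (-1) hm1_8 64 1 gR8_4 (by decide +kernel)

theorem sM8_5 : Btw (ZR (-1) 7 5) 0 2 :=
  cR 3 3 5 (-1) hm1_8 38 2 gR8_5 (by decide +kernel)

theorem sW8_0 : Btw (ZR om 7 0) 0 1 :=
  cR 3 3 0 om sc_om 129 1 gR8_0 (by decide +kernel)

theorem sW8_1 : Btw (ZR om 7 1) 0 1 :=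
  cR 3 3 1 om sc_om 129 1 gR8_1 (by decide +kernel)

theorem sW8_2 : Btw (ZR om 7 2) 0 1 :=
  cR 3 3 2 om sc_om 129 1 gR8_2 (by decide +kernel)

theorem sW8_3 : Btw (ZR om 7 3) 0 1 :=
  cR 3 3 3 om sc_om 95 1 gR8_3 (by decide +kernel)

theorem sW8_4 : Btw (ZR om 7 4) 0 1 :=
  cR 3 3 4 om sc_om 64 1 gR8_4 (by decide +kernel)

theorem sW8_5 : Btw (ZR om 7 5) 0 2 :=
  cR 3 3 5 om sc_om 38 2 gR8_5 (by decide +kernel)

theorem zP8 : Btw (zr 1 8 8 * nr 1 8) 2792613747 2792652837 := by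
  have h := zr_sum 1 norm_one 7 (by norm_num)
  have h0 := sP8_0
  have h1 := sP8_1
  have h2 := sP8_2
  have h3 := sP8_3
  have h4 := sP8_4
  have h5 := sP8_5
  have h6 := sP8_6
  have h7 := sP8_7
  have h8 := sP8_8
  simp only [Finset.sum_range_succ, Finset.sum_range_zero, Nat.reduceAdd, Nat.reduceMul] at h
  unfold Btw at *
  push_cast at *
  constructor <;> linarith [h0.1, h0.2, h1.1, h1.2, h2.1, h2.2, h3.1, h3.2, h4.1, h4.2, h5.1, h5.2, h6.1, h6.2, h7.1, h7.2,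
    h8.1, h8.2]

theorem uP8 : Btw (gr 1 8 8 * nr 1 8) 2698246175 2698285265 := by
  have h := gr_sum 1 norm_one 7 (by norm_num)
  have h0 := sP8_0
  have h1 := sP8_1
  have h2 := sP8_2
  have h3 := sP8_3
  have h4 := sP8_4
  have h5 := sP8_5
  have h6 := sP8_6
  have h7 := sP8_7
  have h8 := sP8_8
  simp only [Finset.sum_range_succ, Finset.sum_range_zero, Nat.reduceAdd, Nat.reduceMul] at h
  unfold Btw at *
  push_cast at *
  constructor <;> linarith [h0.1, h0.2, h1.1, h1.2, h2.1, h2.2, h3.1, h3.2, h4.1, h4.2, h5.1, h5.2, h6.1, h6.2, h7.1, h7.2,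
    h8.1, h8.2]

theorem zM8 : Btw (zr (-1) 8 8 * nr 1 8) 671435122 671472205 := by
  have h := zr_sum (-1) hm1_8 7 (by norm_num)
  have h0 := sM8_0
  have h1 := sM8_1
  have h2 := sM8_2
  have h3 := sM8_3
  have h4 := sM8_4
  have h5 := sM8_5
  have h6 := sM8_6
  have h7 := sM8_7
  have h8 := sM8_8
  simp only [Finset.sum_range_succ, Finset.sum_range_zero, Nat.reduceAdd, Nat.reduceMul] at h
  unfold Btw at *
  push_cast at *
  constructor <;> linarith [h0.1, h0.2, h1.1, h1.2, h2.1, h2.2, h3.1, h3.2, h4.1, h4.2, h5.1, h5.2, h6.1, h6.2, h7.1, h7.2,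
    h8.1, h8.2]

theorem fM8 : Btw (fr 8 8 * nr 1 8) (-611770341) (-611754405) := by
  have h := fr_sum 7 (by norm_num)
  have h0 := sF8.2
  simp only [Finset.sum_range_succ, Finset.sum_range_zero, Nat.reduceAdd, Nat.reduceMul] at h
  unfold Btw at *
  push_cast at *
  constructor <;> linarith [h0.1, h0.2]

theorem zW8 : Btw (zr om 8 8 * nr 1 8) 1014842258 1014885262 := by
  have h := zr_sum om sc_om 7 (by norm_num)
  have h0 := sW8_0
  have h1 := sW8_1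
  have h2 := sW8_2
  have h3 := sW8_3
  have h4 := sW8_4
  have h5 := sW8_5
  have h6 := sW8_6
  have h7 := sW8_7
  have h8 := sW8_8
  simp only [Finset.sum_range_succ, Finset.sum_range_zero, Nat.reduceAdd, Nat.reduceMul] at h
  unfold Btw at *
  push_cast at *
  constructor <;> linarith [h0.1, h0.2, h1.1, h1.2, h2.1, h2.2, h3.1, h3.2, h4.1, h4.2, h5.1, h5.2, h6.1, h6.2, h7.1, h7.2,
    h8.1, h8.2]

theorem uW8 : Btw (gr om 8 8 * nr 1 8) 1001770498 1001813502 := by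
  have h := gr_sum om sc_om 7 (by norm_num)
  have h0 := sW8_0
  have h1 := sW8_1
  have h2 := sW8_2
  have h3 := sW8_3
  have h4 := sW8_4
  have h5 := sW8_5
  have h6 := sW8_6
  have h7 := sW8_7
  have h8 := sW8_8
  simp only [Finset.sum_range_succ, Finset.sum_range_zero, Nat.reduceAdd, Nat.reduceMul] at h
  unfold Btw at *
  push_cast at *
  constructor <;> linarith [h0.1, h0.2, h1.1, h1.2, h2.1, h2.2, h3.1, h3.2, h4.1, h4.2, h5.1, h5.2, h6.1, h6.2, h7.1, h7.2,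
    h8.1, h8.2]


end Crest.Agent.R347.Dat
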