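import Crest.Agent.R347.ExpCert
import Crest.Agent.R347.DR9

/-! Approximation of the exponential. -/

set_option autoImplicit false
set_option maxRecDepth 100000
set_option Elab.async false

namespace Crest.Agent.R347.Dat

open Crest.Agent.R347 Crest.Agent.R347.K

theorem eW9_9 : PCert 1 ((dW9_9.p.cb : ℤ) - (4 + 3 + 2 : ℕ)) dW9_9.p.q dW9_9.p.cs dW9_9.b dW9_9.En
    dW9_9.en :=
  expChk_sound _ _ _ _ _ _ _ 120 5831 (by decide +kernel)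

theorem eW9_8 : PCert 1 ((dW9_8.p.cb : ℤ) - (4 + 3 + 2 : ℕ)) dW9_8.p.q dW9_8.p.cs dW9_8.b dW9_8.En
    dW9_8.en :=
  expChk_sound _ _ _ _ _ _ _ 120 5657 (by decide +kernel)

theorem eW9_7 : PCert 1 ((dW9_7.p.cb : ℤ) - (4 + 3 + 2 : ℕ)) dW9_7.p.q dW9_7.p.cs dW9_7.b dW9_7.En
    dW9_7.en :=
  expChk_sound _ _ _ _ _ _ _ 120 5100 (by decide +kernel)

theorem eM9_9 : PCert 1 ((dM9_9.p.cb : ℤ) - (4 + 3 + 2 : ℕ)) dM9_9.p.q dM9_9.p.cs dM9_9.b dM9_9.En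
    dM9_9.en :=
  expChk_sound _ _ _ _ _ _ _ 120 5831 (by decide +kernel)

theorem eM9_8 : PCert 1 ((dM9_8.p.cb : ℤ) - (4 + 3 + 2 : ℕ)) dM9_8.p.q dM9_8.p.cs dM9_8.b dM9_8.En
    dM9_8.en :=
  expChk_sound _ _ _ _ _ _ _ 120 5657 (by decide +kernel)

theorem eM9_7 : PCert 1 ((dM9_7.p.cb : ℤ) - (4 + 3 + 2 : ℕ)) dM9_7.p.q dM9_7.p.cs dM9_7.b dM9_7.En
    dM9_7.en :=
  expChk_sound _ _ _ _ _ _ _ 120 5100 (by decide +kernel)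

theorem eP9_9 : PCert 1 ((dP9_9.p.cb : ℤ) - (4 + 3 + 2 : ℕ)) dP9_9.p.q dP9_9.p.cs dP9_9.b dP9_9.En
    dP9_9.en :=
  expChk_sound _ _ _ _ _ _ _ 120 5831 (by decide +kernel)

theorem eP9_8 : PCert 1 ((dP9_8.p.cb : ℤ) - (4 + 3 + 2 : ℕ)) dP9_8.p.q dP9_8.p.cs dP9_8.b dP9_8.En
    dP9_8.en :=
  expChk_sound _ _ _ _ _ _ _ 120 5657 (by decide +kernel)

theorem eP9_7 : PCert 1 ((dP9_7.p.cb : ℤ) - (4 + 3 + 2 : ℕ)) dP9_7.p.q dP9_7.p.cs dP9_7.b dP9_7.En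
    dP9_7.en :=
  expChk_sound _ _ _ _ _ _ _ 120 5100 (by decide +kernel)


end Crest.Agent.R347.Dat
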