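import Crest.Agent.R347.Asm
import Crest.Agent.R347.ER9
import Crest.Agent.R347.TR9
import Crest.Agent.R347.X23
import Crest.Agent.R347.X24

/-! Bounds for the sector sums and their totals. -/

set_option autoImplicit false
set_option maxRecDepth 100000
set_option Elab.async false

namespace Crest.Agent.R347.Dat

open Crest.Agent.R347 Crest.Agent.R347.K

theorem hm1_9 : ‖(-1 : ℂ)‖ = 1 := by simp

theorem sW9_9 : Btw (ZR om 8 9) 988942314 988960365 :=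
  aW 4 3 9 dW9_9 [cW9_9_0, cW9_9_1] rfl
    (all_cons xW9_9_0 (all_cons xW9_9_1 all_nil))
    oR9_9 gR9_9 (by decide +kernel) eW9_9 (by decide +kernel)

theorem sW9_8 : Btw (ZR om 8 8) 18460698 18467440 :=
  aW 4 3 8 dW9_8 [cW9_8_0, cW9_8_1] rfl
    (all_cons xW9_8_0 (all_cons xW9_8_1 all_nil))
    oR9_8 gR9_8 (by decide +kernel) eW9_8 (by decide +kernel)

theorem sW9_7 : Btw (ZR om 8 7) 2309 5147 :=
  aW 4 3 7 dW9_7 [cW9_7_0] rfl
    (all_cons xW9_7_0 all_nil)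
    oR9_7 gR9_7 (by decide +kernel) eW9_7 (by decide +kernel)

theorem sF9 : Btw (ZR (-1) 8 9) 1308621275 1308638488 ∧ Btw (GR 8) 1306268142 1306285381 :=
  aF 4 3 9 dM9_9 [cM9_9_0] rfl rfl
    (all_cons xM9_9_0 all_nil)
    oR9_9 gR9_9 (by decide +kernel) eM9_9 (by decide +kernel)
    (by decide +kernel)

theorem sM9_9 : Btw (ZR (-1) 8 9) 1308621275 1308638488 := sF9.1

theorem sM9_8 : Btw (ZR (-1) 8 8) 28472068 28479786 :=
  aM 4 3 8 dM9_8 [cM9_8_0, cM9_8_1] rfl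
    (all_cons xM9_8_0 (all_cons xM9_8_1 all_nil))
    oR9_8 gR9_8 (by decide +kernel) eM9_8 (by decide +kernel)

theorem sM9_7 : Btw (ZR (-1) 8 7) 4490 7341 :=
  aM 4 3 7 dM9_7 [cM9_7_0] rfl
    (all_cons xM9_7_0 all_nil)
    oR9_7 gR9_7 (by decide +kernel) eM9_7 (by decide +kernel)

theorem sP9_9 : Btw (ZR 1 8 9) 345926288 345940789 :=
  aP 4 3 9 dP9_9 [cP9_9_0] rfl
    (all_cons xP9_9_0 all_nil)
    oR9_9 gR9_9 (by decide +kernel) eP9_9 (by decide +kernel)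

theorem sP9_8 : Btw (ZR 1 8 8) 1484267 1493170 :=
  aP 4 3 8 dP9_8 [cP9_8_0, cP9_8_1] rfl
    (all_cons xP9_8_0 (all_cons xP9_8_1 all_nil))
    oR9_8 gR9_8 (by decide +kernel) eP9_8 (by decide +kernel)

theorem sP9_7 : Btw (ZR 1 8 7) (-1173) 1589 :=
  aP 4 3 7 dP9_7 [cP9_7_0] rfl
    (all_cons xP9_7_0 all_nil)
    oR9_7 gR9_7 (by decide +kernel) eP9_7 (by decide +kernel)

theorem sP9_0 : Btw (ZR 1 8 0) 0 1 :=
  cR 4 3 0 1 norm_one 145 1 gR9_0 (by decide +kernel)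

theorem sP9_1 : Btw (ZR 1 8 1) 0 1 :=
  cR 4 3 1 1 norm_one 145 1 gR9_1 (by decide +kernel)

theorem sP9_2 : Btw (ZR 1 8 2) 0 1 :=
  cR 4 3 2 1 norm_one 145 1 gR9_2 (by decide +kernel)

theorem sP9_3 : Btw (ZR 1 8 3) 0 1 :=
  cR 4 3 3 1 norm_one 121 1 gR9_3 (by decide +kernel)

theorem sP9_4 : Btw (ZR 1 8 4) 0 1 :=
  cR 4 3 4 1 norm_one 87 1 gR9_4 (by decide +kernel)

theorem sP9_5 : Btw (ZR 1 8 5) 0 1 :=
  cR 4 3 5 1 norm_one 58 1 gR9_5 (by decide +kernel)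

theorem sP9_6 : Btw (ZR 1 8 6) 0 46 :=
  cR 4 3 6 1 norm_one 35 46 gR9_6 (by decide +kernel)

theorem sM9_0 : Btw (ZR (-1) 8 0) 0 1 :=
  cR 4 3 0 (-1) hm1_9 145 1 gR9_0 (by decide +kernel)

theorem sM9_1 : Btw (ZR (-1) 8 1) 0 1 :=
  cR 4 3 1 (-1) hm1_9 145 1 gR9_1 (by decide +kernel)

theorem sM9_2 : Btw (ZR (-1) 8 2) 0 1 :=
  cR 4 3 2 (-1) hm1_9 145 1 gR9_2 (by decide +kernel)

theorem sM9_3 : Btw (ZR (-1) 8 3) 0 1 :=
  cR 4 3 3 (-1) hm1_9 121 1 gR9_3 (by decide +kernel)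

theorem sM9_4 : Btw (ZR (-1) 8 4) 0 1 :=
  cR 4 3 4 (-1) hm1_9 87 1 gR9_4 (by decide +kernel)

theorem sM9_5 : Btw (ZR (-1) 8 5) 0 1 :=
  cR 4 3 5 (-1) hm1_9 58 1 gR9_5 (by decide +kernel)

theorem sM9_6 : Btw (ZR (-1) 8 6) 0 46 :=
  cR 4 3 6 (-1) hm1_9 35 46 gR9_6 (by decide +kernel)

theorem sW9_0 : Btw (ZR om 8 0) 0 1 :=
  cR 4 3 0 om sc_om 145 1 gR9_0 (by decide +kernel)

theorem sW9_1 : Btw (ZR om 8 1) 0 1 :=
  cR 4 3 1 om sc_om 145 1 gR9_1 (by decide +kernel)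

theorem sW9_2 : Btw (ZR om 8 2) 0 1 :=
  cR 4 3 2 om sc_om 145 1 gR9_2 (by decide +kernel)

theorem sW9_3 : Btw (ZR om 8 3) 0 1 :=
  cR 4 3 3 om sc_om 121 1 gR9_3 (by decide +kernel)

theorem sW9_4 : Btw (ZR om 8 4) 0 1 :=
  cR 4 3 4 om sc_om 87 1 gR9_4 (by decide +kernel)

theorem sW9_5 : Btw (ZR om 8 5) 0 1 :=
  cR 4 3 5 om sc_om 58 1 gR9_5 (by decide +kernel)

theorem sW9_6 : Btw (ZR om 8 6) 0 46 :=
  cR 4 3 6 om sc_om 35 46 gR9_6 (by decide +kernel)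

theorem zP9 : Btw (zr 1 8 9 * nr 1 9) 348892476 348930411 := by
  have h := zr_sum 1 norm_one 8 (by norm_num)
  have h0 := sP9_0
  have h1 := sP9_1
  have h2 := sP9_2
  have h3 := sP9_3
  have h4 := sP9_4
  have h5 := sP9_5
  have h6 := sP9_6
  have h7 := sP9_7
  have h8 := sP9_8
  have h9 := sP9_9
  simp only [Finset.sum_range_succ, Finset.sum_range_zero, Nat.reduceAdd, Nat.reduceMul] at h
  unfold Btw at *
  push_cast at *
  constructor <;> linarith [h0.1, h0.2, h1.1, h1.2, h2.1, h2.2, h3.1, h3.2, h4.1, h4.2, h5.1, h5.2, h6.1, h6.2, h7.1, h7.2,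
    h8.1, h8.2, h9.1, h9.2]

theorem uP9 : Btw (gr 1 8 9 * nr 1 9) 342937504 342975439 := by
  have h := gr_sum 1 norm_one 8 (by norm_num)
  have h0 := sP9_0
  have h1 := sP9_1
  have h2 := sP9_2
  have h3 := sP9_3
  have h4 := sP9_4
  have h5 := sP9_5
  have h6 := sP9_6
  have h7 := sP9_7
  have h8 := sP9_8
  have h9 := sP9_9
  simp only [Finset.sum_range_succ, Finset.sum_range_zero, Nat.reduceAdd, Nat.reduceMul] at h
  unfold Btw at *
  push_cast at *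
  constructor <;> linarith [h0.1, h0.2, h1.1, h1.2, h2.1, h2.2, h3.1, h3.2, h4.1, h4.2, h5.1, h5.2, h6.1, h6.2, h7.1, h7.2,
    h8.1, h8.2, h9.1, h9.2]

theorem zM9 : Btw (zr (-1) 8 9 * nr 1 9) 1365574391 1365612846 := by
  have h := zr_sum (-1) hm1_9 8 (by norm_num)
  have h0 := sM9_0
  have h1 := sM9_1
  have h2 := sM9_2
  have h3 := sM9_3
  have h4 := sM9_4
  have h5 := sM9_5
  have h6 := sM9_6
  have h7 := sM9_7
  have h8 := sM9_8
  have h9 := sM9_9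
  simp only [Finset.sum_range_succ, Finset.sum_range_zero, Nat.reduceAdd, Nat.reduceMul] at h
  unfold Btw at *
  push_cast at *
  constructor <;> linarith [h0.1, h0.2, h1.1, h1.2, h2.1, h2.2, h3.1, h3.2, h4.1, h4.2, h5.1, h5.2, h6.1, h6.2, h7.1, h7.2,
    h8.1, h8.2, h9.1, h9.2]

theorem fM9 : Btw (fr 8 9 * nr 1 9) (-1306285381) (-1306268142) := by
  have h := fr_sum 8 (by norm_num)
  have h0 := sF9.2
  simp only [Finset.sum_range_succ, Finset.sum_range_zero, Nat.reduceAdd, Nat.reduceMul] at h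
  unfold Btw at *
  push_cast at *
  constructor <;> linarith [h0.1, h0.2]

theorem zW9 : Btw (zr om 8 9 * nr 1 9) 1025868328 1025905643 := by
  have h := zr_sum om sc_om 8 (by norm_num)
  have h0 := sW9_0
  have h1 := sW9_1
  have h2 := sW9_2
  have h3 := sW9_3
  have h4 := sW9_4
  have h5 := sW9_5
  have h6 := sW9_6
  have h7 := sW9_7
  have h8 := sW9_8
  have h9 := sW9_9
  simp only [Finset.sum_range_succ, Finset.sum_range_zero, Nat.reduceAdd, Nat.reduceMul] at h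
  unfold Btw at *
  push_cast at *
  constructor <;> linarith [h0.1, h0.2, h1.1, h1.2, h2.1, h2.2, h3.1, h3.2, h4.1, h4.2, h5.1, h5.2, h6.1, h6.2, h7.1, h7.2,
    h8.1, h8.2, h9.1, h9.2]

theorem uW9 : Btw (gr om 8 9 * nr 1 9) 952011954 952049269 := by
  have h := gr_sum om sc_om 8 (by norm_num)
  have h0 := sW9_0
  have h1 := sW9_1
  have h2 := sW9_2
  have h3 := sW9_3
  have h4 := sW9_4
  have h5 := sW9_5
  have h6 := sW9_6
  have h7 := sW9_7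
  have h8 := sW9_8
  have h9 := sW9_9
  simp only [Finset.sum_range_succ, Finset.sum_range_zero, Nat.reduceAdd, Nat.reduceMul] at h
  unfold Btw at *
  push_cast at *
  constructor <;> linarith [h0.1, h0.2, h1.1, h1.2, h2.1, h2.2, h3.1, h3.2, h4.1, h4.2, h5.1, h5.2, h6.1, h6.2, h7.1, h7.2,
    h8.1, h8.2, h9.1, h9.2]


end Crest.Agent.R347.Dat
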