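import Crest.Agent.R347.Final
import Crest.Agent.R347.SO4
import Crest.Agent.R347.SO5
import Crest.Agent.R347.SO6
import Crest.Agent.R347.SO7
import Crest.Agent.R347.SO8
import Crest.Agent.R347.SR10
import Crest.Agent.R347.SR6
import Crest.Agent.R347.SR7
import Crest.Agent.R347.SR8
import Crest.Agent.R347.SR9

/-! The certified values. -/

set_option autoImplicit false
set_option maxRecDepth 100000
set_option Elab.async false

namespace Crest.Agent.R347.Dat

open Crest.Agent.R347 Crest.Agent.R347.K

theorem cnT : Near5 (fun L => pT 8 L * nr 1 L) 6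
    1.210726 1.069102 1.077166 1.054396 1.057442 0.00003 := by
  simp only [Near5, Near, pT, Nat.reduceAdd]
  refine ⟨?_, ?_, ?_, ?_, ?_⟩
  · have h0 := zP6
    have h1 := zM6
    have h2 := zW6
    unfold Btw at *
    push_cast at *
    constructor <;> linarith [h0.1, h0.2, h1.1, h1.2, h2.1, h2.2]
  · have h0 := zP7
    have h1 := zM7
    have h2 := zW7
    unfold Btw at *
    push_cast at *
    constructor <;> linarith [h0.1, h0.2, h1.1, h1.2, h2.1, h2.2]
  · have h0 := zP8
    have h1 := zM8
    have h2 := zW8
    unfold Btw at *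
    push_cast at *
    constructor <;> linarith [h0.1, h0.2, h1.1, h1.2, h2.1, h2.2]
  · have h0 := zP9
    have h1 := zM9
    have h2 := zW9
    unfold Btw at *
    push_cast at *
    constructor <;> linarith [h0.1, h0.2, h1.1, h1.2, h2.1, h2.2]
  · have h0 := zP10
    have h1 := zM10
    have h2 := zW10
    unfold Btw at *
    push_cast at *
    constructor <;> linarith [h0.1, h0.2, h1.1, h1.2, h2.1, h2.2]

theorem cna : Near5 (fun L => pa 8 L * nr 1 L) 6
    1.686136 1.219406 1.201747 1.111422 1.098552 0.00003 := by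
  simp only [Near5, Near, pa, Nat.reduceAdd]
  refine ⟨?_, ?_, ?_, ?_, ?_⟩
  · have h0 := zP6
    have h1 := zM6
    unfold Btw at *
    push_cast at *
    constructor <;> linarith [h0.1, h0.2, h1.1, h1.2]
  · have h0 := zP7
    have h1 := zM7
    unfold Btw at *
    push_cast at *
    constructor <;> linarith [h0.1, h0.2, h1.1, h1.2]
  · have h0 := zP8
    have h1 := zM8
    unfold Btw at *
    push_cast at *
    constructor <;> linarith [h0.1, h0.2, h1.1, h1.2]
  · have h0 := zP9
    have h1 := zM9
    unfold Btw at *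
    push_cast at *
    constructor <;> linarith [h0.1, h0.2, h1.1, h1.2]
  · have h0 := zP10
    have h1 := zM10
    unfold Btw at *
    push_cast at *
    constructor <;> linarith [h0.1, h0.2, h1.1, h1.2]

theorem cnb : Near5 (fun L => pb 8 L * nr 1 L) 6
    1.222892 (-0.356535) 0.530292 (-0.254171) 0.291272 0.00003 := by
  simp only [Near5, Near, pb, Nat.reduceAdd]
  refine ⟨?_, ?_, ?_, ?_, ?_⟩
  · have h0 := zP6
    have h1 := zM6
    unfold Btw at *
    push_cast at *
    constructor <;> linarith [h0.1, h0.2, h1.1, h1.2]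
  · have h0 := zP7
    have h1 := zM7
    unfold Btw at *
    push_cast at *
    constructor <;> linarith [h0.1, h0.2, h1.1, h1.2]
  · have h0 := zP8
    have h1 := zM8
    unfold Btw at *
    push_cast at *
    constructor <;> linarith [h0.1, h0.2, h1.1, h1.2]
  · have h0 := zP9
    have h1 := zM9
    unfold Btw at *
    push_cast at *
    constructor <;> linarith [h0.1, h0.2, h1.1, h1.2]
  · have h0 := zP10
    have h1 := zM10
    unfold Btw at *
    push_cast at *
    constructor <;> linarith [h0.1, h0.2, h1.1, h1.2]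

theorem cnD : Near5 (fun L => pD 8 L * nr 1 L) 6
    1.411780 1.102963 1.089526 1.027638 1.015825 0.00003 := by
  simp only [Near5, Near, pD, Nat.reduceAdd]
  refine ⟨?_, ?_, ?_, ?_, ?_⟩
  · have h0 := uP6
    have h1 := uW6
    have h2 := fM6
    unfold Btw at *
    push_cast at *
    constructor <;> linarith [h0.1, h0.2, h1.1, h1.2, h2.1, h2.2]
  · have h0 := uP7
    have h1 := uW7
    have h2 := fM7
    unfold Btw at *
    push_cast at *
    constructor <;> linarith [h0.1, h0.2, h1.1, h1.2, h2.1, h2.2]
  · have h0 := uP8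
    have h1 := uW8
    have h2 := fM8
    unfold Btw at *
    push_cast at *
    constructor <;> linarith [h0.1, h0.2, h1.1, h1.2, h2.1, h2.2]
  · have h0 := uP9
    have h1 := uW9
    have h2 := fM9
    unfold Btw at *
    push_cast at *
    constructor <;> linarith [h0.1, h0.2, h1.1, h1.2, h2.1, h2.2]
  · have h0 := uP10
    have h1 := uW10
    have h2 := fM10
    unfold Btw at *
    push_cast at *
    constructor <;> linarith [h0.1, h0.2, h1.1, h1.2, h2.1, h2.2]

theorem cnD' : Near5 (fun L => pD' 8 L * nr 1 L) 6
    0.996965 (-0.425511) 0.477760 (-0.278638) 0.277620 0.00003 := by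
  simp only [Near5, Near, pD', Nat.reduceAdd]
  refine ⟨?_, ?_, ?_, ?_, ?_⟩
  · have h0 := uP6
    have h1 := uW6
    have h2 := fM6
    unfold Btw at *
    push_cast at *
    constructor <;> linarith [h0.1, h0.2, h1.1, h1.2, h2.1, h2.2]
  · have h0 := uP7
    have h1 := uW7
    have h2 := fM7
    unfold Btw at *
    push_cast at *
    constructor <;> linarith [h0.1, h0.2, h1.1, h1.2, h2.1, h2.2]
  · have h0 := uP8
    have h1 := uW8
    have h2 := fM8
    unfold Btw at *
    push_cast at *
    constructor <;> linarith [h0.1, h0.2, h1.1, h1.2, h2.1, h2.2]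
  · have h0 := uP9
    have h1 := uW9
    have h2 := fM9
    unfold Btw at *
    push_cast at *
    constructor <;> linarith [h0.1, h0.2, h1.1, h1.2, h2.1, h2.2]
  · have h0 := uP10
    have h1 := uW10
    have h2 := fM10
    unfold Btw at *
    push_cast at *
    constructor <;> linarith [h0.1, h0.2, h1.1, h1.2, h2.1, h2.2]

theorem cnE : Near5 (fun L => pE 8 L * nr 1 L) 6
    1.439768 (-0.264474) 0.565491 (-0.203019) 0.282731 0.00003 := by
  simp only [Near5, Near, pE, Nat.reduceAdd]
  refine ⟨?_, ?_, ?_, ?_, ?_⟩
  · have h0 := uP6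
    have h1 := uW6
    unfold Btw at *
    push_cast at *
    constructor <;> linarith [h0.1, h0.2, h1.1, h1.2]
  · have h0 := uP7
    have h1 := uW7
    unfold Btw at *
    push_cast at *
    constructor <;> linarith [h0.1, h0.2, h1.1, h1.2]
  · have h0 := uP8
    have h1 := uW8
    unfold Btw at *
    push_cast at *
    constructor <;> linarith [h0.1, h0.2, h1.1, h1.2]
  · have h0 := uP9
    have h1 := uW9
    unfold Btw at *
    push_cast at *
    constructor <;> linarith [h0.1, h0.2, h1.1, h1.2]
  · have h0 := uP10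
    have h1 := uW10
    unfold Btw at *
    push_cast at *
    constructor <;> linarith [h0.1, h0.2, h1.1, h1.2]

theorem cn0 : Near5 (fun m => y0 8 m * no 1 m) 2
    1.73111 1.39486 1.28866 1.17789 1.12958 0.0002 := by
  simp only [Near5, Near, y0, Nat.reduceAdd]
  refine ⟨?_, ?_, ?_, ?_, ?_⟩
  · have h0 := zOm4
    have h1 := zOp4
    unfold Btw at *
    push_cast at *
    constructor <;> linarith [h0.1, h0.2, h1.1, h1.2]
  · have h0 := zOm5
    have h1 := zOp5
    unfold Btw at *
    push_cast at *
    constructor <;> linarith [h0.1, h0.2, h1.1, h1.2]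
  · have h0 := zOm6
    have h1 := zOp6
    unfold Btw at *
    push_cast at *
    constructor <;> linarith [h0.1, h0.2, h1.1, h1.2]
  · have h0 := zOm7
    have h1 := zOp7
    unfold Btw at *
    push_cast at *
    constructor <;> linarith [h0.1, h0.2, h1.1, h1.2]
  · have h0 := zOm8
    have h1 := zOp8
    unfold Btw at *
    push_cast at *
    constructor <;> linarith [h0.1, h0.2, h1.1, h1.2]

theorem cnz : Near5 (fun m => yz 8 m * no 1 m) 2
    1.65609 (-1.26381) 1.08516 (-0.88880) 0.75748 0.0002 := by
  simp only [Near5, Near, yz, Nat.reduceAdd]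
  refine ⟨?_, ?_, ?_, ?_, ?_⟩
  · have h0 := zOm4
    have h1 := zOp4
    unfold Btw at *
    push_cast at *
    constructor <;> linarith [h0.1, h0.2, h1.1, h1.2]
  · have h0 := zOm5
    have h1 := zOp5
    unfold Btw at *
    push_cast at *
    constructor <;> linarith [h0.1, h0.2, h1.1, h1.2]
  · have h0 := zOm6
    have h1 := zOp6
    unfold Btw at *
    push_cast at *
    constructor <;> linarith [h0.1, h0.2, h1.1, h1.2]
  · have h0 := zOm7
    have h1 := zOp7
    unfold Btw at *
    push_cast at *
    constructor <;> linarith [h0.1, h0.2, h1.1, h1.2]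
  · have h0 := zOm8
    have h1 := zOp8
    unfold Btw at *
    push_cast at *
    constructor <;> linarith [h0.1, h0.2, h1.1, h1.2]

theorem cnxD : Near5 (fun m => yD 8 m * no 1 m) 2
    1.70190 1.37320 1.25679 1.14538 1.09021 0.0002 := by
  simp only [Near5, Near, yD, Nat.reduceAdd]
  refine ⟨?_, ?_, ?_, ?_, ?_⟩
  · have h0 := uOm4
    have h1 := uOp4
    unfold Btw at *
    push_cast at *
    constructor <;> linarith [h0.1, h0.2, h1.1, h1.2]
  · have h0 := uOm5
    have h1 := uOp5
    unfold Btw at *
    push_cast at *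
    constructor <;> linarith [h0.1, h0.2, h1.1, h1.2]
  · have h0 := uOm6
    have h1 := uOp6
    unfold Btw at *
    push_cast at *
    constructor <;> linarith [h0.1, h0.2, h1.1, h1.2]
  · have h0 := uOm7
    have h1 := uOp7
    unfold Btw at *
    push_cast at *
    constructor <;> linarith [h0.1, h0.2, h1.1, h1.2]
  · have h0 := uOm8
    have h1 := uOp8
    unfold Btw at *
    push_cast at *
    constructor <;> linarith [h0.1, h0.2, h1.1, h1.2]

theorem cnxD' : Near5 (fun m => yD' 8 m * no 1 m) 2
    1.68158 (-1.26835) 1.10405 (-0.89441) 0.77134 0.0002 := by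
  simp only [Near5, Near, yD', Nat.reduceAdd]
  refine ⟨?_, ?_, ?_, ?_, ?_⟩
  · have h0 := uOm4
    have h1 := uOp4
    unfold Btw at *
    push_cast at *
    constructor <;> linarith [h0.1, h0.2, h1.1, h1.2]
  · have h0 := uOm5
    have h1 := uOp5
    unfold Btw at *
    push_cast at *
    constructor <;> linarith [h0.1, h0.2, h1.1, h1.2]
  · have h0 := uOm6
    have h1 := uOp6
    unfold Btw at *
    push_cast at *
    constructor <;> linarith [h0.1, h0.2, h1.1, h1.2]
  · have h0 := uOm7
    have h1 := uOp7
    unfold Btw at *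
    push_cast at *
    constructor <;> linarith [h0.1, h0.2, h1.1, h1.2]
  · have h0 := uOm8
    have h1 := uOp8
    unfold Btw at *
    push_cast at *
    constructor <;> linarith [h0.1, h0.2, h1.1, h1.2]

theorem cert : Cert := ⟨cnT, cna, cnb, cnD, cnD', cnE, cn0, cnz, cnxD, cnxD'⟩

end Crest.Agent.R347.Dat
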