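import Crest.Agent.R347.ChrisLem
import Crest.Agent.R347.Limit

set_option autoImplicit false

namespace Crest.Agent.R347

open Matrix Crest.MathPhysics.SpinChain Filter Topology

namespace ChrisAux

/-- Moments of the reflected family. -/
noncomputable def ng (p : ℕ → ℝ) : ℕ → ℝ := fun L => (-1) ^ L * p L

theorem ng_even (p : ℕ → ℝ) {L : ℕ} (hL : Even L) : ng p L = p L := by
  unfold ng; rw [hL.neg_one_pow, one_mul]

theorem ng_odd (p : ℕ → ℝ) {L : ℕ} (hL : Odd L) : ng p L = -p L := by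
  unfold ng; rw [hL.neg_one_pow, neg_one_mul]

theorem hs_neg {lam p : ℕ → ℝ} (hp : ∀ L, 3 ≤ L → HasSum (fun i => lam i ^ L) (p L)) :
    ∀ L, 3 ≤ L → HasSum (fun i => (-lam i) ^ L) (ng p L) := by
  intro L hL
  have := (hp L hL).mul_left ((-1 : ℝ) ^ L)
  have e : (fun i => (-lam i) ^ L) = fun i => (-1 : ℝ) ^ L * lam i ^ L := by
    funext i; rw [neg_pow]
  rw [e]; exact this

theorem hs_neg_c {lam c y : ℕ → ℝ} (hy : ∀ m, 3 ≤ m → HasSum (fun i => c i * lam i ^ m) (y m)) :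
    ∀ m, 3 ≤ m → HasSum (fun i => c i * (-lam i) ^ m) (ng y m) := by
  intro L hL
  have := (hy L hL).mul_left ((-1 : ℝ) ^ L)
  have e : (fun i => c i * (-lam i) ^ L) = fun i => (-1 : ℝ) ^ L * (c i * lam i ^ L) := by
    funext i; rw [neg_pow]; ring
  rw [e]; exact this

theorem hs_neg_2 {lam c y : ℕ → ℝ} (hy2 : ∀ s : Finset ℕ, ∑ i ∈ s, c i * lam i ^ 2 ≤ y 2) :
    ∀ s : Finset ℕ, ∑ i ∈ s, c i * (-lam i) ^ 2 ≤ ng y 2 := by
  intro s
  rw [ng_even y even_two]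
  simpa only [neg_sq] using hy2 s

theorem near5_ng {p : ℕ → ℝ} {k : ℕ} (hk : Even k) {c0 c1 c2 c3 c4 e : ℝ}
    (h : Near5 p k c0 c1 c2 c3 c4 e) : Near5 (ng p) k c0 (-c1) c2 (-c3) c4 e := by
  obtain ⟨h0, h1, h2, h3, h4⟩ := h
  have e1 : Odd (k + 1) := hk.add_one
  have e2 : Even (k + 2) := hk.add even_two
  have e3 : Odd (k + 3) := hk.add_odd (by decide)
  have e4 : Even (k + 4) := hk.add (by decide)
  unfold Near5
  rw [ng_even p hk, ng_odd p e1, ng_even p e2, ng_odd p e3, ng_even p e4]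
  refine ⟨h0, ?_, h2, ?_, h4⟩
  · exact ⟨by linarith [h1.2], by linarith [h1.1]⟩
  · exact ⟨by linarith [h3.2], by linarith [h3.1]⟩

theorem mul_near {x c e a : ℝ} (h : Near x c e) : a * x ≤ a * c + |a| * e := by
  have h1 : |x - c| ≤ e := abs_le.mpr ⟨by linarith [h.1], by linarith [h.2]⟩
  have h2 : a * (x - c) ≤ |a| * e := by
    calc a * (x - c) ≤ |a * (x - c)| := le_abs_self _
      _ = |a| * |x - c| := abs_mul _ _
      _ ≤ |a| * e := mul_le_mul_of_nonneg_left h1 (abs_nonneg _)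
  linarith

/-- Worst case of `qf` on a box. -/
noncomputable def qm (c0 c1 c2 c3 c4 e r1 r2 : ℝ) : ℝ :=
  (r1 * r2) ^ 2 * c0 - 2 * (r1 + r2) * (r1 * r2) * c1
    + ((r1 + r2) ^ 2 + 2 * (r1 * r2)) * c2 - 2 * (r1 + r2) * c3 + c4
    + (|(r1 * r2) ^ 2| + |-(2 * (r1 + r2) * (r1 * r2))| + |(r1 + r2) ^ 2 + 2 * (r1 * r2)|
      + |-(2 * (r1 + r2))| + 1) * e

theorem qf_le {p : ℕ → ℝ} {k : ℕ} {c0 c1 c2 c3 c4 e : ℝ}
    (h : Near5 p k c0 c1 c2 c3 c4 e) (r1 r2 : ℝ) : qf p k r1 r2 ≤ qm c0 c1 c2 c3 c4 e r1 r2 := by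
  obtain ⟨h0, h1, h2, h3, h4⟩ := h
  have a0 := mul_near (a := (r1 * r2) ^ 2) h0
  have a1 := mul_near (a := -(2 * (r1 + r2) * (r1 * r2))) h1
  have a2 := mul_near (a := (r1 + r2) ^ 2 + 2 * (r1 * r2)) h2
  have a3 := mul_near (a := -(2 * (r1 + r2))) h3
  have a4 := h4.2
  unfold qf qm
  linarith

/-- Two-sided bounds and the ring majorant for a family that is large on the positive side. -/
theorem ring_pos {lam p : ℕ → ℝ} (hp : ∀ L, 3 ≤ L → HasSum (fun i => lam i ^ L) (p L))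
    {c0 c1 c2 c3 c4 e : ℝ} (hn : Near5 p 6 c0 c1 c2 c3 c4 e) {u r1 r2 v s1 s2 t : ℝ}
    (hr1 : r1 ≤ 0) (hr2 : 0 ≤ r2) (ht : r2 < t) (htu : t ≤ u) (hk : t ≤ 5 * (t - r2))
    (hs1 : s1 ≤ 0) (hs2 : 0 ≤ s2) (hv : s2 < v) (hvt : v ≤ t)
    (hS : qm c0 c1 c2 c3 c4 e r1 r2 ≤ u ^ 6 * ((u - r1) * (u - r2)) ^ 2)
    (hS' : qm c0 (-c1) c2 (-c3) c4 e s1 s2 ≤ v ^ 6 * ((v - s1) * (v - s2)) ^ 2) :
    (∀ i, -t ≤ lam i) ∧ (∀ i, lam i ≤ u) ∧
      ∀ L, Even L → 18 ≤ L → p L ≤ u ^ L + t ^ (L - 10) * (c4 + e) := by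
  have h1 : qf p 6 r1 r2 ≤ u ^ 6 * ((u - r1) * (u - r2)) ^ 2 := (qf_le hn r1 r2).trans hS
  have hhi : ∀ i, lam i ≤ u := side_bound hp hr1 hr2 (ht.trans_le htu) h1
  have hlo : ∀ i, -t ≤ lam i := by
    intro i
    have := side_bound (hs_neg hp) hs1 hs2 hv
      ((qf_le (near5_ng (by decide) hn) s1 s2).trans hS') i
    linarith
  refine ⟨hlo, hhi, fun L hL hL1 => ?_⟩
  have h2 := ring_major hp 5 hr1 hr2 ht htu (by exact_mod_cast hk) hlo hhi h1 L hL (by omega)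
    (by omega)
  have h3 : p 10 ≤ c4 + e := hn.2.2.2.2.2
  have h4 : 0 ≤ t ^ (L - 10) := pow_nonneg (hr2.trans ht.le) _
  have := mul_le_mul_of_nonneg_left h3 h4
  linarith

/-- The majorant for weighted sums. -/
theorem open_pos {lam c y : ℕ → ℝ} (hc : ∀ i, 0 ≤ c i)
    (hy : ∀ m, 3 ≤ m → HasSum (fun i => c i * lam i ^ m) (y m))
    (hy2 : ∀ s : Finset ℕ, ∑ i ∈ s, c i * lam i ^ 2 ≤ y 2)
    {c0 c1 c2 c3 c4 e : ℝ} (hn : Near5 y 2 c0 c1 c2 c3 c4 e)
    {r1 r2 u C : ℝ} (hr1 : r1 ≤ 0) (hr2 : 0 ≤ r2) (hr3 : r2 ≤ 63 / 100) (hu : 0.74 ≤ u)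
    (hlo : ∀ i, -0.74 ≤ lam i) (hhi : ∀ i, lam i ≤ u)
    (hS : qm c0 c1 c2 c3 c4 e r1 r2 ≤ C * (u ^ 2 * ((u - r1) * (u - r2)) ^ 2))
    (m : ℕ) (hm : Even m) (hm1 : 18 ≤ m) :
    y m ≤ C * u ^ m + 0.74 ^ (m - 6) * (c4 + e) := by
  have h2 := open_major (t := 0.74) hc hy hy2 7 hr1 hr2 (by linarith) hu
    (by push_cast; linarith) hlo hhi ((qf_le hn r1 r2).trans hS) m hm (by omega) (by omega)
  have h3 : y 6 ≤ c4 + e := hn.2.2.2.2.2
  have h4 : (0 : ℝ) ≤ 0.74 ^ (m - 6) := by positivity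
  have := mul_le_mul_of_nonneg_left h3 h4
  linarith

theorem mono_lo {u t c : ℝ} (hu0 : 0 ≤ u) (hu : u ≤ 1) (ht0 : 0 ≤ t) (ht : t ≤ 1) (hc : 0 ≤ c)
    {L : ℕ} (hL : 60 ≤ L) : u ^ L + t ^ (L - 10) * c ≤ u ^ 60 + t ^ 50 * c := by
  have h1 : u ^ L ≤ u ^ 60 := pow_le_pow_of_le_one hu0 hu hL
  have h2 : t ^ (L - 10) ≤ t ^ 50 := pow_le_pow_of_le_one ht0 ht (by omega)
  have := mul_le_mul_of_nonneg_right h2 hc
  linarith

theorem mono_hi {u t c : ℝ} (hu : 1 ≤ u) (ht0 : 0 ≤ t) (ht : t ≤ 1) (hc : 0 ≤ c)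
    {L : ℕ} (hL : 60 ≤ L) (hL' : L ≤ 108) :
    u ^ L + t ^ (L - 10) * c ≤ u ^ 108 + t ^ 50 * c := by
  have h1 : u ^ L ≤ u ^ 108 := pow_le_pow_right₀ hu hL'
  have h2 : t ^ (L - 10) ≤ t ^ 50 := pow_le_pow_of_le_one ht0 ht (by omega)
  have := mul_le_mul_of_nonneg_right h2 hc
  linarith

end ChrisAux

open ChrisAux in
theorem baseUp_of_base {qa qb qT qD qD' qE x0 xz xD xD' : ℕ → ℝ}
    (h : Base qa qb qT qD qD' qE x0 xz xD xD') :
    BaseUp (fun L => qa L + 3 * qb L)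
      (fun L => (qa L + 3 * qb L + 3 * (qD L + qD' L + 2 * qE L)) / 4)
      (fun m => x0 m + xz m) (fun m => (x0 m + xz m + xD m + xD' m) / 2) := by
  obtain ⟨la, ca, hca, hpa, hya, hya2⟩ := h.sa
  obtain ⟨lb, cb, hcb, hpb, hyb, hyb2⟩ := h.sb
  obtain ⟨_, lT, _, -, hpT, -, -⟩ := h.sT
  obtain ⟨_, l0, _, -, hp0, -, -⟩ := h.sE0
  obtain ⟨lD, cD, hcD, hpD, hyD, hyD2⟩ := h.sD
  obtain ⟨lD', cD', hcD', hpD', hyD', hyD2'⟩ := h.sD'
  obtain ⟨_, lE, _, -, hpE, -, -⟩ := h.sE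
  -- ring majorants
  obtain ⟨loT, hiT, rT⟩ := ring_pos hpT h.nT (u := 1.00483) (r1 := -79 / 200) (r2 := 97 / 200)
    (v := 0.578) (s1 := -99 / 100) (s2 := 1 / 10) (t := 0.65)
    (by norm_num) (by norm_num) (by norm_num) (by norm_num) (by norm_num)
    (by norm_num) (by norm_num) (by norm_num) (by norm_num)
    (by unfold qm; norm_num [abs_of_nonneg, abs_of_nonpos])
    (by unfold qm; norm_num [abs_of_nonneg, abs_of_nonpos])
  obtain ⟨loD, hiD, rD⟩ := ring_pos hpD h.nD (u := 0.99927) (r1 := -3 / 8) (r2 := 103 / 200)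
    (v := 0.623) (s1 := -97 / 100) (s2 := 1 / 10) (t := 0.65)
    (by norm_num) (by norm_num) (by norm_num) (by norm_num) (by norm_num)
    (by norm_num) (by norm_num) (by norm_num) (by norm_num)
    (by unfold qm; norm_num [abs_of_nonneg, abs_of_nonpos])
    (by unfold qm; norm_num [abs_of_nonneg, abs_of_nonpos])
  obtain ⟨lob, hib, rb⟩ := ring_pos (hs_neg hpb) (near5_ng (by decide) h.nb)
    (u := 0.86327) (r1 := -11 / 20) (r2 := 1 / 2)
    (v := 0.734) (s1 := -19 / 25) (s2 := 13 / 50) (t := 0.74)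
    (by norm_num) (by norm_num) (by norm_num) (by norm_num) (by norm_num)
    (by norm_num) (by norm_num) (by norm_num) (by norm_num)
    (by unfold qm; norm_num [abs_of_nonneg, abs_of_nonpos])
    (by unfold qm; norm_num [abs_of_nonneg, abs_of_nonpos])
  obtain ⟨loD', hiD', rD'⟩ := ring_pos (hs_neg hpD') (near5_ng (by decide) h.nD')
    (u := 0.86203) (r1 := -113 / 200) (r2 := 53 / 100)
    (v := 0.703) (s1 := -77 / 100) (s2 := 7 / 50) (t := 0.74)
    (by norm_num) (by norm_num) (by norm_num) (by norm_num) (by norm_num)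
    (by norm_num) (by norm_num) (by norm_num) (by norm_num)
    (by unfold qm; norm_num [abs_of_nonneg, abs_of_nonpos])
    (by unfold qm; norm_num [abs_of_nonneg, abs_of_nonpos])
  obtain ⟨loE, hiE, rE⟩ := ring_pos (hs_neg hpE) (near5_ng (by decide) h.nE)
    (u := 0.85333) (r1 := -11 / 20) (r2 := 12 / 25)
    (v := 0.755) (s1 := -73 / 100) (s2 := 33 / 100) (t := 0.76)
    (by norm_num) (by norm_num) (by norm_num) (by norm_num) (by norm_num)
    (by norm_num) (by norm_num) (by norm_num) (by norm_num)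
    (by unfold qm; norm_num [abs_of_nonneg, abs_of_nonpos])
    (by unfold qm; norm_num [abs_of_nonneg, abs_of_nonpos])
  -- the small sector
  have h010 : qa 10 - qT 10 ≤ 0.04117 := by
    have h1 : qa 10 ≤ _ := h.na.2.2.2.2.2
    have h2 : _ ≤ qT 10 := h.nT.2.2.2.2.1
    linarith
  have ab0 : ∀ i, |l0 i| ≤ 0.73 :=
    abs_le_of_ten (p := fun L => qa L - qT L) hp0 (by norm_num) (h010.trans (by norm_num))
  have r0 : ∀ L, Even L → 10 ≤ L → qa L - qT L ≤ 0.73 ^ (L - 10) * 0.04117 := by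
    intro L hL hL1
    have h1 := small_major (p := fun L => qa L - qT L) hp0 (t := 0.73) (by norm_num)
      (fun i => (abs_le.mp (ab0 i)).1) (fun i => (abs_le.mp (ab0 i)).2) L hL hL1
    have h4 : (0 : ℝ) ≤ 0.73 ^ (L - 10) := by positivity
    exact h1.trans (mul_le_mul_of_nonneg_left h010 h4)
  -- the family of `qa`
  have aba : ∀ i, |la i| ≤ 1.00483 := by
    refine abs_le_of_growth hpa (C := 2) (by norm_num) fun L hL hL1 => ?_
    have h1 := small_major hpT (t := 1.00483) (by norm_num)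
      (fun i => le_trans (by norm_num) (loT i)) hiT L hL hL1
    have h2 := r0 L hL hL1
    have h3 : qT 10 ≤ 1.1 := le_trans h.nT.2.2.2.2.2 (by norm_num)
    have h4 : (0.73 : ℝ) ^ (L - 10) ≤ 1.00483 ^ (L - 10) :=
      pow_le_pow_left₀ (by norm_num) (by norm_num) _
    have h5 : (1.00483 : ℝ) ^ (L - 10) ≤ 1.00483 ^ L :=
      pow_le_pow_right₀ (by norm_num) (by omega)
    have h6 : (0 : ℝ) ≤ 1.00483 ^ (L - 10) := by positivity
    have h7 := mul_le_mul_of_nonneg_left h3 h6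
    linarith
  have loa : ∀ i, -0.74 ≤ la i := by
    intro i
    have := side_bound (hs_neg hpa) (r1 := -24 / 25) (r2 := 1 / 10) (u := 0.654) (by norm_num)
      (by norm_num) (by norm_num)
      ((qf_le (near5_ng (by decide) h.na) _ _).trans
        (by unfold qm; norm_num [abs_of_nonneg, abs_of_nonpos])) i
    linarith
  -- chain majorants
  have o0 := open_pos hca hya hya2 h.n0 (r1 := -11 / 25) (r2 := 63 / 100) (u := 1.00483)
    (C := 0.9943) (by norm_num) (by norm_num) (by norm_num) (by norm_num) loa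
    (fun i => (abs_le.mp (aba i)).2) (by unfold qm; norm_num [abs_of_nonneg, abs_of_nonpos])
  have oD := open_pos hcD hyD hyD2 h.nxD (r1 := -83 / 200) (r2 := 63 / 100) (u := 0.99927)
    (C := 0.9905) (by norm_num) (by norm_num) (by norm_num) (by norm_num)
    (fun i => le_trans (by norm_num) (loD i)) hiD
    (by unfold qm; norm_num [abs_of_nonneg, abs_of_nonpos])
  have oz := open_pos hcb (hs_neg_c hyb) (hs_neg_2 hyb2) (near5_ng (by decide) h.nz)
    (r1 := -23 / 50) (r2 := 31 / 50) (u := 0.86327)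
    (C := 1.7135) (by norm_num) (by norm_num) (by norm_num) (by norm_num) lob hib
    (by unfold qm; norm_num [abs_of_nonneg, abs_of_nonpos])
  have oD' := open_pos hcD' (hs_neg_c hyD') (hs_neg_2 hyD2') (near5_ng (by decide) h.nxD')
    (r1 := -109 / 200) (r2 := 59 / 100) (u := 0.86203)
    (C := 1.7822) (by norm_num) (by norm_num) (by norm_num) (by norm_num) loD' hiD'
    (by unfold qm; norm_num [abs_of_nonneg, abs_of_nonpos])
  have rb' : ∀ L, Even L → 18 ≤ L → qb L ≤ _ := fun L hL hL1 => ng_even qb hL ▸ rb L hL hL1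
  have rD'' : ∀ L, Even L → 18 ≤ L → qD' L ≤ _ := fun L hL hL1 => ng_even qD' hL ▸ rD' L hL hL1
  have rE' : ∀ L, Even L → 18 ≤ L → qE L ≤ _ := fun L hL hL1 => ng_even qE hL ▸ rE L hL hL1
  have oz' : ∀ L, Even L → 18 ≤ L → xz L ≤ _ := fun L hL hL1 => ng_even xz hL ▸ oz L hL hL1
  have oD'' : ∀ L, Even L → 18 ≤ L → xD' L ≤ _ := fun L hL hL1 => ng_even xD' hL ▸ oD' L hL hL1
  -- numbers
  have e36 : Even 36 := by decide
  have T36 : qT 36 ≤ 1.18944 := (rT 36 e36 (by norm_num)).trans (by norm_num)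
  have E36 : qa 36 - qT 36 ≤ 0.00002 := (r0 36 e36 (by norm_num)).trans (by norm_num)
  have b36 : qb 36 ≤ 0.00515 := (rb' 36 e36 (by norm_num)).trans (by norm_num)
  have D36 : qD 36 ≤ 0.97407 := (rD 36 e36 (by norm_num)).trans (by norm_num)
  have D'36 : qD' 36 ≤ 0.00489 := (rD'' 36 e36 (by norm_num)).trans (by norm_num)
  have E'36 : qE 36 ≤ 0.00354 := (rE' 36 e36 (by norm_num)).trans (by norm_num)
  have TL : ∀ L, 60 ≤ L → L ≤ 108 → Even L → qT L ≤ 1.68268 := fun L h1 h2 hL =>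
    ((rT L hL (by omega)).trans
      (mono_hi (by norm_num) (by norm_num) (by norm_num) (by norm_num) h1 h2)).trans (by norm_num)
  have EL : ∀ L, 60 ≤ L → Even L → qa L - qT L ≤ 0.00001 := by
    intro L h1 hL
    have h2 : (0.73 : ℝ) ^ (L - 10) ≤ 0.73 ^ 50 :=
      pow_le_pow_of_le_one (by norm_num) (by norm_num) (by omega)
    have h3 : (0.73 : ℝ) ^ 50 ≤ 0.00001 := by norm_num
    have := r0 L hL (by omega)
    have h4 : (0 : ℝ) ≤ 0.73 ^ (L - 10) := by positivity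
    linarith
  have bL : ∀ L, 60 ≤ L → Even L → qb L ≤ 0.00015 := fun L h1 hL =>
    ((rb' L hL (by omega)).trans
      (mono_lo (by norm_num) (by norm_num) (by norm_num) (by norm_num) (by norm_num) h1)).trans
      (by norm_num)
  have DL : ∀ L, 60 ≤ L → Even L → qD L ≤ 0.95714 := fun L h1 hL =>
    ((rD L hL (by omega)).trans
      (mono_lo (by norm_num) (by norm_num) (by norm_num) (by norm_num) (by norm_num) h1)).trans
      (by norm_num)
  have D'L : ∀ L, 60 ≤ L → Even L → qD' L ≤ 0.00014 := fun L h1 hL =>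
    ((rD'' L hL (by omega)).trans
      (mono_lo (by norm_num) (by norm_num) (by norm_num) (by norm_num) (by norm_num) h1)).trans
      (by norm_num)
  have E'L : ∀ L, 60 ≤ L → Even L → qE L ≤ 0.00008 := fun L h1 hL =>
    ((rE' L hL (by omega)).trans
      (mono_lo (by norm_num) (by norm_num) (by norm_num) (by norm_num) (by norm_num) h1)).trans
      (by norm_num)
  have e28 : Even 28 := by decide
  have e96 : Even 96 := by decide
  have e108 : Even 108 := by decide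
  have a28 : x0 28 ≤ 1.13942 := (o0 28 e28 (by norm_num)).trans (by norm_num)
  have z28 : xz 28 ≤ 0.02894 := (oz' 28 e28 (by norm_num)).trans (by norm_num)
  have d28 : xD 28 ≤ 0.97191 := (oD 28 e28 (by norm_num)).trans (by norm_num)
  have d'28 : xD' 28 ≤ 0.02893 := (oD'' 28 e28 (by norm_num)).trans (by norm_num)
  have a96 : x0 96 ≤ 1.57909 := (o0 96 e96 (by norm_num)).trans (by norm_num)
  have z96 : xz 96 ≤ 0.00001 := (oz' 96 e96 (by norm_num)).trans (by norm_num)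
  have d96 : xD 96 ≤ 0.92344 := (oD 96 e96 (by norm_num)).trans (by norm_num)
  have d'96 : xD' 96 ≤ 0.00001 := (oD'' 96 e96 (by norm_num)).trans (by norm_num)
  have a108 : x0 108 ≤ 1.67309 := (o0 108 e108 (by norm_num)).trans (by norm_num)
  have z108 : xz 108 ≤ 0.00001 := (oz' 108 e108 (by norm_num)).trans (by norm_num)
  have d108 : xD 108 ≤ 0.91539 := (oD 108 e108 (by norm_num)).trans (by norm_num)
  have d'108 : xD' 108 ≤ 0.00001 := (oD'' 108 e108 (by norm_num)).trans (by norm_num)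
  refine ⟨?_, ?_, fun L h1 h2 hL => ?_, fun L h1 h2 hL => ?_, ?_, ?_, ?_, ?_, ?_, ?_⟩
  · linarith
  · linarith
  · linarith [TL L h1 h2 hL, EL L h1 hL, bL L h1 hL]
  · linarith [TL L h1 h2 hL, EL L h1 hL, bL L h1 hL, DL L h1 hL, D'L L h1 hL, E'L L h1 hL]
  · linarith
  · linarith
  · linarith
  · linarith
  · linarith
  · linarith

end Crest.Agent.R347
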