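import Crest.Agent.R347.Norm

set_option autoImplicit false

namespace Crest.Agent.R347

open Matrix Crest.MathPhysics.SpinChain Filter Topology

theorem chl_qf {lam c y : ℕ → ℝ} (e : ℕ) (r1 r2 : ℝ)
    (hy : ∀ m, e ≤ m → HasSum (fun i => c i * lam i ^ m) (y m)) :
    HasSum (fun i => c i * (lam i ^ e * ((lam i - r1) * (lam i - r2)) ^ 2)) (qf y e r1 r2) := by
  have h := (((((hy e le_rfl).mul_left ((r1 * r2) ^ 2)).sub
    ((hy (e + 1) (by omega)).mul_left (2 * (r1 + r2) * (r1 * r2)))).add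
    ((hy (e + 2) (by omega)).mul_left ((r1 + r2) ^ 2 + 2 * (r1 * r2)))).sub
    ((hy (e + 3) (by omega)).mul_left (2 * (r1 + r2)))).add (hy (e + 4) (by omega))
  unfold qf
  refine (congrArg₂ HasSum (funext fun i => ?_) rfl).mp h
  ring

theorem chl_small {x t : ℝ} (h1 : -t ≤ x) (h2 : x ≤ t) {a L : ℕ} (ha : Even a) (hL : Even L)
    (haL : a ≤ L) : x ^ L ≤ t ^ (L - a) * x ^ a := by
  obtain ⟨n, rfl⟩ := Nat.exists_eq_add_of_le haL
  rw [Nat.add_sub_cancel_left, ← hL.pow_abs, ← ha.pow_abs x, pow_add, mul_comm]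
  exact mul_le_mul_of_nonneg_right (pow_le_pow_left₀ (abs_nonneg _) (abs_le.2 ⟨h1, h2⟩) n)
    (by positivity)

theorem chl_bern {x u t r2 : ℝ} (k : ℕ) (hr2 : 0 ≤ r2) (ht : r2 < t) (hk : t ≤ k * (t - r2))
    (h1 : t ≤ x) (h2 : x ≤ u) : x ^ k * (u - r2) ≤ u ^ k * (x - r2) := by
  have hx : 0 < x := by linarith
  have hk1 : (1 : ℝ) ≤ k := by
    rcases Nat.eq_zero_or_pos k with rfl | h
    · simp at hk; linarith
    · exact_mod_cast h
  have hkx : x ≤ k * (x - r2) := by nlinarith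
  have hb : 1 + k * ((u - x) / x) ≤ (1 + (u - x) / x) ^ k :=
    one_add_mul_le_pow (by have : 0 ≤ (u - x) / x := div_nonneg (by linarith) hx.le; linarith) k
  have e : 1 + (u - x) / x = u / x := by field_simp; ring
  rw [e, div_pow, le_div_iff₀ (by positivity)] at hb
  have h3 : u - r2 ≤ (1 + k * ((u - x) / x)) * (x - r2) := by
    have h4 : (u - x) / x * x ≤ (u - x) / x * (k * (x - r2)) :=
      mul_le_mul_of_nonneg_left hkx (div_nonneg (by linarith) hx.le)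
    rw [div_mul_cancel₀ _ hx.ne'] at h4
    linarith
  calc x ^ k * (u - r2) ≤ x ^ k * ((1 + k * ((u - x) / x)) * (x - r2)) :=
        mul_le_mul_of_nonneg_left h3 (by positivity)
    _ = (1 + k * ((u - x) / x)) * x ^ k * (x - r2) := by ring
    _ ≤ _ := mul_le_mul_of_nonneg_right hb (by linarith)

theorem chl_big {x u t r1 r2 : ℝ} (k : ℕ) (hr1 : r1 ≤ 0) (hr2 : 0 ≤ r2) (ht : r2 < t)
    (hk : t ≤ k * (t - r2)) (h1 : t ≤ x) (h2 : x ≤ u) {e L : ℕ} (hL : e + 2 + 2 * k ≤ L) :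
    x ^ L * (u ^ e * ((u - r1) * (u - r2)) ^ 2) ≤ u ^ L * (x ^ e * ((x - r1) * (x - r2)) ^ 2) := by
  obtain ⟨n, rfl⟩ := Nat.exists_eq_add_of_le hL
  have hx : 0 < x := by linarith
  have hu : 0 < u := by linarith
  have ha : x * (u - r1) ≤ u * (x - r1) := by nlinarith
  have hb := chl_bern k hr2 ht hk h1 h2
  have hc : x ^ n ≤ u ^ n := pow_le_pow_left₀ hx.le h2 n
  have hu1 : 0 ≤ u - r1 := by linarith
  have hu2 : 0 ≤ u - r2 := by linarith
  have hx1 : 0 ≤ x - r1 := by linarith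
  have hx2 : 0 ≤ x - r2 := by linarith
  calc _ = (x ^ e * u ^ e) * (((x * (u - r1)) * (x ^ k * (u - r2))) ^ 2 * x ^ n) := by ring
    _ ≤ (x ^ e * u ^ e) * (((u * (x - r1)) * (u ^ k * (x - r2))) ^ 2 * u ^ n) := by gcongr
    _ = _ := by ring

theorem chl_major {lam c y : ℕ → ℝ} (hc : ∀ i, 0 ≤ c i) {e : ℕ} (he : Even e)
    (hy : ∀ m, e ≤ m → HasSum (fun i => c i * lam i ^ m) (y m))
    {r1 r2 u t C : ℝ} (k : ℕ) (hr1 : r1 ≤ 0) (hr2 : 0 ≤ r2) (ht : r2 < t) (htu : t ≤ u)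
    (hk : t ≤ k * (t - r2)) (hlo : ∀ i, -t ≤ lam i) (hhi : ∀ i, lam i ≤ u)
    (hS : qf y e r1 r2 ≤ C * (u ^ e * ((u - r1) * (u - r2)) ^ 2))
    (m : ℕ) (hm : Even m) (hm1 : e + 4 ≤ m) (hm2 : e + 2 + 2 * k ≤ m) :
    y m ≤ C * u ^ m + t ^ (m - (e + 4)) * y (e + 4) := by
  have ht0 : 0 < t := by linarith
  have hu : 0 < u := by linarith
  have hu1 : 0 < u - r1 := by linarith
  have hu2 : 0 < u - r2 := by linarith
  have hD : 0 < u ^ e * ((u - r1) * (u - r2)) ^ 2 := by positivity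
  have he4 : Even (e + 4) := he.add (by decide)
  have h1 := ((chl_qf e r1 r2 hy).mul_left (u ^ m / (u ^ e * ((u - r1) * (u - r2)) ^ 2))).add
    ((hy (e + 4) (by omega)).mul_left (t ^ (m - (e + 4))))
  have h2 := hasSum_le (fun i => ?_) (hy m (by omega)) h1
  · refine h2.trans (add_le_add_left ?_ _)
    calc _ ≤ u ^ m / (u ^ e * ((u - r1) * (u - r2)) ^ 2) *
          (C * (u ^ e * ((u - r1) * (u - r2)) ^ 2)) := mul_le_mul_of_nonneg_left hS (by positivity)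
      _ = _ := by field_simp
  · rw [mul_left_comm, mul_left_comm _ (c i), ← mul_add]
    refine mul_le_mul_of_nonneg_left ?_ (hc i)
    rcases le_total (lam i) t with h | h
    · refine le_add_of_nonneg_of_le ?_ (chl_small (hlo i) h he4 hm hm1)
      exact mul_nonneg (by positivity) (mul_nonneg (he.pow_nonneg _) (sq_nonneg _))
    · refine le_add_of_le_of_nonneg ?_ (mul_nonneg (by positivity) (he4.pow_nonneg _))
      rw [div_mul_eq_mul_div, le_div_iff₀ hD]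
      exact chl_big k hr1 hr2 ht hk h (hhi i) hm2

/-- One-sided bound for the members of a real family from its power sums `6, …, 10`. -/
theorem side_bound {lam p : ℕ → ℝ} (hp : ∀ L, 3 ≤ L → HasSum (fun i => lam i ^ L) (p L))
    {r1 r2 u : ℝ} (hr1 : r1 ≤ 0) (hr2 : 0 ≤ r2) (hu : r2 < u)
    (hS : qf p 6 r1 r2 ≤ u ^ 6 * ((u - r1) * (u - r2)) ^ 2) (i : ℕ) : lam i ≤ u := by
  by_contra hlt
  push Not at hlt
  have h1 := chl_qf (lam := lam) (c := fun _ => 1) (y := p) 6 r1 r2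
    (fun m hm => by simpa using hp m (by omega))
  have h2 := le_hasSum h1 i (fun j _ => by positivity)
  have hu0 : 0 < u := by linarith
  have hu1 : 0 < u - r1 := by linarith
  have hu2 : 0 < u - r2 := by linarith
  have h3 : u ^ 6 * ((u - r1) * (u - r2)) ^ 2 <
      lam i ^ 6 * ((lam i - r1) * (lam i - r2)) ^ 2 := by
    have h4 : 0 < lam i := by linarith
    have h5 : u - r1 ≤ lam i - r1 := by linarith
    have h6 : u - r2 ≤ lam i - r2 := by linarith
    calc _ < lam i ^ 6 * ((u - r1) * (u - r2)) ^ 2 := by gcongr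
      _ ≤ _ := by gcongr; linarith
  linarith

/-- Majorant for ring sums. -/
theorem ring_major {lam p : ℕ → ℝ} (hp : ∀ L, 3 ≤ L → HasSum (fun i => lam i ^ L) (p L))
    {r1 r2 u t : ℝ} (k : ℕ) (hr1 : r1 ≤ 0) (hr2 : 0 ≤ r2) (ht : r2 < t) (htu : t ≤ u)
    (hk : t ≤ k * (t - r2)) (hlo : ∀ i, -t ≤ lam i) (hhi : ∀ i, lam i ≤ u)
    (hS : qf p 6 r1 r2 ≤ u ^ 6 * ((u - r1) * (u - r2)) ^ 2)
    (L : ℕ) (hL : Even L) (hL1 : 10 ≤ L) (hL2 : 8 + 2 * k ≤ L) :
    p L ≤ u ^ L + t ^ (L - 10) * p 10 := by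
  have h := chl_major (lam := lam) (c := fun _ => 1) (y := p) (fun _ => zero_le_one) (e := 6)
    (by decide) (fun m hm => by simpa using hp m (by omega)) (C := 1) k hr1 hr2 ht htu hk hlo hhi
    (by rw [one_mul]; exact hS) L hL hL1 (by omega)
  rwa [one_mul] at h

/-- Majorant for weighted sums. -/
theorem open_major {lam c y : ℕ → ℝ} (hc : ∀ i, 0 ≤ c i)
    (hy : ∀ m, 3 ≤ m → HasSum (fun i => c i * lam i ^ m) (y m))
    (hy2 : ∀ s : Finset ℕ, ∑ i ∈ s, c i * lam i ^ 2 ≤ y 2)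
    {r1 r2 u t C : ℝ} (k : ℕ) (hr1 : r1 ≤ 0) (hr2 : 0 ≤ r2) (ht : r2 < t) (htu : t ≤ u)
    (hk : t ≤ k * (t - r2)) (hlo : ∀ i, -t ≤ lam i) (hhi : ∀ i, lam i ≤ u)
    (hS : qf y 2 r1 r2 ≤ C * (u ^ 2 * ((u - r1) * (u - r2)) ^ 2))
    (m : ℕ) (hm : Even m) (hm1 : 6 ≤ m) (hm2 : 4 + 2 * k ≤ m) :
    y m ≤ C * u ^ m + t ^ (m - 6) * y 6 := by
  have hn : ∀ i, 0 ≤ c i * lam i ^ 2 := fun i => mul_nonneg (hc i) (sq_nonneg _)
  have hs : Summable fun i => c i * lam i ^ 2 := summable_of_sum_le hn hy2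
  have hle : ∑' i, c i * lam i ^ 2 ≤ y 2 := hs.tsum_le_of_sum_le hy2
  have h := chl_major (lam := lam) (y := Function.update y 2 (∑' i, c i * lam i ^ 2)) hc (e := 2)
    (by decide) (fun n hn => by
      rcases hn.eq_or_lt with rfl | h
      · rw [Function.update_self]; exact hs.hasSum
      · rw [Function.update_of_ne h.ne']; exact hy n h) (C := C) k hr1 hr2 ht htu hk hlo hhi
    (le_trans (by
      simp only [qf, Function.update_self, ne_eq, Nat.reduceAdd, Nat.reduceEqDiff,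
        not_false_eq_true, Function.update_of_ne]
      linarith [mul_le_mul_of_nonneg_left hle (sq_nonneg (r1 * r2))]) hS) m hm hm1 (by omega)
  rwa [Function.update_of_ne (by omega), Function.update_of_ne (by omega)] at h

/-- All members are at most `t` in absolute value when the tenth power sum is at most `t^10`. -/
theorem small_major {lam p : ℕ → ℝ} (hp : ∀ L, 3 ≤ L → HasSum (fun i => lam i ^ L) (p L))
    {t : ℝ} (ht : 0 ≤ t) (hlo : ∀ i, -t ≤ lam i) (hhi : ∀ i, lam i ≤ t)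
    (L : ℕ) (hL : Even L) (hL1 : 10 ≤ L) : p L ≤ t ^ (L - 10) * p 10 := by
  exact hasSum_le (fun i => chl_small (hlo i) (hhi i) (by decide) hL hL1) (hp L (by omega))
    ((hp 10 (by omega)).mul_left _)

theorem abs_le_of_ten {lam p : ℕ → ℝ} (hp : ∀ L, 3 ≤ L → HasSum (fun i => lam i ^ L) (p L))
    {t : ℝ} (ht : 0 ≤ t) (h : p 10 ≤ t ^ 10) (i : ℕ) : |lam i| ≤ t := by
  have h1 := le_hasSum (hp 10 (by omega)) i (fun j _ => by positivity)
  have h2 : |lam i| ^ 10 ≤ t ^ 10 := by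
    rw [(by decide : Even 10).pow_abs]; exact h1.trans h
  exact (pow_le_pow_iff_left₀ (abs_nonneg _) ht (by norm_num)).1 h2

/-- Growth rate of the even power sums. -/
theorem abs_le_of_growth {lam p : ℕ → ℝ} (hp : ∀ L, 3 ≤ L → HasSum (fun i => lam i ^ L) (p L))
    {u C : ℝ} (hu : 0 < u) (h : ∀ L, Even L → 10 ≤ L → p L ≤ C * u ^ L) (i : ℕ) :
    |lam i| ≤ u := by
  by_contra hlt
  push Not at hlt
  have h1 : 1 < |lam i| / u := (one_lt_div hu).2 hlt
  obtain ⟨n, hn⟩ := pow_unbounded_of_one_lt C h1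
  have he : Even (2 * (n + 5)) := even_two_mul _
  have h2 := (le_hasSum (hp (2 * (n + 5)) (by omega)) i (fun j _ => he.pow_nonneg _)).trans
    (h _ he (by omega))
  rw [← he.pow_abs, ← div_le_iff₀ (by positivity), ← div_pow] at h2
  have h3 := pow_le_pow_right₀ h1.le (by omega : n ≤ 2 * (n + 5))
  linarith

end Crest.Agent.R347
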