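import Mathlib
import Crest.Prelude.Def_SpinChain

/-!
Result 347 (spin-one Heisenberg chain, uniform gap): shared definitions.

Overview of the proof.  `Z(β,L) = Tr exp(-β H_L)` is a power sum in `β` (spectrum of `H_L`) and,
by a symmetric Trotter formula, also a power sum in `L` (spectrum of a real symmetric transfer
matrix).  Symmetry-projected versions of both statements, certified values for rings with at most
ten sites and chains with at most eight sites at `β = 8`, and a variational bound feed a doubling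
recursion in `(β, L)`.
-/

set_option autoImplicit false

namespace Crest.Agent.R347

open Matrix Crest.MathPhysics.SpinChain

abbrev M3 := Matrix (Fin 3) (Fin 3) ℂ
abbrev Cfg (n : ℕ) := Fin n → Fin 3
abbrev Op (n : ℕ) := Matrix (Cfg n) (Cfg n) ℂ

/-- Tensor product of single-site matrices in the product basis. -/
noncomputable def tens {n : ℕ} (X : Fin n → M3) : Op n :=
  Matrix.of fun σ τ => ∏ j, X j (σ j) (τ j)

/-- `Tr (g ⊗ ⋯ ⊗ g · exp (-β H))`. -/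
noncomputable def trg {n : ℕ} (g : M3) (H : Op n) (β : ℝ) : ℂ :=
  Matrix.trace (tens (fun _ => g) * NormedSpace.exp (-(β : ℂ) • H))

/-! ### Cartesian form -/

/-- Spin-one matrices in the Cartesian basis, `(S^a)_{bc} = -i ε_{abc}`. -/
noncomputable def cart : Fin 3 → M3 :=
  ![!![0, 0, 0; 0, 0, -Complex.I; 0, Complex.I, 0],
    !![0, 0, Complex.I; 0, 0, 0; -Complex.I, 0, 0],
    !![0, -Complex.I, 0; Complex.I, 0, 0; 0, 0, 0]]

/-- Chain of `n + 1` sites; the closing bond is twisted by the label matrix `R` (`R = 1`: ring,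
`R = 0`: chain with free ends), and `F`, `F'` are fields on the first and the last site. -/
noncomputable def Ham (R F F' : M3) (n : ℕ) : Op (n + 1) :=
  (∑ j : Fin n, ∑ a : Fin 3, onSite (cart a) j.castSucc * onSite (cart a) j.succ)
    + (∑ a : Fin 3, ∑ b : Fin 3, R a b • (onSite (cart a) (Fin.last n) * onSite (cart b) 0))
    - (onSite F 0 + onSite F' (Fin.last n))

noncomputable def Zf (g R F F' : M3) (n : ℕ) (β : ℝ) : ℂ := trg g (Ham R F F' n) β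

/-- Integer matrices as complex matrices. -/
noncomputable def cz (R : Matrix (Fin 3) (Fin 3) ℤ) : M3 := R.map (Int.cast : ℤ → ℂ)

def Dx : Matrix (Fin 3) (Fin 3) ℤ := !![1, 0, 0; 0, -1, 0; 0, 0, -1]
def Dy : Matrix (Fin 3) (Fin 3) ℤ := !![-1, 0, 0; 0, 1, 0; 0, 0, -1]
def Dz : Matrix (Fin 3) (Fin 3) ℤ := !![-1, 0, 0; 0, -1, 0; 0, 0, 1]
def Cy : Matrix (Fin 3) (Fin 3) ℤ := !![0, 1, 0; 0, 0, 1; 1, 0, 0]
def Fl : Matrix (Fin 3) (Fin 3) ℤ := !![0, -1, 0; -1, 0, 0; 0, 0, -1]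
/-- The Klein four group. -/
def V4 : Fin 4 → Matrix (Fin 3) (Fin 3) ℤ := ![1, Dx, Dy, Dz]
/-- Rotation by `π` about the axis `(1,1,1)`. -/
noncomputable def g1 : M3 := Matrix.of fun a b => if a = b then -1 / 3 else 2 / 3
/-- Spin component along the unit vector `(1,1,1)/√3`. -/
noncomputable def Sn : M3 := ((Real.sqrt 3 : ℝ) : ℂ)⁻¹ • (cart 0 + cart 1 + cart 2)
/-- A primitive cube root of unity. -/
noncomputable def om : ℂ := ⟨-1 / 2, Real.sqrt 3 / 2⟩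

/-! ### Form in the basis `m = 1, 0, -1` -/

/-- Magnetic number as a complex number. -/
noncomputable def mg (a : Fin 3) : ℂ := (magneticNumber a : ℂ)

/-- Matrix element `⟨a b| S^z S^z + (φ S^+ S^- + φ⁻¹ S^- S^+)/2 |c d⟩`. -/
noncomputable def bnd (φ : ℂ) (a b c d : Fin 3) : ℂ :=
  if a = c ∧ b = d then mg a * mg b
  else if a.val + 1 = c.val ∧ b.val = d.val + 1 then φ
  else if a.val = c.val + 1 ∧ b.val + 1 = d.val then φ⁻¹
  else 0

/-- The two-site term on the (distinct) sites `j`, `k`. -/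
noncomputable def bondAt {n : ℕ} (φ : ℂ) (j k : Fin n) : Op n :=
  Matrix.of fun σ τ =>
    if (∀ i, i ≠ j → i ≠ k → σ i = τ i) then bnd φ (σ j) (σ k) (τ j) (τ k) else 0

/-- Ring of `n + 1` sites with the phase `φ` on the closing bond. -/
noncomputable def HR (φ : ℂ) (n : ℕ) : Op (n + 1) :=
  (∑ j : Fin n, bondAt 1 j.castSucc j.succ) + bondAt φ (Fin.last n) 0

/-- Chain of `n + 1` sites with free ends and fields `h`, `h'`. -/
noncomputable def HO (h h' : ℝ) (n : ℕ) : Op (n + 1) :=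
  (∑ j : Fin n, bondAt 1 j.castSucc j.succ)
    - Matrix.diagonal fun σ => (h : ℂ) * mg (σ 0) + (h' : ℂ) * mg (σ (Fin.last n))

noncomputable def uz : M3 := !![-1, 0, 0; 0, 1, 0; 0, 0, -1]
noncomputable def ux : M3 := !![0, 0, -1; 0, -1, 0; -1, 0, 0]

/-- Ring of `L` sites. -/
noncomputable def zr (φ : ℂ) (β : ℝ) (L : ℕ) : ℝ := (trg 1 (HR φ (L - 1)) β).re
noncomputable def gr (φ : ℂ) (β : ℝ) (L : ℕ) : ℝ := (trg uz (HR φ (L - 1)) β).re
noncomputable def fr (β : ℝ) (L : ℕ) : ℝ := (trg ux (HR (-1) (L - 1)) β).re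
/-- Chain of `m + 2` sites, fields `3/5` and `s · 3/5`. -/
noncomputable def zo (s : ℝ) (β : ℝ) (m : ℕ) : ℝ := (trg 1 (HO (3 / 5) (s * (3 / 5)) (m + 1)) β).re
noncomputable def go (s : ℝ) (β : ℝ) (m : ℕ) : ℝ := (trg uz (HO (3 / 5) (s * (3 / 5)) (m + 1)) β).re

/-! ### Sector sums in the space direction -/

noncomputable def pa (β : ℝ) (L : ℕ) : ℝ := (zr 1 β L + 3 * zr (-1) β L) / 4
noncomputable def pb (β : ℝ) (L : ℕ) : ℝ := (zr 1 β L - zr (-1) β L) / 4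
noncomputable def pT (β : ℝ) (L : ℕ) : ℝ := (zr 1 β L + 3 * zr (-1) β L + 8 * zr om β L) / 12
noncomputable def pD (β : ℝ) (L : ℕ) : ℝ := (gr 1 β L + 2 * gr om β L - 3 * fr β L) / 6
noncomputable def pD' (β : ℝ) (L : ℕ) : ℝ := (gr 1 β L + 2 * gr om β L + 3 * fr β L) / 6
noncomputable def pE (β : ℝ) (L : ℕ) : ℝ := (gr 1 β L - gr om β L) / 3
noncomputable def y0 (β : ℝ) (m : ℕ) : ℝ := (zo (-1) β m + zo 1 β m) / 2
noncomputable def yz (β : ℝ) (m : ℕ) : ℝ := (zo (-1) β m - zo 1 β m) / 2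
noncomputable def yD (β : ℝ) (m : ℕ) : ℝ := (go (-1) β m - go 1 β m) / 2
noncomputable def yD' (β : ℝ) (m : ℕ) : ℝ := (go (-1) β m + go 1 β m) / 2

/-! ### Power sums -/

/-- `p k` is the `k`-th power sum of a finite family of nonnegative numbers (`k ≥ 1`). -/
def PS0 (p : ℕ → ℝ) : Prop :=
  ∃ (ι : Type) (_ : Fintype ι) (x : ι → ℝ), (∀ i, 0 ≤ x i) ∧ ∀ k, 1 ≤ k → p k = ∑ i, x i ^ k

/-- `p L` is the `L`-th power sum of a real family (`L ≥ 3`) and `y m` is a weighted power sum of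
the same family with nonnegative weights. -/
def Spec (p y : ℕ → ℝ) : Prop :=
  ∃ lam c : ℕ → ℝ, (∀ i, 0 ≤ c i) ∧
    (∀ L, 3 ≤ L → HasSum (fun i => lam i ^ L) (p L)) ∧
    (∀ m, 3 ≤ m → HasSum (fun i => c i * lam i ^ m) (y m)) ∧
    ∀ s : Finset ℕ, ∑ i ∈ s, c i * lam i ^ 2 ≤ y 2

/-- `X` is the largest member of (any) family with power sums `p`. -/
structure TimeTop (p : ℕ → ℝ) (X : ℝ) : Prop where
  pos : 0 < X
  le : ∀ k, 1 ≤ k → X ^ k ≤ p k
  /-- power sums are submultiplicative -/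
  sub : ∀ a k, 1 ≤ a → 1 ≤ k → p (k * a) ≤ p a ^ k
  /-- the rest is raised to the `k`-th power -/
  pw : ∀ a k r, 1 ≤ a → 1 ≤ k → 0 ≤ r → p a ≤ (1 + r) * X ^ a →
    p (k * a) ≤ (1 + r ^ k) * X ^ (k * a)
  /-- inversion of the purity -/
  inv : ∀ a τ r, 1 ≤ a → 0 ≤ r → r ≤ 1 → τ ≤ 2 → τ * (1 + r ^ 2) ≤ (1 + r) ^ 2 →
    p a ^ 2 ≤ τ * p (2 * a) → p a ≤ (1 + r) * X ^ a
  /-- `X` is the growth rate -/
  grow : ∀ u, 0 ≤ u → (∀ k, 1 ≤ k → u ^ k ≤ p k) → u ≤ X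

/-- The dominant eigenvalue `Λ` of the transfer matrix and its boundary weight `c`;
`p` is the ring sum, `y` the positive chain sum, `yp` the signed chain sum. -/
structure SpaceTop (p y yp : ℕ → ℝ) (Λ c : ℝ) : Prop where
  pos : 0 < Λ
  cnn : 0 ≤ c
  le : ∀ L, 4 ≤ L → Even L → Λ ^ L ≤ p L
  mono : ∀ L j, 4 ≤ L → Even L → Even j → p (L + j) ≤ Λ ^ j * p L
  yle : ∀ m, 4 ≤ m → Even m → c * Λ ^ m ≤ y m
  ymono : ∀ m j, 4 ≤ m → Even m → Even j → y (m + j) ≤ Λ ^ j * y m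
  pdec : ∀ L θ, 4 ≤ L → Even L → 0 ≤ θ → p L ≤ (1 + θ ^ L) * Λ ^ L →
    ∀ j, Even j → p (L + j) ≤ (1 + θ ^ (L + j)) * Λ ^ (L + j)
  ydec : ∀ L θ, 4 ≤ L → Even L → 0 ≤ θ → p L ≤ (1 + θ ^ L) * Λ ^ L →
    ∀ m j, 4 ≤ m → Even m → Even j →
      y (m + j) - c * Λ ^ (m + j) ≤ (θ * Λ) ^ j * (y m - c * Λ ^ m)
  ypb : ∀ m j, 4 ≤ m → Even m →
    abs (abs (yp (m + j)) - c * Λ ^ (m + j)) ≤ Λ ^ j * (y m - c * Λ ^ m)
  inv : ∀ L τ r, 4 ≤ L → Even L → 0 ≤ r → r ≤ 1 → τ ≤ 2 → τ * (1 + r ^ 2) ≤ (1 + r) ^ 2 →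
    p L ^ 2 ≤ τ * p (2 * L) → p L ≤ (1 + r) * Λ ^ L

/-- All data of the doubling recursion. The first index is the inverse temperature in units of
`8`, the second the length. -/
structure Sys where
  Z : ℕ → ℕ → ℝ
  Y : ℕ → ℕ → ℝ
  Yp : ℕ → ℕ → ℝ
  X : ℕ → ℝ
  Xo : ℕ → ℝ
  Xp : ℕ → ℝ
  Λ : ℕ → ℝ
  c : ℕ → ℝ
  tZ : ∀ L, 4 ≤ L → TimeTop (fun a => Z a L) (X L)
  tY : ∀ m, 4 ≤ m → TimeTop (fun a => Y a m) (Xo m)
  tYp : ∀ m, 4 ≤ m → TimeTop (fun a => Yp a m) (Xp m)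
  sp : ∀ a, 1 ≤ a → SpaceTop (Z a) (Y a) (Yp a) (Λ a) (c a)
  var : ∀ a m, 1 ≤ a → 64 ≤ m → Even m → 1 ≤ Y a m

/-- State of the recursion at scale `(a, L)`. -/
structure State (S : Sys) (a L : ℕ) (g K K1 go' Ko Ko1 : ℝ) : Prop where
  hg : ∀ L', 2 * L ≤ L' → L' ≤ 3 * L → Even L' → S.Z a L' ≤ (1 + g) * S.X L' ^ a
  hK1 : S.Z a L ≤ (1 + K1) * S.Λ a ^ L
  hK : S.Z (2 * a) L ≤ (1 + K) * S.Λ (2 * a) ^ L
  hgo : S.Y a (3 * L) ≤ (1 + go') * S.Xo (3 * L) ^ a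
  hKo1 : S.Y a (3 * L) ≤ (1 + Ko1) * (S.c a * S.Λ a ^ (3 * L))
  hKo : S.Y (2 * a) (3 * L) ≤ (1 + Ko) * (S.c (2 * a) * S.Λ (2 * a) ^ (3 * L))

/-- Energy per site and boundary energy used for the normalisation. -/
noncomputable def fh : ℝ := 1401474 / 1000000
noncomputable def eh : ℝ := 23993 / 10000

/-- Normalisation of ring sums at `β = 8 a`. -/
noncomputable def nr (a L : ℕ) : ℝ := Real.exp (-(8 * a * (fh * L)))
/-- Normalisation of chain sums at `β = 8 a`. -/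
noncomputable def no (a m : ℕ) : ℝ := Real.exp (-(8 * a * (fh * m + eh)))

/-! ### Transfer matrix -/

/-- `B⁰ = 1`, `B^a = i √δ S^a`. -/
noncomputable def BB (δ : ℝ) : Fin 4 → M3 :=
  Fin.cons 1 fun a => (Complex.I * ((Real.sqrt δ : ℝ) : ℂ)) • cart a

noncomputable def MM (δ : ℝ) (a b : Fin 4) : M3 :=
  (1 / 2 : ℂ) • (BB δ a * BB δ b + BB δ b * BB δ a)

/-- `1 ⊕ R`. -/
noncomputable def Rh (R : M3) : Matrix (Fin 4) (Fin 4) ℂ :=
  Matrix.of (Fin.cons (Fin.cons 1 fun _ => 0) fun a => Fin.cons 0 fun b => R a b)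

/-- Transfer matrix of a site tensor `w` with `N` time steps. -/
noncomputable def TT (g : M3) (w : Fin 4 → Fin 4 → M3) (N : ℕ) :
    Matrix (Fin N → Fin 4) (Fin N → Fin 4) ℂ :=
  Matrix.of fun α α' => Matrix.trace (g * (List.ofFn fun t => w (α t) (α' t)).prod)

noncomputable def TM (g : M3) (β : ℝ) (N : ℕ) : Matrix (Fin N → Fin 4) (Fin N → Fin 4) ℂ :=
  TT g (MM (β / N)) N

/-- Action of a label matrix on time slices. -/
noncomputable def SM (R : M3) (N : ℕ) : Matrix (Fin N → Fin 4) (Fin N → Fin 4) ℂ :=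
  Matrix.of fun α α' => ∏ t, Rh R (α t) (α' t)

/-- Boundary vector of an end site with field `F`. -/
noncomputable def wv (g F : M3) (β : ℝ) (N : ℕ) : (Fin N → Fin 4) → ℂ := fun α =>
  Matrix.trace (g * (List.ofFn fun t =>
    MM (β / N) 0 (α t) + if α t = 0 then ((β / N : ℝ) : ℂ) • F else 0).prod)

/-- `V` implements the label matrix `R` on the spin matrices and commutes with `g`. -/
structure Cov (g R V W : M3) : Prop where
  vw : V * W = 1
  wv : W * V = 1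
  cov : ∀ a, ∑ b, R a b • cart b = W * cart a * V
  gv : V * g = g * V
  orth : R * Rᵀ = 1

/-! ### Certified values at `β = 8` -/

/-- `|x - c| ≤ e`. -/
def Near (x c e : ℝ) : Prop := c - e ≤ x ∧ x ≤ c + e

/-- Five consecutive values, starting at index `k`, are near the given centres. -/
def Near5 (p : ℕ → ℝ) (k : ℕ) (c0 c1 c2 c3 c4 e : ℝ) : Prop :=
  Near (p k) c0 e ∧ Near (p (k + 1)) c1 e ∧ Near (p (k + 2)) c2 e ∧ Near (p (k + 3)) c3 e ∧
    Near (p (k + 4)) c4 e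

/-- Sector sums at `β = 8` (normalised) and their spectral representations. -/
structure Base (qa qb qT qD qD' qE x0 xz xD xD' : ℕ → ℝ) : Prop where
  sa : Spec qa x0
  sb : Spec qb xz
  sT : ∃ y, Spec qT y
  sE0 : ∃ y, Spec (fun L => qa L - qT L) y
  sD : Spec qD xD
  sD' : Spec qD' xD'
  sE : ∃ y, Spec qE y
  nT : Near5 qT 6 1.210726 1.069102 1.077166 1.054396 1.057442 0.00003
  na : Near5 qa 6 1.686136 1.219406 1.201747 1.111422 1.098552 0.00003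
  nb : Near5 qb 6 1.222892 (-0.356535) 0.530292 (-0.254171) 0.291272 0.00003
  nD : Near5 qD 6 1.411780 1.102963 1.089526 1.027638 1.015825 0.00003
  nD' : Near5 qD' 6 0.996965 (-0.425511) 0.477760 (-0.278638) 0.277620 0.00003
  nE : Near5 qE 6 1.439768 (-0.264474) 0.565491 (-0.203019) 0.282731 0.00003
  n0 : Near5 x0 2 1.73111 1.39486 1.28866 1.17789 1.12958 0.0002
  nz : Near5 xz 2 1.65609 (-1.26381) 1.08516 (-0.88880) 0.75748 0.0002
  nxD : Near5 xD 2 1.70190 1.37320 1.25679 1.14538 1.09021 0.0002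
  nxD' : Near5 xD' 2 1.68158 (-1.26835) 1.10405 (-0.89441) 0.77134 0.0002

/-- Upper bounds at `β = 8` for long rings and chains: `Z1`, `A1` ring sum and neutral ring sum,
`Y1`, `O1` chain sum and even chain sum. -/
structure BaseUp (Z1 A1 Y1 O1 : ℕ → ℝ) : Prop where
  z36 : Z1 36 ≤ 1.2050
  a36 : A1 36 ≤ 1.0409
  zL : ∀ L, 60 ≤ L → L ≤ 108 → Even L → Z1 L ≤ 1.6833
  aL : ∀ L, 60 ≤ L → L ≤ 108 → Even L → A1 L ≤ 1.1390
  y28 : Y1 28 ≤ 1.1686
  o28 : O1 28 ≤ 1.0848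
  y96 : Y1 96 ≤ 1.5793
  o96 : O1 96 ≤ 1.2515
  y108 : Y1 108 ≤ 1.6733
  o108 : O1 108 ≤ 1.2945

end Crest.Agent.R347
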