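import Crest.Agent.R347.Poly

/-! Certified approximation of the exponential by the three-term recurrence.

Write `t = a + conj a` with `|a|² = q`.  A list `l` of natural numbers stands for `Re ∑ l_k a^k`.
These expressions are closed under multiplication by `t`.  The Taylor polynomial of `exp (4 t / s)`
(in fixed point arithmetic, with a running error bound, multiplied by the scalar factor) and the
recurrence `clen` are both expanded in this way and compared coefficient by coefficient. -/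

set_option autoImplicit false

namespace Crest.Agent.R347

open Matrix Crest.MathPhysics.SpinChain Filter Topology K

/-- `frz d x k = k (x / d)`, evaluating the quotient first. -/
noncomputable def frz (d : ℕ) (x : ℤ) (k : ℤ → Bool) : Bool :=
  @Int.rec (fun _ => Bool) (fun n => frc (Nat.div n d) fun m => k (Int.ofNat m))
    (fun n => frc (Nat.div n d) fun m => k (Int.negSucc m)) x

/-- Scalar Horner scheme for `W exp (B / de)`, with the error bound `e`. -/
noncomputable def exS (B : ℤ) (aB de W n : ℕ) : ℤ → ℕ → (ℤ → ℕ → Bool) → Bool :=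
  @Nat.rec (fun _ => ℤ → ℕ → (ℤ → ℕ → Bool) → Bool) (fun h e k => k h e)
    (fun j ih h e k => frc (Nat.mul de (Nat.succ j)) fun d =>
      frc (Nat.add (Nat.div (Nat.mul aB e) d) 2) fun e' =>
      frz d (Int.add (Int.ofNat (Nat.mul d W)) (Int.mul B h)) fun h' => ih h' e' k) n

/-- The list of `(p + A a (x :: l) + Aq l) / d`. -/
noncomputable def exGo (d A Aq : ℕ) (l : List ℕ) : ℕ → ℕ → (List ℕ → Bool) → Bool :=
  @List.rec ℕ (fun _ => ℕ → ℕ → (List ℕ → Bool) → Bool)
    (fun p x k => frc (Nat.div p d) fun u => frc (Nat.div (Nat.mul A x) d) fun v => k [u, v])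
    (fun y _ ih p x k => frc (Nat.div (Nat.add p (Nat.mul Aq y)) d) fun u =>
      ih (Nat.mul A x) y fun r => k (u :: r)) l

/-- The list of `(c + A t l) / d`, where `Aq = A q`. -/
noncomputable def exT (d A Aq c : ℕ) (l : List ℕ) (k : List ℕ → Bool) : Bool :=
  @List.rec ℕ (fun _ => Bool) (frc (Nat.div c d) fun u => k [u])
    (fun x l' _ => exGo d A Aq l' c (Nat.add x x) k) l

/-- Horner scheme for `G exp (4 t / s)`, with the error bound `e`. -/
noncomputable def exHor (Aq s G g rn n : ℕ) : List ℕ → ℕ → (List ℕ → ℕ → Bool) → Bool :=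
  @Nat.rec (fun _ => List ℕ → ℕ → (List ℕ → ℕ → Bool) → Bool) (fun H e k => k H e)
    (fun j ih H e k => frc (Nat.mul s (Nat.succ j)) fun d =>
      frc (Nat.add (Nat.succ (Nat.div (Nat.mul rn e) (Nat.mul 125 d))) g) fun e' =>
      exT d 4 Aq (Nat.mul d G) H fun H' => ih H' e' k) n

/-- The recurrence `clen` as a list. -/
noncomputable def exCl (q : ℕ) (cs : List ℕ) : ℕ → ℕ → List ℕ → List ℕ :=
  @List.rec ℕ (fun _ => ℕ → ℕ → List ℕ → List ℕ) (fun f1 _ acc => f1 :: acc)
    (fun c _ ih f1 f0 acc => frc (Nat.add c (Nat.mul q f0)) fun f =>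
      ih f f1 (Nat.add f1 f1 :: acc)) cs

/-- Upper bound for `∑ W l_k (rn / 1000)^k`. -/
noncomputable def exAbs (W rn : ℕ) (l : List ℕ) : ℕ :=
  @List.rec ℕ (fun _ => ℕ) 0
    (fun x _ ih => Nat.add (Nat.mul W x) (Nat.succ (Nat.div (Nat.mul rn ih) 1000))) l

/-- Upper bound for `∑ |S l_k - W m_k| (rn / 1000)^k`. -/
noncomputable def exDiff (S W rn : ℕ) (l : List ℕ) : List ℕ → ℕ :=
  @List.rec ℕ (fun _ => List ℕ → ℕ) (fun m => exAbs W rn m)
    (fun x l' ih m => @List.rec ℕ (fun _ => ℕ) (exAbs S rn (x :: l'))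
      (fun y m' _ => frc (Nat.mul S x) fun u => frc (Nat.mul W y) fun v =>
        Nat.add (Nat.add (Nat.sub u v) (Nat.sub v u))
          (Nat.succ (Nat.div (Nat.mul rn (ih m')) 1000))) m) l

/-- `N` is the number of terms of the Taylor polynomial, `rn / 1000` an upper bound for `√q`. -/
noncomputable def expChk (s : ℕ) (c : ℤ) (q : ℕ) (cs : List ℕ) (b En en N rn : ℕ) : Bool :=
  frc (Nat.mul 250000 s) fun de =>
  frz 1 (Int.neg (Int.add (Int.mul (Int.ofNat 1000000) c) (Int.ofNat (Nat.mul s En)))) fun B =>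
  frc (Int.natAbs B) fun aB => frc (Nat.pow 2 b) fun Sc =>
  frc (Nat.pow (Nat.add (Nat.div rn 1000) 2) N) fun g =>
  frc (Nat.mul g (Nat.pow 2 (Nat.add N 64))) fun W => frc (Nat.mul 4 q) fun Aq =>
  frc (Nat.mul 3 N) fun N' =>
  ifb% (Nat.ble 1 s) (ifb% (Nat.ble (Nat.mul 1000000 q) (Nat.mul rn rn))
    (ifb% (Nat.ble (Nat.mul 2 aB) (Nat.mul de (Nat.succ N')))
      (ifb% (Nat.ble (Nat.mul 2 rn) (Nat.mul (Nat.mul 125 s) (Nat.succ N)))
        (exS B aB de W N' (Int.ofNat 0) (Nat.mul 2 W) fun h e0 =>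
          frc (Int.natAbs h) fun G => frc (Nat.add g e0) fun g' =>
          exHor Aq s G g' rn N [] (Nat.mul 2 (Nat.add G e0)) fun H e =>
            Nat.ble (Nat.mul 1000000000000
                (Nat.add (Nat.mul Sc e) (exDiff Sc W rn H (exCl q cs 0 0 []))))
              (Nat.mul (Nat.mul en Sc) W)) false) false) false) false

/-! ### Soundness -/

theorem ex_frc {α : Type} (n : ℕ) (f : ℕ → α) : frc n f = f n := rfl

theorem ex_div (n d : ℕ) (hd : 0 < d) : |(d : ℝ) * (n / d : ℕ) - n| ≤ d := by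
  have h1 : (d : ℝ) * (n / d : ℕ) + (n % d : ℕ) = n := by exact_mod_cast Nat.div_add_mod n d
  have h2 : ((n % d : ℕ) : ℝ) < d := by exact_mod_cast Nat.mod_lt n hd
  have h3 : (0 : ℝ) ≤ (n % d : ℕ) := Nat.cast_nonneg _
  rw [abs_le]; constructor <;> linarith

theorem ex_div_le (n d : ℕ) (hd : 0 < d) : (n : ℝ) / d ≤ (n / d : ℕ) + 1 := by
  have h := (abs_le.1 (ex_div n d hd)).1
  have hd' : (0 : ℝ) < d := by exact_mod_cast hd
  rw [div_le_iff₀ hd']; linarith

theorem frz_one (x : ℤ) (k : ℤ → Bool) : frz 1 x k = k x := by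
  cases x with
  | ofNat n => change k (Int.ofNat (n / 1)) = _; rw [Nat.div_one]
  | negSucc n => change k (Int.negSucc (n / 1)) = _; rw [Nat.div_one]

theorem frz_spec (d : ℕ) (hd : 0 < d) (x : ℤ) :
    ∃ u : ℤ, (∀ k, frz d x k = k u) ∧ |(d : ℝ) * u - x| ≤ d := by
  cases x with
  | ofNat n => exact ⟨Int.ofNat (n / d), fun _ => rfl, ex_div n d hd⟩
  | negSucc n =>
    refine ⟨Int.negSucc (n / d), fun _ => rfl, ?_⟩
    have h1 : (d : ℝ) * (n / d : ℕ) + (n % d : ℕ) = n := by exact_mod_cast Nat.div_add_mod n d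
    have h2 : ((n % d : ℕ) : ℝ) + 1 ≤ d := by exact_mod_cast Nat.mod_lt n hd
    have h3 : (0 : ℝ) ≤ (n % d : ℕ) := Nat.cast_nonneg _
    rw [Int.cast_negSucc, Int.cast_negSucc, abs_le]
    push_cast
    constructor <;> nlinarith

/-- Horner scheme over the reals. -/
noncomputable def exHn (z C : ℝ) : ℕ → ℝ → ℝ
  | 0, E => E
  | j + 1, E => exHn z C j (C + z / (j + 1) * E)

theorem exHn_eq (z C : ℝ) (n : ℕ) (E : ℝ) :
    exHn z C n E = C * ∑ i ∈ Finset.range n, z ^ i / i.factorial + z ^ n / n.factorial * E := by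
  induction n generalizing E with
  | zero => simp [exHn]
  | succ n ih =>
    rw [exHn, ih, Finset.sum_range_succ, Nat.factorial_succ]
    push_cast
    have : (n.factorial : ℝ) ≠ 0 := by positivity
    field_simp
    ring

theorem exHn_exists (z C : ℝ) (n : ℕ) (h : 2 * |z| ≤ n + 1) :
    ∃ E, |E| ≤ 2 * |C| ∧ exHn z C n E = C * Real.exp z := by
  have h1 := Complex.exp_bound' (x := (z : ℂ)) (n := n) (by
    rw [Complex.norm_real, Real.norm_eq_abs, div_le_iff₀ (by positivity)]
    push_cast; linarith)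
  have h2 : |Real.exp z - ∑ i ∈ Finset.range n, z ^ i / i.factorial| ≤ |z ^ n / n.factorial| * 2 := by
    rw [Complex.norm_real, Real.norm_eq_abs] at h1
    rw [abs_div, abs_pow, Nat.abs_cast, ← Real.norm_eq_abs, ← Complex.norm_real]
    push_cast
    exact h1
  set y := z ^ n / n.factorial with hy
  set X := Real.exp z - ∑ i ∈ Finset.range n, z ^ i / i.factorial with hX
  by_cases h0 : y = 0
  · refine ⟨0, by simp, ?_⟩
    rw [h0] at h2
    have : X = 0 := by simpa using h2
    rw [exHn_eq, mul_zero, add_zero]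
    congr 1; linarith
  · refine ⟨C * (X / y), ?_, ?_⟩
    · rw [abs_mul, mul_comm 2, abs_div]
      refine mul_le_mul_of_nonneg_left ?_ (abs_nonneg _)
      rw [div_le_iff₀ (abs_pos.2 h0)]; linarith
    · rw [exHn_eq, ← hy, hX]; field_simp; ring

theorem exS_spec (B : ℤ) (de W : ℕ) (hde : 0 < de) (n : ℕ) (h : ℤ) (e : ℕ) (E : ℝ)
    (hE : |E - h| ≤ e) : ∃ (h' : ℤ) (e' : ℕ), (∀ k, exS B B.natAbs de W n h e k = k h' e') ∧
      |exHn (B / de) W n E - h'| ≤ e' := by
  induction n generalizing h e E with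
  | zero => exact ⟨h, e, fun _ => rfl, hE⟩
  | succ j ih =>
    have hd : 0 < de * (j + 1) := by positivity
    obtain ⟨u, hu, hu'⟩ := frz_spec (de * (j + 1)) hd (((de * (j + 1) * W : ℕ) : ℤ) + B * h)
    obtain ⟨h', e', h1, h2⟩ := ih u (B.natAbs * e / (de * (j + 1)) + 2)
      (W + (B : ℝ) / de / (j + 1) * E) (by
        have h3 := ex_div_le (B.natAbs * e) _ hd
        have hd' : (0 : ℝ) < de * (j + 1) := by positivity
        push_cast at h3 hu' ⊢
        rw [Nat.cast_natAbs, Int.cast_abs] at h3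
        have e1 : (W : ℝ) + (B : ℝ) / de / (j + 1) * E - u = B / (de * (j + 1)) * (E - h) -
            (de * (j + 1) * u - (de * (j + 1) * W + B * h)) / (de * (j + 1)) := by
          field_simp; ring
        rw [e1]
        refine (abs_sub _ _).trans ?_
        have h4 : |(B : ℝ) / (de * (j + 1)) * (E - h)| ≤ |(B : ℝ)| * e / (de * (j + 1)) := by
          rw [abs_mul, abs_div, abs_of_pos hd', div_mul_eq_mul_div]
          gcongr
        have h5 : |((de : ℝ) * (j + 1) * u - (de * (j + 1) * W + B * h)) / (de * (j + 1))| ≤ 1 := by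
          rw [abs_div, abs_of_pos hd', div_le_one hd']; exact hu'
        linarith)
    exact ⟨h', e', fun k => (hu fun h' =>
      exS B B.natAbs de W j h' (B.natAbs * e / (de * (j + 1)) + 2) k).trans (h1 k), h2⟩

/-- `∑ l_k a^k`. -/
noncomputable def exP (a : ℂ) : List ℕ → ℂ
  | [] => 0
  | x :: l => x + a * exP a l

theorem ex_divC (n d : ℕ) (hd : 0 < d) : ‖(d : ℂ) * (n / d : ℕ) - n‖ ≤ d := by
  have h := ex_div n d hd
  rw [← Real.norm_eq_abs, ← Complex.norm_real] at h
  simpa using h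

theorem ex_geom {d ρ x : ℝ} {u v a : ℂ} (n : ℕ) (hd : 0 ≤ d) (ha : ‖a‖ ≤ ρ) (hu : ‖u‖ ≤ d)
    (hv : ‖v‖ ≤ d * (ρ + 1) ^ n) (hx : x = d * (ρ + 1) ^ (n + 1)) : ‖u + a * v‖ ≤ x := by
  have hρ : 0 ≤ ρ := (norm_nonneg _).trans ha
  have h1 : 1 ≤ (ρ + 1) ^ n := one_le_pow₀ (by linarith)
  refine (norm_add_le _ _).trans ?_
  rw [norm_mul, hx, pow_succ]
  have h2 : ‖a‖ * ‖v‖ ≤ ρ * (d * (ρ + 1) ^ n) := by gcongr
  nlinarith

theorem exGo_spec (d A Aq : ℕ) (hd : 0 < d) {a : ℂ} {ρ : ℝ} (ha : ‖a‖ ≤ ρ) (l : List ℕ)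
    (p x : ℕ) : ∃ r : List ℕ, (∀ k, exGo d A Aq l p x k = k r) ∧ r.length = l.length + 2 ∧
      ‖d * exP a r - (p + A * a * exP a (x :: l) + Aq * exP a l)‖ ≤ d * (ρ + 1) ^ (l.length + 2) := by
  have hρ : 0 ≤ ρ := (norm_nonneg _).trans ha
  induction l generalizing p x with
  | nil =>
    refine ⟨[p / d, A * x / d], fun _ => rfl, rfl, ?_⟩
    have e : (d : ℂ) * exP a [p / d, A * x / d] - (p + A * a * exP a [x] + Aq * exP a []) =
        (d * (p / d : ℕ) - p) + a * (d * (A * x / d : ℕ) - (A * x : ℕ)) := by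
      simp only [exP]; push_cast; ring
    rw [e]
    refine ex_geom 1 (Nat.cast_nonneg d) ha (ex_divC _ _ hd) ((ex_divC _ _ hd).trans ?_) rfl
    have : (0 : ℝ) ≤ d := Nat.cast_nonneg d
    nlinarith
  | cons y l ih =>
    obtain ⟨r, h1, h2, h3⟩ := ih (A * x) y
    refine ⟨(p + Aq * y) / d :: r, fun k => h1 _, by simp [h2], ?_⟩
    have e : (d : ℂ) * exP a ((p + Aq * y) / d :: r) -
        (p + A * a * exP a (x :: y :: l) + Aq * exP a (y :: l)) =
        (d * ((p + Aq * y) / d : ℕ) - (p + Aq * y : ℕ)) +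
          a * (d * exP a r - ((A * x : ℕ) + A * a * exP a (y :: l) + Aq * exP a l)) := by
      simp only [exP]; push_cast; ring
    rw [e]
    exact ex_geom _ (Nat.cast_nonneg d) ha (ex_divC _ _ hd) h3 rfl

theorem exT_spec (d A q c : ℕ) (hd : 0 < d) {a : ℂ} {ρ : ℝ} (ha : ‖a‖ ≤ ρ)
    (hq : (q : ℝ) = a.re ^ 2 + a.im ^ 2) (l : List ℕ) :
    ∃ r : List ℕ, (∀ k, exT d A (A * q) c l k = k r) ∧ r.length = l.length + 1 ∧
      |d * (exP a r).re - (c + A * (2 * a.re) * (exP a l).re)| ≤ d * (ρ + 1) ^ (l.length + 1) := by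
  have hρ : 0 ≤ ρ := (norm_nonneg _).trans ha
  cases l with
  | nil =>
    refine ⟨[c / d], fun _ => rfl, rfl, ?_⟩
    have h := ex_div c d hd
    have : (0 : ℝ) ≤ d := Nat.cast_nonneg d
    simp only [exP, mul_zero, add_zero, Complex.natCast_re, Complex.zero_re, List.length_nil,
      zero_add, pow_one]
    nlinarith
  | cons x l =>
    obtain ⟨r, h1, h2, h3⟩ := exGo_spec d A (A * q) hd ha l c (x + x)
    refine ⟨r, h1, by simp [h2], le_trans (le_of_eq ?_) ((Complex.abs_re_le_norm _).trans h3)⟩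
    congr 1
    simp only [exP]
    push_cast
    simp only [Complex.sub_re, Complex.add_re, Complex.mul_re, Complex.mul_im, Complex.add_im,
      Complex.natCast_re, Complex.natCast_im, hq]
    ring

theorem exHor_spec (q s G g rn N : ℕ) (hs : 0 < s) {a : ℂ} (ha : ‖a‖ ≤ rn / 1000)
    (hq : (q : ℝ) = a.re ^ 2 + a.im ^ 2) {C : ℝ} (hg : ((rn : ℝ) / 1000 + 1) ^ N + |C - G| ≤ g)
    (n : ℕ) (H : List ℕ) (e : ℕ) (E : ℝ) (hn : H.length + n ≤ N) (hE : |E - (exP a H).re| ≤ e) :
    ∃ (H' : List ℕ) (e' : ℕ), (∀ k, exHor (4 * q) s G g rn n H e k = k H' e') ∧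
      |exHn (4 * (2 * a.re) / s) C n E - (exP a H').re| ≤ e' := by
  induction n generalizing H e E with
  | zero => exact ⟨H, e, fun _ => rfl, hE⟩
  | succ j ih =>
    have hd : 0 < s * (j + 1) := by positivity
    obtain ⟨u, hu, hl, hu'⟩ := exT_spec (s * (j + 1)) 4 q (s * (j + 1) * G) hd ha hq H
    obtain ⟨H', e', h1, h2⟩ := ih u (rn * e / (125 * (s * (j + 1))) + 1 + g)
      (C + 4 * (2 * a.re) / s / (j + 1) * E) (by omega) (by
        have h3 := ex_div_le (rn * e) (125 * (s * (j + 1))) (by positivity)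
        have hd' : (0 : ℝ) < s * (j + 1) := by positivity
        push_cast at h3 hu' ⊢
        have e1 : C + 4 * (2 * a.re) / s / (j + 1) * E - (exP a u).re =
            (C - G) + (8 * a.re / (s * (j + 1)) * (E - (exP a H).re) -
            (s * (j + 1) * (exP a u).re - (s * (j + 1) * G + 4 * (2 * a.re) * (exP a H).re)) /
              (s * (j + 1))) := by
          field_simp; ring
        rw [e1]
        refine (abs_add_le _ _).trans ((add_le_add le_rfl (abs_sub _ _)).trans ?_)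
        have hre : |a.re| ≤ rn / 1000 := (Complex.abs_re_le_norm a).trans ha
        have h4 : |8 * a.re / (s * (j + 1)) * (E - (exP a H).re)| ≤
            rn * e / (125 * (s * (j + 1))) := by
          rw [abs_mul, abs_div, abs_of_pos hd', abs_mul, abs_of_pos (by norm_num : (0 : ℝ) < 8)]
          calc 8 * |a.re| / (s * (j + 1)) * |E - (exP a H).re|
              ≤ 8 * (rn / 1000) / (s * (j + 1)) * e := by gcongr
            _ = _ := by field_simp; ring
        have h5 : |((s : ℝ) * (j + 1) * (exP a u).re -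
            (s * (j + 1) * G + 4 * (2 * a.re) * (exP a H).re)) / (s * (j + 1))| ≤
            ((rn : ℝ) / 1000 + 1) ^ N := by
          rw [abs_div, abs_of_pos hd', div_le_iff₀ hd', mul_comm (_ ^ N)]
          refine hu'.trans (mul_le_mul_of_nonneg_left ?_ hd'.le)
          exact pow_le_pow_right₀ (by have : (0 : ℝ) ≤ rn / 1000 := by positivity
                                      linarith) (by omega)
        linarith)
    exact ⟨H', e', fun k => (hu fun H' => exHor (4 * q) s G g rn j H'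
      (rn * e / (125 * (s * (j + 1))) + 1 + g) k).trans (h1 k), h2⟩

theorem exCl_spec (q : ℕ) {a : ℂ} (hq : (q : ℝ) = a.re ^ 2 + a.im ^ 2) (cs : List ℕ) (f1 f0 : ℕ)
    (acc : List ℕ) : clen (2 * a.re) q cs (exP a (f1 :: acc)).re ((exP a acc).re - f0) =
      (exP a (exCl q cs f1 f0 acc)).re := by
  induction cs generalizing f1 f0 acc with
  | nil => rfl
  | cons c cs ih =>
    rw [clen]
    refine Eq.trans ?_ (ih (c + q * f0) f1 ((f1 + f1) :: acc))
    congr 1
    · simp only [exP]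
      push_cast
      simp only [Complex.add_re, Complex.mul_re, Complex.mul_im, Complex.add_im,
        Complex.natCast_re, Complex.natCast_im, hq]
      ring
    · simp only [exP]
      push_cast
      simp only [Complex.add_re, Complex.natCast_re]
      ring

theorem ex_up (rn m : ℕ) {a v : ℂ} (ha : ‖a‖ ≤ rn / 1000) (hv : ‖v‖ ≤ m) :
    ‖a * v‖ ≤ (rn * m / 1000 + 1 : ℕ) := by
  have h := ex_div_le (rn * m) 1000 (by norm_num)
  rw [norm_mul]
  push_cast at h ⊢
  refine le_trans ?_ h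
  calc ‖a‖ * ‖v‖ ≤ rn / 1000 * m := by gcongr
    _ = _ := by ring

theorem exAbs_spec (W rn : ℕ) {a : ℂ} (ha : ‖a‖ ≤ rn / 1000) (l : List ℕ) :
    ‖(W : ℂ) * exP a l‖ ≤ exAbs W rn l := by
  induction l with
  | nil => simp [exP]
  | cons x l ih =>
    have e : (W : ℂ) * exP a (x :: l) = (W * x : ℕ) + a * (W * exP a l) := by
      simp only [exP]; push_cast; ring
    change _ ≤ ((W * x + (rn * exAbs W rn l / 1000 + 1) : ℕ) : ℝ)
    rw [e, Nat.cast_add]
    exact (norm_add_le _ _).trans (add_le_add (Complex.norm_natCast _).le (ex_up rn _ ha ih))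

theorem exDiff_spec (S W rn : ℕ) {a : ℂ} (ha : ‖a‖ ≤ rn / 1000) (l m : List ℕ) :
    ‖(S : ℂ) * exP a l - W * exP a m‖ ≤ exDiff S W rn l m := by
  induction l generalizing m with
  | nil =>
    change _ ≤ (exAbs W rn m : ℝ)
    simpa [exP] using exAbs_spec W rn ha m
  | cons x l ih =>
    cases m with
    | nil =>
      change _ ≤ (exAbs S rn (x :: l) : ℝ)
      simpa only [exP, mul_zero, sub_zero] using exAbs_spec S rn ha (x :: l)
    | cons y m =>
      have e : (S : ℂ) * exP a (x :: l) - W * exP a (y :: m) =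
          (((S * x : ℕ) : ℝ) - (W * y : ℕ) : ℝ) + a * (S * exP a l - W * exP a m) := by
        simp only [exP]; push_cast; ring
      change _ ≤ (((S * x - W * y) + (W * y - S * x) + (rn * exDiff S W rn l m / 1000 + 1) : ℕ) : ℝ)
      rw [e, Nat.cast_add]
      refine (norm_add_le _ _).trans (add_le_add ?_ (ex_up rn _ ha (ih m)))
      rw [Complex.norm_real, Real.norm_eq_abs]
      generalize S * x = u
      generalize W * y = v
      rcases le_total u v with h | h
      · have : (u : ℝ) ≤ v := by exact_mod_cast h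
        rw [Nat.sub_eq_zero_of_le h, zero_add, Nat.cast_sub h, abs_sub_comm,
          abs_of_nonneg (by linarith)]
      · have : (v : ℝ) ≤ u := by exact_mod_cast h
        rw [Nat.sub_eq_zero_of_le h, add_zero, Nat.cast_sub h, abs_of_nonneg (by linarith)]

theorem ex_if {b x : Bool} (h : (ifb% b x false) = true) : b = true ∧ x = true := by
  cases b
  · exact absurd h (by simp)
  · exact ⟨rfl, h⟩

theorem ex_core (s q b en N rn g W : ℕ) (cs : List ℕ) (B : ℤ) (hW0 : (0 : ℝ) < W)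
    (hg : ((rn : ℝ) / 1000 + 1) ^ N ≤ g) (hs : 0 < s) (c2' : (1000000 : ℝ) * q ≤ rn * rn)
    (c3' : 2 * |(B : ℝ)| ≤ 250000 * s * ((3 * N : ℕ) + 1))
    (c4' : (2 : ℝ) * rn ≤ 125 * s * (N + 1))
    (H : (exS B B.natAbs (250000 * s) W (3 * N) 0 (2 * W) fun h e0 =>
      exHor (4 * q) s h.natAbs (g + e0) rn N [] (2 * (h.natAbs + e0)) fun L e =>
        Nat.ble (1000000000000 * (2 ^ b * e + exDiff (2 ^ b) W rn L (exCl q cs 0 0 [])))
          (en * 2 ^ b * W)) = true) (t : ℝ) (hx : t ^ 2 ≤ 4 * q) :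
    |2 ^ b * Real.exp ((B : ℝ) / (250000 * s : ℕ) + 4 * t / s) - clen t q cs 0 0|
      ≤ en * 2 ^ b / 10 ^ 12 := by
  have hs' : (0 : ℝ) < s := by exact_mod_cast hs
  set a : ℂ := ⟨t / 2, Real.sqrt (q - t ^ 2 / 4)⟩ with ha
  have hq : (q : ℝ) = a.re ^ 2 + a.im ^ 2 := by
    simp only [ha]; rw [Real.sq_sqrt (by linarith)]; ring
  have hta : t = 2 * a.re := by simp only [ha]; ring
  have hn : ‖a‖ ≤ rn / 1000 := by
    refine abs_le_of_sq_le_sq' ?_ (by positivity) |>.2
    rw [Complex.sq_norm, Complex.normSq_apply]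
    nlinarith
  have hre : |a.re| ≤ rn / 1000 := (Complex.abs_re_le_norm a).trans hn
  -- the scalar factor
  obtain ⟨E0, hE0, hE0'⟩ := exHn_exists ((B : ℝ) / (250000 * s : ℕ)) W (3 * N) (by
    rw [abs_div, Nat.abs_cast, ← mul_div_assoc, div_le_iff₀ (by positivity)]
    push_cast at c3' ⊢; linarith)
  obtain ⟨h, e0, k1, k2⟩ := exS_spec B (250000 * s) W (by positivity) (3 * N) 0 (2 * W) E0 (by
    rw [Nat.abs_cast] at hE0; simpa using hE0)
  rw [hE0'] at k2
  set C : ℝ := W * Real.exp ((B : ℝ) / (250000 * s : ℕ)) with hC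
  have hC0 : 0 ≤ C := by positivity
  have k3 : |C - h.natAbs| ≤ e0 := by
    rw [Nat.cast_natAbs, Int.cast_abs]
    nth_rewrite 1 [← abs_of_nonneg hC0]
    exact (abs_abs_sub_abs_le _ _).trans k2
  -- the polynomial
  obtain ⟨E1, hE1, hE1'⟩ := exHn_exists (4 * (2 * a.re) / s) C N (by
    rw [abs_div, Nat.abs_cast, ← mul_div_assoc, div_le_iff₀ hs', abs_mul, abs_mul,
      abs_of_pos (by norm_num : (0 : ℝ) < 4), abs_of_pos (by norm_num : (0 : ℝ) < 2)]
    linarith)
  obtain ⟨L, e, k4, k5⟩ := exHor_spec q s h.natAbs (g + e0) rn N hs hn hq (C := C) (by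
      push_cast; linarith)
    N [] (2 * (h.natAbs + e0)) E1 (by simp) (by
      rw [abs_of_nonneg hC0] at hE1
      have := (abs_le.1 k3).2
      simp only [exP, Complex.zero_re, sub_zero]
      push_cast; linarith)
  rw [hE1'] at k5
  have H1 := ((k1 _).symm.trans H)
  have H2 := ((k4 _).symm.trans H1)
  have H3 : (1000000000000 : ℝ) * (2 ^ b * e + exDiff (2 ^ b) W rn L (exCl q cs 0 0 [])) ≤
      en * 2 ^ b * W := by
    have : 1000000000000 * (2 ^ b * e + exDiff (2 ^ b) W rn L (exCl q cs 0 0 [])) ≤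
      en * 2 ^ b * W := Nat.le_of_ble_eq_true H2
    exact_mod_cast this
  have k6 := (Complex.abs_re_le_norm _).trans
    (exDiff_spec (2 ^ b) W rn hn L (exCl q cs 0 0 []))
  have k7 := exCl_spec q hq cs 0 0 []
  simp only [exP, Nat.cast_zero, mul_zero, add_zero, Complex.zero_re, sub_zero] at k7
  rw [Complex.sub_re, Complex.mul_re, Complex.mul_re, Complex.natCast_re, Complex.natCast_im,
    Complex.natCast_re, Complex.natCast_im, ← k7, ← hta] at k6
  rw [hC, mul_assoc, ← Real.exp_add, ← hta] at k5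
  simp only [zero_mul, sub_zero, Nat.cast_pow, Nat.cast_ofNat] at k6
  set F := Real.exp ((B : ℝ) / (250000 * s : ℕ) + 4 * t / s)
  set Q := clen t q cs 0 0
  have e1 : W * (2 ^ b * F - Q) = 2 ^ b * (W * F - (exP a L).re) + (2 ^ b * (exP a L).re - W * Q) := by
    ring
  have k9 : W * |2 ^ b * F - Q| ≤ 2 ^ b * e + exDiff (2 ^ b) W rn L (exCl q cs 0 0 []) := by
    nth_rewrite 1 [← abs_of_pos hW0]
    rw [← abs_mul, e1]
    refine (abs_add_le _ _).trans (add_le_add ?_ k6)
    rw [abs_mul, abs_of_pos (by positivity : (0 : ℝ) < 2 ^ b)]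
    gcongr
  rw [le_div_iff₀ (by positivity)]
  refine le_of_mul_le_mul_left ?_ hW0
  nlinarith

theorem expChk_sound (s : ℕ) (c : ℤ) (q : ℕ) (cs : List ℕ) (b En en N rn : ℕ)
    (H : expChk s c q cs b En en N rn = true) : PCert s c q cs b En en := by
  intro x hx
  unfold expChk at H
  simp only [ex_frc, frz_one] at H
  obtain ⟨c1, H⟩ := ex_if H
  obtain ⟨c2, H⟩ := ex_if H
  obtain ⟨c3, H⟩ := ex_if H
  obtain ⟨c4, H⟩ := ex_if H
  have hs : 0 < s := Nat.le_of_ble_eq_true c1
  have hs' : (0 : ℝ) < s := by exact_mod_cast hs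
  have key := ex_core s q b en N rn ((rn / 1000 + 2) ^ N) ((rn / 1000 + 2) ^ N * 2 ^ (N + 64)) cs
    (-(1000000 * c + (s * En : ℕ))) (by positivity) (by
      have h1 := ex_div_le rn 1000 (by norm_num)
      push_cast at h1 ⊢
      exact pow_le_pow_left₀ (by positivity) (by linarith) N) hs (by
      have : 1000000 * q ≤ rn * rn := Nat.le_of_ble_eq_true c2
      exact_mod_cast this) (by
      have : 2 * (-(1000000 * c + (s * En : ℕ))).natAbs ≤ 250000 * s * (3 * N + 1) :=
        Nat.le_of_ble_eq_true c3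
      rw [← Int.cast_abs, ← Nat.cast_natAbs]
      exact_mod_cast this) (by
      have : 2 * rn ≤ 125 * s * (N + 1) := Nat.le_of_ble_eq_true c4
      exact_mod_cast this) H _ hx
  have e : ((-(1000000 * c + (s * En : ℕ)) : ℤ) : ℝ) / (250000 * s : ℕ) + 4 * (c - s * x) / s =
      -(4 * (x + En / 10 ^ 6)) := by
    push_cast; field_simp; ring
  rwa [e] at key

end Crest.Agent.R347
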