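import Crest.Agent.R347.Norm
import Crest.Agent.R347.Bridge
import Crest.Agent.R347.Tops

set_option autoImplicit false

namespace Crest.Agent.R347

open Matrix Crest.MathPhysics.SpinChain Filter Topology

theorem gap_spec {ι : Type} [Fintype ι] [DecidableEq ι] (H : Matrix ι ι ℂ)
    (hH : H.IsHermitian) : ∃ (E : ι → ℝ) (v : ι → ι → ℂ),
      (∀ t : ℝ, (Matrix.trace (NormedSpace.exp (-(t : ℂ) • H))).re =
        ∑ i, Real.exp (-(t * E i))) ∧
      (∀ i, v i ≠ 0) ∧ (∀ i, H *ᵥ v i = (E i : ℂ) • v i) ∧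
      (∀ ψ : ι → ℂ, (star ψ ⬝ᵥ ψ).re = ∑ i, Complex.normSq (star (v i) ⬝ᵥ ψ)) ∧
      (∀ ψ : ι → ℂ, (star ψ ⬝ᵥ H *ᵥ ψ).re = ∑ i, E i * Complex.normSq (star (v i) ⬝ᵥ ψ)) := by
  set U : Matrix ι ι ℂ := (hH.eigenvectorUnitary : Matrix ι ι ℂ) with hU
  set d : ι → ℂ := fun i => (hH.eigenvalues i : ℂ) with hd
  have h1 : star U * U = 1 := by
    rw [hU]; exact Matrix.mem_unitaryGroup_iff'.mp hH.eigenvectorUnitary.2
  have h2 : U * star U = 1 := by
    rw [hU]; exact Matrix.mem_unitaryGroup_iff.mp hH.eigenvectorUnitary.2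
  have hXe : H = U * Matrix.diagonal d * star U := by
    have := hH.spectral_theorem
    rw [Unitary.conjStarAlgAut_apply] at this
    exact this
  have hq : ∀ (e : ι → ℝ) (ψ : ι → ℂ),
      (star ψ ⬝ᵥ (U * Matrix.diagonal (fun i => (e i : ℂ)) * star U) *ᵥ ψ).re =
        ∑ i, e i * Complex.normSq (star (fun j => U j i) ⬝ᵥ ψ) := by
    intro e ψ
    have hs : star ψ ᵥ* U = star (star U *ᵥ ψ) := by
      rw [Matrix.star_mulVec, Matrix.star_eq_conjTranspose, Matrix.conjTranspose_conjTranspose]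
    rw [← Matrix.mulVec_mulVec, ← Matrix.mulVec_mulVec, Matrix.dotProduct_mulVec, hs]
    rw [dotProduct, Complex.re_sum]
    refine Finset.sum_congr rfl fun i _ => ?_
    rw [Matrix.mulVec_diagonal, Pi.star_apply]
    have hw : (star U *ᵥ ψ) i = star (fun j => U j i) ⬝ᵥ ψ := rfl
    rw [hw]
    generalize star (fun j => U j i) ⬝ᵥ ψ = w
    have : star w * ((e i : ℂ) * w) = ((e i * Complex.normSq w : ℝ) : ℂ) := by
      push_cast
      rw [Complex.normSq_eq_conj_mul_self]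
      simp only [RCLike.star_def]
      ring
    rw [this, Complex.ofReal_re]
  refine ⟨hH.eigenvalues, fun i j => U j i, fun t => ?_, fun i hi => ?_, fun i => ?_,
    fun ψ => ?_, fun ψ => ?_⟩
  · let W : (Matrix ι ι ℂ)ˣ := ⟨U, star U, h2, h1⟩
    have h3 := Matrix.exp_units_conj W (-(t : ℂ) • Matrix.diagonal d)
    have h4 : -(t : ℂ) • H = U * (-(t : ℂ) • Matrix.diagonal d) * star U := by
      rw [Matrix.mul_smul, Matrix.smul_mul, ← hXe]
    have h5 : NormedSpace.exp (-(t : ℂ) • H) =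
        U * NormedSpace.exp (-(t : ℂ) • Matrix.diagonal d) * star U := by
      rw [h4]; exact h3
    rw [h5, Matrix.trace_mul_comm, ← Matrix.mul_assoc, h1, Matrix.one_mul,
      ← Matrix.diagonal_smul, Matrix.exp_diagonal, Matrix.trace_diagonal, Complex.re_sum]
    refine Finset.sum_congr rfl fun i _ => ?_
    rw [Pi.coe_exp, ← Complex.exp_eq_exp_ℂ]
    have : (-(t : ℂ) • d) i = ((-(t * hH.eigenvalues i) : ℝ) : ℂ) := by
      simp [hd]
    rw [this, Complex.exp_ofReal_re]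
  · have h3 : (star U * U) i i = 0 := by
      rw [Matrix.mul_apply]
      refine Finset.sum_eq_zero fun j _ => ?_
      have : U j i = 0 := congrFun hi j
      rw [this, mul_zero]
    rw [h1] at h3
    simp at h3
  · have h3 : H * U = U * Matrix.diagonal d := by
      conv_lhs => rw [hXe]
      rw [Matrix.mul_assoc, h1, Matrix.mul_one]
    funext j
    have h4 := congrFun (congrFun h3 j) i
    rw [Matrix.mul_diagonal] at h4
    rw [Pi.smul_apply, smul_eq_mul, mul_comm]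
    exact h4
  · have h3 := hq (fun _ => 1) ψ
    simp only [Complex.ofReal_one, Matrix.diagonal_one, Matrix.mul_one, h2, Matrix.one_mulVec,
      one_mul] at h3
    exact h3
  · have h3 := hq hH.eigenvalues ψ
    rw [← hXe] at h3
    exact h3

theorem gap_norm_pos {ι : Type} [Fintype ι] {ψ : ι → ℂ} (hψ : ψ ≠ 0) :
    0 < (star ψ ⬝ᵥ ψ).re := by
  obtain ⟨i, hi⟩ := Function.ne_iff.1 hψ
  have h : ∀ j, (star ψ j * ψ j).re = Complex.normSq (ψ j) := fun j => by
    rw [Pi.star_apply, RCLike.star_def, ← Complex.normSq_eq_conj_mul_self, Complex.ofReal_re]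
  rw [dotProduct, Complex.re_sum]
  simp only [h]
  exact Finset.sum_pos' (fun j _ => Complex.normSq_nonneg _)
    ⟨i, Finset.mem_univ _, Complex.normSq_pos.2 hi⟩

theorem gap_of_top {ι : Type} [Fintype ι] [DecidableEq ι] (H : Matrix ι ι ℂ)
    (hH : H.IsHermitian) (β s : ℝ) (hβ : 0 < β) (hs : 0 < s) (p : ℕ → ℝ)
    (hp : ∀ k : ℕ, 1 ≤ k →
      p k = (Matrix.trace (NormedSpace.exp (-((β * k : ℝ) : ℂ) • H))).re * s ^ k)
    {X : ℝ} (hX : TimeTop p X) {a : ℕ} (ha : 1 ≤ a) {r γ : ℝ} (hr : p a ≤ (1 + r) * X ^ a)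
    (hγ : r < Real.exp (-(β * a * γ))) : HasSimpleGroundStateWithGap H γ := by
  obtain ⟨E, v, htr, hv0, hev, hn, hq⟩ := gap_spec H hH
  set x : ι → ℝ := fun i => Real.exp (-(β * E i)) * s with hx
  have hx0 : ∀ i, 0 < x i := fun i => mul_pos (Real.exp_pos _) hs
  have hxk : ∀ i (k : ℕ), x i ^ k = Real.exp (-(β * k * E i)) * s ^ k := by
    intro i k
    rw [hx, mul_pow, ← Real.exp_nat_mul]
    congr 2
    ring
  have hpk : ∀ k : ℕ, 1 ≤ k → p k = ∑ i, x i ^ k := by
    intro k hk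
    rw [hp k hk, htr, Finset.sum_mul]
    exact Finset.sum_congr rfl fun i _ => (hxk i k).symm
  have hne : Nonempty ι := by
    by_contra hc
    rw [not_nonempty_iff] at hc
    have h1 := hX.le 1 le_rfl
    rw [hpk 1 le_rfl, Finset.univ_eq_empty, Finset.sum_empty, pow_one] at h1
    exact absurd hX.pos (not_lt.2 h1)
  obtain ⟨b, hb⟩ := Finite.exists_max x
  have hXb : X ≤ x b := by
    refine tops_grow (C := Fintype.card ι) (hx0 b).le fun k hk => (hX.le k hk).trans ?_
    rw [hpk k hk]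
    calc ∑ i, x i ^ k ≤ ∑ _i : ι, x b ^ k :=
          Finset.sum_le_sum fun i _ => pow_le_pow_left₀ (hx0 i).le (hb i) k
      _ = Fintype.card ι * x b ^ k := by simp
  have hgap : ∀ i, i ≠ b → E b + γ < E i := by
    intro i hi
    have h1 : x i ^ a + x b ^ a ≤ p a := by
      rw [hpk a ha, ← Finset.sum_pair (f := fun i => x i ^ a) hi]
      exact Finset.sum_le_sum_of_subset_of_nonneg (Finset.subset_univ _)
        fun j _ _ => (pow_pos (hx0 j) a).le
    have h2 : X ^ a ≤ x b ^ a := pow_le_pow_left₀ hX.pos.le hXb a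
    have h3 : r * X ^ a < Real.exp (-(β * a * γ)) * X ^ a :=
      mul_lt_mul_of_pos_right hγ (pow_pos hX.pos a)
    have h4 : Real.exp (-(β * a * γ)) * X ^ a ≤ Real.exp (-(β * a * γ)) * x b ^ a :=
      mul_le_mul_of_nonneg_left h2 (Real.exp_pos _).le
    have h5 : x i ^ a < Real.exp (-(β * a * γ)) * x b ^ a := by linarith
    rw [hxk, hxk, ← mul_assoc, ← Real.exp_add] at h5
    have h6 := Real.exp_lt_exp.1 (lt_of_mul_lt_mul_right h5 (pow_pos hs a).le)
    have h7 : 0 < β * a := mul_pos hβ (Nat.cast_pos.2 ha)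
    refine lt_of_mul_lt_mul_left ?_ h7.le
    linarith
  refine ⟨E b, v b, hv0 b, hev b, fun ψ hψ horth => ?_⟩
  have hpos := gap_norm_pos hψ
  rw [hn] at hpos
  rw [hn, hq, Finset.mul_sum]
  have hb0 : Complex.normSq (star (v b) ⬝ᵥ ψ) = 0 := by rw [horth, map_zero]
  obtain ⟨i, -, hi⟩ := Finset.exists_lt_of_sum_lt (s := Finset.univ) (f := fun _ : ι => (0 : ℝ))
    (by simpa using hpos)
  refine Finset.sum_lt_sum (fun j _ => ?_) ⟨i, Finset.mem_univ _, ?_⟩
  · by_cases hj : j = b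
    · rw [hj, hb0, mul_zero, mul_zero]
    · exact mul_le_mul_of_nonneg_right (hgap j hj).le (Complex.normSq_nonneg _)
  · refine mul_lt_mul_of_pos_right (hgap i ?_) hi
    rintro rfl
    rw [hb0] at hi
    exact lt_irrefl _ hi

theorem gap_bnd (a b c d : Fin 3) :
    ∑ x : Fin 3, spinOp x a c * spinOp x b d = bnd 1 a b c d := by
  have h2 : ((Real.sqrt 2 : ℝ) : ℂ) * ((Real.sqrt 2 : ℝ) : ℂ) = 2 := by
    rw [← Complex.ofReal_mul, Real.mul_self_sqrt (by norm_num)]
    norm_num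
  have key : ∑ x : Fin 3, spinOp x a c * spinOp x b d =
      spinZ a c * spinZ b d +
        (1 / 2) * (spinPlus a c * spinMinus b d + spinMinus a c * spinPlus b d) := by
    simp only [Fin.sum_univ_three, spinOp, cons_val_zero, cons_val_one, cons_val_two, head_cons,
      tail_cons, spinX, spinY, Matrix.smul_apply, Matrix.add_apply, Matrix.sub_apply, smul_eq_mul]
    field_simp
    ring_nf
    simp only [Complex.I_sq]
    ring
  have hm : ∀ i j, spinMinus i j = spinPlus j i := by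
    intro i j
    simp only [spinMinus, conjTranspose_apply, spinPlus, of_apply]
    split_ifs <;> simp
  rw [key, hm, hm]
  clear key
  fin_cases a <;> fin_cases b <;> fin_cases c <;> fin_cases d <;>
    simp [spinZ, spinPlus, bnd, mg, magneticNumber, h2] <;> norm_num

theorem gap_bond {n : ℕ} {j k : Fin n} (hjk : j ≠ k) : bond j k = bondAt 1 j k := by
  ext σ τ
  simp only [bond, Matrix.sum_apply, br_on_mul _ _ hjk, bondAt, of_apply]
  split_ifs
  · exact gap_bnd _ _ _ _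
  · simp

theorem heisenbergRing_eq (n : ℕ) (hn : 1 ≤ n) : heisenbergRing (n + 1) = HR 1 n := by
  have hne : Fin.last n ≠ 0 := by
    intro h; have := congrArg Fin.val h; simp at this; omega
  rw [heisenbergRing, HR, Fin.sum_univ_castSucc, finRotate_last, gap_bond hne]
  congr 1
  refine Finset.sum_congr rfl fun j _ => ?_
  rw [trot_rot_castSucc, gap_bond (Fin.castSucc_lt_succ (i := j)).ne]

theorem gap_onZ {n : ℕ} (j : Fin n) :
    onSite spinZ j = Matrix.diagonal fun σ : Cfg n => mg (σ j) := by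
  ext σ τ
  simp only [onSite, of_apply, spinZ, diagonal_apply]
  by_cases h : σ = τ
  · subst h
    simp [mg]
  · rw [if_neg h]
    split_ifs with h1 h2
    · exact absurd (funext fun k => by
        by_cases hk : k = j
        · rw [hk, h2]
        · exact h1 k hk) h
    · rfl
    · rfl

theorem openChain_eq (n : ℕ) (h : ℝ) : openChainEndField n h = HO h h n := by
  rw [openChainEndField, HO, gap_onZ, gap_onZ]
  congr 1
  · exact Finset.sum_congr rfl fun j _ => gap_bond (Fin.castSucc_lt_succ (i := j)).ne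
  · rw [diagonal_add, ← diagonal_smul]
    congr 1
    funext σ
    simp [mul_add]

theorem gap_trg_one {n : ℕ} (H : Op n) (β : ℝ) :
    trg 1 H β = Matrix.trace (NormedSpace.exp (-(β : ℂ) • H)) := by
  rw [trg, tens_one, Matrix.one_mul]

theorem ring_gap (L : ℕ) (hL : 2 ≤ L) {X : ℝ} (hX : TimeTop (fun a => ZN a L) X) {a : ℕ}
    (ha : 1 ≤ a) {r γ : ℝ} (hr : ZN a L ≤ (1 + r) * X ^ a) (hγ : r < Real.exp (-(8 * a * γ))) :
    HasSimpleGroundStateWithGap (heisenbergRing L) γ := by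
  obtain ⟨n, rfl⟩ : ∃ n, L = n + 1 := ⟨L - 1, by omega⟩
  rw [heisenbergRing_eq n (by omega)]
  refine gap_of_top (HR 1 n) (HR_isHermitian 1 (by simp) n) 8
    (Real.exp (-(8 * (fh * ((n + 1 : ℕ) : ℝ))))) (by norm_num) (Real.exp_pos _) _
    (fun k _ => ?_) hX ha hr hγ
  rw [← gap_trg_one, ← Real.exp_nat_mul, ZN, nr]
  congr 2
  ring

theorem open_gap (m : ℕ) {X : ℝ} (hX : TimeTop (fun a => YpN a m) X) {a : ℕ}
    (ha : 1 ≤ a) {r γ : ℝ} (hr : YpN a m ≤ (1 + r) * X ^ a) (hγ : r < Real.exp (-(8 * a * γ))) :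
    HasSimpleGroundStateWithGap (openChainEndField (m + 1) (3 / 5)) γ := by
  rw [openChain_eq]
  refine gap_of_top (HO (3 / 5) (3 / 5) (m + 1)) (HO_isHermitian _ _ _) 8
    (Real.exp (-(8 * (fh * m + eh)))) (by norm_num) (Real.exp_pos _) _
    (fun k _ => ?_) hX ha hr hγ
  rw [← gap_trg_one, ← Real.exp_nat_mul, YpN, no, zo, one_mul]
  congr 2
  ring

/-- Variational lower bound for the partition function. -/
theorem exp_le_trace {ι : Type} [Fintype ι] [DecidableEq ι] (H : Matrix ι ι ℂ)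
    (hH : H.IsHermitian) (ψ : ι → ℂ) (hψ : ψ ≠ 0) (E β : ℝ) (hβ : 0 ≤ β)
    (h : (star ψ ⬝ᵥ H *ᵥ ψ).re ≤ E * (star ψ ⬝ᵥ ψ).re) :
    Real.exp (-(β * E)) ≤ (Matrix.trace (NormedSpace.exp (-(β : ℂ) • H))).re := by
  obtain ⟨e, v, htr, -, -, hn, hq⟩ := gap_spec H hH
  have hpos := gap_norm_pos hψ
  obtain ⟨i, hi⟩ : ∃ i, e i ≤ E := by
    by_contra hc
    push Not at hc
    rw [hn] at hpos
    rw [hn, hq, Finset.mul_sum] at h
    obtain ⟨i, -, hi⟩ := Finset.exists_lt_of_sum_lt (s := Finset.univ)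
      (f := fun _ : ι => (0 : ℝ)) (by simpa using hpos)
    refine absurd h (not_le.2 (Finset.sum_lt_sum (fun j _ => ?_) ⟨i, Finset.mem_univ _, ?_⟩))
    · exact mul_le_mul_of_nonneg_right (hc j).le (Complex.normSq_nonneg _)
    · exact mul_lt_mul_of_pos_right (hc i) hi
  rw [htr]
  refine le_trans ?_ (Finset.single_le_sum (f := fun i => Real.exp (-(β * e i)))
    (fun j _ => (Real.exp_pos _).le) (Finset.mem_univ i))
  exact Real.exp_le_exp.2 (neg_le_neg (mul_le_mul_of_nonneg_left hi hβ))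

theorem one_le_YN (a m : ℕ) (ψ : Cfg (m + 2) → ℂ) (hψ : ψ ≠ 0)
    (h : (star ψ ⬝ᵥ HO (3 / 5) (-1 * (3 / 5)) (m + 1) *ᵥ ψ).re
      ≤ -(fh * m + eh) * (star ψ ⬝ᵥ ψ).re) : 1 ≤ YN a m := by
  have h1 := exp_le_trace _ (HO_isHermitian _ _ _) ψ hψ _ (8 * a) (by positivity) h
  rw [← gap_trg_one] at h1
  have h2 := mul_le_mul_of_nonneg_right h1 (Real.exp_pos (-(8 * a * (fh * m + eh)))).le
  rw [← Real.exp_add] at h2
  refine le_trans (le_of_eq ?_) h2
  rw [← Real.exp_zero]
  congr 1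
  ring

end Crest.Agent.R347
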