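import Crest.Agent.R347.Time
import Crest.Agent.R347.Gap
import Crest.Agent.R347.Chris
import Crest.Agent.R347.Boot0
import Crest.Agent.R347.Boot

/-! The theorems from the certified values and the variational bound. -/

set_option autoImplicit false

namespace Crest.Agent.R347

open Matrix Crest.MathPhysics.SpinChain Filter Topology

/-- The certified values at `β = 8`. -/
structure Cert : Prop where
  nT : Near5 (fun L => pT 8 L * nr 1 L) 6 1.210726 1.069102 1.077166 1.054396 1.057442 0.00003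
  na : Near5 (fun L => pa 8 L * nr 1 L) 6 1.686136 1.219406 1.201747 1.111422 1.098552 0.00003
  nb : Near5 (fun L => pb 8 L * nr 1 L) 6 1.222892 (-0.356535) 0.530292 (-0.254171) 0.291272
    0.00003
  nD : Near5 (fun L => pD 8 L * nr 1 L) 6 1.411780 1.102963 1.089526 1.027638 1.015825 0.00003
  nD' : Near5 (fun L => pD' 8 L * nr 1 L) 6 0.996965 (-0.425511) 0.477760 (-0.278638) 0.277620
    0.00003
  nE : Near5 (fun L => pE 8 L * nr 1 L) 6 1.439768 (-0.264474) 0.565491 (-0.203019) 0.282731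
    0.00003
  n0 : Near5 (fun m => y0 8 m * no 1 m) 2 1.73111 1.39486 1.28866 1.17789 1.12958 0.0002
  nz : Near5 (fun m => yz 8 m * no 1 m) 2 1.65609 (-1.26381) 1.08516 (-0.88880) 0.75748 0.0002
  nxD : Near5 (fun m => yD 8 m * no 1 m) 2 1.70190 1.37320 1.25679 1.14538 1.09021 0.0002
  nxD' : Near5 (fun m => yD' 8 m * no 1 m) 2 1.68158 (-1.26835) 1.10405 (-0.89441) 0.77134 0.0002

/-- The variational bound. -/
def Var : Prop :=
  ∀ m : ℕ, 64 ≤ m → ∃ ψ : Cfg (m + 2) → ℂ, ψ ≠ 0 ∧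
    (star ψ ⬝ᵥ HO (3 / 5) (-1 * (3 / 5)) (m + 1) *ᵥ ψ).re ≤ -(fh * m + eh) * (star ψ ⬝ᵥ ψ).re

theorem fin_nr (a L : ℕ) : nr a L = Real.exp (-(8 * a * fh)) ^ L := by
  unfold nr
  rw [← Real.exp_nat_mul]
  congr 1
  ring

theorem fin_no (a m : ℕ) :
    no a m = Real.exp (-(8 * a * fh)) ^ m * Real.exp (-(8 * a * eh)) := by
  unfold no
  rw [← Real.exp_nat_mul, ← Real.exp_add]
  congr 1
  ring

/-- Normalised spectral representation. -/
theorem fin_spec {p y : ℕ → ℝ} (h : Spec p y) (a : ℕ) :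
    Spec (fun L => p L * nr a L) (fun m => y m * no a m) := by
  refine (h.scale (Real.exp (-(8 * a * fh))) (Real.exp (-(8 * a * eh)))
    (Real.exp_pos _).le).congr ?_ ?_
  · intro L _
    rw [fin_nr]
  · intro m _
    rw [fin_no]
    ring

theorem fin_space (a : ℕ) : ∃ Λ c, SpaceTop (ZN a) (YN a) (YpN a) Λ c := by
  have hβ : (0 : ℝ) ≤ 8 * a := by positivity
  have hZ : (fun L => pa (8 * a) L * nr a L + 3 * (pb (8 * a) L * nr a L)) = ZN a := by
    funext L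
    unfold ZN pa pb
    ring
  have hY : (fun m => y0 (8 * a) m * no a m + yz (8 * a) m * no a m) = YN a := by
    funext m
    unfold YN y0 yz
    ring
  have hYp : (fun m => y0 (8 * a) m * no a m - yz (8 * a) m * no a m) = YpN a := by
    funext m
    unfold YpN y0 yz
    ring
  have h := spaceTop_exists (fin_spec (spec_pa _ hβ) a) (fin_spec (spec_pb _ hβ) a)
    (by
      have := congrFun hZ 4
      rw [this]
      exact ZN_pos a 4)
  rw [hZ, hY, hYp] at h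
  exact h

theorem sys_exists (hv : Var) : ∃ S : Sys, S.Z = ZN ∧ S.Y = YN ∧ S.Yp = YpN := by
  choose X hX using fun L => timeTop_exists (ps0_ZN L) (ZN_pos 1 L)
  choose Xo hXo using fun m => timeTop_exists (ps0_YN m) (YN_pos 1 m)
  choose Xp hXp using fun m => timeTop_exists (ps0_YpN m) (YpN_pos 1 m)
  choose Λ c hΛ using fin_space
  refine ⟨⟨ZN, YN, YpN, X, Xo, Xp, Λ, c, fun L _ => hX L, fun m _ => hXo m, fun m _ => hXp m,
    fun a _ => hΛ a, ?_⟩, rfl, rfl, rfl⟩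
  intro a m _ hm _
  obtain ⟨ψ, hψ, h⟩ := hv m hm
  exact one_le_YN a m ψ hψ h

theorem baseUp_of_cert (hc : Cert) : BaseUp (ZN 1) (AN 1) (YN 1) (ON 1) := by
  have h8 : (0 : ℝ) ≤ 8 := by norm_num
  have hB : Base (fun L => pa 8 L * nr 1 L) (fun L => pb 8 L * nr 1 L) (fun L => pT 8 L * nr 1 L)
      (fun L => pD 8 L * nr 1 L) (fun L => pD' 8 L * nr 1 L) (fun L => pE 8 L * nr 1 L)
      (fun m => y0 8 m * no 1 m) (fun m => yz 8 m * no 1 m) (fun m => yD 8 m * no 1 m)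
      (fun m => yD' 8 m * no 1 m) := by
    refine ⟨fin_spec (spec_pa _ h8) 1, fin_spec (spec_pb _ h8) 1, ?_, ?_,
      fin_spec (spec_pD _ h8) 1, fin_spec (spec_pD' _ h8) 1, ?_, hc.nT, hc.na, hc.nb, hc.nD,
      hc.nD', hc.nE, hc.n0, hc.nz, hc.nxD, hc.nxD'⟩
    · obtain ⟨y, hy⟩ := spec_pT _ h8
      exact ⟨_, fin_spec hy 1⟩
    · obtain ⟨y, hy⟩ := spec_pE0 _ h8
      refine ⟨_, (fin_spec hy 1).congr ?_ (fun _ _ => rfl)⟩
      intro L _
      ring
    · obtain ⟨y, hy⟩ := spec_pE _ h8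
      exact ⟨_, fin_spec hy 1⟩
  have h := baseUp_of_base hB
  have e8 : (8 : ℝ) * ((1 : ℕ) : ℝ) = 8 := by norm_num
  have h1 : (fun L => pa 8 L * nr 1 L + 3 * (pb 8 L * nr 1 L)) = ZN 1 := by
    funext L
    unfold ZN pa pb
    rw [e8]
    ring
  have h2 : (fun L => (pa 8 L * nr 1 L + 3 * (pb 8 L * nr 1 L) +
      3 * (pD 8 L * nr 1 L + pD' 8 L * nr 1 L + 2 * (pE 8 L * nr 1 L))) / 4) = AN 1 := by
    funext L
    unfold AN pa pb pD pD' pE
    rw [e8]
    ring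
  have h3 : (fun m => y0 8 m * no 1 m + yz 8 m * no 1 m) = YN 1 := by
    funext m
    unfold YN y0 yz
    rw [e8]
    ring
  have h4 : (fun m => (y0 8 m * no 1 m + yz 8 m * no 1 m + yD 8 m * no 1 m +
      yD' 8 m * no 1 m) / 2) = ON 1 := by
    funext m
    unfold ON y0 yz yD yD'
    rw [e8]
    ring
  rw [h1, h2, h3, h4] at h
  exact h

theorem fin_boot (hc : Cert) (hv : Var) : ∃ S : Sys, S.Z = ZN ∧ S.Y = YN ∧ S.Yp = YpN ∧
    (∀ L, 60 ≤ L → Even L → ∃ (a : ℕ) (r : ℝ), 1 ≤ a ∧ S.Z a L ≤ (1 + r) * S.X L ^ a ∧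
      r < Real.exp (-(8 * a * γ1))) ∧
    (∀ L, 2304 ≤ L → Even L → ∃ (a : ℕ) (r : ℝ), 1 ≤ a ∧ S.Z a L ≤ (1 + r) * S.X L ^ a ∧
      r < Real.exp (-(8 * a * γ2))) ∧
    (∀ m, 1919 ≤ m → ∃ (a : ℕ) (r : ℝ), 1 ≤ a ∧ S.Yp a m ≤ (1 + r) * S.Xp m ^ a ∧
      r < Real.exp (-(8 * a * γ3))) := by
  obtain ⟨S, hZ, hY, hYp⟩ := sys_exists hv
  have hb := boot_base S AN BN ON QN (fun L hL => ps0_AN L (by omega))
    (fun L hL => ps0_BN L (by omega)) (fun m _ => ps0_ON m) (fun m _ => ps0_QN m)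
    (fun a L => by rw [hZ]; exact ZN_split a L) (fun a m => by rw [hY]; exact YN_split a m)
    (by rw [hZ, hY]; exact baseUp_of_cert hc)
  exact ⟨S, hZ, hY, hYp, boot_final hb.1 hb.2⟩

theorem final_ring (hc : Cert) (hv : Var) :
    (∀ L : ℕ, Even L → 60 ≤ L →
      HasSimpleGroundStateWithGap (heisenbergRing L) (4 / 105 * Real.log (80 / 79))) ∧
    (∀ L : ℕ, Even L → 2304 ≤ L →
      HasSimpleGroundStateWithGap (heisenbergRing L) (Real.log 20 / 784)) := by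
  obtain ⟨S, hZ, -, -, h1, h2, -⟩ := fin_boot hc hv
  constructor
  · intro L hLe hL
    obtain ⟨a, r, ha, hr, hγ⟩ := h1 L hL hLe
    have ht := S.tZ L (by omega)
    rw [hZ] at ht hr
    exact ring_gap L (by omega) ht ha hr hγ
  · intro L hLe hL
    obtain ⟨a, r, ha, hr, hγ⟩ := h2 L hL hLe
    have ht := S.tZ L (by omega)
    rw [hZ] at ht hr
    exact ring_gap L (by omega) ht ha hr hγ

theorem final_open (hc : Cert) (hv : Var) (L : ℕ) (hL : 960 ≤ L) :
    HasSimpleGroundStateWithGap (openChainEndField (2 * L) (3 / 5)) (Real.log 10 / 392) := by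
  obtain ⟨S, -, -, hYp, -, -, h3⟩ := fin_boot hc hv
  obtain ⟨m, hm⟩ : ∃ m, 2 * L = m + 1 := ⟨2 * L - 1, by omega⟩
  obtain ⟨a, r, ha, hr, hγ⟩ := h3 m (by omega)
  have ht := S.tYp m (by omega)
  rw [hYp] at ht hr
  rw [hm]
  exact open_gap m ht ha hr hγ

end Crest.Agent.R347
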