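import Crest.Agent.R347.KCode

/-! The Hamiltonians act by the stencil. -/

set_option autoImplicit false

namespace Crest.Agent.R347

open Matrix Crest.MathPhysics.SpinChain Filter Topology K

/-- One bond on codes. -/
noncomputable def kpTerm (φ : ℂ) (F : ℕ → ℂ) (c j k : ℕ) : ℂ :=
  ((isg2 (dg c j) (dg c k) : ℂ) - 1) * F c + φ * hop1 (dg c j) (dg c k) (F (c + 3 ^ j - 3 ^ k))
    + φ⁻¹ * hop2 (dg c j) (dg c k) (F (c + 3 ^ k - 3 ^ j))

theorem kp_mg (a : Fin 3) : mg a = 1 - ((a : ℕ) : ℂ) := by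
  simp [mg, magneticNumber]

theorem kp_bnd_sum (φ : ℂ) (s t : Fin 3) (G : Fin 3 → Fin 3 → ℂ) (u0 u1 u2 : ℂ) (h0 : G s t = u0)
    (h1 : ∀ c d : Fin 3, s.val + 1 = c.val → t.val = d.val + 1 → G c d = u1)
    (h2 : ∀ c d : Fin 3, s.val = c.val + 1 → t.val + 1 = d.val → G c d = u2) :
    ∑ c, ∑ d, bnd φ s t c d * G c d =
      ((isg2 s t : ℂ) - 1) * u0 + φ * hop1 s t u1 + φ⁻¹ * hop2 s t u2 := by
  have e : ∀ c d, bnd φ s t c d * G c d =
      if s = c ∧ t = d then mg s * mg t * u0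
      else if s.val + 1 = c.val ∧ t.val = d.val + 1 then φ * u1
      else if s.val = c.val + 1 ∧ t.val + 1 = d.val then φ⁻¹ * u2 else 0 := by
    intro c d
    unfold bnd
    split_ifs with a1 a2 a3
    · rw [← a1.1, ← a1.2, h0]
    · rw [h1 c d a2.1 a2.2]
    · rw [h2 c d a3.1 a3.2]
    · rw [zero_mul]
  simp only [e, kp_mg]
  fin_cases s <;> fin_cases t <;> simp [Fin.sum_univ_three, isg2, hop1, hop2] <;> first | ring1 | norm_num

theorem kp_bond {n : ℕ} (φ : ℂ) {j k : Fin n} (hjk : j ≠ k) (F : ℕ → ℂ) (σ : Cfg n) :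
    (bondAt φ j k *ᵥ fun τ => F (code τ)) σ = kpTerm φ F (code σ) j k := by
  have hc : ∀ c d : Fin 3, code (Function.update (Function.update σ j c) k d) +
      (σ j : ℕ) * 3 ^ (j : ℕ) + (σ k : ℕ) * 3 ^ (k : ℕ) =
      code σ + (c : ℕ) * 3 ^ (j : ℕ) + (d : ℕ) * 3 ^ (k : ℕ) := by
    intro c d
    have a1 := code_update σ j c
    have a2 := code_update (Function.update σ j c) k d
    rw [Function.update_of_ne hjk.symm] at a2
    omega
  have e : (bondAt φ j k *ᵥ fun τ => F (code τ)) σ = ∑ c, ∑ d, bnd φ (σ j) (σ k) c d *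
      F (code (Function.update (Function.update σ j c) k d)) := by
    simp only [mulVec, dotProduct, bondAt, Matrix.of_apply, ite_mul, zero_mul]
    rw [← Finset.sum_filter, ← Fintype.sum_prod_type']
    have key : ∀ τ : Cfg n, (∀ i, i ≠ j → i ≠ k → σ i = τ i) →
        Function.update (Function.update σ j (τ j)) k (τ k) = τ := by
      intro τ hτ
      funext i
      by_cases a1 : i = k
      · rw [a1, Function.update_self]
      by_cases a2 : i = j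
      · rw [Function.update_of_ne a1, a2, Function.update_self]
      · rw [Function.update_of_ne a1, Function.update_of_ne a2, hτ i a2 a1]
    refine Finset.sum_bij' (fun τ _ => (τ j, τ k))
      (fun p _ => Function.update (Function.update σ j p.1) k p.2) (fun _ _ => Finset.mem_univ _)
      (fun p _ => ?_) (fun τ hτ => key τ (Finset.mem_filter.1 hτ).2) (fun p _ => ?_) fun τ hτ => ?_
    · refine Finset.mem_filter.2 ⟨Finset.mem_univ _, fun i a1 a2 => ?_⟩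
      rw [Function.update_of_ne a2, Function.update_of_ne a1]
    · simp [Function.update_of_ne hjk]
    · simp only [key τ (Finset.mem_filter.1 hτ).2]
  rw [e, kpTerm, dg_code, dg_code]
  refine kp_bnd_sum φ _ _ _ _ _ _ (by simp) (fun c d a1 a2 => ?_) fun c d a1 a2 => ?_
  · have := hc c d
    rw [← a1, a2, add_mul, add_mul] at this
    congr 1; omega
  · have := hc c d
    rw [a1, ← a2, add_mul, add_mul] at this
    congr 1; omega

theorem kp_le_of_dg {b i : ℕ} (h : 1 ≤ dg b i) : 3 ^ i ≤ b := by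
  by_contra hb
  rw [dg, Nat.div_eq_of_lt (not_le.1 hb)] at h
  omega

theorem kp_add_lt {b i n : ℕ} (hb : b < 3 ^ n) (hi : i < n) (h : dg b i ≤ 1) :
    b + 3 ^ i < 3 ^ n := by
  obtain ⟨m, rfl⟩ := Nat.exists_eq_add_of_lt hi
  have e : 3 ^ (i + m + 1) = 3 ^ i * (3 * 3 ^ m) := by ring
  rw [e] at hb ⊢
  have h1 := Nat.div_lt_of_lt_mul hb
  have h2 : b / 3 ^ i + 2 ≤ 3 * 3 ^ m := by unfold dg at h; omega
  have h3 := Nat.lt_mul_div_succ b (show 0 < 3 ^ i by positivity)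
  calc b + 3 ^ i < 3 ^ i * (b / 3 ^ i + 1) + 3 ^ i := by omega
    _ = 3 ^ i * (b / 3 ^ i + 2) := by ring
    _ ≤ _ := by gcongr

theorem kp_dg_low {l a b j : ℕ} (hj : j < l) : dg (b + 3 ^ l * a) j = dg b j := by
  obtain ⟨m, rfl⟩ := Nat.exists_eq_add_of_lt hj
  have e : 3 ^ (j + m + 1) * a = 3 ^ j * (3 * (3 ^ m * a)) := by ring
  rw [dg, dg, e, Nat.add_mul_div_left _ _ (by positivity), Nat.add_mul_mod_self_left]

theorem kp_dg_high {l a b : ℕ} (hb : b < 3 ^ l) (i : ℕ) : dg (b + 3 ^ l * a) (l + i) = dg a i := by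
  rw [dg, dg, pow_add, ← Nat.div_div_eq_div_mul, Nat.add_mul_div_left _ _ (by positivity),
    Nat.div_eq_of_lt hb, zero_add]

theorem kp_dg_top {h a : ℕ} (ha : a < 3 ^ (h + 1)) : dg a h = a / 3 ^ h :=
  Nat.mod_eq_of_lt (Nat.div_lt_of_lt_mul (by rwa [← pow_succ]))

theorem kp_dg_zero (a : ℕ) : dg a 0 = a % 3 := by simp [dg]

theorem kp_hop1 {x y : ℕ} {u v : ℂ} (h : x ≤ 1 → 1 ≤ y → u = v) : hop1 x y u = hop1 x y v := by
  unfold hop1; split_ifs with a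
  exacts [h a.1 a.2, rfl]

theorem kp_hop2 {x y : ℕ} {u v : ℂ} (h : 1 ≤ x → y ≤ 1 → u = v) : hop2 x y u = hop2 x y v := by
  unfold hop2; split_ifs with a
  exacts [h a.1 a.2, rfl]

section
variable {h l a b : ℕ} {X : ℕ → ℕ → ℂ} {F : ℕ → ℂ}

theorem kp_inner (hF : ∀ a b, b < 3 ^ (l + 1) → F (b + 3 ^ (l + 1) * a) = X a b)
    (hb : b < 3 ^ (l + 1)) :
    ∑ j ∈ Finset.range (h + l + 1), kpTerm 1 F (b + 3 ^ (l + 1) * a) j (j + 1) =
      ((dIn h l a b : ℂ) - (h + l + 1 : ℕ)) * X a b + sIn h l X a b := by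
  have t1 : ∀ j ∈ Finset.range l, kpTerm 1 F (b + 3 ^ (l + 1) * a) j (j + 1) =
      ((isg2 (dg b j) (dg b (j + 1)) : ℂ) - 1) * X a b +
        (hop1 (dg b j) (dg b (j + 1)) (X a (b - 2 * 3 ^ j))
          + hop2 (dg b j) (dg b (j + 1)) (X a (b + 2 * 3 ^ j))) := by
    intro j hj
    have hj := Finset.mem_range.1 hj
    rw [kpTerm, kp_dg_low (by omega), kp_dg_low (by omega), hF a b hb, inv_one, one_mul, one_mul,
      add_assoc]
    congr 2
    · refine kp_hop1 fun _ a2 => ?_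
      have := kp_le_of_dg a2
      rw [← hF _ _ (by omega)]
      congr 1; omega
    · refine kp_hop2 fun _ a2 => ?_
      have := kp_add_lt hb (by omega) a2
      rw [← hF _ _ (by omega)]
      congr 1; omega
  have t2 : kpTerm 1 F (b + 3 ^ (l + 1) * a) l (l + 1) =
      ((isg2 (b / 3 ^ l) (a % 3) : ℂ) - 1) * X a b +
        (hop1 (b / 3 ^ l) (a % 3) (X (a - 1) (b + 3 ^ l))
          + hop2 (b / 3 ^ l) (a % 3) (X (a + 1) (b - 3 ^ l))) := by
    have e := kp_dg_high (a := a) hb 0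
    rw [add_zero] at e
    rw [kpTerm, kp_dg_low (by omega), e, hF a b hb, inv_one, one_mul, one_mul, add_assoc,
      ← kp_dg_top hb, kp_dg_zero]
    congr 2
    · refine kp_hop1 fun a1 a2 => ?_
      obtain ⟨a', rfl⟩ : ∃ a', a = a' + 1 := ⟨a - 1, by omega⟩
      rw [← hF _ _ (kp_add_lt hb (by omega) a1), Nat.add_sub_cancel, mul_add]
      congr 1; omega
    · refine kp_hop2 fun a1 _ => ?_
      have := kp_le_of_dg a1
      rw [← hF _ _ (by omega), mul_add]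
      congr 1; omega
  have t3 : ∀ i ∈ Finset.range h, kpTerm 1 F (b + 3 ^ (l + 1) * a) (l + 1 + i) (l + 1 + i + 1) =
      ((isg2 (dg a i) (dg a (i + 1)) : ℂ) - 1) * X a b +
        (hop1 (dg a i) (dg a (i + 1)) (X (a - 2 * 3 ^ i) b)
          + hop2 (dg a i) (dg a (i + 1)) (X (a + 2 * 3 ^ i) b)) := by
    intro i _
    rw [kpTerm, add_assoc (l + 1) i 1, kp_dg_high hb, kp_dg_high hb, hF a b hb, inv_one, one_mul,
      one_mul, add_assoc]
    congr 2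
    · refine kp_hop1 fun _ a2 => ?_
      obtain ⟨a', rfl⟩ := Nat.exists_eq_add_of_le (kp_le_of_dg a2)
      rw [← hF _ _ hb, show 3 ^ (i + 1) + a' - 2 * 3 ^ i = 3 ^ i + a' by omega]
      congr 1
      exact Nat.sub_eq_of_eq_add (by ring)
    · refine kp_hop2 fun _ _ => ?_
      rw [← hF _ _ hb]
      congr 1
      exact Nat.sub_eq_of_eq_add (by ring)
  rw [show h + l + 1 = l + 1 + h by omega, Finset.sum_range_add, Finset.sum_range_succ,
    Finset.sum_congr rfl t1, t2, Finset.sum_congr rfl t3]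
  simp only [Finset.sum_add_distrib, ← Finset.sum_mul, Finset.sum_sub_distrib, dIn, isgS, sIn,
    hopSum, Finset.sum_const, Finset.card_range, nsmul_eq_mul]
  push_cast
  ring

theorem kp_close (φ : ℂ) (hF : ∀ a b, b < 3 ^ (l + 1) → F (b + 3 ^ (l + 1) * a) = X a b)
    (ha : a < 3 ^ (h + 1)) (hb : b < 3 ^ (l + 1)) :
    kpTerm φ F (b + 3 ^ (l + 1) * a) (h + l + 1) 0 =
      ((dCl h a b : ℂ) - 1) * X a b + φ * cl1 h X a b + φ⁻¹ * cl2 h X a b := by
  rw [kpTerm, show h + l + 1 = l + 1 + h by omega, kp_dg_high hb, kp_dg_low (by omega), hF a b hb,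
    dCl, cl1, cl2, ← kp_dg_top ha, ← kp_dg_zero]
  refine congrArg₂ (· + ·) (congrArg₂ (· + ·) rfl (congrArg _ (kp_hop1 fun _ a2 => ?_)))
    (congrArg _ (kp_hop2 fun a1 a2 => ?_))
  · have := kp_le_of_dg a2
    simp only [pow_zero] at this ⊢
    rw [← hF _ _ (by omega), mul_add, ← pow_add]
    congr 1
    generalize 3 ^ (l + 1) * a = u
    generalize 3 ^ (l + 1 + h) = v
    omega
  · obtain ⟨a', rfl⟩ := Nat.exists_eq_add_of_le (kp_le_of_dg a1)
    have := kp_add_lt hb (by omega) a2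
    simp only [pow_zero] at this ⊢
    rw [← hF _ _ this, Nat.add_sub_cancel_left]
    congr 1
    exact Nat.sub_eq_of_eq_add (by ring)

end

theorem kp_F (T : ℕ) (X : ℕ → ℕ → ℂ) (a b : ℕ) (hb : b < T) :
    X ((b + T * a) / T) ((b + T * a) % T) = X a b := by
  rw [Nat.add_mul_div_left _ _ (by omega), Nat.add_mul_mod_self_left, Nat.div_eq_of_lt hb,
    Nat.mod_eq_of_lt hb, zero_add]

theorem kp_hi {h l : ℕ} (σ : Cfg (h + l + 1 + 1)) : code σ / 3 ^ (l + 1) < 3 ^ (h + 1) :=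
  Nat.div_lt_of_lt_mul (by rw [← pow_add]; exact (code_lt σ).trans_eq (by congr 1; omega))

theorem kp_sum (h l : ℕ) (X : ℕ → ℕ → ℂ) (σ : Cfg (h + l + 1 + 1)) :
    ((∑ j : Fin (h + l + 1), bondAt 1 j.castSucc j.succ) *ᵥ at2 (l + 1) X) σ =
      at2 (l + 1) (fun a b => ((dIn h l a b : ℂ) - (h + l + 1 : ℕ)) * X a b + sIn h l X a b) σ := by
  have := kp_inner (h := h) (a := code σ / 3 ^ (l + 1))
    (F := fun c => X (c / 3 ^ (l + 1)) (c % 3 ^ (l + 1))) (kp_F _ X)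
    (Nat.mod_lt (code σ) (by positivity))
  rw [Nat.mod_add_div] at this
  rw [Matrix.sum_mulVec, Finset.sum_apply]
  refine Eq.trans ?_ this
  rw [← Fin.sum_univ_eq_sum_range (fun j => kpTerm 1 _ (code σ) j (j + 1))]
  exact Finset.sum_congr rfl fun j _ => kp_bond 1 (Fin.castSucc_lt_succ (i := j)).ne
    (fun c => X (c / 3 ^ (l + 1)) (c % 3 ^ (l + 1))) σ

theorem kp_bond_dsum {n : ℕ} {φ : ℂ} {j k : Fin n} (hjk : j ≠ k) {σ τ : Cfg n}
    (h : bondAt φ j k σ τ ≠ 0) : dsum σ = dsum τ := by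
  simp only [bondAt, Matrix.of_apply] at h
  split_ifs at h with a1
  swap
  · exact absurd rfl h
  have a2 : (σ j : ℕ) + σ k = τ j + τ k := by
    unfold bnd at h
    split_ifs at h with b1 b2 b3
    · rw [b1.1, b1.2]
    · omega
    · omega
    · exact absurd rfl h
  have e : ∀ ρ : Cfg n, dsum ρ = (ρ j : ℕ) + ρ k + ∑ i ∈ (Finset.univ.erase j).erase k, (ρ i : ℕ) :=
    fun ρ => by
      rw [dsum, ← Finset.add_sum_erase _ _ (Finset.mem_univ j),
        ← Finset.add_sum_erase _ _ (Finset.mem_erase.2 ⟨hjk.symm, Finset.mem_univ k⟩), add_assoc]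
  rw [e σ, e τ, a2]
  congr 1
  refine Finset.sum_congr rfl fun i hi => ?_
  simp only [Finset.mem_erase] at hi
  rw [a1 i hi.2.1 hi.1]

theorem kp_sum_dsum {n : ℕ} {σ τ : Cfg (n + 1)}
    (h : (∑ j : Fin n, bondAt 1 j.castSucc j.succ) σ τ ≠ 0) : dsum σ = dsum τ := by
  rw [Matrix.sum_apply] at h
  obtain ⟨j, -, hj⟩ := Finset.exists_ne_zero_of_sum_ne_zero h
  exact kp_bond_dsum (Fin.castSucc_lt_succ (i := j)).ne hj

theorem kp_clen {ι V : Type} [Fintype ι] [DecidableEq ι] [AddCommGroup V] (t : Matrix ι ι ℂ)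
    (tV : V → V) (Φ : V →+ (ι → ℂ)) (ht : ∀ v, t *ᵥ Φ v = Φ (tV v)) (q : ℕ) (e : V) (s : ι)
    (he : ∀ τ, Φ e τ = (1 : Matrix ι ι ℂ) τ s) (cs : List ℕ) :
    ∀ (b1 b0 : Matrix ι ι ℂ) (v1 v0 : V), (∀ τ, b1 τ s = Φ v1 τ) → (∀ τ, b0 τ s = Φ v0 τ) →
      ∀ τ, clen t q cs b1 b0 τ s = Φ (clenV tV q e cs v1 v0) τ := by
  induction cs with
  | nil => exact fun _ _ _ _ h _ => h
  | cons c cs ih =>
    intro b1 b0 v1 v0 h1 h0
    refine ih _ _ _ _ (fun τ => ?_) h1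
    rw [map_add, map_sub, map_nsmul, map_nsmul, ← ht, ← nsmul_eq_mul, ← nsmul_one]
    simp only [Matrix.add_apply, Matrix.sub_apply, Matrix.smul_apply, Pi.add_apply, Pi.sub_apply,
      Pi.smul_apply, he, h0, Matrix.mul_apply, h1, mulVec, dotProduct]

section
variable {R S : Type} [AddCommMonoid R] [AddCommMonoid S] (φ : R →+ S)

theorem kp_hop1_map (x y : ℕ) (u : R) : hop1 x y (φ u) = φ (hop1 x y u) := by
  unfold hop1; split_ifs <;> simp

theorem kp_hop2_map (x y : ℕ) (u : R) : hop2 x y (φ u) = φ (hop2 x y u) := by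
  unfold hop2; split_ifs <;> simp

theorem kp_sIn_map (h l : ℕ) (X : ℕ → ℕ → R) (a b : ℕ) :
    sIn h l (fun a b => φ (X a b)) a b = φ (sIn h l X a b) := by
  simp only [sIn, hopSum, map_add, map_sum, kp_hop1_map, kp_hop2_map]

theorem kp_cl1_map (h : ℕ) (X : ℕ → ℕ → R) (a b : ℕ) :
    cl1 h (fun a b => φ (X a b)) a b = φ (cl1 h X a b) := kp_hop1_map φ _ _ _

theorem kp_cl2_map (h : ℕ) (X : ℕ → ℕ → R) (a b : ℕ) :
    cl2 h (fun a b => φ (X a b)) a b = φ (cl2 h X a b) := kp_hop2_map φ _ _ _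

end

/-- Integer vectors as complex vectors. -/
noncomputable def kpΦ (n l : ℕ) : Z2 →+ (Cfg n → ℂ) where
  toFun X := at2 l fun a b => Int.castAddHom ℂ (X a b)
  map_zero' := by funext σ; simp [at2]
  map_add' X Y := by funext σ; simp [at2]

theorem kp_unit {n : ℕ} (l r : ℕ) (hr : r < 3 ^ n) (τ : Cfg n) :
    kpΦ n l (unitV (3 ^ l) r) τ = (1 : Op n) τ (dec n r) := by
  have e : (r / 3 ^ l = code τ / 3 ^ l ∧ r % 3 ^ l = code τ % 3 ^ l) ↔ τ = dec n r := by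
    constructor
    · rintro ⟨a1, a2⟩
      rw [← Nat.div_add_mod r (3 ^ l), a1, a2, Nat.div_add_mod, dec_code]
    · rintro rfl
      rw [code_dec hr]; exact ⟨rfl, rfl⟩
  simp [kpΦ, at2, unitV, e, Matrix.one_apply]

theorem kp_om_sq : om ^ 2 + om + 1 = 0 := by
  have h : Real.sqrt 3 * Real.sqrt 3 = 3 := Real.mul_self_sqrt (by norm_num)
  apply Complex.ext <;> simp [om, pow_two] <;> linarith

theorem kp_om_inv : om⁻¹ = -1 - om :=
  inv_eq_of_mul_eq_one_right (by linear_combination -kp_om_sq)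

/-- `(x, y) ↦ x + y ω`. -/
noncomputable def kpψ : ℤ × ℤ →+ ℂ where
  toFun p := p.1 + p.2 * om
  map_zero' := by simp
  map_add' p q := by simp; ring

/-- Pairs of integer vectors as complex vectors. -/
noncomputable def kpΨ (n l : ℕ) : Z2 × Z2 →+ (Cfg n → ℂ) where
  toFun X := at2 l fun a b => kpψ (X.1 a b, X.2 a b)
  map_zero' := by funext σ; simp [at2, kpψ]
  map_add' X Y := by funext σ; simp [at2, kpψ]; ring

theorem HR_mulVec (φ : ℂ) (h l : ℕ) (X : ℕ → ℕ → ℂ) (σ : Cfg (h + l + 1 + 1)) :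
    (HR φ (h + l + 1) *ᵥ at2 (l + 1) X) σ =
      at2 (l + 1) (fun a b => ((dR h l a b : ℂ) - (h + l + 2 : ℕ)) * X a b + sIn h l X a b
        + φ * cl1 h X a b + φ⁻¹ * cl2 h X a b) σ := by
  have := kp_close (h := h) (a := code σ / 3 ^ (l + 1))
    (F := fun c => X (c / 3 ^ (l + 1)) (c % 3 ^ (l + 1))) φ (kp_F _ X) (kp_hi σ)
    (Nat.mod_lt (code σ) (by positivity))
  rw [Nat.mod_add_div] at this
  have e := kp_bond φ (j := Fin.last (h + l + 1)) (k := 0) (Fin.last_pos).ne'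
    (fun c => X (c / 3 ^ (l + 1)) (c % 3 ^ (l + 1))) σ
  rw [HR, add_mulVec, Pi.add_apply, kp_sum]
  refine (congrArg _ (e.trans this)).trans ?_
  simp only [at2, dR]
  push_cast
  ring

theorem HO_mulVec (h1 h2 : ℝ) (h l : ℕ) (X : ℕ → ℕ → ℂ) (σ : Cfg (h + l + 1 + 1)) :
    (HO h1 h2 (h + l + 1) *ᵥ at2 (l + 1) X) σ =
      at2 (l + 1) (fun a b => ((dIn h l a b : ℂ) - (h + l + 1 : ℕ) - h1 * (1 - (b % 3 : ℕ))
        - h2 * (1 - (a / 3 ^ h : ℕ))) * X a b + sIn h l X a b) σ := by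
  have e0 : ((σ 0 : ℕ) : ℂ) = (code σ % 3 ^ (l + 1) % 3 : ℕ) := by
    rw [← dg_code σ 0, Nat.mod_mod_of_dvd _ (dvd_pow_self 3 (Nat.succ_ne_zero l))]
    exact congrArg _ (kp_dg_zero _)
  have e1 : ((σ (Fin.last _) : ℕ) : ℂ) = (code σ / 3 ^ (l + 1) / 3 ^ h : ℕ) := by
    rw [← dg_code σ (Fin.last _), Fin.val_last, kp_dg_top (code_lt σ), Nat.div_div_eq_div_mul,
      ← pow_add]
    congr 3; omega
  rw [HO, sub_mulVec, Pi.sub_apply, kp_sum, mulVec_diagonal, kp_mg, kp_mg, e0, e1]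
  simp only [at2]
  ring

theorem HR_dsum (φ : ℂ) (n : ℕ) (hn : 1 ≤ n) (σ τ : Cfg (n + 1)) (h : HR φ n σ τ ≠ 0) :
    dsum σ = dsum τ := by
  rw [HR, Matrix.add_apply] at h
  by_cases h1 : (∑ j : Fin n, bondAt 1 j.castSucc j.succ) σ τ = 0
  · rw [h1, zero_add] at h
    refine kp_bond_dsum (fun e => ?_) h
    have := congrArg Fin.val e
    simp only [Fin.val_last, Fin.val_zero] at this
    omega
  · exact kp_sum_dsum h1

theorem HO_dsum (h1 h2 : ℝ) (n : ℕ) (σ τ : Cfg (n + 1)) (h : HO h1 h2 n σ τ ≠ 0) :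
    dsum σ = dsum τ := by
  by_cases hs : σ = τ
  · rw [hs]
  rw [HO, Matrix.sub_apply, Matrix.diagonal_apply_ne _ hs, sub_zero] at h
  exact kp_sum_dsum h

/-- Columns of the matrix polynomial from the vector recurrence. -/
theorem PM_ring (ε : ℤ) (hε : ε = 1 ∨ ε = -1) (h l cb q : ℕ) (cs : List ℕ) (r : ℕ)
    (hr : r < 3 ^ (h + l + 1 + 1)) (τ : Cfg (h + l + 1 + 1)) :
    PM (HR (ε : ℂ) (h + l + 1)) 1 ((cb : ℤ) - (h + l + 2 : ℕ)) q cs τ (dec _ r) =
      ((at2 (l + 1) (clenV (tR ε h l cb) q (unitV (3 ^ (l + 1)) r) cs 0 0) τ : ℤ) : ℂ) := by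
  refine kp_clen _ (tR ε h l cb) (kpΦ _ (l + 1)) (fun X => ?_) q _ _ (kp_unit (l + 1) r hr) cs 0 0 0 0
    (by simp) (by simp) τ
  funext σ
  have e : (ε : ℂ)⁻¹ = ε := by rcases hε with rfl | rfl <;> simp
  have := HR_mulVec ε h l (fun a b => Int.castAddHom ℂ (X a b)) σ
  simp only [kp_sIn_map, kp_cl1_map, kp_cl2_map, e] at this
  rw [sub_mulVec, smul_mulVec, smul_mulVec, one_mulVec, Pi.sub_apply, Pi.smul_apply, Pi.smul_apply]
  refine (congrArg (fun z => _ - _ • z) this).trans ?_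
  simp only [kpΦ, at2, tR, AddMonoidHom.coe_mk, ZeroHom.coe_mk, Int.coe_castAddHom, smul_eq_mul]
  push_cast
  ring

theorem PM_om (h l cb q : ℕ) (cs : List ℕ) (r : ℕ)
    (hr : r < 3 ^ (h + l + 1 + 1)) (τ : Cfg (h + l + 1 + 1)) :
    PM (HR om (h + l + 1)) 1 ((cb : ℤ) - (h + l + 2 : ℕ)) q cs τ (dec _ r) =
      ((at2 (l + 1) (clenV (tW h l cb) q (unitV (3 ^ (l + 1)) r, 0) cs 0 0).1 τ : ℤ) : ℂ)
        + ((at2 (l + 1) (clenV (tW h l cb) q (unitV (3 ^ (l + 1)) r, 0) cs 0 0).2 τ : ℤ) : ℂ)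
          * om := by
  refine kp_clen _ (tW h l cb) (kpΨ _ (l + 1)) (fun X => ?_) q _ _ (fun τ => ?_) cs 0 0 0 0
    (by simp) (by simp) τ
  swap
  · rw [← kp_unit (l + 1) r hr]
    simp [kpΨ, kpΦ, at2, kpψ]
  funext σ
  have := HR_mulVec om h l (fun a b => kpψ (X.1 a b, X.2 a b)) σ
  simp only [kp_sIn_map, kp_cl1_map, kp_cl2_map, kp_om_inv] at this
  have s1 := kp_sIn_map (AddMonoidHom.fst ℤ ℤ) h l fun a b => (X.1 a b, X.2 a b)
  have s2 := kp_sIn_map (AddMonoidHom.snd ℤ ℤ) h l fun a b => (X.1 a b, X.2 a b)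
  have s3 := kp_cl1_map (AddMonoidHom.fst ℤ ℤ) h fun a b => (X.1 a b, X.2 a b)
  have s4 := kp_cl1_map (AddMonoidHom.snd ℤ ℤ) h fun a b => (X.1 a b, X.2 a b)
  have s5 := kp_cl2_map (AddMonoidHom.fst ℤ ℤ) h fun a b => (X.1 a b, X.2 a b)
  have s6 := kp_cl2_map (AddMonoidHom.snd ℤ ℤ) h fun a b => (X.1 a b, X.2 a b)
  simp only [AddMonoidHom.coe_fst, AddMonoidHom.coe_snd] at s1 s2 s3 s4 s5 s6
  rw [sub_mulVec, smul_mulVec, smul_mulVec, one_mulVec, Pi.sub_apply, Pi.smul_apply, Pi.smul_apply]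
  refine (congrArg (fun z => _ - _ • z) this).trans ?_
  simp only [kpΨ, kpψ, at2, tW, AddMonoidHom.coe_mk, ZeroHom.coe_mk, smul_eq_mul, ← s1, ← s2, ← s3,
    ← s4, ← s5, ← s6]
  push_cast
  linear_combination
    (((cl2 h X.2 (code σ / 3 ^ (l + 1)) (code σ % 3 ^ (l + 1)) : ℤ) : ℂ) -
      ((cl1 h X.2 (code σ / 3 ^ (l + 1)) (code σ % 3 ^ (l + 1)) : ℤ) : ℂ)) * kp_om_sq

theorem PM_open (sg : Bool) (h l cb q : ℕ) (cs : List ℕ) (r : ℕ)
    (hr : r < 3 ^ (h + l + 1 + 1)) (τ : Cfg (h + l + 1 + 1)) :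
    PM (HO (3 / 5) (sgn sg * (3 / 5)) (h + l + 1)) 5 ((cb : ℤ) - (5 * (h + l + 1) + 6 : ℕ)) q cs τ
        (dec _ r) =
      ((at2 (l + 1) (clenV (tO sg h l cb) q (unitV (3 ^ (l + 1)) r) cs 0 0) τ : ℤ) : ℂ) := by
  refine kp_clen _ (tO sg h l cb) (kpΦ _ (l + 1)) (fun X => ?_) q _ _ (kp_unit (l + 1) r hr) cs 0 0 0 0
    (by simp) (by simp) τ
  funext σ
  have := HO_mulVec (3 / 5) (sgn sg * (3 / 5)) h l (fun a b => Int.castAddHom ℂ (X a b)) σ
  simp only [kp_sIn_map] at this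
  have ht : code σ / 3 ^ (l + 1) / 3 ^ h ≤ 2 :=
    Nat.lt_succ_iff.1 (Nat.div_lt_of_lt_mul (by rw [← pow_succ]; exact kp_hi σ))
  rw [sub_mulVec, smul_mulVec, smul_mulVec, one_mulVec, Pi.sub_apply, Pi.smul_apply, Pi.smul_apply]
  refine (congrArg (fun z => _ - _ • z) this).trans ?_
  simp only [kpΦ, at2, tO, dO, AddMonoidHom.coe_mk, ZeroHom.coe_mk, Int.coe_castAddHom, smul_eq_mul]
  generalize code σ / 3 ^ (l + 1) / 3 ^ h = z at ht
  generalize code σ % 3 ^ (l + 1) % 3 = y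
  cases sg
  · simp only [sgn, Bool.false_eq_true, if_false]
    push_cast [Nat.cast_sub ht]
    ring
  · simp only [sgn, if_true]
    push_cast
    ring

end Crest.Agent.R347
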