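import Crest.Agent.R347.KCode

/-! The compiled rows in terms of the stencil. -/

set_option autoImplicit false

namespace Crest.Agent.R347

open Matrix Crest.MathPhysics.SpinChain Filter Topology K

/-- One step of `inner`. -/
noncomputable def krStep {α : Type} (i h a b : ℕ) (nx : List ℕ → ℕ → α) (l : List ℕ) (d : ℕ) : α :=
  dig% α a
    (dig% α b (nx l (Nat.add d 2))
      (frc (Nat.sub i h) fun j => nx (j :: l) (Nat.succ d))
      (frc (Nat.sub i h) fun j => nx (j :: l) d))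
    (dig% α b (frc (Nat.add i h) fun j => nx (j :: l) (Nat.succ d))
      (frc (Nat.sub i h) fun j => frc (Nat.add i h) fun j' => nx (j' :: j :: l) (Nat.succ d))
      (frc (Nat.sub i h) fun j => nx (j :: l) (Nat.succ d)))
    (dig% α b (frc (Nat.add i h) fun j => nx (j :: l) d)
      (frc (Nat.add i h) fun j => nx (j :: l) (Nat.succ d))
      (nx l (Nat.add d 2)))

theorem kr_inner_succ {α : Type} (n i : ℕ) (k : List ℕ → ℕ → α) (x h : ℕ) (l : List ℕ) (d : ℕ) :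
    K.inner (n + 1) i k x h l d =
      krStep i h (x % 3) (x / 3 % 3) (K.inner n i k (x / 3) (3 * h)) l d := rfl

theorem krStep_spec {α : Type} (i h a b : ℕ) (ha : a < 3) (hb : b < 3) (l : List ℕ) (d : ℕ) :
    ∃ l' : List ℕ, (∀ nx : List ℕ → ℕ → α, krStep i h a b nx l d = nx l' (d + isg2 a b)) ∧
      ∀ f : ℕ → ℕ, (l'.map f).sum =
        (l.map f).sum + (hop1 a b (f (i - h)) + hop2 a b (f (i + h))) := by
  interval_cases a <;> interval_cases b <;>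
    refine ⟨_, fun _ => rfl, fun f => ?_⟩ <;> simp [hop1, hop2] <;> omega

theorem kr_dg_succ (x j : ℕ) : dg x (j + 1) = dg (x / 3) j := by
  rw [dg, dg, Nat.div_div_eq_div_mul, pow_succ']

theorem kr_dg_zero (x : ℕ) : dg x 0 = x % 3 := by simp [dg]

theorem kr_inner_spec {α : Type} (i n : ℕ) : ∀ (x h : ℕ) (l : List ℕ) (d : ℕ),
    ∃ l' : List ℕ, (∀ k : List ℕ → ℕ → α, K.inner n i k x h l d = k l' (d + isgS n x)) ∧
      ∀ f : ℕ → ℕ, (l'.map f).sum = (l.map f).sum +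
        ∑ j ∈ Finset.range n, (hop1 (dg x j) (dg x (j + 1)) (f (i - h * 3 ^ j))
          + hop2 (dg x j) (dg x (j + 1)) (f (i + h * 3 ^ j))) := by
  induction n with
  | zero => exact fun x h l d => ⟨l, fun _ => rfl, fun f => by simp⟩
  | succ n ih =>
    intro x h l d
    obtain ⟨l1, h1, h2⟩ := krStep_spec (α := α) i h (x % 3) (x / 3 % 3) (Nat.mod_lt _ (by norm_num))
      (Nat.mod_lt _ (by norm_num)) l d
    obtain ⟨l2, h3, h4⟩ := ih (x / 3) (3 * h) l1 (d + isg2 (x % 3) (x / 3 % 3))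
    refine ⟨l2, fun k => ?_, fun f => ?_⟩
    · rw [kr_inner_succ, h1, h3]
      congr 1
      simp only [isgS, Finset.sum_range_succ', kr_dg_succ, kr_dg_zero]
      omega
    · rw [h4, h2, Finset.sum_range_succ']
      have e : ∀ j, h * 3 ^ (j + 1) = 3 * h * 3 ^ j := fun j => by ring
      simp only [kr_dg_succ, kr_dg_zero, e, pow_zero, mul_one]
      omega

theorem kr_half {γ : Type} (n x : ℕ) : ∃ l : List ℕ,
    (∀ ck : List ℕ → (γ → Hf γ) → Hf γ, half ck n x = ck l fun g =>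
      ⟨g, isgS n x, x % 3, x / 3 ^ n, x + 1, x - 1, x + 3 ^ n, x - 3 ^ n⟩) ∧
      ∀ f : ℕ → ℕ, (l.map f).sum = hopSum n x f := by
  obtain ⟨l, h1, h2⟩ := kr_inner_spec (α := Hf γ) x n x 2 [] 0
  refine ⟨l, fun ck => ?_, fun f => ?_⟩
  · rw [half, h1, zero_add]
    rfl
  · rw [h2]
    simp [hopSum]

theorem kr_cross {α : Type} (x y a1 b1 a2 b2 : ℕ) (hx : x < 3) (hy : y < 3) :
    ∃ g : V2 → ℕ → ℕ, (∀ k : (V2 → ℕ → ℕ) → ℕ → α, cross x y a1 b1 a2 b2 k = k g (isg2 x y)) ∧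
      ∀ (F : V2) (z : ℕ), g F z = z + (hop1 x y (F a1 b1) + hop2 x y (F a2 b2)) := by
  interval_cases x <;> interval_cases y <;>
    refine ⟨_, fun _ => rfl, fun F z => ?_⟩ <;> simp [hop1, hop2] <;> omega

theorem kr_both {α : Type} (H : HH) (L : HL)
    (k : ((ℕ → ℕ) → ℕ → ℕ) → (V2 → ℕ → ℕ → ℕ) → (V2 → ℕ → ℕ) → ℕ →
      ℕ → ℕ → ℕ → ℕ → ℕ → ℕ → α) :
    both H L k = cross L.top H.bot H.bd L.tu H.bu L.td fun gm dm =>
      k L.g H.g gm (H.d + L.d + dm) H.top L.bot H.tu H.td L.bu L.bd := by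
  cases H
  cases L
  rfl

theorem kr_top {h a : ℕ} (ha : a < 3 ^ (h + 1)) : a / 3 ^ h < 3 :=
  (Nat.div_lt_iff_lt_mul (by positivity)).2 (by rwa [← pow_succ'])

theorem kr_mkW (km mask q cb a b : ℕ) (gl : (ℕ → ℕ) → ℕ → ℕ) (gh : V2 → ℕ → ℕ → ℕ)
    (gm gp gc : V2 → ℕ → ℕ) (D : ℕ) (f1 f0 : V2) (c : ℕ) :
    (mkW km mask q cb a b gl gh gm gp gc D).fn f1 f0 c =
      (gp f1 ((cb - D) * f1 a b + km) -
        gl (f1 a) (gh f1 b (gm f1 (gc f1 ((D - cb) * f1 a b + q * f0 a b))))) &&& mask := by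
  unfold mkW
  cases hD : Nat.ble D cb
  · have h : cb - D = 0 := Nat.sub_eq_zero_of_le (Nat.lt_of_not_le fun h => by
      rw [Nat.ble_eq_true_of_le h] at hD; cases hD).le
    rw [h, zero_mul, zero_add]
    rfl
  · have h : D - cb = 0 := Nat.sub_eq_zero_of_le (Nat.le_of_ble_eq_true hD)
    rw [h, zero_mul, zero_add]
    rfl

theorem kr_mkO (km mask q cb a b : ℕ) (gl : (ℕ → ℕ) → ℕ → ℕ) (gh : V2 → ℕ → ℕ → ℕ)
    (gm : V2 → ℕ → ℕ) (D : ℕ) (f1 f0 : V2) (c : ℕ) :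
    (mkO km mask q cb a b gl gh gm D).fn f1 f0 c =
      ((cb - D) * f1 a b + km - (5 * gl (f1 a) (gh f1 b (gm f1 0)) +
        ((D - cb) * f1 a b + q * f0 a b))) &&& mask := by
  unfold mkO
  cases hD : Nat.ble D cb
  · have h : cb - D = 0 := Nat.sub_eq_zero_of_le (Nat.lt_of_not_le fun h => by
      rw [Nat.ble_eq_true_of_le h] at hD; cases hD).le
    rw [h, zero_mul, zero_add]
    rfl
  · have h : D - cb = 0 := Nat.sub_eq_zero_of_le (Nat.le_of_ble_eq_true hD)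
    rw [h, zero_mul, zero_add]
    rfl

theorem kr_bndW {α : Type} (x y : ℕ) (hx : x < 3) (hy : y < 3) (m0 sh X1 a1 b1 a2 b2 : ℕ) :
    ∃ gp gc : V2 → ℕ → ℕ, (∀ mk : (V2 → ℕ → ℕ) → (V2 → ℕ → ℕ) → ℕ → α,
      bnd4 x y
        (mk (fun F z => Nat.add (Nat.add z (Nat.mul (Nat.shiftRight (F a1 b1) sh) X1))
            (Nat.mul (Nat.land (F a2 b2) m0) X1))
          (fun F z => Nat.add (Nat.add z (Nat.shiftLeft (Nat.land (F a1 b1) m0) sh))
            (Nat.shiftRight (F a2 b2) sh)))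
        (mk (fun F z => Nat.add z (Nat.mul (Nat.shiftRight (F a1 b1) sh) X1))
          (fun F z => Nat.add z (Nat.shiftLeft (Nat.land (F a1 b1) m0) sh)))
        (mk (fun F z => Nat.add z (Nat.mul (Nat.land (F a2 b2) m0) X1))
          (fun F z => Nat.add z (Nat.shiftRight (F a2 b2) sh)))
        (mk (fun _ z => z) (fun _ z => z)) = mk gp gc (isg2 x y)) ∧
      (∀ (F : V2) (z : ℕ), gp F z = z + hop1 x y ((F a1 b1 >>> sh) * X1) +
        hop2 x y ((F a2 b2 &&& m0) * X1)) ∧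
      ∀ (F : V2) (z : ℕ), gc F z = z + (hop1 x y ((F a1 b1 &&& m0) <<< sh) +
        hop2 x y (F a2 b2 >>> sh)) := by
  interval_cases x <;> interval_cases y
  all_goals
    refine ⟨_, _, fun _ => rfl, fun F z => ?_, fun F z => ?_⟩
    · first | rfl | exact Nat.add_assoc _ _ _
    · first | rfl | exact Nat.add_assoc _ _ _ | exact congrArg (z + ·) (zero_add _).symm

theorem kr_range {n x j : ℕ} (hx : x < 3 ^ (n + 1)) (hj : j < n) (h : dg x (j + 1) ≤ 1) :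
    x + 2 * 3 ^ j < 3 ^ (n + 1) := by
  obtain ⟨m, rfl⟩ := Nat.exists_eq_add_of_lt hj
  have e : 3 ^ (j + m + 1 + 1) = 3 ^ (j + 1) * (3 * 3 ^ m) := by ring
  have h1 : x / 3 ^ (j + 1) < 3 * 3 ^ m := Nat.div_lt_of_lt_mul (e ▸ hx)
  have h2 : x / 3 ^ (j + 1) + 2 ≤ 3 * 3 ^ m := by
    unfold dg at h
    omega
  have h3 : x < 3 ^ (j + 1) * (x / 3 ^ (j + 1) + 1) := Nat.lt_mul_div_succ x (by positivity)
  have h4 := Nat.mul_le_mul_left (3 ^ (j + 1)) h2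
  have h5 : 3 ^ (j + 1) = 3 * 3 ^ j := by ring
  rw [e]
  rw [mul_add] at h3 h4
  omega

theorem kr_up_top {n x : ℕ} (h : x / 3 ^ n ≤ 1) : x + 3 ^ n < 3 ^ (n + 1) := by
  have h3 : x < 3 ^ n * (x / 3 ^ n + 1) := Nat.lt_mul_div_succ x (by positivity)
  have h4 := Nat.mul_le_mul_left (3 ^ n) (Nat.succ_le_succ h)
  rw [pow_succ]
  simp only [Nat.succ_eq_add_one] at h4
  omega

theorem kr_up_bot {n x : ℕ} (hx : x < 3 ^ (n + 1)) (h : x % 3 ≤ 1) : x + 1 < 3 ^ (n + 1) := by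
  rw [pow_succ] at hx ⊢
  omega

theorem kr_hop1_congr {R : Type} [Zero R] {x y : ℕ} {u v : R} (h : x ≤ 1 → 1 ≤ y → u = v) :
    hop1 x y u = hop1 x y v := by
  unfold hop1
  split_ifs with c
  · exact h c.1 c.2
  · rfl

theorem kr_hop2_congr {R : Type} [Zero R] {x y : ℕ} {u v : R} (h : 1 ≤ x → y ≤ 1 → u = v) :
    hop2 x y u = hop2 x y v := by
  unfold hop2
  split_ifs with c
  · exact h c.1 c.2
  · rfl

theorem kr_hop1_le {x y u m : ℕ} (h : x ≤ 1 → 1 ≤ y → u ≤ m) : hop1 x y u ≤ m := by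
  unfold hop1
  split_ifs with c
  · exact h c.1 c.2
  · exact Nat.zero_le _

theorem kr_hop2_le {x y u m : ℕ} (h : 1 ≤ x → y ≤ 1 → u ≤ m) : hop2 x y u ≤ m := by
  unfold hop2
  split_ifs with c
  · exact h c.1 c.2
  · exact Nat.zero_le _

theorem kr_hopSum_congr {R : Type} [AddCommMonoid R] {n x : ℕ} (hx : x < 3 ^ (n + 1))
    {X Y : ℕ → R} (h : ∀ y, y < 3 ^ (n + 1) → X y = Y y) : hopSum n x X = hopSum n x Y := by
  refine Finset.sum_congr rfl fun j hj => ?_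
  rw [kr_hop1_congr fun _ _ => h _ ((Nat.sub_le _ _).trans_lt hx),
    kr_hop2_congr fun _ c => h _ (kr_range hx (Finset.mem_range.1 hj) c)]

theorem kr_hopSum_le {n x m : ℕ} (hx : x < 3 ^ (n + 1)) {X : ℕ → ℕ}
    (h : ∀ y, y < 3 ^ (n + 1) → X y ≤ m) : hopSum n x X ≤ n * (m + m) := by
  refine (Finset.sum_le_card_nsmul _ _ (m + m) fun j hj => ?_).trans (by simp)
  exact add_le_add (kr_hop1_le fun _ _ => h _ ((Nat.sub_le _ _).trans_lt hx))
    (kr_hop2_le fun _ c => h _ (kr_range hx (Finset.mem_range.1 hj) c))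

theorem kr_hop1_map {R S : Type} [AddCommMonoid R] [AddCommMonoid S] (φ : R →+ S) (x y : ℕ)
    (u : R) : φ (hop1 x y u) = hop1 x y (φ u) := by
  unfold hop1
  split_ifs
  · rfl
  · exact map_zero φ

theorem kr_hop2_map {R S : Type} [AddCommMonoid R] [AddCommMonoid S] (φ : R →+ S) (x y : ℕ)
    (u : R) : φ (hop2 x y u) = hop2 x y (φ u) := by
  unfold hop2
  split_ifs
  · rfl
  · exact map_zero φ

theorem kr_isg2_le (x y : ℕ) : isg2 x y ≤ 2 := by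
  unfold isg2
  split_ifs <;> omega

theorem kr_isgS_le (n x : ℕ) : isgS n x ≤ n * 2 :=
  (Finset.sum_le_card_nsmul _ _ 2 fun _ _ => kr_isg2_le _ _).trans (by simp)

theorem halfL_spec (n x : ℕ) : (∀ f z, (halfL n x).g f z = z + hopSum n x f) ∧
    (halfL n x).d = isgS n x ∧ (halfL n x).bot = x % 3 ∧ (halfL n x).top = x / 3 ^ n ∧
    (halfL n x).bu = x + 1 ∧ (halfL n x).bd = x - 1 ∧ (halfL n x).tu = x + 3 ^ n ∧
    (halfL n x).td = x - 3 ^ n := by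
  obtain ⟨l, h1, h2⟩ := kr_half (γ := (ℕ → ℕ) → ℕ → ℕ) n x
  obtain ⟨g, h3, h4⟩ := chunk_spec (α := HL) l
  rw [halfL, h1, h3]
  exact ⟨fun f z => by rw [← h2]; exact h4 f z, rfl, rfl, rfl, rfl, rfl, rfl, rfl⟩

theorem halfH_spec (n x : ℕ) :
    (∀ F y z, (halfH n x).g F y z = z + hopSum n x fun a => F a y) ∧
    (halfH n x).d = isgS n x ∧ (halfH n x).bot = x % 3 ∧ (halfH n x).top = x / 3 ^ n ∧
    (halfH n x).bu = x + 1 ∧ (halfH n x).bd = x - 1 ∧ (halfH n x).tu = x + 3 ^ n ∧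
    (halfH n x).td = x - 3 ^ n := by
  obtain ⟨l, h1, h2⟩ := kr_half (γ := V2 → ℕ → ℕ → ℕ) n x
  obtain ⟨g, h3, h4⟩ := chunkH_spec (α := HH) l
  rw [halfH, h1, h3]
  exact ⟨fun F y z => by rw [← h2]; exact h4 F y z, rfl, rfl, rfl, rfl, rfl, rfl, rfl⟩

/-- `both` hands over the pieces of the stencil. -/
theorem both_spec {α : Type} (h l a b : ℕ) (hb : b < 3 ^ (l + 1)) :
    ∃ (gl : (ℕ → ℕ) → ℕ → ℕ) (gh : V2 → ℕ → ℕ → ℕ) (gm : V2 → ℕ → ℕ),
      (∀ k : ((ℕ → ℕ) → ℕ → ℕ) → (V2 → ℕ → ℕ → ℕ) → (V2 → ℕ → ℕ) → ℕ →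
          ℕ → ℕ → ℕ → ℕ → ℕ → ℕ → α,
        both (halfH h a) (halfL l b) k = k gl gh gm (dIn h l a b) (a / 3 ^ h) (b % 3)
          (a + 3 ^ h) (a - 3 ^ h) (b + 1) (b - 1)) ∧
      ∀ (F : V2) (z : ℕ), gl (F a) (gh F b (gm F z)) = z + sIn h l F a b := by
  obtain ⟨L0, L1, L2, L3, L4, L5, L6, L7⟩ := halfL_spec l b
  obtain ⟨H0, H1, H2, H3, H4, H5, H6, H7⟩ := halfH_spec h a
  obtain ⟨gm, c1, c2⟩ := kr_cross (α := α) (b / 3 ^ l) (a % 3) (a - 1) (b + 3 ^ l) (a + 1)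
    (b - 3 ^ l) (kr_top hb) (Nat.mod_lt _ (by norm_num))
  refine ⟨(halfL l b).g, (halfH h a).g, gm, fun k => ?_, fun F z => ?_⟩
  · rw [kr_both, L1, L2, L3, L4, L5, L6, L7, H1, H2, H3, H4, H5, H6, H7, c1]
    rfl
  · rw [L0, H0, c2, sIn]
    omega

theorem cross_spec {α : Type} (x y a1 b1 a2 b2 : ℕ) (hx : x < 3) (hy : y < 3) :
    ∃ g : V2 → ℕ → ℕ, (∀ k : (V2 → ℕ → ℕ) → ℕ → α, cross x y a1 b1 a2 b2 k = k g (isg2 x y)) ∧
      ∀ (F : V2) (z : ℕ), g F z = z + (hop1 x y (F a1 b1) + hop2 x y (F a2 b2)) := by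
  exact kr_cross x y a1 b1 a2 b2 hx hy

theorem rowP_spec (h l km mask q cb a b : ℕ) (ha : a < 3 ^ (h + 1)) (hb : b < 3 ^ (l + 1))
    (f1 f0 : V2) (c : ℕ) :
    (rowP h l km mask q cb a b).fn f1 f0 c =
      ((cb - dR h l a b) * f1 a b + km - ((dR h l a b - cb) * f1 a b + q * f0 a b
        + sIn h l f1 a b + cl1 h f1 a b + cl2 h f1 a b)) &&& mask := by
  obtain ⟨gl, gh, gm, b1, b2⟩ := both_spec (α := Row) h l a b hb
  obtain ⟨gc, c1, c2⟩ := kr_cross (α := Row) (a / 3 ^ h) (b % 3) (a + 3 ^ h) (b - 1) (a - 3 ^ h)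
    (b + 1) (kr_top ha) (Nat.mod_lt _ (by norm_num))
  rw [rowP, b1, c1]
  refine (kr_mkW km mask q cb a b gl gh gm (fun _ z => z) gc (dR h l a b) f1 f0 c).trans ?_
  rw [b2, c2, cl1, cl2]
  congr 2
  omega

theorem rowM_spec (h l km mask q cb a b : ℕ) (ha : a < 3 ^ (h + 1)) (hb : b < 3 ^ (l + 1))
    (f1 f0 : V2) (c : ℕ) :
    (rowM h l km mask q cb a b).fn f1 f0 c =
      ((cb - dR h l a b) * f1 a b + km + cl1 h f1 a b + cl2 h f1 a b
        - ((dR h l a b - cb) * f1 a b + q * f0 a b + sIn h l f1 a b)) &&& mask := by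
  obtain ⟨gl, gh, gm, b1, b2⟩ := both_spec (α := Row) h l a b hb
  obtain ⟨gc, c1, c2⟩ := kr_cross (α := Row) (a / 3 ^ h) (b % 3) (a + 3 ^ h) (b - 1) (a - 3 ^ h)
    (b + 1) (kr_top ha) (Nat.mod_lt _ (by norm_num))
  rw [rowM, b1, c1]
  refine (kr_mkW km mask q cb a b gl gh gm gc (fun _ z => z) (dR h l a b) f1 f0 c).trans ?_
  rw [b2, c2, cl1, cl2, ← add_assoc]

theorem rowW_spec (m0 sh X1 h l km mask q cb a b : ℕ) (ha : a < 3 ^ (h + 1))
    (hb : b < 3 ^ (l + 1)) (f1 f0 : V2) (c : ℕ) :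
    (rowW m0 sh X1 h l km mask q cb a b).fn f1 f0 c =
      ((cb - dR h l a b) * f1 a b + km + cl1 h (fun x y => (f1 x y >>> sh) * X1) a b
          + cl2 h (fun x y => (f1 x y &&& m0) * X1) a b
        - ((dR h l a b - cb) * f1 a b + q * f0 a b + sIn h l f1 a b
          + cl1 h (fun x y => (f1 x y &&& m0) <<< sh) a b
          + cl2 h (fun x y => f1 x y >>> sh) a b)) &&& mask := by
  obtain ⟨gl, gh, gm, b1, b2⟩ := both_spec (α := Row) h l a b hb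
  obtain ⟨gp, gc, c1, c2, c3⟩ := kr_bndW (α := Row) (a / 3 ^ h) (b % 3) (kr_top ha)
    (Nat.mod_lt _ (by norm_num)) m0 sh X1 (a + 3 ^ h) (b - 1) (a - 3 ^ h) (b + 1)
  rw [rowW, b1]
  refine (congrArg (fun r : Row => r.fn f1 f0 c)
    (c1 fun gp gc dc => mkW km mask q cb a b gl gh gm gp gc (Nat.add (dIn h l a b) dc))).trans ?_
  refine (kr_mkW km mask q cb a b gl gh gm gp gc (dR h l a b) f1 f0 c).trans ?_
  rw [b2, c2, c3, cl1, cl2, cl1, cl2]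
  congr 2
  omega

theorem rowO_spec (sg : Bool) (h l km mask q cb a b : ℕ) (ha : a < 3 ^ (h + 1))
    (hb : b < 3 ^ (l + 1)) (f1 f0 : V2) (c : ℕ) :
    (rowO sg h l km mask q cb a b).fn f1 f0 c =
      ((cb - dO sg h l a b) * f1 a b + km - ((dO sg h l a b - cb) * f1 a b + q * f0 a b
        + 5 * sIn h l f1 a b)) &&& mask := by
  have _ := ha
  obtain ⟨gl, gh, gm, b1, b2⟩ := both_spec (α := Row) h l a b hb
  rw [rowO, b1]
  have e : Nat.add (Nat.mul 5 (dIn h l a b)) (Nat.mul 3 (Nat.add (b % 3)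
      (ifn% sg (a / 3 ^ h) (Nat.sub 2 (a / 3 ^ h))))) = dO sg h l a b := by
    cases sg <;> rfl
  rw [e, kr_mkO, b2, zero_add, add_comm (5 * _)]

/-- The stencil only looks at valid pairs and has at most two terms for each bond. -/
theorem sIn_le (h l a b m : ℕ) (ha : a < 3 ^ (h + 1)) (hb : b < 3 ^ (l + 1)) (F : V2)
    (hF : ∀ x y, x < 3 ^ (h + 1) → y < 3 ^ (l + 1) → F x y ≤ m) :
    sIn h l F a b ≤ 2 * (h + l + 1) * m ∧ cl1 h F a b ≤ m ∧ cl2 h F a b ≤ m := by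
  have h1 := kr_hopSum_le hb (X := F a) fun y hy => hF a y ha hy
  have h2 := kr_hopSum_le ha (X := fun a' => F a' b) fun y hy => hF y b hy hb
  have h3 : hop1 (b / 3 ^ l) (a % 3) (F (a - 1) (b + 3 ^ l)) ≤ m :=
    kr_hop1_le fun c _ => hF _ _ ((Nat.sub_le _ _).trans_lt ha) (kr_up_top c)
  have h4 : hop2 (b / 3 ^ l) (a % 3) (F (a + 1) (b - 3 ^ l)) ≤ m :=
    kr_hop2_le fun _ c => hF _ _ (kr_up_bot ha c) ((Nat.sub_le _ _).trans_lt hb)
  refine ⟨?_, kr_hop1_le fun c _ => hF _ _ (kr_up_top c) ((Nat.sub_le _ _).trans_lt hb),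
    kr_hop2_le fun _ c => hF _ _ ((Nat.sub_le _ _).trans_lt ha) (kr_up_bot hb c)⟩
  calc sIn h l F a b ≤ l * (m + m) + h * (m + m) + (m + m) :=
        add_le_add (add_le_add h1 h2) (add_le_add h3 h4)
    _ = _ := by ring

theorem sIn_congr {R : Type} [AddCommMonoid R] (h l a b : ℕ) (ha : a < 3 ^ (h + 1))
    (hb : b < 3 ^ (l + 1)) (F G : ℕ → ℕ → R)
    (hF : ∀ x y, x < 3 ^ (h + 1) → y < 3 ^ (l + 1) → F x y = G x y) :
    sIn h l F a b = sIn h l G a b ∧ cl1 h F a b = cl1 h G a b ∧ cl2 h F a b = cl2 h G a b := by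
  refine ⟨?_, kr_hop1_congr fun c _ => hF _ _ (kr_up_top c) ((Nat.sub_le _ _).trans_lt hb),
    kr_hop2_congr fun _ c => hF _ _ ((Nat.sub_le _ _).trans_lt ha) (kr_up_bot hb c)⟩
  rw [sIn, sIn, kr_hopSum_congr hb (X := F a) (Y := G a) fun y hy => hF a y ha hy,
    kr_hopSum_congr ha (X := fun a' => F a' b) (Y := fun a' => G a' b) fun y hy => hF y b hy hb,
    kr_hop1_congr fun c _ => hF _ _ ((Nat.sub_le _ _).trans_lt ha) (kr_up_top c),
    kr_hop2_congr fun _ c => hF _ _ (kr_up_bot ha c) ((Nat.sub_le _ _).trans_lt hb)]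

theorem sIn_map {R S : Type} [AddCommMonoid R] [AddCommMonoid S] (φ : R →+ S) (h l a b : ℕ)
    (F : ℕ → ℕ → R) :
    φ (sIn h l F a b) = sIn h l (fun x y => φ (F x y)) a b ∧
      φ (cl1 h F a b) = cl1 h (fun x y => φ (F x y)) a b ∧
      φ (cl2 h F a b) = cl2 h (fun x y => φ (F x y)) a b := by
  refine ⟨?_, kr_hop1_map φ _ _ _, kr_hop2_map φ _ _ _⟩
  simp only [sIn, hopSum, map_add, map_sum, kr_hop1_map, kr_hop2_map]

theorem dIn_le (h l a b : ℕ) : dIn h l a b ≤ 2 * (h + l + 1) ∧ dCl h a b ≤ 2 := by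
  have h1 := kr_isgS_le h a
  have h2 := kr_isgS_le l b
  have h3 := kr_isg2_le (b / 3 ^ l) (a % 3)
  refine ⟨?_, kr_isg2_le _ _⟩
  unfold dIn
  omega

end Crest.Agent.R347
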