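import Crest.Agent.R347.CDefs
import Crest.Agent.R347.KRow
import Crest.Agent.R347.KPhys
import Crest.Agent.R347.Bridge

/-! Spectral bounds in a sector. -/

set_option autoImplicit false

namespace Crest.Agent.R347

open Matrix Crest.MathPhysics.SpinChain Filter Topology K

/-- Weighted Gershgorin bound. -/
theorem gersh_lo {ι : Type} [Fintype ι] [DecidableEq ι] (H : Matrix ι ι ℂ) (hH : H.IsHermitian)
    (S : Finset ι) (v : ι → ℝ) (lo : ℝ) (hv : ∀ σ ∈ S, 0 < v σ)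
    (h : ∀ σ ∈ S, ∑ τ ∈ S.erase σ, ‖H σ τ‖ * v τ ≤ ((H σ σ).re - lo) * v σ)
    (ψ : ι → ℂ) (hψ : ∀ σ, σ ∉ S → ψ σ = 0) :
    lo * (star ψ ⬝ᵥ ψ).re ≤ (star ψ ⬝ᵥ H *ᵥ ψ).re := by
  have hsq : ∀ σ, (star (ψ σ) * ψ σ).re = ‖ψ σ‖ ^ 2 := fun σ => by
    rw [Complex.star_def, Complex.conj_mul']
    exact_mod_cast rfl
  have e1 : (star ψ ⬝ᵥ ψ).re = ∑ σ ∈ S, ‖ψ σ‖ ^ 2 := by
    rw [dotProduct, Complex.re_sum, ← Finset.sum_subset (Finset.subset_univ S)
      fun σ _ hσ => by simp [hψ σ hσ]]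
    exact Finset.sum_congr rfl fun σ _ => hsq σ
  have e2 : (star ψ ⬝ᵥ H *ᵥ ψ).re = ∑ σ ∈ S, ((H σ σ).re * ‖ψ σ‖ ^ 2 +
      ∑ τ ∈ S.erase σ, (star (ψ σ) * (H σ τ * ψ τ)).re) := by
    rw [dotProduct, Complex.re_sum, ← Finset.sum_subset (Finset.subset_univ S)
      fun σ _ hσ => by simp [hψ σ hσ]]
    refine Finset.sum_congr rfl fun σ hσ => ?_
    rw [Matrix.mulVec, dotProduct, ← Finset.sum_subset (Finset.subset_univ S)
      fun τ _ hτ => by simp [hψ τ hτ], Finset.mul_sum, Complex.re_sum,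
      ← Finset.add_sum_erase S _ hσ]
    congr 1
    rw [Pi.star_apply, mul_left_comm, Complex.star_def, Complex.conj_mul', ← Complex.ofReal_pow,
      Complex.re_mul_ofReal]
  have e3 : ∑ σ ∈ S, ∑ τ ∈ S.erase σ, ‖H σ τ‖ * (‖ψ τ‖ ^ 2 * (v σ / v τ)) =
      ∑ σ ∈ S, ∑ τ ∈ S.erase σ, ‖H σ τ‖ * (‖ψ σ‖ ^ 2 * (v τ / v σ)) := by
    rw [Finset.sum_comm' (t' := S) (s' := fun τ => S.erase τ)
      fun σ τ => by simp only [Finset.mem_erase]; tauto]
    refine Finset.sum_congr rfl fun σ _ => Finset.sum_congr rfl fun τ _ => ?_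
    rw [← hH.apply τ σ, norm_star]
  have e4 : ∀ σ ∈ S, ∑ τ ∈ S.erase σ, ‖H σ τ‖ * (‖ψ σ‖ ^ 2 * (v τ / v σ)) ≤
      ((H σ σ).re - lo) * ‖ψ σ‖ ^ 2 := fun σ hσ => by
    have h0 := hv σ hσ
    calc _ = (∑ τ ∈ S.erase σ, ‖H σ τ‖ * v τ) * (‖ψ σ‖ ^ 2 / v σ) := by
          rw [Finset.sum_mul]
          exact Finset.sum_congr rfl fun τ _ => by ring
      _ ≤ ((H σ σ).re - lo) * v σ * (‖ψ σ‖ ^ 2 / v σ) :=
          mul_le_mul_of_nonneg_right (h σ hσ) (by positivity)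
      _ = _ := by field_simp
  have e5 : ∀ σ ∈ S, ∀ τ ∈ S.erase σ, -((‖H σ τ‖ * (‖ψ σ‖ ^ 2 * (v τ / v σ)) +
      ‖H σ τ‖ * (‖ψ τ‖ ^ 2 * (v σ / v τ))) / 2) ≤ (star (ψ σ) * (H σ τ * ψ τ)).re :=
    fun σ hσ τ hτ => by
    have h0 := hv σ hσ
    have h1 := hv τ (Finset.mem_of_mem_erase hτ)
    have h2 := (abs_le.1 (Complex.abs_re_le_norm (star (ψ σ) * (H σ τ * ψ τ)))).1
    rw [norm_mul, norm_mul, norm_star] at h2
    have h3 : 2 * (‖ψ σ‖ * ‖ψ τ‖) ≤ ‖ψ σ‖ ^ 2 * (v τ / v σ) + ‖ψ τ‖ ^ 2 * (v σ / v τ) := by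
      have : ‖ψ σ‖ ^ 2 * (v τ / v σ) + ‖ψ τ‖ ^ 2 * (v σ / v τ) - 2 * (‖ψ σ‖ * ‖ψ τ‖) =
          (‖ψ σ‖ * v τ - ‖ψ τ‖ * v σ) ^ 2 / (v σ * v τ) := by field_simp; ring
      have h4 : 0 ≤ (‖ψ σ‖ * v τ - ‖ψ τ‖ * v σ) ^ 2 / (v σ * v τ) := by positivity
      linarith
    nlinarith [mul_le_mul_of_nonneg_left h3 (norm_nonneg (H σ τ))]
  have e6 := Finset.sum_le_sum fun σ hσ => Finset.sum_le_sum (e5 σ hσ)
  simp only [Finset.sum_neg_distrib, ← Finset.sum_div, Finset.sum_add_distrib] at e6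
  have e7 := Finset.sum_le_sum e4
  simp only [sub_mul, Finset.sum_sub_distrib, ← Finset.mul_sum] at e7
  rw [e1, e2, Finset.sum_add_distrib]
  linarith

/-- hopping amplitudes -/
def gsHp (a b c d : Fin 3) : ℝ :=
  if a.val + 1 = c.val ∧ b.val = d.val + 1 then 1
  else if a.val = c.val + 1 ∧ b.val + 1 = d.val then 1 else 0

theorem gs_hp_nonneg (a b c d : Fin 3) : 0 ≤ gsHp a b c d := by
  unfold gsHp
  split_ifs <;> norm_num

theorem gs_off {n : ℕ} {φ : ℂ} (hφ : ‖φ‖ = 1) (j k : Fin n) {σ τ : Cfg n} (h : σ ≠ τ) :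
    ‖bondAt φ j k σ τ‖ =
      (if ∀ i, i ≠ j → i ≠ k → σ i = τ i then gsHp (σ j) (σ k) (τ j) (τ k) else 0) ∧
    (bondAt 1 j k σ τ).re =
      if ∀ i, i ≠ j → i ≠ k → σ i = τ i then gsHp (σ j) (σ k) (τ j) (τ k) else 0 := by
  simp only [bondAt, Matrix.of_apply]
  by_cases hc : ∀ i, i ≠ j → i ≠ k → σ i = τ i
  · have h1 : ¬ (σ j = τ j ∧ σ k = τ k) := fun h2 => h (funext fun i => by
      by_cases hj : i = j
      · rw [hj, h2.1]
      · by_cases hk : i = k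
        · rw [hk, h2.2]
        · exact hc i hj hk)
    simp only [if_pos hc, bnd, if_neg h1, gsHp]
    split_ifs <;> simp [hφ]
  · simp only [if_neg hc]
    simp

theorem gs_off_le {n : ℕ} {φ : ℂ} (hφ : ‖φ‖ = 1) (j k : Fin n) {σ τ : Cfg n} (h : σ ≠ τ) :
    ‖bondAt φ j k σ τ‖ ≤ (bondAt 1 j k σ τ).re := by
  rw [(gs_off hφ j k h).1, (gs_off hφ j k h).2]

theorem gs_diag {n : ℕ} (φ : ℂ) (j k : Fin n) (σ : Cfg n) :
    bondAt φ j k σ σ = mg (σ j) * mg (σ k) := by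
  simp [bondAt, bnd]

/-- weights for a single bond -/
def gsW (a b : Fin 3) : ℝ := if a = 1 ∧ b = 1 then 2 else 1

theorem gs_w_pos (a b : Fin 3) : 0 < gsW a b := by
  unfold gsW
  split_ifs <;> norm_num

theorem gs_nine (a b : Fin 3) : ∑ p : Fin 3 × Fin 3, gsHp a b p.1 p.2 * gsW p.1 p.2 ≤
    ((-(mg a * mg b)).re - -1) * gsW a b := by
  rw [Fintype.sum_prod_type]
  simp only [Fin.sum_univ_three]
  fin_cases a <;> fin_cases b <;> simp [gsHp, gsW, mg, magneticNumber] <;> norm_num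

theorem gs_bond_le {n : ℕ} {φ : ℂ} (hφ : ‖φ‖ = 1) (j k : Fin n) (ψ : Cfg n → ℂ) :
    (star ψ ⬝ᵥ bondAt φ j k *ᵥ ψ).re ≤ (star ψ ⬝ᵥ ψ).re := by
  classical
  have := gersh_lo (-bondAt φ j k) (br_bondAt_herm φ (Complex.inv_eq_conj hφ) j k).neg Finset.univ
    (fun σ => gsW (σ j) (σ k)) (-1) (fun σ _ => gs_w_pos _ _) (fun σ _ => ?_) ψ (by simp)
  · rw [Matrix.neg_mulVec, dotProduct_neg, Complex.neg_re] at this
    linarith
  rw [Matrix.neg_apply, gs_diag]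
  refine le_trans ?_ (gs_nine (σ j) (σ k))
  set T := Finset.univ.filter fun τ : Cfg n => ∀ i, i ≠ j → i ≠ k → σ i = τ i with hT
  have hinj : Set.InjOn (fun τ : Cfg n => (τ j, τ k)) T := fun τ hτ τ' hτ' he => by
    have h1 := (Finset.mem_filter.1 hτ).2
    have h2 := (Finset.mem_filter.1 hτ').2
    funext i
    by_cases hj : i = j
    · rw [hj]; exact congrArg Prod.fst he
    · by_cases hk : i = k
      · rw [hk]; exact congrArg Prod.snd he
      · rw [← h1 i hj hk, h2 i hj hk]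
  have hnn : ∀ c d, 0 ≤ gsHp (σ j) (σ k) c d * gsW c d := fun c d =>
    mul_nonneg (gs_hp_nonneg _ _ _ _) (gs_w_pos _ _).le
  calc _ = ∑ τ ∈ Finset.univ.erase σ, if ∀ i, i ≠ j → i ≠ k → σ i = τ i then
        gsHp (σ j) (σ k) (τ j) (τ k) * gsW (τ j) (τ k) else 0 :=
        Finset.sum_congr rfl fun τ hτ => by
          rw [Matrix.neg_apply, norm_neg, (gs_off hφ j k (Finset.ne_of_mem_erase hτ).symm).1,
            ite_mul, zero_mul]
    _ ≤ ∑ τ ∈ T, gsHp (σ j) (σ k) (τ j) (τ k) * gsW (τ j) (τ k) := by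
        rw [hT, Finset.sum_filter]
        refine Finset.sum_le_sum_of_subset_of_nonneg (Finset.erase_subset _ _) fun τ _ _ => ?_
        split_ifs
        exacts [hnn _ _, le_rfl]
    _ = ∑ p ∈ T.image fun τ : Cfg n => (τ j, τ k), gsHp (σ j) (σ k) p.1 p.2 * gsW p.1 p.2 := by
        rw [Finset.sum_image hinj]
    _ ≤ _ := Finset.sum_le_sum_of_subset_of_nonneg (Finset.subset_univ _) fun p _ _ => hnn _ _

theorem gs_bulk_le (n : ℕ) (ψ : Cfg (n + 1) → ℂ) :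
    (star ψ ⬝ᵥ (∑ j : Fin n, bondAt 1 j.castSucc j.succ : Op (n + 1)) *ᵥ ψ).re ≤
      n * (star ψ ⬝ᵥ ψ).re := by
  rw [Matrix.sum_mulVec, dotProduct_sum, Complex.re_sum]
  refine (Finset.sum_le_sum fun j _ => gs_bond_le norm_one _ _ ψ).trans ?_
  simp

theorem gs_bulk_off {n : ℕ} {σ τ : Cfg (n + 1)} (h : σ ≠ τ) :
    ‖(∑ j : Fin n, bondAt 1 j.castSucc j.succ : Op (n + 1)) σ τ‖ ≤
      ((∑ j : Fin n, bondAt 1 j.castSucc j.succ : Op (n + 1)) σ τ).re := by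
  rw [Matrix.sum_apply, Complex.re_sum]
  exact (norm_sum_le _ _).trans (Finset.sum_le_sum fun j _ => gs_off_le norm_one _ _ h)

theorem HR_le (φ : ℂ) (hφ : ‖φ‖ = 1) (n : ℕ) (hn : 1 ≤ n) (ψ : Cfg (n + 1) → ℂ) :
    (star ψ ⬝ᵥ HR φ n *ᵥ ψ).re ≤ (n + 1) * (star ψ ⬝ᵥ ψ).re := by
  rw [HR, Matrix.add_mulVec, dotProduct_add, Complex.add_re]
  linarith [gs_bulk_le n ψ, gs_bond_le hφ (Fin.last n) 0 ψ]

theorem HO_le (h h' : ℝ) (n : ℕ) (ψ : Cfg (n + 1) → ℂ) :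
    (star ψ ⬝ᵥ HO h h' n *ᵥ ψ).re ≤ (n + |h| + |h'|) * (star ψ ⬝ᵥ ψ).re := by
  rw [HO, Matrix.sub_mulVec, dotProduct_sub, Complex.sub_re]
  have hm : ∀ (x : ℝ) (a : Fin 3), -|x| ≤ ((x : ℂ) * mg a).re := fun x a => by
    fin_cases a <;> simp [mg, magneticNumber, neg_abs_le] <;> norm_num [le_abs_self]
  have := gersh_lo (Matrix.diagonal fun σ : Cfg (n + 1) =>
    (h : ℂ) * mg (σ 0) + (h' : ℂ) * mg (σ (Fin.last n)))
    (Matrix.isHermitian_diagonal_iff.2 fun σ => by simp [IsSelfAdjoint, mg]) Finset.univ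
    (fun _ => 1) (-(|h| + |h'|)) (fun _ _ => one_pos) (fun σ _ => ?_) ψ (by simp)
  · linarith [gs_bulk_le n ψ]
  · rw [Finset.sum_eq_zero fun τ hτ => by
      rw [Matrix.diagonal_apply_ne _ (Finset.ne_of_mem_erase hτ).symm, norm_zero, zero_mul],
      Matrix.diagonal_apply_eq, Complex.add_re]
    linarith [hm h (σ 0), hm h' (σ (Fin.last n))]

/-- The Gershgorin bound from the stencil of a dominating matrix. -/
theorem gs_st {n : ℕ} (l : ℕ) (H H1 : Op n) (hH : H.IsHermitian)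
    (hd : ∀ σ, (H1 σ σ).re ≤ (H σ σ).re) (ho : ∀ σ τ, σ ≠ τ → ‖H σ τ‖ ≤ (H1 σ τ).re)
    (S : Finset (Cfg n)) (d : Cfg n → ℝ) (W : V2 → Cfg n → ℕ)
    (hrow : ∀ (V : V2) σ, ((H1 *ᵥ at2 l fun a b => (V a b : ℂ)) σ).re =
      d σ * (at2 l V σ : ℕ) + W V σ) (v : V2) (lo : ℝ)
    (hv : ∀ σ ∈ S, 1 ≤ at2 l v σ ∧ (W v σ : ℝ) ≤ (d σ - lo) * (at2 l v σ : ℕ))
    (ψ : Cfg n → ℂ) (hψ : ∀ σ, σ ∉ S → ψ σ = 0) :
    lo * (star ψ ⬝ᵥ ψ).re ≤ (star ψ ⬝ᵥ H *ᵥ ψ).re := by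
  refine gersh_lo H hH S (fun σ => (at2 l v σ : ℕ)) lo
    (fun σ hσ => by exact_mod_cast (hv σ hσ).1) (fun σ hσ => ?_) ψ hψ
  have h1 : d σ ≤ (H1 σ σ).re := by
    have h2 := hrow (fun a b => if code σ / 3 ^ l = a ∧ code σ % 3 ^ l = b then 1 else 0) σ
    have h3 : (at2 l fun a b => ((if code σ / 3 ^ l = a ∧ code σ % 3 ^ l = b then 1 else 0 : ℕ) : ℂ))
        = (Pi.single σ 1 : Cfg n → ℂ) := by
      funext τ
      by_cases hτ : τ = σ
      · simp [at2, hτ]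
      · have : ¬ (code σ / 3 ^ l = code τ / 3 ^ l ∧ code σ % 3 ^ l = code τ % 3 ^ l) := fun h4 =>
          hτ (by rw [← dec_code τ, ← dec_code σ, ← Nat.div_add_mod (code τ) (3 ^ l), ← h4.1, ← h4.2,
            Nat.div_add_mod])
        simp [at2, hτ, this]
    rw [h3, Matrix.mulVec_single_one, Matrix.col_apply] at h2
    simp only [at2, and_self, if_true, Nat.cast_one, mul_one] at h2
    rw [h2]
    exact le_add_of_nonneg_right (Nat.cast_nonneg _)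
  have h2 := hrow v σ
  rw [Matrix.mulVec, dotProduct, Complex.re_sum,
    ← Finset.add_sum_erase _ _ (Finset.mem_univ σ)] at h2
  have h3 : ∀ τ, (H1 σ τ * at2 l (fun a b => (v a b : ℂ)) τ).re = (H1 σ τ).re * (at2 l v τ : ℕ) :=
    fun τ => by simp [at2]
  simp only [h3] at h2
  have h4 : ∑ τ ∈ S.erase σ, ‖H σ τ‖ * ((at2 l v τ : ℕ) : ℝ) ≤
      ∑ τ ∈ Finset.univ.erase σ, (H1 σ τ).re * (at2 l v τ : ℕ) := by
    refine (Finset.sum_le_sum_of_subset_of_nonneg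
      (Finset.erase_subset_erase σ (Finset.subset_univ S)) fun τ _ _ => by positivity).trans ?_
    exact Finset.sum_le_sum fun τ hτ => mul_le_mul_of_nonneg_right
      (ho σ τ (Finset.ne_of_mem_erase hτ).symm) (Nat.cast_nonneg _)
  have h5 : (0 : ℝ) ≤ (at2 l v σ : ℕ) := Nat.cast_nonneg _
  have h6 := mul_le_mul_of_nonneg_right h1 h5
  have h7 := mul_le_mul_of_nonneg_right (hd σ) h5
  have h8 := (hv σ hσ).2
  linarith

theorem gs_all2 {h l k : ℕ} {g : ℕ → ℕ → Bool} (H : all2 (Nat.succ h) (Nat.succ l) k g = true) :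
    ∀ σ ∈ Sec (h + l + 1 + 1) k, ∃ a b, a < 3 ^ (h + 1) ∧ b < 3 ^ (l + 1) ∧
      code σ / 3 ^ (l + 1) = a ∧ code σ % 3 ^ (l + 1) = b ∧ g a b = true := by
  have h1 := all2_spec _ _ k g H
  have hn : h.succ + l.succ = h + l + 1 + 1 := by omega
  rw [hn] at h1
  intro σ hσ
  refine ⟨_, _, ?_, Nat.mod_lt _ (by positivity), rfl, rfl, h1 σ hσ⟩
  rw [Nat.div_lt_iff_lt_mul (by positivity), ← pow_add]
  exact (code_lt σ).trans_eq (by congr 1; omega)

theorem gs_if (a b c : ℕ) : (ifb% (Nat.ble 1 a) (Nat.ble b c) false) = true → 1 ≤ a ∧ b ≤ c := by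
  cases h : Nat.ble 1 a
  · exact fun h' => absurd h' (by simp)
  · exact fun h' => ⟨Nat.le_of_ble_eq_true h, Nat.le_of_ble_eq_true h'⟩

theorem gs_cast (h l a b : ℕ) (V : V2) :
    sIn h l (fun x y => (V x y : ℂ)) a b = (sIn h l V a b : ℕ) ∧
      cl1 h (fun x y => (V x y : ℂ)) a b = (cl1 h V a b : ℕ) ∧
      cl2 h (fun x y => (V x y : ℂ)) a b = (cl2 h V a b : ℕ) := by
  obtain ⟨h1, h2, h3⟩ := sIn_map (Nat.castAddMonoidHom ℂ) h l a b V
  exact ⟨h1.symm, h2.symm, h3.symm⟩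

theorem gershR_sound (φ : ℂ) (hφ : ‖φ‖ = 1) (h l k den lon : ℕ) (v : V2) (hden : 0 < den)
    (H : gershR h l k den lon v = true) :
    Blk (HR φ (h + l + 1)) (Sec (h + l + 1 + 1) k) (-(lon / den : ℝ)) (h + l + 2 : ℕ) := by
  have hH := HR_isHermitian φ (Complex.inv_eq_conj hφ) (h + l + 1)
  refine ⟨hH, fun σ τ hστ => ?_, ?_, fun ψ _ => ?_⟩
  · simp [Sec, HR_dsum φ _ (by omega) σ τ hστ]
  · refine gs_st (l + 1) _ (HR 1 (h + l + 1)) hH (fun σ => ?_) (fun σ τ hστ => ?_) _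
      (at2 (l + 1) fun a b => (dR h l a b : ℝ) - (h + l + 2 : ℕ))
      (fun V => at2 (l + 1) fun a b => sIn h l V a b + cl1 h V a b + cl2 h V a b)
      (fun V σ => ?_) v _ fun σ hσ => ?_
    · simp only [HR, Matrix.add_apply, gs_diag, le_refl]
    · simp only [HR, Matrix.add_apply, Complex.add_re]
      exact (norm_add_le _ _).trans (add_le_add (gs_bulk_off hστ) (gs_off_le hφ _ _ hστ))
    · rw [HR_mulVec]
      simp only [at2, (gs_cast _ _ _ _ V).1, (gs_cast h l _ _ V).2.1, (gs_cast h l _ _ V).2.2]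
      simp
      ring
    · obtain ⟨a, b, ha, hb, ea, eb, h1⟩ := gs_all2 H σ hσ
      simp only [at2, ea, eb]
      obtain ⟨gl, gh, gm, h2, h3⟩ := both_spec (α := Bool) h l a b hb
      obtain ⟨gc, h4, h5⟩ := cross_spec (α := Bool) (a / 3 ^ h) (b % 3) (a + 3 ^ h) (b - 1)
        (a - 3 ^ h) (b + 1) (by rw [Nat.div_lt_iff_lt_mul (by positivity), ← pow_succ']; exact ha)
        (Nat.mod_lt _ (by norm_num))
      rw [h2, h4] at h1
      obtain ⟨h6, h7⟩ := gs_if _ _ _ h1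
      rw [h3, h5] at h7
      refine ⟨h6, ?_⟩
      have h8 : den * ((h + l + 2) * v a b + (cl1 h v a b + cl2 h v a b) + sIn h l v a b) ≤
        (den * dR h l a b + lon) * v a b := h7
      have h9 : (den : ℝ) * ((h + l + 2) * v a b + (cl1 h v a b + cl2 h v a b) + sIn h l v a b) ≤
        (den * dR h l a b + lon) * v a b := by exact_mod_cast h8
      have hd : (0 : ℝ) < den := by exact_mod_cast hden
      refine le_of_mul_le_mul_left ?_ hd
      have e : (den : ℝ) * (((dR h l a b : ℝ) - (h + l + 2 : ℕ) - -(lon / den)) * v a b) =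
          (den * dR h l a b + lon) * v a b - den * ((h + l + 2) * v a b) := by
        push_cast
        field_simp
        ring
      rw [e]
      push_cast
      linarith
  · refine (HR_le φ hφ _ (by omega) ψ).trans_eq ?_
    push_cast
    ring

theorem gershO_sound (sg : Bool) (h l k den lon : ℕ) (v : V2) (hden : 0 < den)
    (H : gershO sg h l k den lon v = true) :
    Blk (HO (3 / 5) (sgn sg * (3 / 5)) (h + l + 1)) (Sec (h + l + 1 + 1) k) (-(lon / den : ℝ))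
      ((h + l + 1 : ℕ) + 6 / 5) := by
  have hH := HO_isHermitian (3 / 5) (sgn sg * (3 / 5)) (h + l + 1)
  refine ⟨hH, fun σ τ hστ => ?_, ?_, fun ψ _ => ?_⟩
  · simp [Sec, HO_dsum _ _ _ σ τ hστ]
  · refine gs_st (l + 1) _ _ hH (fun σ => le_rfl) (fun σ τ hστ => ?_) _
      (at2 (l + 1) fun a b => (dIn h l a b : ℝ) - (h + l + 1 : ℕ) - 3 / 5 * (1 - (b % 3 : ℕ))
        - sgn sg * (3 / 5) * (1 - (a / 3 ^ h : ℕ)))
      (fun V => at2 (l + 1) fun a b => sIn h l V a b) (fun V σ => ?_) v _ fun σ hσ => ?_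
    · simp only [HO, Matrix.sub_apply, Matrix.diagonal_apply_ne _ hστ, sub_zero]
      exact gs_bulk_off hστ
    · rw [HO_mulVec]
      simp only [at2, (gs_cast _ _ _ _ V).1]
      norm_cast
    · obtain ⟨a, b, ha, hb, ea, eb, h1⟩ := gs_all2 H σ hσ
      simp only [at2, ea, eb]
      obtain ⟨gl, gh, gm, h2, h3⟩ := both_spec (α := Bool) h l a b hb
      have ha2 : a / 3 ^ h < 3 := by
        rw [Nat.div_lt_iff_lt_mul (by positivity), ← pow_succ']
        exact ha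
      rw [h2] at h1
      obtain ⟨h6, h7⟩ := gs_if _ _ _ h1
      rw [h3] at h7
      refine ⟨h6, ?_⟩
      have h8 : den * (5 * (0 + sIn h l v a b) + (5 * (h + l) + 11) * v a b) ≤
          (den * (5 * dIn h l a b + 3 * (b % 3 + if sg then a / 3 ^ h else 2 - a / 3 ^ h)) +
            5 * lon) * v a b := by
        cases sg <;> exact h7
      have h9 : ((if sg then a / 3 ^ h else 2 - a / 3 ^ h : ℕ) : ℝ) =
          1 - sgn sg * (1 - (a / 3 ^ h : ℕ)) := by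
        cases sg
        · simp only [sgn, Bool.false_eq_true, if_false]
          rw [Nat.cast_sub (by omega)]
          push_cast
          ring
        · simp [sgn]
      generalize (if sg then a / 3 ^ h else 2 - a / 3 ^ h : ℕ) = t at h8 h9
      generalize a / 3 ^ h = t' at h9
      generalize b % 3 = t'' at h8
      have h10 : (den : ℝ) * (5 * (0 + sIn h l v a b) + (5 * (h + l) + 11) * v a b) ≤
          (den * (5 * dIn h l a b + 3 * (t'' + t)) + 5 * lon) * v a b := by exact_mod_cast h8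
      have hd : (0 : ℝ) < 5 * den := by positivity
      refine le_of_mul_le_mul_left ?_ hd
      have e : 5 * (den : ℝ) * (((dIn h l a b : ℝ) - (h + l + 1 : ℕ) - 3 / 5 * (1 - t'')
          - sgn sg * (3 / 5) * (1 - t') - -(lon / den)) * v a b) =
          (den * (5 * dIn h l a b + 3 * (t'' + t)) + 5 * lon) * v a b
            - den * ((5 * (h + l) + 11) * v a b) := by
        rw [h9]
        push_cast
        field_simp
        ring
      rw [e]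
      linarith
  · refine (HO_le _ _ _ ψ).trans_eq ?_
    have : |sgn sg * (3 / 5)| = 3 / 5 := by cases sg <;> norm_num [sgn, abs_of_pos]
    rw [this, abs_of_pos (by norm_num : (0 : ℝ) < 3 / 5)]
    ring

end Crest.Agent.R347
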