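import Crest.Agent.R347.KSpec

/-! Codes of configurations, sector enumeration. -/

set_option autoImplicit false

namespace Crest.Agent.R347

open Matrix Crest.MathPhysics.SpinChain Filter Topology K

theorem frc_eq {α : Type} (n : ℕ) (f : ℕ → α) : frc n f = f n := rfl

theorem code_eq {n : ℕ} (σ : Cfg n) : code σ = finFunctionFinEquiv σ :=
  (finFunctionFinEquiv_apply σ).symm

theorem code_lt {n : ℕ} (σ : Cfg n) : code σ < 3 ^ n := by
  rw [code_eq]; exact (finFunctionFinEquiv σ).2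

theorem dg_code {n : ℕ} (σ : Cfg n) (j : Fin n) : dg (code σ) j = σ j := by
  have := finFunctionFinEquiv_symm_apply_val (finFunctionFinEquiv σ) j
  rw [Equiv.symm_apply_apply] at this
  rw [this, code_eq]; rfl

theorem dec_code {n : ℕ} (σ : Cfg n) : dec n (code σ) = σ := by
  funext j
  exact Fin.ext (dg_code σ j)

theorem code_dec {n x : ℕ} (hx : x < 3 ^ n) : code (dec n x) = x := by
  have : dec n x = finFunctionFinEquiv.symm ⟨x, hx⟩ := by
    funext j
    exact Fin.ext (finFunctionFinEquiv_symm_apply_val ⟨x, hx⟩ j).symm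
  rw [code_eq, this, Equiv.apply_symm_apply]

/-- Changing one digit. -/
theorem code_update {n : ℕ} (σ : Cfg n) (j : Fin n) (v : Fin 3) :
    code (Function.update σ j v) + (σ j : ℕ) * 3 ^ (j : ℕ) = code σ + (v : ℕ) * 3 ^ (j : ℕ) := by
  unfold code
  rw [← Finset.add_sum_erase _ _ (Finset.mem_univ j),
    ← Finset.add_sum_erase _ (fun i => (σ i : ℕ) * 3 ^ (i : ℕ)) (Finset.mem_univ j),
    Function.update_self, Finset.sum_congr rfl fun i hi => by
      rw [Function.update_of_ne (Finset.ne_of_mem_erase hi)]]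
  ring

theorem code_flp {n : ℕ} (σ : Cfg n) : code (flp σ) + code σ + 1 = 3 ^ n := by
  have h1 : code (flp σ) + code σ = ∑ j ∈ Finset.range n, 2 * 3 ^ j := by
    unfold code flp
    rw [← Finset.sum_add_distrib, ← Fin.sum_univ_eq_sum_range (fun j => 2 * 3 ^ j)]
    refine Finset.sum_congr rfl fun j _ => ?_
    rw [← add_mul, Fin.val_rev]
    congr 1
    have := (σ j).2
    omega
  rw [h1]
  clear h1 σ
  induction n with
  | zero => rfl
  | succ n ih => rw [Finset.sum_range_succ, pow_succ]; omega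

theorem dsum_flp {n : ℕ} (σ : Cfg n) : dsum (flp σ) + dsum σ = 2 * n := by
  unfold dsum flp
  rw [← Finset.sum_add_distrib, Finset.sum_congr rfl (g := fun _ => 2) fun j _ => by
    have := (σ j).2
    rw [Fin.val_rev]; omega]
  simp [mul_comm]

/-- The inner loop of `chunk`. -/
noncomputable def chunkI {α : Type} (k : ((ℕ → ℕ) → ℕ → ℕ) → α) (l : List ℕ) : ℕ → ℕ → ℕ → ℕ → ((ℕ → ℕ) → ℕ → ℕ) → α :=
  @List.rec ℕ (fun _ => ℕ → ℕ → ℕ → ℕ → ((ℕ → ℕ) → ℕ → ℕ) → α)
    (fun cnt a b c g =>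
      @Nat.rec (fun _ => α) (k g) (fun cnt _ =>
      @Nat.rec (fun _ => α) (k fun f x => Nat.add (g f x) (f a)) (fun cnt _ =>
      @Nat.rec (fun _ => α) (k fun f x => Nat.add (Nat.add (g f x) (f a)) (f b)) (fun _ _ =>
        k fun f x => Nat.add (Nat.add (Nat.add (g f x) (f a)) (f b)) (f c)) cnt) cnt) cnt)
    (fun d _ ih cnt a b c g =>
      @Nat.rec (fun _ => α) (ih 1 d 0 0 g) (fun cnt _ =>
      @Nat.rec (fun _ => α) (ih 2 a d 0 g) (fun cnt _ =>
      @Nat.rec (fun _ => α) (ih 3 a b d g) (fun _ _ =>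
        ih 0 0 0 0 fun f x =>
          Nat.add (Nat.add (Nat.add (Nat.add (g f x) (f a)) (f b)) (f c)) (f d))
            cnt) cnt) cnt) l

theorem chunkI_spec {α : Type} (l : List ℕ) : ∀ (cnt a b c : ℕ) (g : ((ℕ → ℕ) → ℕ → ℕ)), ∃ g' : ((ℕ → ℕ) → ℕ → ℕ),
    (∀ k : ((ℕ → ℕ) → ℕ → ℕ) → α, chunkI k l cnt a b c g = k g') ∧
      ∀ f x, g' f x = g f x + ((([a, b, c].take cnt) ++ l).map fun i => (f i)).sum := by
  induction l with
  | nil =>
    intro cnt a b c g
    match cnt with
    | 0 => exact ⟨_, fun _ => rfl, fun f x => by simp⟩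
    | 1 => exact ⟨_, fun _ => rfl, fun f x => by simp⟩
    | 2 => exact ⟨_, fun _ => rfl, fun f x => by simp [add_assoc]⟩
    | n + 3 => exact ⟨_, fun _ => rfl, fun f x => by simp [add_assoc]⟩
  | cons d l ih =>
    intro cnt a b c g
    match cnt with
    | 0 =>
      obtain ⟨g', h1, h2⟩ := ih 1 d 0 0 g
      exact ⟨g', h1, fun f x => by simp [h2]⟩
    | 1 =>
      obtain ⟨g', h1, h2⟩ := ih 2 a d 0 g
      exact ⟨g', h1, fun f x => by simp [h2]⟩
    | 2 =>
      obtain ⟨g', h1, h2⟩ := ih 3 a b d g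
      exact ⟨g', h1, fun f x => by simp [h2]⟩
    | n + 3 =>
      obtain ⟨g', h1, h2⟩ := ih 0 0 0 0 fun f x =>
        Nat.add (Nat.add (Nat.add (Nat.add (g f x) (f a)) (f b)) (f c)) (f d)
      exact ⟨g', h1, fun f x => by simp [h2, add_assoc]⟩

theorem chunk_spec {α : Type} (l : List ℕ) : ∃ g : (ℕ → ℕ) → ℕ → ℕ,
    (∀ k : ((ℕ → ℕ) → ℕ → ℕ) → α, chunk l k = k g) ∧ ∀ f x, g f x = x + (l.map f).sum := by
  match l with
  | [] => exact ⟨_, fun _ => rfl, fun f x => by simp⟩
  | [a] => exact ⟨_, fun _ => rfl, fun f x => by simp⟩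
  | [a, b] => exact ⟨_, fun _ => rfl, fun f x => by simp [add_assoc]⟩
  | [a, b, c] => exact ⟨_, fun _ => rfl, fun f x => by simp [add_assoc]⟩
  | a :: b :: c :: d :: l =>
    obtain ⟨g', h1, h2⟩ := chunkI_spec (α := α) l 0 0 0 0 fun f x =>
      Nat.add (Nat.add (Nat.add (Nat.add x (f a)) (f b)) (f c)) (f d)
    exact ⟨g', h1, fun f x => by simp [h2, add_assoc]⟩

/-- The inner loop of `chunkH`. -/
noncomputable def chunkHI {α : Type} (k : (V2 → ℕ → ℕ → ℕ) → α) (l : List ℕ) : ℕ → ℕ → ℕ → ℕ → (V2 → ℕ → ℕ → ℕ) → α :=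
  @List.rec ℕ (fun _ => ℕ → ℕ → ℕ → ℕ → (V2 → ℕ → ℕ → ℕ) → α)
    (fun cnt a b c g =>
      @Nat.rec (fun _ => α) (k g) (fun cnt _ =>
      @Nat.rec (fun _ => α) (k fun f y x => Nat.add (g f y x) (f a y)) (fun cnt _ =>
      @Nat.rec (fun _ => α) (k fun f y x => Nat.add (Nat.add (g f y x) (f a y)) (f b y)) (fun _ _ =>
        k fun f y x => Nat.add (Nat.add (Nat.add (g f y x) (f a y)) (f b y)) (f c y)) cnt) cnt) cnt)
    (fun d _ ih cnt a b c g =>
      @Nat.rec (fun _ => α) (ih 1 d 0 0 g) (fun cnt _ =>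
      @Nat.rec (fun _ => α) (ih 2 a d 0 g) (fun cnt _ =>
      @Nat.rec (fun _ => α) (ih 3 a b d g) (fun _ _ =>
        ih 0 0 0 0 fun f y x =>
          Nat.add (Nat.add (Nat.add (Nat.add (g f y x) (f a y)) (f b y)) (f c y)) (f d y))
            cnt) cnt) cnt) l

theorem chunkHI_spec {α : Type} (l : List ℕ) : ∀ (cnt a b c : ℕ) (g : (V2 → ℕ → ℕ → ℕ)), ∃ g' : (V2 → ℕ → ℕ → ℕ),
    (∀ k : (V2 → ℕ → ℕ → ℕ) → α, chunkHI k l cnt a b c g = k g') ∧
      ∀ f y x, g' f y x = g f y x + ((([a, b, c].take cnt) ++ l).map fun i => (f i y)).sum := by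
  induction l with
  | nil =>
    intro cnt a b c g
    match cnt with
    | 0 => exact ⟨_, fun _ => rfl, fun f y x => by simp⟩
    | 1 => exact ⟨_, fun _ => rfl, fun f y x => by simp⟩
    | 2 => exact ⟨_, fun _ => rfl, fun f y x => by simp [add_assoc]⟩
    | n + 3 => exact ⟨_, fun _ => rfl, fun f y x => by simp [add_assoc]⟩
  | cons d l ih =>
    intro cnt a b c g
    match cnt with
    | 0 =>
      obtain ⟨g', h1, h2⟩ := ih 1 d 0 0 g
      exact ⟨g', h1, fun f y x => by simp [h2]⟩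
    | 1 =>
      obtain ⟨g', h1, h2⟩ := ih 2 a d 0 g
      exact ⟨g', h1, fun f y x => by simp [h2]⟩
    | 2 =>
      obtain ⟨g', h1, h2⟩ := ih 3 a b d g
      exact ⟨g', h1, fun f y x => by simp [h2]⟩
    | n + 3 =>
      obtain ⟨g', h1, h2⟩ := ih 0 0 0 0 fun f y x =>
        Nat.add (Nat.add (Nat.add (Nat.add (g f y x) (f a y)) (f b y)) (f c y)) (f d y)
      exact ⟨g', h1, fun f y x => by simp [h2, add_assoc]⟩

theorem chunkH_spec {α : Type} (l : List ℕ) : ∃ g : V2 → ℕ → ℕ → ℕ,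
    (∀ k : (V2 → ℕ → ℕ → ℕ) → α, chunkH l k = k g) ∧
      ∀ f y x, g f y x = x + (l.map fun i => f i y).sum := by
  match l with
  | [] => exact ⟨_, fun _ => rfl, fun f y x => by simp⟩
  | [a] => exact ⟨_, fun _ => rfl, fun f y x => by simp⟩
  | [a, b] => exact ⟨_, fun _ => rfl, fun f y x => by simp [add_assoc]⟩
  | [a, b, c] => exact ⟨_, fun _ => rfl, fun f y x => by simp [add_assoc]⟩
  | a :: b :: c :: d :: l =>
    obtain ⟨g', h1, h2⟩ := chunkHI_spec (α := α) l 0 0 0 0 fun f y x =>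
      Nat.add (Nat.add (Nat.add (Nat.add x (f a y)) (f b y)) (f c y)) (f d y)
    exact ⟨g', h1, fun f y x => by simp [h2, add_assoc]⟩

theorem code_append {l h : ℕ} (τ : Cfg l) (ρ : Cfg h) :
    code (Fin.append τ ρ) = code τ + 3 ^ l * code ρ := by
  unfold code
  rw [Fin.sum_univ_add, Finset.mul_sum]
  simp only [Fin.append_left, Fin.append_right, Fin.val_castAdd, Fin.val_natAdd, pow_add]
  congr 1
  exact Finset.sum_congr rfl fun _ _ => by ring

theorem dsum_append {l h : ℕ} (τ : Cfg l) (ρ : Cfg h) :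
    dsum (Fin.append τ ρ) = dsum τ + dsum ρ := by
  unfold dsum
  rw [Fin.sum_univ_add]
  simp only [Fin.append_left, Fin.append_right]

theorem at2_append {R : Type} {l h : ℕ} (g : ℕ → ℕ → R) (τ : Cfg l) (ρ : Cfg h) :
    at2 l g (Fin.append τ ρ) = g (code ρ) (code τ) := by
  unfold at2
  rw [code_append, Nat.add_mul_div_left _ _ (by positivity), Nat.add_mul_mod_self_left,
    Nat.div_eq_of_lt (code_lt τ), Nat.mod_eq_of_lt (code_lt τ), zero_add]

theorem sum_Sec_add (l h k : ℕ) (F : Cfg (l + h) → ℕ) : ∑ σ ∈ Sec (l + h) k, F σ =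
    ∑ ρ : Cfg h, ∑ τ : Cfg l, if dsum τ + dsum ρ = k then F (Fin.append τ ρ) else 0 := by
  rw [Sec, Finset.sum_filter, ← (Fin.appendEquiv l h).sum_comp, Fintype.sum_prod_type_right]
  refine Finset.sum_congr rfl fun ρ _ => Finset.sum_congr rfl fun τ _ => ?_
  exact if_congr (by rw [← dsum_append]; rfl) rfl rfl

theorem sum_Sec_succ (m k : ℕ) (F : ℕ → ℕ) : ∑ σ ∈ Sec (m + 1) k, F (code σ) =
    ∑ v : Fin 3, ∑ τ : Cfg m, if dsum τ + v = k then F (code τ + 3 ^ m * v) else 0 := by
  rw [sum_Sec_add, ← (Equiv.funUnique (Fin 1) (Fin 3)).symm.sum_comp]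
  refine Finset.sum_congr rfl fun v _ => Finset.sum_congr rfl fun τ _ => ?_
  rw [code_append]
  simp [dsum, code]

theorem secL_gen (f : ℕ → ℕ) (n : ℕ) : ∀ (k b : ℕ) (acc : List ℕ),
    ((secL n k b acc).map f).sum = ∑ σ ∈ Sec n k, f (b + code σ) + (acc.map f).sum := by
  induction n with
  | zero =>
    intro k b acc
    match k with
    | 0 =>
      change ((b :: acc).map f).sum = _
      simp [Sec, dsum, code]
    | k + 1 =>
      change (acc.map f).sum = _
      simp [Sec, dsum]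
  | succ m ih =>
    intro k b acc
    have e : secL (m + 1) k b acc = ift% (List ℕ) (Nat.ble k (2 * (m + 1)))
        (secL m k b (@Nat.rec (fun _ => List ℕ) acc (fun k1 _ =>
            secL m k1 (b + 3 ^ m) (@Nat.rec (fun _ => List ℕ) acc (fun k2 _ =>
              secL m k2 (b + 3 ^ m + 3 ^ m) acc) k1)) k)) acc := rfl
    rw [e]
    cases hk : Nat.ble k (2 * (m + 1))
    · have h1 : ¬ k ≤ 2 * (m + 1) := fun h => by rw [Nat.ble_eq_true_of_le h] at hk; cases hk
      have h2 : Sec (m + 1) k = ∅ := Finset.filter_eq_empty_iff.2 fun σ _ h => by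
        have := dsum_flp σ
        omega
      rw [h2]; simp
    · rw [sum_Sec_succ m k fun x => f (b + x), Fin.sum_univ_three]
      have e1 : ∀ x, b + 3 ^ m + x = b + (x + 3 ^ m) := fun x => by ring
      have e2 : ∀ x, b + 3 ^ m + 3 ^ m + x = b + (x + 3 ^ m * 2) := fun x => by ring
      match k with
      | 0 => simp [ih, Sec, Finset.sum_filter]
      | 1 =>
        change (List.map f (secL m 1 b (secL m 0 (b + 3 ^ m) acc))).sum = _
        simp only [ih, e1]
        simp [Sec, Finset.sum_filter, add_assoc]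
      | k + 2 =>
        simp only [ih, e2]
        simp only [e1]
        simp [Sec, Finset.sum_filter, add_assoc]

theorem secL_sum (n k : ℕ) (f : ℕ → ℕ) :
    ((secL n k 0 []).map f).sum = ∑ σ ∈ Sec n k, f (code σ) := by
  simpa using secL_gen f n k 0 []

theorem secL_mem {n k : ℕ} {σ : Cfg n} (h : σ ∈ Sec n k) : code σ ∈ secL n k 0 [] := by
  by_contra hx
  have h1 := secL_sum n k fun x => if x = code σ then 1 else 0
  have h2 : ((secL n k 0 []).map fun x => if x = code σ then 1 else 0).sum = 0 := by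
    refine List.sum_eq_zero fun y hy => ?_
    obtain ⟨x, hx', rfl⟩ := List.mem_map.1 hy
    exact if_neg fun e : x = code σ => hx (e ▸ hx')
  rw [h2] at h1
  simpa using Finset.sum_eq_zero_iff.1 h1.symm σ h

theorem secS_g (n k : ℕ) (f : ℕ → ℕ) (x : ℕ) :
    (secS n k).1 f x = x + ∑ σ ∈ Sec n k, f (code σ) := by
  obtain ⟨g, h1, h2⟩ := chunk_spec (α := Sm) (secL n k 0 [])
  rw [secS, h1, ← secL_sum]
  exact h2 f x

theorem sum2_spec (h l k : ℕ) (g : ℕ → ℕ → ℕ) :
    sum2 h l k g = ∑ σ ∈ Sec (h + l) k, at2 l g σ := by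
  have h1 : ∀ m : ℕ, (@Nat.rec (fun _ => ℕ) 0 (fun s ih => frc (Nat.sub k s) fun s' =>
      (secS h s).1 (fun a => (secS l s').1 (g a) 0) ih) m) =
      ∑ s ∈ Finset.range m, ∑ ρ ∈ Sec h s, ∑ τ ∈ Sec l (k - s), g (code ρ) (code τ) := by
    intro m
    induction m with
    | zero => rfl
    | succ m ih =>
      rw [Finset.sum_range_succ, ← ih]
      refine (secS_g h m _ _).trans ?_
      simp only [secS_g, zero_add]
      rfl
  refine (h1 (k + 1)).trans ?_
  rw [Nat.add_comm h l, sum_Sec_add]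
  simp only [at2_append, Sec, Finset.sum_filter]
  symm
  calc _ = ∑ ρ : Cfg h, ∑ s ∈ Finset.range (k + 1), if dsum ρ = s then
        ∑ τ : Cfg l, (if dsum τ = k - s then g (code ρ) (code τ) else 0) else 0 := by
        refine Finset.sum_congr rfl fun ρ _ => ?_
        rw [Finset.sum_ite_eq]
        split_ifs with h2
        · have := Finset.mem_range.1 h2
          exact Finset.sum_congr rfl fun τ _ => if_congr (by omega) rfl rfl
        · rw [Finset.mem_range] at h2
          exact Finset.sum_eq_zero fun τ _ => if_neg (by omega)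
    _ = _ := Finset.sum_comm

theorem all2_spec (h l k : ℕ) (g : ℕ → ℕ → Bool) (H : all2 h l k g = true) :
    ∀ σ ∈ Sec (h + l) k, at2 l g σ = true := by
  have h0 : ∀ (L : List ℕ) (f : ℕ → Bool), allL L f = true → ∀ a ∈ L, f a = true := by
    intro L f
    induction L with
    | nil => simp
    | cons a L ih =>
      intro hL
      change (ifb% (f a) (allL L f) false) = true at hL
      cases ha : f a
      · rw [ha] at hL; exact absurd hL (by simp)
      · rw [ha] at hL
        simpa [ha] using ih hL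
  have h1 : ∀ m : ℕ, (@Nat.rec (fun _ => Bool) true (fun s ih => frc (Nat.sub k s) fun s' =>
      ifb% (allL (secL h s 0 []) fun a => allL (secL l s' 0 []) (g a)) ih false) m) = true →
      ∀ s < m, allL (secL h s 0 []) (fun a => allL (secL l (k - s) 0 []) (g a)) = true := by
    intro m
    induction m with
    | zero => simp
    | succ m ih =>
      intro hm s hs
      change (ifb% (allL (secL h m 0 []) fun a => allL (secL l (k - m) 0 []) (g a)) _ false) = true
        at hm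
      cases ha : allL (secL h m 0 []) fun a => allL (secL l (k - m) 0 []) (g a)
      · rw [ha] at hm; exact absurd hm (by simp)
      · rw [ha] at hm
        rcases (Nat.lt_succ_iff.1 hs).lt_or_eq with hs | rfl
        · exact ih hm s hs
        · exact ha
  rw [Nat.add_comm h l]
  intro σ hσ
  obtain ⟨⟨τ, ρ⟩, rfl⟩ := (Fin.appendEquiv l h).surjective σ
  have h2 : dsum τ + dsum ρ = k := by
    rw [← dsum_append]; exact (Finset.mem_filter.1 hσ).2
  refine (at2_append g τ ρ).trans ?_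
  refine h0 _ _ (h0 _ _ (h1 (k + 1) H (dsum ρ) (by omega)) _ (secL_mem ?_)) _ (secL_mem ?_)
  · simp [Sec]
  · simp only [Sec, Finset.mem_filter, Finset.mem_univ, true_and]; omega

theorem card_Sec (h l k : ℕ) : (Sec (h + l) k).card = sum2 h l k fun _ _ => 1 := by
  rw [sum2_spec, Finset.card_eq_sum_ones]; rfl

theorem apfree_CL (n : ℕ) : APfree (CL.take n) := by
  have h : ∀ j < 160, ∀ k < 160, (j + k) % 2 = 0 → CL.getD j 0 = CL.getD ((j + k) / 2) 0 →
      CL.getD k 0 = CL.getD ((j + k) / 2) 0 → j = k := by decide +kernel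
  have hl : CL.length = 160 := rfl
  intro i j k hj hk hi h1 h2
  rw [List.length_take, hl] at hj hk
  have e : ∀ m, m < n → (CL.take n).getD m 0 = CL.getD m 0 := fun m hm => by
    simp [List.getD_eq_getElem?_getD, List.getElem?_take_of_lt hm]
  rw [e j (by omega), e i (by omega)] at h1
  rw [e k (by omega), e i (by omega)] at h2
  refine h j (by omega) k (by omega) (by omega) ?_ ?_ <;> rwa [show (j + k) / 2 = i by omega]

end Crest.Agent.R347
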