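import Crest.Agent.R347.CDefs

/-! Comparison of `exp (-8 H)` with the square of a polynomial in `H`. -/

set_option autoImplicit false

namespace Crest.Agent.R347

open Matrix Crest.MathPhysics.SpinChain Filter Topology K

variable {ι : Type} [Fintype ι] [DecidableEq ι] {H : Matrix ι ι ℂ} {S : Finset ι} {lo hi : ℝ}

theorem poly_map_clen {A B : Type} [Ring A] [Ring B] (φ : A →+* B) (t : A) (q : ℕ) (cs : List ℕ)
    (b1 b0 : A) : φ (clen t q cs b1 b0) = clen (φ t) q cs (φ b1) (φ b0) := by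
  induction cs generalizing b1 b0 with
  | nil => rfl
  | cons c cs ih => simp only [clen, ih, map_add, map_sub, map_mul, map_natCast]

theorem poly_comm_clen {A : Type} [Ring A] {D t : A} (ht : Commute D t) (q : ℕ) (cs : List ℕ)
    {b1 b0 : A} (h1 : Commute D b1) (h0 : Commute D b0) : Commute D (clen t q cs b1 b0) := by
  induction cs generalizing b1 b0 with
  | nil => exact h1
  | cons c cs ih =>
    exact ih (((ht.mul_right h1).sub_right ((Nat.commute_cast D q).mul_right h0)).add_right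
      (Nat.commute_cast D c)) h1

/-- Functional calculus in the eigenbasis given by the columns of `U`. -/
noncomputable def pfc (U : Matrix ι ι ℂ) (g : ι → ℝ) : Matrix ι ι ℂ :=
  U * diagonal (fun i => (g i : ℂ)) * star U

theorem pfc_apply (U : Matrix ι ι ℂ) (g : ι → ℝ) (τ σ : ι) :
    pfc U g τ σ = ∑ i, (g i : ℂ) * (U τ i * star (U σ i)) := by
  rw [pfc, Matrix.mul_apply]
  refine Finset.sum_congr rfl fun i _ => ?_
  rw [Matrix.mul_diagonal, Matrix.star_apply]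
  ring

theorem pfc_diag (U : Matrix ι ι ℂ) (g : ι → ℝ) (σ : ι) :
    (pfc U g σ σ).re = ∑ i, g i * ‖U σ i‖ ^ 2 := by
  rw [pfc_apply, Complex.re_sum]
  refine Finset.sum_congr rfl fun i _ => ?_
  rw [RCLike.star_def, Complex.mul_conj, Complex.normSq_eq_norm_sq, ← Complex.ofReal_mul,
    Complex.ofReal_re]

theorem pfc_mul {U : Matrix ι ι ℂ} (h1 : star U * U = 1) (g g' : ι → ℝ) :
    pfc U (g * g') = pfc U g * pfc U g' := by
  unfold pfc
  have : (diagonal fun i => (((g * g') i : ℝ) : ℂ)) =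
      diagonal (fun i => (g i : ℂ)) * diagonal (fun i => (g' i : ℂ)) := by
    rw [diagonal_mul_diagonal]
    simp
  rw [this]
  calc U * (diagonal (fun i => (g i : ℂ)) * diagonal (fun i => (g' i : ℂ))) * star U
      = U * diagonal (fun i => (g i : ℂ)) * (star U * U) * diagonal (fun i => (g' i : ℂ))
        * star U := by rw [h1]; simp only [Matrix.mul_assoc, Matrix.one_mul]
    _ = _ := by simp only [Matrix.mul_assoc]

theorem pfc_one {U : Matrix ι ι ℂ} (h2 : U * star U = 1) : pfc U 1 = 1 := by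
  simp [pfc, h2]

theorem pfc_add (U : Matrix ι ι ℂ) (g g' : ι → ℝ) : pfc U (g + g') = pfc U g + pfc U g' := by
  ext τ σ
  simp only [pfc_apply, Matrix.add_apply, Pi.add_apply, Complex.ofReal_add, add_mul,
    Finset.sum_add_distrib]

theorem pfc_smul (U : Matrix ι ι ℂ) (a : ℝ) (g : ι → ℝ) :
    pfc U (fun i => a * g i) = (a : ℂ) • pfc U g := by
  ext τ σ
  simp only [pfc_apply, Matrix.smul_apply, Complex.ofReal_mul, smul_eq_mul, Finset.mul_sum,
    mul_assoc]

theorem pfc_herm (U : Matrix ι ι ℂ) (g : ι → ℝ) (τ σ : ι) : star (pfc U g τ σ) = pfc U g σ τ := by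
  simp only [pfc_apply, star_sum, star_mul', RCLike.star_def, Complex.conj_ofReal,
    Complex.conj_conj]
  exact Finset.sum_congr rfl fun i _ => by ring

/-- The functional calculus as a ring homomorphism. -/
noncomputable def pfcHom {U : Matrix ι ι ℂ} (h1 : star U * U = 1) (h2 : U * star U = 1) :
    (ι → ℝ) →+* Matrix ι ι ℂ where
  toFun := pfc U
  map_one' := pfc_one h2
  map_mul' := pfc_mul h1
  map_zero' := by simp [pfc]
  map_add' := pfc_add U

theorem pfc_row {U : Matrix ι ι ℂ} (h2 : U * star U = 1) (σ : ι) : ∑ i, ‖U σ i‖ ^ 2 = 1 := by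
  have := pfc_diag U 1 σ
  rw [pfc_one h2] at this
  simpa using this.symm

theorem pfc_bound (U : Matrix ι ι ℂ) {g w : ι → ℝ} {τ σ : ι}
    (hσ : ∀ i, U σ i ≠ 0 → |g i| ≤ w i) (hτ : ∀ i, U τ i ≠ 0 → 0 ≤ w i) :
    ‖pfc U g τ σ‖ ≤ ((pfc U w τ τ).re + (pfc U w σ σ).re) / 2 := by
  rw [pfc_apply, pfc_diag, pfc_diag, ← Finset.sum_add_distrib, Finset.sum_div]
  refine (norm_sum_le _ _).trans (Finset.sum_le_sum fun i _ => ?_)
  rw [norm_mul, norm_mul, norm_star, Complex.norm_real, Real.norm_eq_abs]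
  by_cases h : U σ i = 0
  · by_cases h' : U τ i = 0
    · simp [h, h']
    · have := hτ i h'
      simp only [h, norm_zero, mul_zero, ne_eq, OfNat.ofNat_ne_zero, not_false_eq_true, zero_pow,
        add_zero]
      positivity
  · have h3 := hσ i h
    have h4 : 0 ≤ w i := (abs_nonneg _).trans h3
    calc |g i| * (‖U τ i‖ * ‖U σ i‖) ≤ w i * (‖U τ i‖ * ‖U σ i‖) :=
          mul_le_mul_of_nonneg_right h3 (by positivity)
      _ ≤ w i * ((‖U τ i‖ ^ 2 + ‖U σ i‖ ^ 2) / 2) :=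
          mul_le_mul_of_nonneg_left (by nlinarith [sq_nonneg (‖U τ i‖ - ‖U σ i‖)]) h4
      _ = _ := by ring

theorem poly_dot_self (ψ : ι → ℂ) : (star ψ ⬝ᵥ ψ).re = ∑ j, ‖ψ j‖ ^ 2 := by
  rw [dotProduct, Complex.re_sum]
  refine Finset.sum_congr rfl fun j _ => ?_
  rw [Pi.star_apply, RCLike.star_def, ← Complex.normSq_eq_conj_mul_self, Complex.ofReal_re,
    Complex.normSq_eq_norm_sq]

theorem poly_spec (B : Blk H S lo hi) : ∃ (U : Matrix ι ι ℂ) (lam : ι → ℝ),
    star U * U = 1 ∧ U * star U = 1 ∧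
    (∀ β : ℝ, EX H β = pfc U fun i => Real.exp (-(β * lam i))) ∧
    (∀ (s : ℕ) (c : ℤ) (q : ℕ) (cs : List ℕ),
      PM H s c q cs = pfc U fun i => clen ((c : ℝ) - s * lam i) q cs 0 0) ∧
    ∀ σ ∈ S, ∀ i, U σ i ≠ 0 → lo ≤ lam i ∧ lam i ≤ hi := by
  have hH := B.herm
  set U : Matrix ι ι ℂ := (hH.eigenvectorUnitary : Matrix ι ι ℂ) with hU
  set d : ι → ℂ := fun i => (hH.eigenvalues i : ℂ) with hd
  have h1 : star U * U = 1 := by
    rw [hU]; exact Matrix.mem_unitaryGroup_iff'.mp hH.eigenvectorUnitary.2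
  have h2 : U * star U = 1 := by
    rw [hU]; exact Matrix.mem_unitaryGroup_iff.mp hH.eigenvectorUnitary.2
  have hXe : H = U * Matrix.diagonal d * star U := by
    have := hH.spectral_theorem
    rw [Unitary.conjStarAlgAut_apply] at this
    exact this
  refine ⟨U, hH.eigenvalues, h1, h2, fun t => ?_, fun s c q cs => ?_, fun σ hσ i hi' => ?_⟩
  · let W : (Matrix ι ι ℂ)ˣ := ⟨U, star U, h2, h1⟩
    have h3 := Matrix.exp_units_conj W (-(t : ℂ) • Matrix.diagonal d)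
    have h4 : -(t : ℂ) • H = U * (-(t : ℂ) • Matrix.diagonal d) * star U := by
      rw [Matrix.mul_smul, Matrix.smul_mul, ← hXe]
    have h5 : NormedSpace.exp (-(t : ℂ) • H) =
        U * NormedSpace.exp (-(t : ℂ) • Matrix.diagonal d) * star U := by
      rw [h4]; exact h3
    rw [EX, h5, ← Matrix.diagonal_smul, Matrix.exp_diagonal, pfc]
    congr 3
    funext i
    rw [Pi.coe_exp, ← Complex.exp_eq_exp_ℂ, Complex.ofReal_exp]
    congr 1
    simp [hd]
  · have hH' : H = pfc U hH.eigenvalues := hXe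
    have h3 : (c : ℂ) • (1 : Matrix ι ι ℂ) - (s : ℂ) • H =
        pfcHom h1 h2 (fun i => (c : ℝ) - s * hH.eigenvalues i) := by
      have h4 : (fun i => (c : ℝ) - s * hH.eigenvalues i) =
          (fun i => (c : ℝ) * (1 : ι → ℝ) i) - fun i => (s : ℝ) * hH.eigenvalues i := by
        funext i; simp
      rw [h4, map_sub]
      change _ = pfc U _ - pfc U _
      rw [pfc_smul, pfc_smul, pfc_one h2, ← hH']
      simp
    have h5 := poly_map_clen (pfcHom h1 h2) (fun i => (c : ℝ) - s * hH.eigenvalues i) q cs 0 0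
    rw [map_zero] at h5
    rw [PM, h3, ← h5]
    change pfc U _ = pfc U _
    congr 1
    funext i
    exact poly_map_clen (Pi.evalRingHom (fun _ : ι => ℝ) i) _ q cs 0 0
  · set ψ : ι → ℂ := fun j => if j ∈ S then U j i else 0 with hψ
    have hψ0 : ∀ τ, τ ∉ S → ψ τ = 0 := fun τ hτ => if_neg hτ
    have hcol : ∀ j, ∑ k, H j k * U k i = d i * U j i := by
      intro j
      have h3 : H * U = U * Matrix.diagonal d := by
        conv_lhs => rw [hXe]
        rw [Matrix.mul_assoc, h1, Matrix.mul_one]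
      have h4 := congrFun (congrFun h3 j) i
      rw [Matrix.mul_diagonal, Matrix.mul_apply] at h4
      rw [h4, mul_comm]
    have hev : H *ᵥ ψ = d i • ψ := by
      funext j
      change ∑ k, H j k * ψ k = d i * ψ j
      by_cases hj : j ∈ S
      · rw [show ψ j = U j i from if_pos hj, ← hcol j]
        refine Finset.sum_congr rfl fun k _ => ?_
        by_cases hk : k ∈ S
        · rw [show ψ k = U k i from if_pos hk]
        · have : H j k = 0 := by
            by_contra hne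
            exact hk ((B.inv j k hne).1 hj)
          rw [this, zero_mul, zero_mul]
      · rw [hψ0 j hj, mul_zero]
        refine Finset.sum_eq_zero fun k _ => ?_
        by_cases hk : k ∈ S
        · have : H j k = 0 := by
            by_contra hne
            exact hj ((B.inv j k hne).2 hk)
          rw [this, zero_mul]
        · rw [hψ0 k hk, mul_zero]
    have hpos : 0 < (star ψ ⬝ᵥ ψ).re := by
      rw [poly_dot_self]
      refine Finset.sum_pos' (fun j _ => by positivity) ⟨σ, Finset.mem_univ _, ?_⟩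
      rw [show ψ σ = U σ i from if_pos hσ]
      positivity
    have hq : (star ψ ⬝ᵥ H *ᵥ ψ).re = hH.eigenvalues i * (star ψ ⬝ᵥ ψ).re := by
      rw [hev, dotProduct_smul, smul_eq_mul, hd, Complex.re_ofReal_mul]
    have h6 := B.lo_le ψ hψ0
    have h7 := B.le_hi ψ hψ0
    rw [hq] at h6 h7
    exact ⟨le_of_mul_le_mul_right h6 hpos, le_of_mul_le_mul_right h7 hpos⟩

theorem poly_proj_comm (hinv : ∀ σ τ, H σ τ ≠ 0 → (σ ∈ S ↔ τ ∈ S)) :
    Commute (diagonal fun j => if j ∈ S then (1 : ℂ) else 0) H := by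
  ext a b
  rw [Matrix.diagonal_mul, Matrix.mul_diagonal]
  by_cases h : H a b = 0
  · simp [h]
  · have := hinv a b h
    by_cases ha : a ∈ S
    · simp [ha, this.1 ha]
    · simp [ha, mt this.2 ha]

theorem poly_supp_of_comm {M : Matrix ι ι ℂ}
    (h : Commute (diagonal fun j => if j ∈ S then (1 : ℂ) else 0) M) {σ τ : ι} (hσ : σ ∈ S)
    (hτ : τ ∉ S) : M τ σ = 0 := by
  have := congrFun (congrFun h.eq τ) σ
  rw [Matrix.diagonal_mul, Matrix.mul_diagonal] at this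
  simpa [hσ, hτ] using this.symm

theorem PM_supp (hinv : ∀ σ τ, H σ τ ≠ 0 → (σ ∈ S ↔ τ ∈ S)) (s : ℕ) (c : ℤ) (q : ℕ) (cs : List ℕ)
    {σ τ : ι} (hσ : σ ∈ S) (hτ : τ ∉ S) : PM H s c q cs τ σ = 0 :=
  poly_supp_of_comm (poly_comm_clen (((Commute.one_right _).smul_right _).sub_right
    ((poly_proj_comm hinv).smul_right _)) q cs (Commute.zero_right _) (Commute.zero_right _)) hσ hτ

theorem PM_perm (π : ι → ι) (hπ : Function.Involutive π) (hH : ∀ σ τ, H (π σ) (π τ) = H σ τ)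
    (s : ℕ) (c : ℤ) (q : ℕ) (cs : List ℕ) (a b : ι) :
    PM H s c q cs (π a) (π b) = PM H s c q cs a b := by
  let φ : Matrix ι ι ℂ →+* Matrix ι ι ℂ :=
    ((Matrix.reindexAlgEquiv ℂ ℂ hπ.toPerm.symm).toRingEquiv.toRingHom)
  have hφ : ∀ (M : Matrix ι ι ℂ) a b, φ M a b = M (π a) (π b) := fun M a b => rfl
  have h1 : φ ((c : ℂ) • (1 : Matrix ι ι ℂ) - (s : ℂ) • H) =
      (c : ℂ) • (1 : Matrix ι ι ℂ) - (s : ℂ) • H := by
    ext a b
    rw [hφ]
    simp only [Matrix.sub_apply, Matrix.smul_apply, hH, Matrix.one_apply, hπ.injective.eq_iff]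
  have h2 := poly_map_clen φ ((c : ℂ) • (1 : Matrix ι ι ℂ) - (s : ℂ) • H) q cs 0 0
  rw [h1, map_zero] at h2
  rw [← hφ (PM H s c q cs) a b, PM, h2]

theorem poly_pt {f P η : ℝ} (hf : 0 ≤ f) (h : |f - P| ≤ η) :
    |f ^ 2 - P ^ 2| ≤ 2 * η * P + 3 * η ^ 2 := by
  obtain ⟨h1, h2⟩ := abs_le.1 h
  have hη : 0 ≤ η := by linarith
  rw [abs_le]
  constructor
  · rcases le_total 0 P with hP | hP
    · nlinarith [mul_nonneg hf hP, mul_nonneg hη hP, sq_nonneg (f - P), mul_nonneg hη hη]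
    · nlinarith [mul_nonneg hf hf, mul_nonneg (show 0 ≤ η + P by linarith) (show 0 ≤ η - P by linarith),
        mul_nonneg hη (show 0 ≤ η + P by linarith)]
  · have : f ≤ P + η := by linarith
    nlinarith [pow_le_pow_left₀ hf this 2, sq_nonneg η]

/-- The two-point version of the comparison. -/
theorem poly_two (B : Blk H S lo hi) {s : ℕ} {c : ℤ} {q : ℕ} {cs : List ℕ} {Sc E η : ℝ}
    (hSc : 0 ≤ Sc) (hP : PApx s c q cs Sc E η lo hi) {σ ρ : ι} (hσ : σ ∈ S) (hρ : ρ ∈ S) :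
    |Sc ^ 2 * Real.exp (-(8 * E)) * (EX H 8 ρ σ).re
        - (∑ τ ∈ S, star (PM H s c q cs τ ρ) * PM H s c q cs τ σ).re|
      ≤ η * ((PM H s c q cs ρ ρ).re + (PM H s c q cs σ σ).re) + 3 * η ^ 2 := by
  obtain ⟨U, lam, h1, h2, hE, hPM, hl⟩ := poly_spec B
  set p : ι → ℝ := fun i => clen ((c : ℝ) - s * lam i) q cs 0 0 with hp
  set f : ι → ℝ := fun i => Sc * Real.exp (-(4 * (lam i + E))) with hf
  have hf0 : ∀ i, 0 ≤ f i := fun i => mul_nonneg hSc (Real.exp_pos _).le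
  have hsum : ∑ τ ∈ S, star (PM H s c q cs τ ρ) * PM H s c q cs τ σ = pfc U (p * p) ρ σ := by
    rw [Finset.sum_subset (Finset.subset_univ S)
      (fun τ _ hτ => by rw [PM_supp B.inv s c q cs hσ hτ, mul_zero]), pfc_mul h1, Matrix.mul_apply,
      hPM]
    exact Finset.sum_congr rfl fun τ _ => by rw [pfc_herm]
  have hex : Sc ^ 2 * Real.exp (-(8 * E)) * (EX H 8 ρ σ).re = (pfc U (f * f) ρ σ).re := by
    have h3 : f * f = fun i => (Sc ^ 2 * Real.exp (-(8 * E))) * Real.exp (-(8 * lam i)) := by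
      funext i
      simp only [hf, Pi.mul_apply]
      rw [mul_mul_mul_comm, ← Real.exp_add, mul_assoc (Sc ^ 2), ← Real.exp_add, sq]
      congr 2
      ring
    rw [h3, pfc_smul, hE, Matrix.smul_apply, smul_eq_mul, Complex.re_ofReal_mul]
  have hsub : pfc U (f * f) ρ σ - pfc U (p * p) ρ σ = pfc U (f * f - p * p) ρ σ := by
    have := map_sub (pfcHom h1 h2) (f * f) (p * p)
    change pfc U _ = pfc U _ - pfc U _ at this
    rw [this, Matrix.sub_apply]
  have hb : ∀ x ∈ S, ∀ i, U x i ≠ 0 → |(f * f - p * p) i| ≤ 2 * η * p i + 3 * η ^ 2 := by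
    intro x hx i hi'
    obtain ⟨h3, h4⟩ := hl x hx i hi'
    have := poly_pt (hf0 i) (hP _ h3 h4)
    simpa only [Pi.sub_apply, Pi.mul_apply, sq] using this
  have hw : ∀ x, (pfc U (fun i => 2 * η * p i + 3 * η ^ 2) x x).re =
      2 * η * (PM H s c q cs x x).re + 3 * η ^ 2 := by
    intro x
    rw [hPM, pfc_diag, pfc_diag]
    simp only [add_mul, Finset.sum_add_distrib, mul_assoc, ← Finset.mul_sum, pfc_row h2, mul_one, hp]
  have hbd := pfc_bound U (w := fun i => 2 * η * p i + 3 * η ^ 2) (hb σ hσ)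
    (fun i hi' => (abs_nonneg _).trans (hb ρ hρ i hi'))
  rw [hw, hw] at hbd
  rw [hsum, hex, ← Complex.sub_re, hsub]
  refine (Complex.abs_re_le_norm _).trans (hbd.trans (le_of_eq ?_))
  ring

theorem poly_star_mul_self (z : ℂ) : (star z * z).re = ‖z‖ ^ 2 := by
  rw [RCLike.star_def, ← Complex.normSq_eq_conj_mul_self, Complex.ofReal_re,
    Complex.normSq_eq_norm_sq]

theorem poly_diag (B : Blk H S lo hi) {s : ℕ} {c : ℤ} {q : ℕ} {cs : List ℕ} {Sc E η : ℝ}
    (hSc : 0 ≤ Sc) (hP : PApx s c q cs Sc E η lo hi) {σ : ι} (hσ : σ ∈ S) :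
    |Sc ^ 2 * Real.exp (-(8 * E)) * (EX H 8 σ σ).re - ∑ τ ∈ S, ‖PM H s c q cs τ σ‖ ^ 2|
      ≤ 2 * η * (PM H s c q cs σ σ).re + 3 * η ^ 2 := by
  have h := poly_two B hSc hP hσ hσ
  rw [Complex.re_sum] at h
  simp only [poly_star_mul_self] at h
  refine h.trans (le_of_eq ?_)
  ring

theorem poly_flip (B : Blk H S lo hi) {s : ℕ} {c : ℤ} {q : ℕ} {cs : List ℕ} {Sc E η : ℝ}
    (hSc : 0 ≤ Sc) (hP : PApx s c q cs Sc E η lo hi) (π : ι → ι) (hπ : Function.Involutive π)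
    (hH : ∀ σ τ, H (π σ) (π τ) = H σ τ) (hS : ∀ σ ∈ S, π σ ∈ S) {σ : ι} (hσ : σ ∈ S) :
    |Sc ^ 2 * Real.exp (-(8 * E)) * (EX H 8 (π σ) σ).re
        - ((∑ τ ∈ S, ‖PM H s c q cs τ σ + PM H s c q cs (π τ) σ‖ ^ 2) / 2
          - ∑ τ ∈ S, ‖PM H s c q cs τ σ‖ ^ 2)|
      ≤ 2 * η * (PM H s c q cs σ σ).re + 3 * η ^ 2 := by
  have h := poly_two B hSc hP hσ (hS σ hσ)
  have hperm := PM_perm π hπ hH s c q cs
  rw [hperm σ σ] at h
  have h1 : ∀ τ, PM H s c q cs (π τ) σ = PM H s c q cs τ (π σ) := by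
    intro τ
    rw [← hperm τ (π σ), hπ σ]
  have h2 : ∑ τ ∈ S, ‖PM H s c q cs (π τ) σ‖ ^ 2 = ∑ τ ∈ S, ‖PM H s c q cs τ σ‖ ^ 2 :=
    Finset.sum_nbij' π π (fun a ha => hS a ha) (fun a ha => hS a ha) (fun a _ => hπ a)
      (fun a _ => hπ a) (fun a _ => rfl)
  have h3 : ∀ x y : ℂ, ‖x + y‖ ^ 2 = ‖x‖ ^ 2 + ‖y‖ ^ 2 + 2 * (star y * x).re := by
    intro x y
    simp only [← Complex.normSq_eq_norm_sq, Complex.normSq_apply, Complex.add_re, Complex.add_im,
      RCLike.star_def, Complex.mul_re, Complex.conj_re, Complex.conj_im]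
    ring
  have h4 : (∑ τ ∈ S, ‖PM H s c q cs τ σ + PM H s c q cs (π τ) σ‖ ^ 2) / 2
      - ∑ τ ∈ S, ‖PM H s c q cs τ σ‖ ^ 2 =
      (∑ τ ∈ S, star (PM H s c q cs τ (π σ)) * PM H s c q cs τ σ).re := by
    simp only [h3, Finset.sum_add_distrib, ← Finset.mul_sum]
    rw [h2, Complex.re_sum]
    simp only [h1]
    ring
  rw [h4]
  refine h.trans (le_of_eq ?_)
  ring

theorem poly_entry (B : Blk H S lo hi) {s : ℕ} {c : ℤ} {q : ℕ} {cs : List ℕ} {Sc E η : ℝ}
    (hSc : 0 ≤ Sc) (hP : PApx s c q cs Sc E η lo hi) {σ : ι} (hσ : σ ∈ S) (τ : ι) :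
    ‖PM H s c q cs τ σ‖ ≤ Sc * Real.exp (-(4 * (lo + E))) + η := by
  obtain ⟨U, lam, h1, h2, hE, hPM, hl⟩ := poly_spec B
  have hb : ∀ i, U σ i ≠ 0 →
      |clen ((c : ℝ) - s * lam i) q cs 0 0| ≤ Sc * Real.exp (-(4 * (lo + E))) + η := by
    intro i hi'
    obtain ⟨h3, h4⟩ := hl σ hσ i hi'
    have h5 := abs_le.1 (hP _ h3 h4)
    have h6 : 0 ≤ Sc * Real.exp (-(4 * (lam i + E))) := mul_nonneg hSc (Real.exp_pos _).le
    have h7 : Sc * Real.exp (-(4 * (lam i + E))) ≤ Sc * Real.exp (-(4 * (lo + E))) :=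
      mul_le_mul_of_nonneg_left (Real.exp_le_exp.2 (by linarith)) hSc
    rw [abs_le]
    constructor <;> linarith [h5.1, h5.2]
  have hex : ∃ i, U σ i ≠ 0 := by
    by_contra hne
    push Not at hne
    have := pfc_row h2 σ
    simp [hne] at this
  obtain ⟨i, hi'⟩ := hex
  have hM : 0 ≤ Sc * Real.exp (-(4 * (lo + E))) + η := (abs_nonneg _).trans (hb i hi')
  have hbd := pfc_bound U (w := fun _ => Sc * Real.exp (-(4 * (lo + E))) + η) (τ := τ) hb
    (fun _ _ => hM)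
  rw [pfc_diag, pfc_diag] at hbd
  simp only [← Finset.mul_sum, pfc_row h2] at hbd
  rw [hPM]
  linarith

theorem crude (B : Blk H S lo hi) {β : ℝ} (hβ : 0 ≤ β) :
    0 ≤ ZS H β S ∧ ZS H β S ≤ S.card * Real.exp (-(β * lo)) := by
  obtain ⟨U, lam, h1, h2, hE, -, hl⟩ := poly_spec B
  constructor
  · refine Finset.sum_nonneg fun σ _ => ?_
    rw [hE, pfc_diag]
    exact Finset.sum_nonneg fun i _ => by positivity
  · rw [← nsmul_eq_mul, ← Finset.sum_const]
    refine Finset.sum_le_sum fun σ hσ => ?_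
    rw [hE, pfc_diag, ← mul_one (Real.exp (-(β * lo))), ← pfc_row h2 σ, Finset.mul_sum]
    refine Finset.sum_le_sum fun i _ => ?_
    by_cases h : U σ i = 0
    · simp [h]
    · refine mul_le_mul_of_nonneg_right (Real.exp_le_exp.2 ?_) (by positivity)
      have := mul_le_mul_of_nonneg_left (hl σ hσ i h).1 hβ
      linarith

theorem EX_supp (hinv : ∀ σ τ, H σ τ ≠ 0 → (σ ∈ S ↔ τ ∈ S)) (β : ℝ) {σ τ : ι} (hσ : σ ∈ S)
    (hτ : τ ∉ S) : EX H β τ σ = 0 := by
  refine poly_supp_of_comm ?_ hσ hτ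
  exact ((poly_proj_comm hinv).smul_right _).exp_right

end Crest.Agent.R347
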