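import Crest.Agent.R347.Norm
import Crest.Agent.R347.Bridge

set_option autoImplicit false

namespace Crest.Agent.R347

open Matrix Crest.MathPhysics.SpinChain Filter Topology

open scoped ComplexOrder

theorem tm_trace_pow {ι : Type} [Fintype ι] [DecidableEq ι] {M : Matrix ι ι ℂ} (hM : M.IsHermitian)
    (k : ℕ) : (Matrix.trace (M ^ k)).re = ∑ i, hM.eigenvalues i ^ k := by
  have h : M ^ k = Unitary.conjStarAlgAut ℂ _ hM.eigenvectorUnitary
      (diagonal (RCLike.ofReal ∘ hM.eigenvalues) ^ k) := by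
    rw [map_pow, ← hM.spectral_theorem]
  rw [h, Unitary.conjStarAlgAut_apply, Matrix.trace_mul_comm, ← Matrix.mul_assoc,
    Unitary.coe_star_mul_self, Matrix.one_mul, diagonal_pow, trace_diagonal, Complex.re_sum]
  refine Finset.sum_congr rfl fun i _ => ?_
  simp [← Complex.ofReal_pow]

theorem tm_exp_sq {ι : Type} [Fintype ι] [DecidableEq ι] {H : Matrix ι ι ℂ} (hH : H.IsHermitian)
    (β : ℝ) : NormedSpace.exp (-(β : ℂ) • H) =
      NormedSpace.exp (-((β / 2 : ℝ) : ℂ) • H) * (NormedSpace.exp (-((β / 2 : ℝ) : ℂ) • H))ᴴ := by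
  have h2 : (NormedSpace.exp (-((β / 2 : ℝ) : ℂ) • H)).IsHermitian :=
    IsHermitian.exp (hH.smul (by simp [IsSelfAdjoint]))
  rw [h2.eq, ← Matrix.exp_add_of_commute _ _ (Commute.refl _), ← add_smul]
  congr 2
  push_cast
  ring

theorem tm_comm {ι : Type} [Fintype ι] [DecidableEq ι] {H P : Matrix ι ι ℂ} (hc : P * H = H * P)
    (c : ℂ) : P * NormedSpace.exp (c • H) = NormedSpace.exp (c • H) * P :=
  (Commute.exp_right (Commute.smul_right hc c)).eq

/-- A projection commuting with `H` gives a power sum in the inverse temperature. -/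
theorem ps0_of_proj {ι : Type} [Fintype ι] [DecidableEq ι] (H P : Matrix ι ι ℂ)
    (hH : H.IsHermitian) (hP : P.IsHermitian) (hPP : P * P = P) (hc : P * H = H * P)
    (β s : ℝ) (hs : 0 ≤ s) :
    PS0 fun k => (Matrix.trace (P * NormedSpace.exp (-((β * k : ℝ) : ℂ) • H))).re * s ^ k := by
  have hM : (P * NormedSpace.exp (-(β : ℂ) • H)).PosSemidef := by
    have h1 := tm_comm hc (-((β / 2 : ℝ) : ℂ))
    have h2 : P * NormedSpace.exp (-(β : ℂ) • H) =
        (P * NormedSpace.exp (-((β / 2 : ℝ) : ℂ) • H)) *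
          (P * NormedSpace.exp (-((β / 2 : ℝ) : ℂ) • H))ᴴ := by
      rw [conjTranspose_mul, hP.eq, Matrix.mul_assoc, ← Matrix.mul_assoc _ _ P, ← tm_exp_sq hH,
        ← tm_comm hc, ← Matrix.mul_assoc, hPP]
    rw [h2]
    exact posSemidef_self_mul_conjTranspose _
  refine ⟨ι, inferInstance, fun i => hM.1.eigenvalues i * s,
    fun i => mul_nonneg (hM.eigenvalues_nonneg i) hs, fun k hk => ?_⟩
  obtain ⟨k, rfl⟩ : ∃ j, k = j + 1 := ⟨k - 1, by omega⟩
  have h3 : (P * NormedSpace.exp (-(β : ℂ) • H)) ^ (k + 1) =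
      P * NormedSpace.exp (-((β * (k + 1 : ℕ) : ℝ) : ℂ) • H) := by
    rw [Commute.mul_pow (tm_comm hc _), IsIdempotentElem.pow_succ_eq k hPP, ← Matrix.exp_nsmul,
      ← Nat.cast_smul_eq_nsmul ℂ, smul_smul]
    congr 3
    push_cast
    ring
  simp only [mul_pow, ← Finset.sum_mul]
  rw [← h3, tm_trace_pow hM.1]

theorem trace_exp_pos {ι : Type} [Fintype ι] [DecidableEq ι] [Nonempty ι] (H : Matrix ι ι ℂ)
    (hH : H.IsHermitian) (β : ℝ) : 0 < (Matrix.trace (NormedSpace.exp (-(β : ℂ) • H))).re := by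
  have h1 : (NormedSpace.exp (-(β : ℂ) • H)).PosSemidef := by
    rw [tm_exp_sq hH]
    exact posSemidef_self_mul_conjTranspose _
  exact (Complex.pos_iff.1 (h1.posDef_iff_isUnit.2 (Matrix.isUnit_exp _)).trace_pos).1

theorem tm_trg_one {n : ℕ} (H : Op n) (β : ℝ) :
    trg 1 H β = Matrix.trace (NormedSpace.exp (-(β : ℂ) • H)) := by
  rw [trg, tens_one, Matrix.one_mul]

theorem tm_congr {p q : ℕ → ℝ} (h : PS0 p) (e : ∀ k, q k = p k) : PS0 q := by
  rwa [funext e]

theorem tm_nr (a L : ℕ) : nr a L = Real.exp (-(8 * (fh * L))) ^ a := by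
  rw [nr, ← Real.exp_nat_mul]
  congr 1
  ring

theorem tm_no (a m : ℕ) : no a m = Real.exp (-(8 * (fh * m + eh))) ^ a := by
  rw [no, ← Real.exp_nat_mul]
  congr 1
  ring

theorem tm_ps_one {n : ℕ} (H : Op n) (hH : H.IsHermitian) (β s : ℝ) (hs : 0 ≤ s) :
    PS0 fun k => (trg 1 H (β * k)).re * s ^ k :=
  tm_congr (ps0_of_proj H 1 hH isHermitian_one (Matrix.one_mul _) (by simp) β s hs) fun k => by
    rw [tm_trg_one, Matrix.one_mul]

/-- two commuting Hermitian involutions -/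
theorem tm_ps_two {ι : Type} [Fintype ι] [DecidableEq ι] (H X Z : Matrix ι ι ℂ)
    (hH : H.IsHermitian) (hX : X.IsHermitian) (hZ : Z.IsHermitian) (hXX : X * X = 1)
    (hZZ : Z * Z = 1) (hXZ : X * Z = Z * X) (hXH : X * H = H * X) (hZH : Z * H = H * Z)
    (β s : ℝ) (hs : 0 ≤ s) :
    PS0 fun k => (Matrix.trace (NormedSpace.exp (-((β * k : ℝ) : ℂ) • H)) +
      Matrix.trace (X * NormedSpace.exp (-((β * k : ℝ) : ℂ) • H)) +
      Matrix.trace (Z * NormedSpace.exp (-((β * k : ℝ) : ℂ) • H)) +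
      Matrix.trace (X * Z * NormedSpace.exp (-((β * k : ℝ) : ℂ) • H))).re / 4 * s ^ k := by
  have hc : Commute (1 + X) (1 + Z) :=
    (Commute.one_left _).add_left ((Commute.one_right _).add_right hXZ)
  have h2 : ∀ Y : Matrix ι ι ℂ, Y * Y = 1 → (1 + Y) * (1 + Y) = (2 : ℂ) • (1 + Y) := by
    intro Y hY
    rw [add_mul, one_mul, mul_add, mul_one, hY, two_smul, add_comm Y 1]
  refine tm_congr (ps0_of_proj H ((1 / 4 : ℂ) • ((1 + X) * (1 + Z))) hH ?_ ?_ ?_ β s hs) fun k => ?_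
  · refine IsHermitian.smul ?_ (by simp [IsSelfAdjoint])
    rw [IsHermitian, conjTranspose_mul, (isHermitian_one.add hX).eq, (isHermitian_one.add hZ).eq,
      hc.eq]
  · rw [smul_mul_smul_comm, hc.symm.mul_mul_mul_comm, h2 X hXX, h2 Z hZZ, smul_mul_smul_comm,
      smul_smul]
    norm_num
  · exact (Commute.smul_left (Commute.mul_left ((Commute.one_left _).add_left hXH)
      ((Commute.one_left _).add_left hZH)) _).eq
  · generalize NormedSpace.exp (-((β * k : ℝ) : ℂ) • H) = E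
    have e : (1 + X) * (1 + Z) * E = E + X * E + Z * E + X * Z * E := by noncomm_ring
    rw [Matrix.smul_mul, e, trace_smul, trace_add, trace_add, trace_add, smul_eq_mul,
      show (1 / 4 : ℂ) = ((1 / 4 : ℝ) : ℂ) by push_cast; rfl, Complex.re_ofReal_mul]
    ring

theorem tm_on2_herm {n : ℕ} {A B : M3} (hA : A.IsHermitian) (hB : B.IsHermitian) {j k : Fin n}
    (hjk : j ≠ k) : (onSite A j * onSite B k).IsHermitian := by
  ext σ τ
  rw [conjTranspose_apply, br_on_mul _ _ hjk, br_on_mul _ _ hjk]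
  by_cases h : ∀ i, i ≠ j → i ≠ k → σ i = τ i
  · rw [if_pos h, if_pos fun i h1 h2 => (h i h1 h2).symm, star_mul', hA.apply, hB.apply]
  · rw [if_neg h, if_neg fun h' => h fun i h1 h2 => (h' i h1 h2).symm, star_zero]

theorem tm_cart_herm (a : Fin 3) : (cart a).IsHermitian := by
  ext b c; fin_cases a <;> fin_cases b <;> fin_cases c <;> simp [cart]

theorem tm_Ham (n : ℕ) : Ham 1 0 0 n =
    (∑ j : Fin n, ∑ a : Fin 3, onSite (cart a) j.castSucc * onSite (cart a) j.succ) +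
      ∑ a : Fin 3, onSite (cart a) (Fin.last n) * onSite (cart a) 0 := by
  simp [Ham, br_on_zero, Matrix.one_apply]

theorem tm_Ham_herm (n : ℕ) (hn : 1 ≤ n) : (Ham 1 0 0 n).IsHermitian := by
  rw [tm_Ham]
  refine IsHermitian.add ?_ ?_
  · rw [IsHermitian, conjTranspose_sum]
    refine Finset.sum_congr rfl fun j _ => ?_
    rw [conjTranspose_sum]
    exact Finset.sum_congr rfl fun a _ => tm_on2_herm (tm_cart_herm a) (tm_cart_herm a)
      (Fin.castSucc_lt_succ (i := j)).ne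
  · rw [IsHermitian, conjTranspose_sum]
    refine Finset.sum_congr rfl fun a _ => tm_on2_herm (tm_cart_herm a) (tm_cart_herm a) ?_
    intro h
    have := congrArg Fin.val h
    simp at this
    omega

theorem tm_V4_sq (i : Fin 4) : cz (V4 i) * cz (V4 i) = 1 := by
  rw [← br_cz_mul, ← br_cz_one]
  congr 1
  revert i
  decide +kernel

theorem tm_V4_herm (i : Fin 4) : (cz (V4 i)).IsHermitian := by
  have h : (V4 i)ᵀ = V4 i := by revert i; decide +kernel
  ext a b
  have := congrFun (congrFun h a) b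
  rw [transpose_apply] at this
  simp [cz, this]

theorem tm_V4_cart (i : Fin 4) (a : Fin 3) :
    cz (V4 i) * cart a * cz (V4 i) = cart a ∨ cz (V4 i) * cart a * cz (V4 i) = (-1 : ℂ) • cart a := by
  have h : V4 i * brE a * V4 i = brE a ∨ V4 i * brE a * V4 i = -brE a := by
    revert i a; decide +kernel
  rw [br_cart, Matrix.mul_smul, Matrix.smul_mul, ← br_cz_mul, ← br_cz_mul]
  rcases h with h | h
  · left; rw [h]
  · right
    rw [h]
    ext b c
    simp [cz]

theorem tm_tens_sq {n : ℕ} {g : M3} (hg : g * g = 1) :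
    tens (fun _ : Fin n => g) * tens (fun _ => g) = 1 := by
  rw [tens_mul, hg, tens_one]

theorem tm_tens_herm {n : ℕ} {g : M3} (hg : g.IsHermitian) : (tens fun _ : Fin n => g).IsHermitian := by
  rw [IsHermitian, tens_conjTranspose, hg.eq]

theorem tm_V4_Ham (i : Fin 4) (n : ℕ) :
    tens (fun _ => cz (V4 i)) * Ham 1 0 0 n = Ham 1 0 0 n * tens (fun _ => cz (V4 i)) := by
  have h1 : ∀ (a : Fin 3) (j k : Fin (n + 1)), tens (fun _ => cz (V4 i)) *
      (onSite (cart a) j * onSite (cart a) k) * tens (fun _ => cz (V4 i)) =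
        onSite (cart a) j * onSite (cart a) k := by
    intro a j k
    rw [br_conj2 _ _ (tm_V4_sq i)]
    rcases tm_V4_cart i a with h | h
    · rw [h]
    · rw [h, trot_onSite_smul, trot_onSite_smul, smul_mul_smul_comm]
      simp
  have h2 : tens (fun _ => cz (V4 i)) * Ham 1 0 0 n * tens (fun _ => cz (V4 i)) = Ham 1 0 0 n := by
    rw [tm_Ham]
    simp only [Matrix.mul_add, Matrix.add_mul, Matrix.mul_sum, Matrix.sum_mul, h1]
  calc _ = tens (fun _ => cz (V4 i)) * Ham 1 0 0 n *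
        (tens (fun _ => cz (V4 i)) * tens (fun _ => cz (V4 i))) := by
        rw [tm_tens_sq (tm_V4_sq i), Matrix.mul_one]
    _ = _ := by rw [← Matrix.mul_assoc, h2]

theorem tm_xz {n : ℕ} : tens (fun _ : Fin n => cz (V4 1)) * tens (fun _ => cz (V4 3)) =
    tens (fun _ => cz (V4 2)) := by
  rw [tens_mul, ← br_cz_mul, show V4 1 * V4 3 = V4 2 by decide +kernel]

theorem tm_zx {n : ℕ} : tens (fun _ : Fin n => cz (V4 3)) * tens (fun _ => cz (V4 1)) =
    tens (fun _ => cz (V4 2)) := by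
  rw [tens_mul, ← br_cz_mul, show V4 3 * V4 1 = V4 2 by decide +kernel]

theorem tm_trD (i : Fin 4) (hi : i ≠ 0) (n : ℕ) (hn : 1 ≤ n) (β : ℝ) :
    Matrix.trace (tens (fun _ : Fin (n + 1) => cz (V4 i)) *
      NormedSpace.exp (-(β : ℂ) • Ham 1 0 0 n)) = (gr 1 β (n + 1) : ℂ) := Zf_D_one i hi n hn β

theorem tm_tr1 (n : ℕ) (hn : 1 ≤ n) (β : ℝ) :
    Matrix.trace (NormedSpace.exp (-(β : ℂ) • Ham 1 0 0 n)) = zr 1 β (n + 1) := by
  rw [← tm_trg_one]
  exact Zf_one_one n hn β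

/-- the conserved charge -/
def tmq {n : ℕ} (σ : Cfg n) : ℕ := ∑ j, (σ j).val

theorem tm_bond_q {n : ℕ} (φ : ℂ) {j k : Fin n} (hjk : j ≠ k) {σ τ : Cfg n} (h : tmq σ ≠ tmq τ) :
    bondAt φ j k σ τ = 0 := by
  simp only [bondAt, of_apply]
  split_ifs with h1
  · have e : ∀ ρ : Cfg n, tmq ρ = (ρ j).val + ((ρ k).val +
        ∑ i ∈ (Finset.univ.erase j).erase k, (ρ i).val) := by
      intro ρ
      rw [Finset.add_sum_erase _ (fun i => (ρ i).val) (Finset.mem_erase.2 ⟨hjk.symm, Finset.mem_univ _⟩),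
        Finset.add_sum_erase _ (fun i => (ρ i).val) (Finset.mem_univ j)]
      rfl
    have e2 : ∑ i ∈ (Finset.univ.erase j).erase k, (σ i).val =
        ∑ i ∈ (Finset.univ.erase j).erase k, (τ i).val :=
      Finset.sum_congr rfl fun i hi => by
        rw [h1 i (Finset.ne_of_mem_erase (Finset.mem_of_mem_erase hi)) (Finset.ne_of_mem_erase hi)]
    rw [e σ, e τ, e2] at h
    unfold bnd
    split_ifs with h2 h3 h4
    · rw [h2.1, h2.2] at h
      exact absurd rfl h
    · omega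
    · omega
    · rfl
  · rfl

theorem tm_HO_q (h h' : ℝ) (n : ℕ) {σ τ : Cfg (n + 1)} (hq : tmq σ ≠ tmq τ) :
    HO h h' n σ τ = 0 := by
  have h1 : σ ≠ τ := fun e => hq (e ▸ rfl)
  simp only [HO, Matrix.sub_apply, Matrix.sum_apply, diagonal_apply_ne _ h1, sub_zero]
  exact Finset.sum_eq_zero fun j _ => tm_bond_q 1 (Fin.castSucc_lt_succ (i := j)).ne hq

theorem tm_diag_HO (h h' : ℝ) (n : ℕ) (f : ℕ → ℂ) :
    diagonal (fun σ => f (tmq σ)) * HO h h' n = HO h h' n * diagonal fun σ => f (tmq σ) := by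
  ext σ τ
  rw [diagonal_mul, mul_diagonal]
  by_cases hq : tmq σ = tmq τ
  · rw [hq, mul_comm]
  · rw [tm_HO_q h h' n hq, mul_zero, zero_mul]

theorem tm_uz (n : ℕ) : tens (fun _ : Fin n => uz) = diagonal fun σ => (-1 : ℂ) ^ (tmq σ + n) := by
  have h : ∀ a b : Fin 3, uz a b = if a = b then (-1 : ℂ) ^ (a.val + 1) else 0 := by
    intro a b
    fin_cases a <;> fin_cases b <;> simp [uz]
    norm_num
  ext σ τ
  simp only [tens, of_apply, h, diagonal_apply]
  by_cases e : σ = τ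
  · subst e
    simp only [if_true, Finset.prod_pow_eq_pow_sum, Finset.sum_add_distrib, tmq]
    simp
  · rw [if_neg e]
    obtain ⟨j, hj⟩ := Function.ne_iff.1 e
    exact Finset.prod_eq_zero (Finset.mem_univ j) (if_neg hj)

/-- reflection combined with the spin flip -/
def tmpi {n : ℕ} (σ : Cfg n) : Cfg n := fun j => (σ j.rev).rev

theorem tmpi_inv {n : ℕ} : Function.Involutive (tmpi (n := n)) := fun σ => by
  funext j
  simp [tmpi]

theorem tmpi_q {n : ℕ} (σ : Cfg n) : tmq (tmpi σ) + tmq σ = 2 * n := by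
  unfold tmq
  rw [← Equiv.sum_comp Fin.revPerm fun j => (σ j).val, ← Finset.sum_add_distrib]
  have : ∀ j : Fin n, (tmpi σ j).val + (σ (Fin.revPerm j)).val = 2 := by
    intro j
    simp only [tmpi, Fin.val_rev, Fin.revPerm_apply]
    omega
  simp only [this, Finset.sum_const, Finset.card_univ, Fintype.card_fin, smul_eq_mul, mul_comm]

theorem tm_mg_rev (a : Fin 3) : mg a.rev = -mg a := by
  fin_cases a <;> simp [mg, magneticNumber, Fin.rev]

theorem tm_bnd_rev (φ : ℂ) (a b c d : Fin 3) :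
    bnd φ b.rev a.rev d.rev c.rev = bnd φ a b c d := by
  have h1 : (b.rev = d.rev ∧ a.rev = c.rev) ↔ (a = c ∧ b = d) := by
    rw [Fin.rev_inj, Fin.rev_inj, and_comm]
  have h2 : (b.rev.val + 1 = d.rev.val ∧ a.rev.val = c.rev.val + 1) ↔
      (a.val + 1 = c.val ∧ b.val = d.val + 1) := by
    simp only [Fin.val_rev]; omega
  have h3 : (b.rev.val = d.rev.val + 1 ∧ a.rev.val + 1 = c.rev.val) ↔
      (a.val = c.val + 1 ∧ b.val + 1 = d.val) := by
    simp only [Fin.val_rev]; omega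
  simp only [bnd, h1, h2, h3, tm_mg_rev]
  rw [neg_mul_neg, mul_comm]

theorem tm_bond_pi {n : ℕ} (φ : ℂ) (j k : Fin n) (σ τ : Cfg n) :
    bondAt φ k.rev j.rev (tmpi σ) (tmpi τ) = bondAt φ j k σ τ := by
  simp only [bondAt, of_apply, tmpi, Fin.rev_rev, tm_bnd_rev, Fin.rev_inj]
  refine if_congr ⟨fun h i h1 h2 => ?_, fun h i h1 h2 => ?_⟩ rfl rfl
  · have := h i.rev (fun e => h2 (Fin.rev_injective e)) fun e => h1 (Fin.rev_injective e)
    rwa [Fin.rev_rev] at this
  · exact h i.rev (fun e => h2 (by rw [← e, Fin.rev_rev])) fun e => h1 (by rw [← e, Fin.rev_rev])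

theorem tm_HO_pi (h : ℝ) (n : ℕ) (σ τ : Cfg (n + 1)) :
    HO h (-1 * h) n (tmpi σ) (tmpi τ) = HO h (-1 * h) n σ τ := by
  simp only [HO, Matrix.sub_apply, Matrix.sum_apply]
  congr 1
  · rw [← Equiv.sum_comp Fin.revPerm]
    refine Finset.sum_congr rfl fun j _ => ?_
    rw [Fin.revPerm_apply, ← Fin.rev_succ, ← Fin.rev_castSucc, tm_bond_pi]
  · simp only [diagonal_apply, tmpi_inv.injective.eq_iff]
    refine if_congr Iff.rfl ?_ rfl
    simp only [tmpi, Fin.rev_zero, Fin.rev_last, tm_mg_rev]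
    push_cast
    ring

theorem tm_trace_odd {ι : Type} [Fintype ι] [DecidableEq ι] (H : Matrix ι ι ℂ) {π : ι → ι}
    (hπ : Function.Involutive π) (hH : ∀ σ τ, H (π σ) (π τ) = H σ τ) (d : ι → ℂ)
    (hd : ∀ σ, d (π σ) = -d σ) (c : ℂ) :
    Matrix.trace (diagonal d * NormedSpace.exp (c • H)) = 0 := by
  let U : Matrix ι ι ℂ := Matrix.of fun σ τ => if τ = π σ then 1 else 0
  have hl : ∀ (A : Matrix ι ι ℂ) σ τ, (U * A) σ τ = A (π σ) τ := by
    intro A σ τ
    simp [U, mul_apply]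
  have hr : ∀ (A : Matrix ι ι ℂ) σ τ, (A * U) σ τ = A σ (π τ) := by
    intro A σ τ
    have : ∀ ρ, τ = π ρ ↔ ρ = π τ := fun ρ =>
      ⟨fun e => by rw [e, hπ ρ], fun e => by rw [e, hπ τ]⟩
    simp [U, mul_apply, this]
  have hU : U * H = H * U := by
    ext σ τ
    rw [hl, hr, ← hH σ (π τ), hπ τ]
  have hE := tm_comm hU c
  generalize NormedSpace.exp (c • H) = E at *
  have h1 : ∀ σ, E (π σ) (π σ) = E σ σ := by
    intro σ
    have := congrFun (congrFun hE σ) (π σ)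
    rwa [hl, hr, hπ σ] at this
  have h2 : ∑ σ, d σ * E σ σ = -∑ σ, d σ * E σ σ := by
    conv_lhs => rw [← Equiv.sum_comp hπ.toPerm]
    simp only [Function.Involutive.coe_toPerm, hd, h1, neg_mul, Finset.sum_neg_distrib]
  simp only [Matrix.trace, Matrix.diag, diagonal_mul]
  linear_combination h2 / 2

theorem ZN_pos (a L : ℕ) : 0 < ZN a L := by
  unfold ZN zr nr
  rw [tm_trg_one]
  exact mul_pos (trace_exp_pos _ (HR_isHermitian 1 (by simp) _) _) (Real.exp_pos _)

theorem YN_pos (a m : ℕ) : 0 < YN a m := by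
  unfold YN zo no
  rw [tm_trg_one]
  exact mul_pos (trace_exp_pos _ (HO_isHermitian _ _ _) _) (Real.exp_pos _)

theorem YpN_pos (a m : ℕ) : 0 < YpN a m := by
  unfold YpN zo no
  rw [tm_trg_one]
  exact mul_pos (trace_exp_pos _ (HO_isHermitian _ _ _) _) (Real.exp_pos _)

theorem ps0_ZN (L : ℕ) : PS0 fun a => ZN a L := by
  refine tm_congr (tm_ps_one _ (HR_isHermitian 1 (by simp) (L - 1)) 8 _
    (Real.exp_pos (-(8 * (fh * L)))).le)
    fun a => ?_
  rw [ZN, tm_nr, zr]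

theorem ps0_AN (L : ℕ) (hL : 2 ≤ L) : PS0 fun a => AN a L := by
  obtain ⟨n, rfl⟩ : ∃ n, L = n + 1 := ⟨L - 1, by omega⟩
  have hn : 1 ≤ n := by omega
  refine tm_congr (tm_ps_two _ _ _ (tm_Ham_herm n hn) (tm_tens_herm (tm_V4_herm 1))
    (tm_tens_herm (tm_V4_herm 3)) (tm_tens_sq (tm_V4_sq 1)) (tm_tens_sq (tm_V4_sq 3))
    (tm_xz.trans tm_zx.symm) (tm_V4_Ham 1 n) (tm_V4_Ham 3 n) 8 _
    (Real.exp_pos (-(8 * (fh * (n + 1 : ℕ))))).le) fun a => ?_
  rw [AN, tm_nr, tm_xz, tm_tr1 n hn, tm_trD 1 (by decide) n hn, tm_trD 2 (by decide) n hn,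
    tm_trD 3 (by decide) n hn]
  simp only [Complex.add_re, Complex.ofReal_re]
  ring

theorem ps0_BN (L : ℕ) (hL : 2 ≤ L) : PS0 fun a => BN a L := by
  obtain ⟨n, rfl⟩ : ∃ n, L = n + 1 := ⟨L - 1, by omega⟩
  have hn : 1 ≤ n := by omega
  refine tm_congr (tm_ps_two _ (-tens fun _ => cz (V4 1)) _ (tm_Ham_herm n hn)
    (tm_tens_herm (tm_V4_herm 1)).neg (tm_tens_herm (tm_V4_herm 3))
    (by rw [neg_mul_neg, tm_tens_sq (tm_V4_sq 1)]) (tm_tens_sq (tm_V4_sq 3))
    (by rw [neg_mul, mul_neg, tm_xz, tm_zx]) (by rw [neg_mul, mul_neg, tm_V4_Ham])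
    (tm_V4_Ham 3 n) 8 _
    (Real.exp_pos (-(8 * (fh * (n + 1 : ℕ))))).le) fun a => ?_
  rw [BN, tm_nr, neg_mul, neg_mul, neg_mul, trace_neg, trace_neg, tm_xz, tm_tr1 n hn,
    tm_trD 1 (by decide) n hn, tm_trD 2 (by decide) n hn, tm_trD 3 (by decide) n hn]
  simp only [Complex.add_re, Complex.neg_re, Complex.ofReal_re]
  ring

theorem ps0_YN (m : ℕ) : PS0 fun a => YN a m := by
  refine tm_congr (tm_ps_one _ (HO_isHermitian (3 / 5) (-1 * (3 / 5)) (m + 1)) 8 _
    (Real.exp_pos (-(8 * (fh * m + eh)))).le) fun a => ?_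
  rw [YN, tm_no, zo]

theorem ps0_YpN (m : ℕ) : PS0 fun a => YpN a m := by
  refine tm_congr (tm_ps_one _ (HO_isHermitian (3 / 5) (1 * (3 / 5)) (m + 1)) 8 _
    (Real.exp_pos (-(8 * (fh * m + eh)))).le) fun a => ?_
  rw [YpN, tm_no, zo]

theorem ps0_ON (m : ℕ) : PS0 fun a => ON a m := by
  have hzz : uz * uz = 1 := by
    ext a b; fin_cases a <;> fin_cases b <;> simp [uz, mul_apply, Fin.sum_univ_three]
  refine tm_congr (tm_ps_two _ 1 (tens fun _ => uz) (HO_isHermitian (3 / 5) (-1 * (3 / 5)) (m + 1))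
    isHermitian_one (tm_tens_herm br_uz) (Matrix.one_mul _) (tm_tens_sq hzz) (by simp) (by simp)
    (by rw [tm_uz]; exact tm_diag_HO _ _ _ fun q => (-1) ^ (q + (m + 1 + 1))) 8 _
    (Real.exp_pos (-(8 * (fh * m + eh)))).le) fun a => ?_
  rw [ON, tm_no, zo, go, tm_trg_one, trg, Matrix.one_mul, Matrix.one_mul]
  simp only [Complex.add_re]
  ring

theorem ps0_QN (m : ℕ) : PS0 fun a => QN a m := by
  have hzz : uz * uz = 1 := by
    ext a b; fin_cases a <;> fin_cases b <;> simp [uz, mul_apply, Fin.sum_univ_three]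
  let x : ℕ → ℂ := fun q => if q < m + 1 + 1 then 1 else -1
  have hx : ∀ q, x q * x q = 1 := fun q => by
    simp only [x]; split_ifs <;> norm_num
  refine tm_congr (tm_ps_two _ (diagonal fun σ => x (tmq σ)) (-tens fun _ => uz)
    (HO_isHermitian (3 / 5) (-1 * (3 / 5)) (m + 1)) ?_ (tm_tens_herm br_uz).neg
    (by rw [diagonal_mul_diagonal]; simp only [hx]; exact diagonal_one)
    (by rw [neg_mul_neg, tm_tens_sq hzz])
    (by rw [neg_mul, mul_neg, tm_uz, diagonal_mul_diagonal, diagonal_mul_diagonal]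
        simp only [mul_comm])
    (tm_diag_HO _ _ _ x)
    (by
      rw [neg_mul, mul_neg, tm_uz, neg_inj]
      exact tm_diag_HO _ _ _ fun q => (-1) ^ (q + (m + 1 + 1))) 8 _
    (Real.exp_pos (-(8 * (fh * m + eh)))).le) fun a => ?_
  · rw [isHermitian_diagonal_iff]
    intro σ
    simp only [x, IsSelfAdjoint]
    split_ifs <;> simp
  have h0 := tm_trace_odd _ tmpi_inv (tm_HO_pi (3 / 5) (m + 1))
    (fun σ => x (tmq σ) * (1 - (-1) ^ (tmq σ + (m + 1 + 1)))) (fun σ => by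
      have h1 := tmpi_q σ
      rcases Nat.even_or_odd (tmq σ + (m + 1 + 1)) with h2 | h2
      · have h3 : Even (tmq (tmpi σ) + (m + 1 + 1)) := by
          rw [Nat.even_iff] at *; omega
        rw [h2.neg_one_pow, h3.neg_one_pow]
        simp
      · have h3 : Odd (tmq (tmpi σ) + (m + 1 + 1)) := by
          rw [Nat.odd_iff] at *; omega
        rw [h2.neg_one_pow, h3.neg_one_pow]
        rw [Nat.odd_iff] at h2
        simp only [x]
        by_cases h4 : tmq σ < m + 1 + 1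
        · rw [if_pos h4, if_neg (by omega)]
          ring
        · rw [if_neg h4, if_pos (by omega)]
          ring) (-((8 * a : ℝ) : ℂ))
  have h1 : (diagonal fun σ : Cfg (m + 1 + 1) => x (tmq σ) * (1 - (-1) ^ (tmq σ + (m + 1 + 1)))) =
      (diagonal fun σ => x (tmq σ)) + (diagonal fun σ => x (tmq σ)) * -tens fun _ => uz := by
    rw [tm_uz, mul_neg, diagonal_mul_diagonal, ← sub_eq_add_neg, diagonal_sub]
    simp only [mul_sub, mul_one]
  rw [h1, Matrix.add_mul, trace_add] at h0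
  have h2 := congrArg Complex.re h0
  rw [QN, tm_no, zo, go, tm_trg_one, trg, neg_mul (tens fun _ => uz), trace_neg]
  simp only [Complex.add_re, Complex.neg_re, Complex.zero_re] at h2 ⊢
  congr 2
  linarith

end Crest.Agent.R347
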