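import Crest.Agent.R347.CDefs
import Crest.Agent.R347.KCode
import Crest.Agent.R347.Poly
import Crest.Agent.R347.KPhys
import Crest.Agent.R347.Bridge
import Crest.Agent.R347.Time

/-! Symmetries of `exp (-β H)` and the decomposition of the traces into sectors. -/

set_option autoImplicit false

namespace Crest.Agent.R347

open Matrix Crest.MathPhysics.SpinChain Filter Topology K

section general

variable {ι : Type} [Fintype ι] [DecidableEq ι]

theorem iv_EX_conj {H H' : Matrix ι ι ℂ} {e : ι → ι} (he : Function.Injective e) (d : ι → ℂ)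
    (h : ∀ σ τ, H' (e σ) (e τ) * d τ = d σ * H σ τ) (β : ℝ) (σ τ : ι) :
    EX H' β (e σ) (e τ) * d τ = d σ * EX H β σ τ := by
  have hs : Function.Surjective e := Finite.injective_iff_surjective.1 he
  let U : Matrix ι ι ℂ := Matrix.of fun a σ => if a = e σ then d σ else 0
  have hl : ∀ (A : Matrix ι ι ℂ) σ τ, (U * A) (e σ) τ = d σ * A σ τ := by
    intro A σ τ
    have : ∀ ρ, e σ = e ρ ↔ ρ = σ := fun ρ => ⟨fun h => (he h).symm, fun h => by rw [h]⟩
    simp [U, mul_apply, this]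
  have hr : ∀ (A : Matrix ι ι ℂ) a τ, (A * U) a τ = A a (e τ) * d τ := by
    intro A a τ
    simp [U, mul_apply]
  have hU : SemiconjBy U H H' := by
    ext a τ
    obtain ⟨σ, rfl⟩ := hs a
    rw [hl, hr, h]
  have hU' : SemiconjBy U (-(β : ℂ) • H) (-(β : ℂ) • H') := hU.smul_right _
  have hE : SemiconjBy U (EX H β) (EX H' β) := by
    open scoped Matrix.Norms.Operator in exact hU'.exp_right
  have := congrFun (congrFun hE.eq (e σ)) τ
  rw [hl, hr] at this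
  exact this.symm

theorem iv_EX_perm {H H' : Matrix ι ι ℂ} {e : ι → ι} (he : Function.Injective e)
    (h : ∀ σ τ, H' (e σ) (e τ) = H σ τ) (β : ℝ) (σ τ : ι) :
    EX H' β (e σ) (e τ) = EX H β σ τ := by
  simpa using iv_EX_conj he (fun _ => 1) (by simpa using h) β σ τ

theorem iv_EX_tr {H H' : Matrix ι ι ℂ} {e : ι → ι} (he : Function.Injective e)
    (h : ∀ σ τ, H' (e σ) (e τ) = H τ σ) (β : ℝ) (σ τ : ι) :
    EX H' β (e σ) (e τ) = EX H β τ σ := by
  rw [iv_EX_perm (H := Hᵀ) he h, EX, ← Matrix.transpose_smul, Matrix.exp_transpose]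
  rfl

end general

theorem iv_flp_flp {n : ℕ} (σ : Cfg n) : flp (flp σ) = σ := by
  funext j; simp [flp]

theorem iv_rfl_rfl {n : ℕ} (σ : Cfg n) : rfl' (rfl' σ) = σ := by
  funext j; simp [rfl']

theorem iv_flp_inj {n : ℕ} : Function.Injective (flp (n := n)) :=
  Function.Involutive.injective iv_flp_flp

theorem iv_rfl_inj {n : ℕ} : Function.Injective (rfl' (n := n)) :=
  Function.Involutive.injective iv_rfl_rfl

theorem iv_rot_inj {n : ℕ} : Function.Injective (rot (n := n)) := by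
  intro σ τ h
  funext j
  obtain ⟨i, rfl⟩ := (finRotate n).surjective j
  exact congrFun h i

theorem iv_dsum_rfl {n : ℕ} (σ : Cfg n) : dsum (rfl' σ) = dsum σ :=
  Equiv.sum_comp Fin.revPerm fun j => (σ j : ℕ)

theorem iv_bnd_swap (φ : ℂ) (a b c d : Fin 3) : bnd φ b a d c = bnd φ c d a b := by
  unfold bnd
  by_cases h : a = c ∧ b = d
  · obtain ⟨rfl, rfl⟩ := h
    simp [mul_comm]
  · rw [if_neg (fun h' => h ⟨h'.2, h'.1⟩), if_neg (fun h' : c = a ∧ d = b => h ⟨h'.1.symm, h'.2.symm⟩)]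
    exact if_congr (by omega) rfl (if_congr (by omega) rfl rfl)

theorem iv_bnd_symm {φ : ℂ} (hφ : φ⁻¹ = φ) (a b c d : Fin 3) : bnd φ c d a b = bnd φ a b c d := by
  unfold bnd
  by_cases h : a = c ∧ b = d
  · obtain ⟨rfl, rfl⟩ := h
    rfl
  · rw [if_neg h, if_neg (fun h' : c = a ∧ d = b => h ⟨h'.1.symm, h'.2.symm⟩), hφ]
    split_ifs <;> first | rfl | omega

theorem iv_bond_symm {n : ℕ} {φ : ℂ} (hφ : φ⁻¹ = φ) (j k : Fin n) (σ τ : Cfg n) :
    bondAt φ j k τ σ = bondAt φ j k σ τ := by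
  simp only [bondAt, of_apply]
  exact if_congr (forall₃_congr fun _ _ _ => eq_comm) (iv_bnd_symm hφ _ _ _ _) rfl

theorem iv_bond_flp {n : ℕ} (φ : ℂ) (j k : Fin n) (σ τ : Cfg n) :
    bondAt φ j k (flp σ) (flp τ) = bondAt φ j k τ σ := by
  simp only [bondAt, of_apply, flp, Fin.rev_inj, tm_bnd_rev]
  exact if_congr (forall₃_congr fun _ _ _ => eq_comm) (iv_bnd_swap φ _ _ _ _) rfl

theorem iv_bond_comp {n : ℕ} (φ : ℂ) (e : Fin n ≃ Fin n) (j k : Fin n) (σ τ : Cfg n) :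
    bondAt φ j k (fun i => σ (e i)) (fun i => τ (e i)) = bondAt φ (e j) (e k) σ τ := by
  simp only [bondAt, of_apply]
  refine if_congr ⟨fun h i h1 h2 => ?_, fun h i h1 h2 => h (e i) (e.injective.ne h1)
    (e.injective.ne h2)⟩ rfl rfl
  obtain ⟨i, rfl⟩ := e.surjective i
  exact h i (fun h' => h1 (by rw [h'])) fun h' => h2 (by rw [h'])

theorem iv_bond_swap {n : ℕ} (φ : ℂ) (j k : Fin n) (σ τ : Cfg n) :
    bondAt φ k j σ τ = bondAt φ j k τ σ := by
  simp only [bondAt, of_apply]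
  exact if_congr ⟨fun h i h1 h2 => (h i h2 h1).symm, fun h i h1 h2 => (h i h2 h1).symm⟩
    (iv_bnd_swap φ _ _ _ _) rfl

theorem iv_bond_rfl {n : ℕ} (φ : ℂ) (j k : Fin n) (σ τ : Cfg n) :
    bondAt φ j k (rfl' σ) (rfl' τ) = bondAt φ k.rev j.rev τ σ :=
  (iv_bond_comp φ Fin.revPerm j k σ τ).trans (iv_bond_swap φ _ _ σ τ)

theorem iv_sum_rfl (n : ℕ) (σ τ : Cfg (n + 1)) :
    ∑ j : Fin n, bondAt 1 j.castSucc j.succ (rfl' σ) (rfl' τ) =
      ∑ j : Fin n, bondAt 1 j.castSucc j.succ τ σ := by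
  rw [← Equiv.sum_comp Fin.revPerm]
  refine Finset.sum_congr rfl fun j _ => ?_
  rw [Fin.revPerm_apply, iv_bond_rfl, Fin.rev_succ, Fin.rev_castSucc, Fin.rev_rev]

theorem iv_HR_flp (φ : ℂ) (n : ℕ) (σ τ : Cfg (n + 1)) : HR φ n (flp σ) (flp τ) = HR φ n τ σ := by
  simp only [HR, Matrix.add_apply, Matrix.sum_apply, iv_bond_flp]

theorem iv_HR_rfl (φ : ℂ) (n : ℕ) (σ τ : Cfg (n + 1)) :
    HR φ n (rfl' σ) (rfl' τ) = HR φ n τ σ := by
  simp only [HR, Matrix.add_apply, Matrix.sum_apply]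
  rw [iv_sum_rfl, iv_bond_rfl, Fin.rev_zero, Fin.rev_last]

theorem iv_HR_symm {φ : ℂ} (hφ : φ⁻¹ = φ) (n : ℕ) (σ τ : Cfg (n + 1)) :
    HR φ n τ σ = HR φ n σ τ := by
  simp only [HR, Matrix.add_apply, Matrix.sum_apply, iv_bond_symm hφ _ _ σ τ,
    iv_bond_symm inv_one _ _ σ τ]

theorem iv_HO_flp (h h' : ℝ) (n : ℕ) (σ τ : Cfg (n + 1)) :
    HO h h' n (flp σ) (flp τ) = HO (-h) (-h') n τ σ := by
  simp only [HO, Matrix.sub_apply, Matrix.sum_apply, iv_bond_flp, diagonal_apply,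
    iv_flp_inj.eq_iff]
  congr 1
  by_cases e : σ = τ
  · subst e
    simp [flp, tm_mg_rev]
  · rw [if_neg e, if_neg (Ne.symm e)]

theorem iv_HO_rfl (h h' : ℝ) (n : ℕ) (σ τ : Cfg (n + 1)) :
    HO h h' n (rfl' σ) (rfl' τ) = HO h' h n τ σ := by
  simp only [HO, Matrix.sub_apply, Matrix.sum_apply, diagonal_apply, iv_rfl_inj.eq_iff]
  rw [iv_sum_rfl]
  congr 1
  by_cases e : σ = τ
  · subst e
    simp [rfl', add_comm]
  · rw [if_neg e, if_neg (Ne.symm e)]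

theorem iv_rot_castSucc {n : ℕ} (j : Fin n) : finRotate (n + 1) j.castSucc = j.succ := by
  rw [finRotate_succ_apply, Fin.coeSucc_eq_succ]

theorem iv_HR_eq (φ : ℂ) (n : ℕ) (σ τ : Cfg (n + 1)) : HR φ n σ τ =
    ∑ j : Fin (n + 1), bondAt (if j = Fin.last n then φ else 1) j (finRotate (n + 1) j) σ τ := by
  rw [Fin.sum_univ_castSucc, HR, Matrix.add_apply, Matrix.sum_apply, if_pos rfl, finRotate_last]
  congr 1
  refine Finset.sum_congr rfl fun j _ => ?_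
  rw [if_neg (Fin.castSucc_lt_last j).ne, iv_rot_castSucc]

theorem iv_bnd_fst {φ : ℂ} (hφ : φ ≠ 0) (a b c d : Fin 3) :
    bnd φ a b c d * φ⁻¹ ^ (c : ℕ) = φ⁻¹ ^ (a : ℕ) * bnd 1 a b c d := by
  unfold bnd
  split_ifs with h1 h2 h3
  · rw [h1.1, mul_comm]
  · rw [← h2.1, pow_succ]; field_simp
  · rw [h3.1, pow_succ]; simp [mul_comm]
  · simp

theorem iv_bnd_snd {φ : ℂ} (hφ : φ ≠ 0) (a b c d : Fin 3) :
    bnd 1 a b c d * φ⁻¹ ^ (d : ℕ) = φ⁻¹ ^ (b : ℕ) * bnd φ a b c d := by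
  unfold bnd
  split_ifs with h1 h2 h3
  · rw [h1.2, mul_comm]
  · rw [h2.2, pow_succ]; field_simp
  · rw [← h3.2, pow_succ]; simp
  · simp

theorem iv_HR_rot {φ : ℂ} (hφ : φ ≠ 0) (n : ℕ) (hn : 1 ≤ n) (σ τ : Cfg (n + 1)) :
    HR φ n (rot σ) (rot τ) * φ⁻¹ ^ (τ 0 : ℕ) = φ⁻¹ ^ (σ 0 : ℕ) * HR φ n σ τ := by
  have hl : (0 : Fin (n + 1)) ≠ Fin.last n := by
    intro h
    have := congrArg Fin.val h
    simp at this
    omega
  have hr : ∀ j : Fin (n + 1), finRotate (n + 1) j = 0 ↔ j = Fin.last n := by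
    intro j
    rw [← finRotate_last, (finRotate (n + 1)).injective.eq_iff]
  rw [iv_HR_eq, iv_HR_eq, ← Equiv.sum_comp (finRotate (n + 1)) fun j =>
    bondAt (if j = Fin.last n then φ else 1) j (finRotate (n + 1) j) σ τ, Finset.sum_mul,
    Finset.mul_sum]
  refine Finset.sum_congr rfl fun j _ => ?_
  have h1 := iv_bond_comp (if j = Fin.last n then φ else 1) (finRotate (n + 1)) j
    (finRotate (n + 1) j) σ τ
  change bondAt _ _ _ (rot σ) (rot τ) = _ at h1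
  rw [h1]
  simp only [← hr j]
  generalize finRotate (n + 1) j = i
  by_cases h0 : i = 0
  · subst h0
    rw [if_pos rfl, if_neg hl]
    simp only [bondAt, of_apply]
    split_ifs
    · exact iv_bnd_fst hφ _ _ _ _
    · simp
  · rw [if_neg h0]
    by_cases h2 : i = Fin.last n
    · subst h2
      rw [if_pos rfl, finRotate_last]
      simp only [bondAt, of_apply]
      split_ifs
      · exact iv_bnd_snd hφ _ _ _ _
      · simp
    · rw [if_neg h2]
      simp only [bondAt, of_apply]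
      split_ifs with h3
      · rw [h3 0 (Ne.symm h0) (fun h => h2 ((hr i).1 h.symm)), mul_comm]
      · simp

theorem iv_ZS_bij {N : ℕ} {H : Op N} {β : ℝ} {e : Cfg N → Cfg N} (he : Function.Involutive e)
    (hd : ∀ σ, dsum (e σ) + dsum σ = 2 * N) (hE : ∀ σ, (EX H β (e σ) (e σ)).re = (EX H β σ σ).re)
    {k k' : ℕ} (hk : k + k' = 2 * N) : ZS H β (Sec N k') = ZS H β (Sec N k) := by
  refine Finset.sum_nbij' e e (fun a ha => ?_) (fun a ha => ?_) (fun a _ => he a)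
    (fun a _ => he a) (fun a _ => (hE a).symm)
  · have := hd a
    simp only [Sec, Finset.mem_filter, Finset.mem_univ, true_and] at ha ⊢
    omega
  · have := hd a
    simp only [Sec, Finset.mem_filter, Finset.mem_univ, true_and] at ha ⊢
    omega

theorem iv_sum_Sec {N M : ℕ} (hM : 2 * N < M) (F : Cfg N → ℝ) :
    ∑ σ, F σ = ∑ k ∈ Finset.range M, ∑ σ ∈ Sec N k, F σ := by
  refine (Finset.sum_fiberwise_of_maps_to (g := dsum) (fun σ _ => ?_) F).symm
  have := dsum_flp σ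
  rw [Finset.mem_range]
  omega

theorem iv_trg_one {N M : ℕ} (hM : 2 * N < M) (H : Op N) (β : ℝ) :
    (trg 1 H β).re = ∑ k ∈ Finset.range M, ZS H β (Sec N k) := by
  rw [tm_trg_one, Matrix.trace, Complex.re_sum, iv_sum_Sec hM]
  rfl

theorem iv_trg_uz {N M : ℕ} (hM : 2 * N < M) (H : Op N) (β : ℝ) :
    (trg uz H β).re = ∑ k ∈ Finset.range M, (-1) ^ (k + N) * ZS H β (Sec N k) := by
  rw [trg, tm_uz, Matrix.trace, Complex.re_sum, iv_sum_Sec hM]
  refine Finset.sum_congr rfl fun k _ => ?_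
  rw [ZS, Finset.mul_sum]
  refine Finset.sum_congr rfl fun σ hσ => ?_
  have h1 : tmq σ = k := (Finset.mem_filter.1 hσ).2
  rw [Matrix.diag_apply, diagonal_mul, h1, ← Complex.re_ofReal_mul]
  push_cast
  rfl

theorem iv_ux (N : ℕ) (σ τ : Cfg N) :
    tens (fun _ : Fin N => ux) σ τ = if τ = flp σ then (-1 : ℂ) ^ N else 0 := by
  have h : ∀ a b : Fin 3, ux a b = if b = a.rev then (-1 : ℂ) else 0 := by
    intro a b
    fin_cases a <;> fin_cases b <;> simp [ux, Fin.rev]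
  simp only [tens, of_apply, h]
  split_ifs with e
  · subst e
    simp [flp]
  · obtain ⟨j, hj⟩ := Function.ne_iff.1 e
    exact Finset.prod_eq_zero (Finset.mem_univ j) (if_neg hj)

theorem iv_neg_one_inv : (-1 : ℂ)⁻¹ = -1 := by norm_num

theorem HR_flp (n : ℕ) (σ τ : Cfg (n + 1)) : HR (-1) n (flp σ) (flp τ) = HR (-1) n σ τ := by
  rw [iv_HR_flp, iv_HR_symm iv_neg_one_inv]

theorem inv_ring (φ : ℂ) (hφ : ‖φ‖ = 1) (n : ℕ) (hn : 1 ≤ n) (β : ℝ) :
    OrbInv 0 fun σ : Cfg (n + 1) => (EX (HR φ n) β σ σ).re := by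
  have hφ0 : φ ≠ 0 := by
    rintro rfl
    simp at hφ
  refine ⟨fun _ => ⟨fun σ => ?_, fun σ => ?_, fun σ => ?_⟩, fun h => absurd h (by decide),
    fun h => absurd h (by decide)⟩
  · have h1 := iv_EX_conj iv_rot_inj (fun σ : Cfg (n + 1) => φ⁻¹ ^ (σ 0 : ℕ))
      (iv_HR_rot hφ0 n hn) β σ σ
    rw [mul_comm] at h1
    exact congrArg Complex.re (mul_left_cancel₀ (pow_ne_zero _ (inv_ne_zero hφ0)) h1)
  · exact congrArg Complex.re (iv_EX_tr iv_rfl_inj (iv_HR_rfl φ n) β σ σ)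
  · exact congrArg Complex.re (iv_EX_tr iv_flp_inj (iv_HR_flp φ n) β σ σ)

theorem inv_ringG (n : ℕ) (hn : 1 ≤ n) (β : ℝ) :
    OrbInv 0 fun σ : Cfg (n + 1) => (EX (HR (-1) n) β (flp σ) σ).re := by
  refine ⟨fun _ => ⟨fun σ => ?_, fun σ => ?_, fun σ => ?_⟩, fun h => absurd h (by decide),
    fun h => absurd h (by decide)⟩
  · have h1 := iv_EX_conj iv_rot_inj (fun σ : Cfg (n + 1) => (-1 : ℂ)⁻¹ ^ (σ 0 : ℕ))
      (iv_HR_rot (by norm_num) n hn) β (flp σ) σ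
    have h2 : (-1 : ℂ)⁻¹ ^ ((flp σ 0 : Fin 3) : ℕ) = (-1 : ℂ)⁻¹ ^ (σ 0 : ℕ) := by
      change (-1 : ℂ)⁻¹ ^ (((σ 0).rev : Fin 3) : ℕ) = _
      generalize σ 0 = a
      fin_cases a <;> simp [Fin.rev]
    simp only [h2] at h1
    rw [mul_comm] at h1
    exact congrArg Complex.re (mul_left_cancel₀ (pow_ne_zero _ (by norm_num)) h1)
  · exact congrArg Complex.re (iv_EX_perm iv_rfl_inj
      (fun σ τ => (iv_HR_rfl (-1) n σ τ).trans (iv_HR_symm iv_neg_one_inv n σ τ)) β (flp σ) σ)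
  · exact congrArg Complex.re (iv_EX_perm iv_flp_inj (HR_flp n) β (flp σ) σ)

theorem inv_open (sg : Bool) (h : ℝ) (n : ℕ) (β : ℝ) :
    OrbInv (if sg then 1 else 2) fun σ : Cfg (n + 1) => (EX (HO h (sgn sg * h) n) β σ σ).re := by
  cases sg
  · refine ⟨fun h => absurd h (by decide), fun h => absurd h (by decide), fun _ σ => ?_⟩
    refine congrArg Complex.re (iv_EX_perm (e := fun σ => flp (rfl' σ))
      (iv_flp_inj.comp iv_rfl_inj) (fun σ τ => ?_) β σ σ)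
    rw [iv_HO_flp, iv_HO_rfl]
    simp [sgn]
  · refine ⟨fun h => absurd h (by decide), fun _ σ => ?_, fun h => absurd h (by decide)⟩
    refine congrArg Complex.re (iv_EX_tr iv_rfl_inj (fun σ τ => ?_) β σ σ)
    rw [iv_HO_rfl]
    simp [sgn]

theorem ZS_ring_flip (φ : ℂ) (hφ : ‖φ‖ = 1) (n : ℕ) (hn : 1 ≤ n) (β : ℝ) (k k' : ℕ)
    (hk : k + k' = 2 * (n + 1)) :
    ZS (HR φ n) β (Sec (n + 1) k') = ZS (HR φ n) β (Sec (n + 1) k) :=
  iv_ZS_bij iv_flp_flp dsum_flp ((inv_ring φ hφ n hn β).1 rfl).2.2 hk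

theorem ZS_open_flip (h : ℝ) (n : ℕ) (β : ℝ) (k k' : ℕ) (hk : k + k' = 2 * (n + 1)) :
    ZS (HO h (sgn false * h) n) β (Sec (n + 1) k')
      = ZS (HO h (sgn false * h) n) β (Sec (n + 1) k) :=
  iv_ZS_bij (e := fun σ => flp (rfl' σ)) (fun σ => by funext j; simp [flp, rfl'])
    (fun σ => by rw [← iv_dsum_rfl σ]; exact dsum_flp _) ((inv_open false h n β).2.2 le_rfl) hk

theorem zr_decomp (φ : ℂ) (β : ℝ) (n : ℕ) :
    zr φ β (n + 1) = ∑ k ∈ Finset.range (2 * n + 3), ZS (HR φ n) β (Sec (n + 1) k) :=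
  iv_trg_one (by omega) (HR φ n) β

theorem gr_decomp (φ : ℂ) (β : ℝ) (n : ℕ) :
    gr φ β (n + 1) = ∑ k ∈ Finset.range (2 * n + 3),
      (-1) ^ (k + n + 1) * ZS (HR φ n) β (Sec (n + 1) k) :=
  iv_trg_uz (by omega) (HR φ n) β

theorem fr_decomp (β : ℝ) (n : ℕ) (hn : 1 ≤ n) :
    fr β (n + 1) = (-1) ^ (n + 1) * GS (HR (-1) n) β := by
  change (trg ux (HR (-1) n) β).re = _
  have h1 : trg ux (HR (-1) n) β = (-1) ^ (n + 1) * ∑ σ, EX (HR (-1) n) β (flp σ) σ := by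
    rw [trg, Matrix.trace, Finset.mul_sum]
    refine Finset.sum_congr rfl fun σ _ => ?_
    rw [Matrix.diag_apply, Matrix.mul_apply]
    simp only [iv_ux, ite_mul, zero_mul, Finset.sum_ite_eq', Finset.mem_univ, if_true]
    rfl
  have h2 : ∑ σ, EX (HR (-1) n) β (flp σ) σ =
      ∑ σ ∈ Sec (n + 1) (n + 1), EX (HR (-1) n) β (flp σ) σ := by
    refine (Finset.sum_subset (Finset.subset_univ _) fun σ _ hσ => ?_).symm
    refine EX_supp (S := Sec (n + 1) (dsum σ)) (fun a b hab => ?_) β (by simp [Sec]) ?_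
    · simp [Sec, HR_dsum (-1) n hn a b hab]
    · have := dsum_flp σ
      simp only [Sec, Finset.mem_filter, Finset.mem_univ, true_and] at hσ ⊢
      omega
  rw [h1, h2, GS, ← Complex.re_sum, ← Complex.re_ofReal_mul]
  push_cast
  rfl

theorem zo_decomp (sg : Bool) (β : ℝ) (m : ℕ) :
    zo (sgn sg) β m = ∑ k ∈ Finset.range (2 * m + 5),
      ZS (HO (3 / 5) (sgn sg * (3 / 5)) (m + 1)) β (Sec (m + 1 + 1) k) :=
  iv_trg_one (by omega) _ β

theorem go_decomp (sg : Bool) (β : ℝ) (m : ℕ) :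
    go (sgn sg) β m = ∑ k ∈ Finset.range (2 * m + 5),
      (-1) ^ (k + m) * ZS (HO (3 / 5) (sgn sg * (3 / 5)) (m + 1)) β (Sec (m + 1 + 1) k) := by
  refine (iv_trg_uz (M := 2 * m + 5) (by omega) _ β).trans (Finset.sum_congr rfl fun k _ => ?_)
  rw [show k + (m + 1 + 1) = k + m + 2 by ring, pow_add]
  norm_num

end Crest.Agent.R347
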