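import Crest.Agent.R347.KRun

/-! The two-slot recurrence for the phase `ω`. -/

set_option autoImplicit false

namespace Crest.Agent.R347

open Matrix Crest.MathPhysics.SpinChain Filter Topology K

/-- `x` holds the residues of `s` and `s'` in two slots. -/
def JW (n g : ℕ) (s s' : ℤ) (x : ℕ) : Prop :=
  ∃ A B, x = A + B * 2 ^ (n + g) ∧ Jr n s A ∧ Jr n s' B

theorem kw_split {n g : ℕ} {s s' : ℤ} {x : ℕ} (h : JW n g s s' x) :
    x = (x &&& (2 ^ n - 1)) + (x >>> (n + g)) * 2 ^ (n + g) ∧ Jr n s (x &&& (2 ^ n - 1)) ∧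
      Jr n s' (x >>> (n + g)) := by
  obtain ⟨A, B, rfl, hA, hB⟩ := h
  have h1 : (A + B * 2 ^ (n + g)) &&& (2 ^ n - 1) = A := by
    rw [Nat.and_two_pow_sub_one_eq_mod, add_comm n, pow_add, ← mul_assoc,
      Nat.add_mul_mod_self_right, Nat.mod_eq_of_lt hA.1]
  have h2 : (A + B * 2 ^ (n + g)) >>> (n + g) = B := by
    rw [Nat.shiftRight_eq_div_pow, Nat.add_mul_div_right _ _ (by positivity), Nat.div_eq_of_lt
      (hA.1.trans_le (Nat.pow_le_pow_right two_pos (Nat.le_add_right _ _))), zero_add]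
  rw [h1, h2]
  exact ⟨rfl, hA, hB⟩

theorem kw_mask (n g u v : ℕ) (s s' : ℤ) (hu : u < 2 ^ (n + g)) (e : (u : ZMod (2 ^ n)) = s)
    (e' : (v : ZMod (2 ^ n)) = s') :
    JW n g s s' ((u + v * 2 ^ (n + g)) &&& ((2 ^ n - 1) * (2 ^ (n + g) + 1))) := by
  refine ⟨_, _, ?_, kr_mod _ _ _ e, kr_mod _ _ _ e'⟩
  have h1 : 2 ^ n - 1 < 2 ^ (n + g) := (Nat.sub_lt (by positivity) one_pos).trans_le
    (Nat.pow_le_pow_right two_pos (Nat.le_add_right _ _))
  rw [← Nat.mod_add_div' (_ &&& _) (2 ^ (n + g)), Nat.and_mod_two_pow, Nat.and_div_two_pow,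
    mul_add, mul_one, add_comm (_ * _) (2 ^ n - 1), Nat.add_mul_mod_self_right,
    Nat.add_mul_mod_self_right, Nat.add_mul_div_right _ _ (by positivity),
    Nat.add_mul_div_right _ _ (by positivity), Nat.mod_eq_of_lt hu, Nat.mod_eq_of_lt h1,
    Nat.div_eq_of_lt hu, Nat.div_eq_of_lt h1, zero_add, zero_add,
    Nat.and_two_pow_sub_one_eq_mod, Nat.and_two_pow_sub_one_eq_mod]

theorem kw_num {d x y S c m M K n q : ℕ} (hK : 4 * (n + 2) + q ≤ K) (hd : d ≤ 2 * (n + 2))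
    (hm : m ≤ M) (hx : x ≤ m) (hy : y ≤ m) (hS : S ≤ 2 * (n + 1) * m) (hc : c ≤ M) :
    d * x + q * y + S + c ≤ K * M := by
  nlinarith [Nat.mul_le_mul hd (hx.trans hm), Nat.mul_le_mul_left q (hy.trans hm),
    Nat.mul_le_mul_left (2 * (n + 1)) hm, Nat.mul_le_mul_right M hK, Nat.zero_le M]

theorem kw_fin (n g PA PB NA NB : ℕ) (s s' : ℤ) (hA : NA ≤ PA) (hB : NB ≤ PB)
    (hu : PA < 2 ^ (n + g)) (e : (PA : ZMod (2 ^ n)) - NA = s) (e' : (PB : ZMod (2 ^ n)) - NB = s') :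
    JW n g s s' ((PA + PB * 2 ^ (n + g) - (NA + NB * 2 ^ (n + g))) &&&
      ((2 ^ n - 1) * (2 ^ (n + g) + 1))) := by
  obtain ⟨u, rfl⟩ := Nat.exists_eq_add_of_le hA
  obtain ⟨v, rfl⟩ := Nat.exists_eq_add_of_le hB
  rw [add_mul, add_add_add_comm, Nat.add_sub_cancel_left]
  rw [Nat.cast_add, add_sub_cancel_left] at e e'
  exact kw_mask _ _ _ _ _ _ (by omega) e e'

theorem run_W {α : Type} (h l w K g q cb : ℕ) (cs rs : List ℕ) (hK : 4 * (h + l + 2) + q ≤ K)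
    (hg : cb + K + 4 ≤ 2 ^ g) :
    ∃ f : V2, (∀ fin : V2 → α,
      run (rowE (rowW (2 ^ (w * rs.length) - 1) (w * rs.length + g) (2 ^ (w * rs.length + g) + 1)
          h l (K * 2 ^ (w * rs.length) * (2 ^ (w * rs.length + g) + 1))
          ((2 ^ (w * rs.length) - 1) * (2 ^ (w * rs.length + g) + 1)) q cb)
        (2 ^ (w * rs.length) - 1) ((2 ^ (w * rs.length) - 1) * (2 ^ (w * rs.length + g) + 1))
        w (3 ^ (l + 1)) rs) cs fin = fin f) ∧
      Rep h l w rs (fun r => (clenV (tW h l cb) q (unitV (3 ^ (l + 1)) r, 0) cs 0 0).1)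
        (fun a b => f a b &&& (2 ^ (w * rs.length) - 1)) ∧
      Rep h l w rs (fun r => (clenV (tW h l cb) q (unitV (3 ^ (l + 1)) r, 0) cs 0 0).2)
        (fun a b => f a b >>> (w * rs.length + g)) := by
  have hX : 2 ^ (w * rs.length + g) = 2 ^ g * 2 ^ (w * rs.length) := by rw [pow_add, mul_comm]
  have hM : 0 < 2 ^ (w * rs.length) := by positivity
  refine (kr_run (α := α) (rowE (rowW (2 ^ (w * rs.length) - 1) (w * rs.length + g)
      (2 ^ (w * rs.length + g) + 1) h l (K * 2 ^ (w * rs.length) * (2 ^ (w * rs.length + g) + 1))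
      ((2 ^ (w * rs.length) - 1) * (2 ^ (w * rs.length + g) + 1)) q cb)
      (2 ^ (w * rs.length) - 1) ((2 ^ (w * rs.length) - 1) * (2 ^ (w * rs.length + g) + 1))
      w (3 ^ (l + 1)) rs)
    (fun U f => ∀ a b, a < 3 ^ (h + 1) → b < 3 ^ (l + 1) → JW (w * rs.length) g
      (pack w (rs.map fun r => (U r).1 a b)) (pack w (rs.map fun r => (U r).2 a b)) (f a b))
    (tW h l cb) q (fun r => (unitV (3 ^ (l + 1)) r, 0)) ?_ ?_ cs).imp fun f H =>
      ⟨H.1, fun a b ha hb => (kw_split (H.2 a b ha hb)).2.1,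
        fun a b ha hb => (kw_split (H.2 a b ha hb)).2.2⟩
  · have h0 : Jr (w * rs.length) (pack w (rs.map fun _ => 0)) 0 :=
      ⟨hM, (kr_zero w rs).symm ▸ Int.ModEq.refl _⟩
    exact fun a b _ _ => ⟨0, 0, by simp, h0, h0⟩
  intro U1 U0 f1 f0 c h1 h0 a b ha hb
  have h2 := kr_rowE (rowW (2 ^ (w * rs.length) - 1) (w * rs.length + g)
      (2 ^ (w * rs.length + g) + 1) h l (K * 2 ^ (w * rs.length) * (2 ^ (w * rs.length + g) + 1))
      ((2 ^ (w * rs.length) - 1) * (2 ^ (w * rs.length + g) + 1)) q cb)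
    (2 ^ (w * rs.length) - 1) ((2 ^ (w * rs.length) - 1) * (2 ^ (w * rs.length + g) + 1))
    w (3 ^ (l + 1)) rs a b f1 f0 c (fun s => JW (w * rs.length) g s
      (pack w (rs.map fun r => (tW h l cb (U1 r)).2 a b) -
        q * pack w (rs.map fun r => (U0 r).2 a b))) ?_
    (pack w (rs.map fun r => (tW h l cb (U1 r)).1 a b) -
      q * pack w (rs.map fun r => (U0 r).1 a b)) ?_
  · rw [← kr_mul, ← kr_mul, ← kr_mul, ← kr_sub, ← kr_sub, ← kr_add] at h2
    convert h2 using 4 <;> simp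
  · rintro s x y ⟨A, B, rfl, hA, hB⟩
    rw [add_right_comm, Nat.and_two_pow_sub_one_eq_mod]
    refine kw_mask _ _ _ _ _ _ ?_ ?_ ((kr_iff _ _ _).1 hB.2)
    · have g1 := Nat.mul_le_mul_right (2 ^ (w * rs.length)) hg
      have g2 := Nat.mod_lt y hM
      have g3 := hA.1
      rw [add_mul] at g1
      omega
    · rw [Nat.cast_add, ZMod.natCast_mod, (kr_iff _ _ _).1 hA.2, Int.cast_add, Int.cast_natCast]
  obtain ⟨A1, hA1⟩ : ∃ A : V2, A = fun x y => f1 x y &&& (2 ^ (w * rs.length) - 1) := ⟨_, rfl⟩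
  obtain ⟨B1, hB1⟩ : ∃ A : V2, A = fun x y => f1 x y >>> (w * rs.length + g) := ⟨_, rfl⟩
  obtain ⟨A0, hA0⟩ : ∃ A : V2, A = fun x y => f0 x y &&& (2 ^ (w * rs.length) - 1) := ⟨_, rfl⟩
  obtain ⟨B0, hB0⟩ : ∃ A : V2, A = fun x y => f0 x y >>> (w * rs.length + g) := ⟨_, rfl⟩
  obtain ⟨m, hm, b1, b0, bS, bc1, bc2, e1, e0, eS, ec1, ec2⟩ := kr_facts ha hb
    (U1 := fun r => (U1 r).1) (U0 := fun r => (U0 r).1) (f1 := A1) (f0 := A0)
    (by rw [hA1]; exact fun x y hx hy => (kw_split (h1 x y hx hy)).2.1)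
    (by rw [hA0]; exact fun x y hx hy => (kw_split (h0 x y hx hy)).2.1)
  obtain ⟨m', hm', b1', b0', bS', bc1', bc2', e1', e0', eS', ec1', ec2'⟩ := kr_facts ha hb
    (U1 := fun r => (U1 r).2) (U0 := fun r => (U0 r).2) (f1 := B1) (f0 := B0)
    (by rw [hB1]; exact fun x y hx hy => (kw_split (h1 x y hx hy)).2.2)
    (by rw [hB0]; exact fun x y hx hy => (kw_split (h0 x y hx hy)).2.2)
  obtain ⟨d1, d2⟩ := dIn_le h l a b
  have d3 : dR h l a b - cb ≤ 2 * (h + l + 2) := by unfold dR; omega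
  have d4 : cb - dR h l a b ≤ cb := Nat.sub_le _ _
  have s1 : ∀ x y, x < 3 ^ (h + 1) → y < 3 ^ (l + 1) →
      f1 x y = A1 x y + B1 x y * 2 ^ (w * rs.length + g) := fun x y hx hy => by
    rw [hA1, hB1]
    exact (kw_split (h1 x y hx hy)).1
  have s0 : f0 a b = A0 a b + B0 a b * 2 ^ (w * rs.length + g) := by
    rw [hA0, hB0]
    exact (kw_split (h0 a b ha hb)).1
  have sS : sIn h l f1 a b = sIn h l A1 a b + sIn h l B1 a b * 2 ^ (w * rs.length + g) := by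
    have t1 := sIn_map (AddMonoidHom.fst ℕ ℕ) h l a b fun x y => (A1 x y, B1 x y)
    have t2 := sIn_map (AddMonoidHom.snd ℕ ℕ) h l a b fun x y => (A1 x y, B1 x y)
    have t3 := sIn_map ((AddMonoidHom.id ℕ).coprod
      (AddMonoidHom.mulRight (2 ^ (w * rs.length + g)))) h l a b fun x y => (A1 x y, B1 x y)
    rw [(sIn_congr h l a b ha hb _ _ s1).1]
    exact t3.1.symm.trans (congrArg₂ (fun u v => u + v * 2 ^ (w * rs.length + g)) t1.1 t2.1)
  have c1 : cl1 h (fun x y => (f1 x y >>> (w * rs.length + g)) * (2 ^ (w * rs.length + g) + 1)) a b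
      = cl1 h B1 a b * (2 ^ (w * rs.length + g) + 1) :=
    hB1 ▸ (sIn_map (AddMonoidHom.mulRight _) h l a b _).2.1.symm
  have c2 : cl2 h (fun x y => (f1 x y &&& (2 ^ (w * rs.length) - 1)) *
      (2 ^ (w * rs.length + g) + 1)) a b = cl2 h A1 a b * (2 ^ (w * rs.length + g) + 1) :=
    hA1 ▸ (sIn_map (AddMonoidHom.mulRight _) h l a b _).2.2.symm
  have c3 : cl1 h (fun x y => (f1 x y &&& (2 ^ (w * rs.length) - 1)) <<< (w * rs.length + g)) a b
      = cl1 h A1 a b * 2 ^ (w * rs.length + g) := by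
    simp only [Nat.shiftLeft_eq]
    exact hA1 ▸ (sIn_map (AddMonoidHom.mulRight _) h l a b _).2.1.symm
  rw [rowW_spec _ _ _ _ _ _ _ _ _ _ _ ha hb, c1, c2, c3, ← hB1, sS, s0, s1 a b ha hb]
  convert kw_fin (w * rs.length) g
    ((cb - dR h l a b) * A1 a b + K * 2 ^ (w * rs.length) + cl1 h B1 a b + cl2 h A1 a b)
    ((cb - dR h l a b) * B1 a b + K * 2 ^ (w * rs.length) + cl1 h B1 a b + cl2 h A1 a b)
    ((dR h l a b - cb) * A1 a b + q * A0 a b + sIn h l A1 a b + cl2 h B1 a b)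
    ((dR h l a b - cb) * B1 a b + q * B0 a b + sIn h l B1 a b + cl1 h A1 a b) _ _ ?_ ?_ ?_ ?_ ?_
    using 3
  · ring
  · ring
  · exact (kw_num hK d3 hm b1 b0 bS (bc2'.trans hm')).trans (by omega)
  · exact (kw_num hK d3 hm' b1' b0' bS' (bc1.trans hm)).trans (by omega)
  · have g1 := Nat.mul_le_mul_right (2 ^ (w * rs.length)) hg
    have g2 := Nat.mul_le_mul d4 (b1.trans hm)
    rw [add_mul, add_mul] at g1
    omega
  · simp only [tW, kr_sub, kr_add, kr_mul]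
    push_cast
    rw [e1, e0, eS, ec1', ec2, ec2', kr_two]
    linear_combination kr_tsub (ZMod (2 ^ (w * rs.length))) cb (dR h l a b) *
      (pack w (rs.map fun r => (U1 r).1 a b) : ℤ)
  · simp only [tW, kr_sub, kr_add, kr_mul]
    push_cast
    rw [e1', e0', eS', ec1', ec2, ec1, kr_two]
    linear_combination kr_tsub (ZMod (2 ^ (w * rs.length))) cb (dR h l a b) *
      (pack w (rs.map fun r => (U1 r).2 a b) : ℤ)

end Crest.Agent.R347
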