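import Crest.Agent.R347.KPhys
import Crest.Agent.R347.KRunW
import Crest.Agent.R347.KQuad
import Crest.Agent.R347.Bridge

/-! Soundness of one kernel run, and of a list of runs. -/

set_option autoImplicit false

namespace Crest.Agent.R347

open Matrix Crest.MathPhysics.SpinChain Filter Topology K

theorem kc_sl (n : ℕ) : Nat.shiftLeft 1 n = 2 ^ n := Nat.one_shiftLeft n

theorem kc_if (a b : ℕ) (c : Bool) :
    (ifb% (Nat.beq a b) c false) = true ↔ a = b ∧ c = true := by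
  rw [← Nat.beq_eq]
  cases Nat.beq a b <;> simp

theorem kc_engR (row : ℕ → ℕ → ℕ → ℕ → ℕ → ℕ → ℕ → ℕ → Row) (h l k w u len K q cb : ℕ)
    (cs rs ws cl : List ℕ) (A B : ℕ) : engR row h l k w u len K q cb cs rs ws cl A B =
    run (rowE (row h l (K * 2 ^ (w * len)) (2 ^ (w * len) - 1) q cb) (2 ^ (w * len) - 1)
      (2 ^ (w * len) - 1) w (3 ^ (l + 1)) rs) cs fun f =>
      ifb% (Nat.beq (quad (h + 1) (l + 1) k w (2 ^ w) (w - u) (2 ^ u - 1) (bias w (2 ^ w / 2) rs)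
          cl ws f) A)
        (Nat.beq (diagS w (2 ^ w) (3 ^ (l + 1)) (bias w (2 ^ w / 2) rs) f rs ws 0) B) false := by
  simp only [engR, setup, frc_eq, kc_sl]
  rfl

theorem kc_engF (h l k w u len K q cb : ℕ) (cs rs ws cl : List ℕ) (A B C : ℕ) :
    engF h l k w u len K q cb cs rs ws cl A B C =
    run (rowE (rowM h l (K * 2 ^ (w * len)) (2 ^ (w * len) - 1) q cb) (2 ^ (w * len) - 1)
      (2 ^ (w * len) - 1) w (3 ^ (l + 1)) rs) cs fun f =>
      ifb% (Nat.beq (quad (h + 1) (l + 1) k w (2 ^ w) (w - u) (2 ^ u - 1) (bias w (2 ^ w / 2) rs)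
          cl ws f) A)
        (ifb% (Nat.beq (diagS w (2 ^ w) (3 ^ (l + 1)) (bias w (2 ^ w / 2) rs) f rs ws 0) B)
          (Nat.beq (quad (h + 1) (l + 1) k w (2 ^ w) (w - u) (2 ^ u - 1) (bias w (2 ^ w / 2) rs)
            cl ws fun a b => f a b + f (3 ^ (h + 1) - 1 - a) (3 ^ (l + 1) - 1 - b)) C)
          false) false := by
  simp only [engF, setup, frc_eq, kc_sl]
  rfl

theorem kc_engW (h l k w u len K g q cb : ℕ) (cs rs ws cl : List ℕ) (A B C : ℕ) :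
    engW h l k w u len K g q cb cs rs ws cl A B C =
    run (rowE (rowW (2 ^ (w * len) - 1) (w * len + g) (2 ^ (w * len + g) + 1)
        h l (K * 2 ^ (w * len) * (2 ^ (w * len + g) + 1))
        ((2 ^ (w * len) - 1) * (2 ^ (w * len + g) + 1)) q cb)
      (2 ^ (w * len) - 1) ((2 ^ (w * len) - 1) * (2 ^ (w * len + g) + 1)) w (3 ^ (l + 1)) rs) cs
      fun f =>
      ifb% (Nat.beq (quad (h + 1) (l + 1) k w (2 ^ w) (w - u) (2 ^ u - 1) (bias w (2 ^ w / 2) rs)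
          cl ws fun a b => 2 * (f a b &&& (2 ^ (w * len) - 1)) + 2 ^ (w * len) -
            f a b >>> (w * len + g)) A)
        (ifb% (Nat.beq (diagS w (2 ^ w) (3 ^ (l + 1)) (bias w (2 ^ w / 2) rs)
            (fun a b => f a b &&& (2 ^ (w * len) - 1)) rs ws 0) B)
          (Nat.beq (quad (h + 1) (l + 1) k w (2 ^ w) (w - u) (2 ^ u - 1) (bias w (2 ^ w / 2) rs)
            cl ws fun a b => f a b >>> (w * len + g)) C) false) false := by
  simp only [engW, setup, frc_eq, kc_sl]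
  rfl

/-- The side conditions. -/
structure KcSide (n Kmin : ℕ) (p : PD) (x : CD) : Prop where
  len : x.c.length = x.len
  le : x.c.length ≤ 160
  hw : 2 ≤ p.w
  hu : p.u ≤ p.w
  hK : Kmin + p.q ≤ p.K
  hg : p.cb + p.K + 4 ≤ 2 ^ p.g
  sz : 3 ^ n * x.c.length * 4 ^ p.u ≤ 2 ^ p.w
  lt : ∀ r ∈ x.c, r.1 < 3 ^ n

theorem kc_side {n Kmin : ℕ} {p : PD} {x : CD} (H : side n Kmin p x = true) : KcSide n Kmin p x := by
  simp only [side, Bool.and_eq_true, decide_eq_true_eq, List.all_eq_true] at H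
  obtain ⟨⟨h1, h2, h3, h4, h5, h6, h7⟩, h8⟩ := H
  exact ⟨h1, h1 ▸ h2, h3, h4, h5, h6, h1 ▸ h7, h8⟩

theorem kc_appr_add {F Y N F' Y' N' : ℝ} (h : Appr F Y N) (h' : Appr F' Y' N') :
    Appr (F + F') (Y + Y') (N + N') := fun κ hκ => by
  have h1 := abs_add_le (F - Y) (F' - Y')
  rw [add_sub_add_comm]
  linarith [h κ hκ, h' κ hκ]

theorem kc_wsum_append (n : ℕ) (c c' : List (ℕ × ℕ)) (F : Cfg n → ℝ) :
    wsum n (c ++ c') F = wsum n c F + wsum n c' F := by simp [wsum]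

theorem kc_wtot_append (c c' : List (ℕ × ℕ)) : wtot (c ++ c') = wtot c + wtot c' := by simp [wtot]

theorem kc_pack {α : Type} (w : ℕ) (s t : ℤ) (c : List α) (x y : α → ℤ) :
    pack w (c.map fun r => s * x r + t * y r) = s * pack w (c.map x) + t * pack w (c.map y) := by
  induction c with
  | nil => simp [pack]
  | cons a c ih =>
    simp only [List.map_cons, pack, ih]
    ring

theorem kc_valid {h l r : ℕ} (hr : r < 3 ^ (h + l + 1 + 1)) :
    r / 3 ^ (l + 1) < 3 ^ (h + 1) ∧ r % 3 ^ (l + 1) < 3 ^ (l + 1) := by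
  refine ⟨(Nat.div_lt_iff_lt_mul (by positivity)).2 ?_, Nat.mod_lt _ (by positivity)⟩
  rwa [← pow_add, show h + 1 + (l + 1) = h + l + 1 + 1 by ring]

theorem kc_at_flp {R : Type} {h l : ℕ} (X : ℕ → ℕ → R) (σ : Cfg (h + l + 1 + 1)) :
    at2 (l + 1) X (flp σ) =
      at2 (l + 1) (fun a b => X (3 ^ (h + 1) - 1 - a) (3 ^ (l + 1) - 1 - b)) σ := by
  have h1 := code_flp σ
  obtain ⟨h2, h3⟩ := kc_valid (code_lt σ)
  have h4 := Nat.mod_add_div (code σ) (3 ^ (l + 1))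
  rw [show 3 ^ (h + l + 1 + 1) = 3 ^ (l + 1) * 3 ^ (h + 1) by ring] at h1
  have h5 := (Nat.div_mod_unique (a := code (flp σ)) (d := 3 ^ (h + 1) - 1 - code σ / 3 ^ (l + 1))
    (c := 3 ^ (l + 1) - 1 - code σ % 3 ^ (l + 1)) (by positivity : 0 < 3 ^ (l + 1))).2 ⟨by
      generalize code σ / 3 ^ (l + 1) = a at *
      generalize code σ % 3 ^ (l + 1) = b at *
      generalize 3 ^ (l + 1) = T at *
      obtain ⟨e, he⟩ := Nat.exists_eq_add_of_lt h2
      rw [he] at h1 ⊢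
      rw [show a + e + 1 - 1 - a = e by omega]
      have : T * (a + e + 1) = T * a + T * e + T := by ring
      omega, by omega⟩
  simp only [at2, h5.1, h5.2]

section
variable {h l k Kmin : ℕ} {p : PD} {x : CD}

theorem kc_quad (hs : KcSide (h + l + 2) Kmin p x) {U : ℕ → Z2} {v : V2} {A : ℕ}
    (hv : ∀ a b, a < 3 ^ (h + 1) → b < 3 ^ (l + 1) → (v a b : ℤ) ≡
      pack p.w ((x.c.map Prod.fst).map fun r => U r a b) [ZMOD 2 ^ (p.w * (x.c.map Prod.fst).length)])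
    (hb : ∀ r ∈ x.c, ∀ σ : Cfg (h + l + 1 + 1), |at2 (l + 1) (U r.1) σ| < 2 ^ (p.w - 1))
    (hA : quad (h + 1) (l + 1) k p.w (2 ^ p.w) (p.w - p.u) (2 ^ p.u - 1)
      (bias p.w (2 ^ p.w / 2) (x.c.map Prod.fst)) (CL.take (x.c.map Prod.fst).length)
      (x.c.map Prod.snd) v = A) :
    Appr ((x.c.map fun r => (r.2 : ℝ) * ∑ σ ∈ Sec (h + l + 1 + 1) k,
        ((at2 (l + 1) (U r.1) σ : ℤ) : ℝ) ^ 2).sum / 4 ^ (p.w - p.u))
      (YY p.u (wtot x.c) (Sec (h + l + 1 + 1) k).card A)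
      (wtot x.c * (Sec (h + l + 1 + 1) k).card) := by
  simp only [List.map_map, List.length_map, Function.comp_def] at hv hA
  have hz : 3 ^ (h + l + 1 + 1) * x.c.length * 4 ^ p.u ≤ 2 ^ p.w := hs.sz
  have hv' : ∀ σ : Cfg (h + l + 1 + 1), ((at2 (l + 1) v σ : ℕ) : ℤ) ≡
      pack p.w (x.c.map fun r => at2 (l + 1) (U r.1) σ) [ZMOD 2 ^ (p.w * x.c.length)] := fun σ =>
    hv _ _ (kc_valid (code_lt σ)).1 (kc_valid (code_lt σ)).2
  have hn : h + 1 + (l + 1) = h + l + 1 + 1 := by ring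
  generalize h + l + 1 + 1 = n at hn hz hv' hb ⊢
  subst hn
  rw [quad_spec _ _ k p.w p.u x.c _ (List.length_take_of_le (l := CL) hs.le) (apfree_CL _) hs.hw hs.hu hz U v
    (fun σ _ => hv' σ) fun σ _ r hr => hb r hr σ] at hA
  rw [← hA]
  exact appr_of_trc _ p.w p.u hs.hw hs.hu x.c (fun r σ => at2 (l + 1) (U r) σ) fun σ _ r hr => hb r hr σ

theorem kc_diag (hs : KcSide (h + l + 2) Kmin p x) {U : ℕ → Z2} {f : V2} {B : ℕ}
    (hv : Rep h l p.w (x.c.map Prod.fst) U f)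
    (hb : ∀ r ∈ x.c, ∀ σ : Cfg (h + l + 1 + 1), |at2 (l + 1) (U r.1) σ| < 2 ^ (p.w - 1))
    (hB : diagS p.w (2 ^ p.w) (3 ^ (l + 1)) (bias p.w (2 ^ p.w / 2) (x.c.map Prod.fst)) f
      (x.c.map Prod.fst) (x.c.map Prod.snd) 0 = B) {F : Cfg (h + l + 1 + 1) → ℝ}
    (hF : ∀ r ∈ x.c, F (dec _ r.1) = (at2 (l + 1) (U r.1) (dec (h + l + 1 + 1) r.1) : ℤ)) :
    wsum _ x.c F = B - wtot x.c * 2 ^ (p.w - 1) := by
  have h0 : ∀ r ∈ x.c, code (dec (h + l + 1 + 1) r.1) = r.1 := fun r hr => code_dec (hs.lt r hr)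
  have h1 := diagS_spec p.w (3 ^ (l + 1)) x.c hs.hw U f (fun r hr => by
    simpa only [List.map_map, List.length_map, Function.comp_def] using
      (hv _ _ (kc_valid (hs.lt r hr)).1 (kc_valid (hs.lt r hr)).2).2) fun r hr r' hr' => by
    simpa only [at2, h0 r hr] using hb r' hr' (dec _ r.1)
  rw [hB] at h1
  have h2 := congrArg (Int.cast : ℤ → ℝ) h1
  rw [Int.cast_natCast] at h2
  rw [wsum, List.map_congr_left fun r hr => by rw [hF r hr, at2, h0 r hr], h2, wtot]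
  generalize x.c = c
  induction c with
  | nil => simp
  | cons a c ih =>
    simp only [List.map_cons, List.sum_cons, ih, Int.cast_add, Nat.cast_add, Int.cast_mul,
      Int.cast_pow, Int.cast_natCast, Int.cast_ofNat]
    ring

theorem kc_two (hw : 2 ≤ p.w) {a : ℤ} {t : ℝ} (h1 : |(a : ℝ)| ≤ 2 * t) (h2 : t < 2 ^ (p.w - 2)) :
    |a| < 2 ^ (p.w - 1) := by
  have h3 : |(a : ℝ)| < 2 ^ (p.w - 1) := by
    rw [show p.w - 1 = p.w - 2 + 1 by omega, pow_succ]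
    linarith
  exact_mod_cast h3

variable {P : Op (h + l + 1 + 1)} {U U' : ℕ → Z2} {f f' : V2}

theorem kc_real (hs : KcSide (h + l + 2) Kmin p x) (hr : Rep h l p.w (x.c.map Prod.fst) U f)
    (hP : ∀ r < 3 ^ (h + l + 1 + 1), ∀ τ, P τ (dec _ r) = ((at2 (l + 1) (U r) τ : ℤ) : ℂ))
    (hb : ∀ r ∈ x.c, ∀ τ, ‖P τ (dec _ r.1)‖ < 2 ^ (p.w - 2))
    (hA : quad (h + 1) (l + 1) k p.w (2 ^ p.w) (p.w - p.u) (2 ^ p.u - 1)
      (bias p.w (2 ^ p.w / 2) (x.c.map Prod.fst)) (CL.take (x.c.map Prod.fst).length)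
      (x.c.map Prod.snd) f = x.A)
    (hB : diagS p.w (2 ^ p.w) (3 ^ (l + 1)) (bias p.w (2 ^ p.w / 2) (x.c.map Prod.fst)) f
      (x.c.map Prod.fst) (x.c.map Prod.snd) 0 = x.B) : Res P k p.w p.u 1 x.c x.A x.B := by
  have h1 : ∀ r ∈ x.c, ∀ σ : Cfg (h + l + 1 + 1), |at2 (l + 1) (U r.1) σ| < 2 ^ (p.w - 1) :=
    fun r hr σ => kc_two hs.hw (by
      rw [hP _ (hs.lt r hr), Complex.norm_intCast]
      linarith [abs_nonneg ((at2 (l + 1) (U r.1) σ : ℤ) : ℝ)]) (hb r hr σ)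
  refine ⟨?_, kc_diag hs hr h1 hB fun r hr => by rw [FT, hP _ (hs.lt r hr), Complex.intCast_re]⟩
  rw [Nat.cast_one, one_mul, one_mul, one_mul, wsum, List.map_congr_left fun r hr => by
    simp only [FF, hP _ (hs.lt r hr), Complex.norm_intCast, sq_abs]
    rfl]
  exact kc_quad hs (fun a b ha hb => (hr a b ha hb).2) h1 hA

theorem kc_flip (hs : KcSide (h + l + 2) Kmin p x) (hr : Rep h l p.w (x.c.map Prod.fst) U f)
    (hP : ∀ r < 3 ^ (h + l + 1 + 1), ∀ τ, P τ (dec _ r) = ((at2 (l + 1) (U r) τ : ℤ) : ℂ))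
    (hb : ∀ r ∈ x.c, ∀ τ, ‖P τ (dec _ r.1)‖ < 2 ^ (p.w - 2))
    (hC : (quad (h + 1) (l + 1) k p.w (2 ^ p.w) (p.w - p.u) (2 ^ p.u - 1)
      (bias p.w (2 ^ p.w / 2) (x.c.map Prod.fst)) (CL.take (x.c.map Prod.fst).length)
      (x.c.map Prod.snd) fun a b => f a b + f (3 ^ (h + 1) - 1 - a) (3 ^ (l + 1) - 1 - b)) = x.C) :
    ResG P k p.w p.u x.c x.C := by
  have e : ∀ r (σ : Cfg (h + l + 1 + 1)), at2 (l + 1)
      (fun a b => 1 * U r a b + 1 * U r (3 ^ (h + 1) - 1 - a) (3 ^ (l + 1) - 1 - b)) σ =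
      at2 (l + 1) (U r) σ + at2 (l + 1) (U r) (flp σ) := fun r σ => by
    rw [kc_at_flp]
    simp only [at2, one_mul]
  have key := kc_quad hs
    (U := fun r a b => 1 * U r a b + 1 * U r (3 ^ (h + 1) - 1 - a) (3 ^ (l + 1) - 1 - b))
    (fun a b ha hb => by
      rw [kc_pack, one_mul, one_mul, Nat.cast_add]
      exact (hr a b ha hb).2.add (hr _ _ (by omega) (by omega)).2)
    (fun r hr σ => by
      have h1 := hb r hr σ
      have h2 := hb r hr (flp σ)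
      rw [hP _ (hs.lt r hr), Complex.norm_intCast] at h1 h2
      rw [e]
      refine kc_two hs.hw (t := (|((at2 (l + 1) (U r.1) σ : ℤ) : ℝ)| +
        |((at2 (l + 1) (U r.1) (flp σ) : ℤ) : ℝ)|) / 2) ?_ (by linarith)
      rw [Int.cast_add, mul_div_cancel₀ _ two_ne_zero]
      exact abs_add_le _ _) hC
  rw [ResG, wsum, List.map_congr_left fun r hr => by
    simp only [FG, hP _ (hs.lt r hr), ← Int.cast_add, Complex.norm_intCast, sq_abs, ← e]
    rfl]
  exact key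

theorem kc_norm (a b : ℤ) :
    4 * ‖(a : ℂ) + b * om‖ ^ 2 = ((2 * a + -1 * b : ℤ) : ℝ) ^ 2 + 3 * (b : ℝ) ^ 2 := by
  have h3 := Real.mul_self_sqrt (by norm_num : (0 : ℝ) ≤ 3)
  rw [Complex.sq_norm, Complex.normSq_apply]
  simp only [om, Complex.add_re, Complex.intCast_re, Complex.mul_re, Complex.intCast_im, zero_mul,
    sub_zero, Complex.add_im, Complex.mul_im, add_zero, zero_add]
  push_cast
  linear_combination (b : ℝ) ^ 2 * h3

theorem kc_om (hs : KcSide (h + l + 2) Kmin p x) (hr : Rep h l p.w (x.c.map Prod.fst) U f)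
    (hr' : Rep h l p.w (x.c.map Prod.fst) U' f')
    (hP : ∀ r < 3 ^ (h + l + 1 + 1), ∀ τ, P τ (dec _ r) =
      ((at2 (l + 1) (U r) τ : ℤ) : ℂ) + ((at2 (l + 1) (U' r) τ : ℤ) : ℂ) * om)
    (hH : P.IsHermitian) (hb : ∀ r ∈ x.c, ∀ τ, ‖P τ (dec _ r.1)‖ < 2 ^ (p.w - 2))
    (hA : (quad (h + 1) (l + 1) k p.w (2 ^ p.w) (p.w - p.u) (2 ^ p.u - 1)
      (bias p.w (2 ^ p.w / 2) (x.c.map Prod.fst)) (CL.take (x.c.map Prod.fst).length)
      (x.c.map Prod.snd) fun a b => 2 * f a b + 2 ^ (p.w * (x.c.map Prod.fst).length) - f' a b) = x.A)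
    (hB : diagS p.w (2 ^ p.w) (3 ^ (l + 1)) (bias p.w (2 ^ p.w / 2) (x.c.map Prod.fst)) f
      (x.c.map Prod.fst) (x.c.map Prod.snd) 0 = x.B)
    (hC : quad (h + 1) (l + 1) k p.w (2 ^ p.w) (p.w - p.u) (2 ^ p.u - 1)
      (bias p.w (2 ^ p.w / 2) (x.c.map Prod.fst)) (CL.take (x.c.map Prod.fst).length)
      (x.c.map Prod.snd) f' = x.C) : Res P k p.w p.u 4 x.c (x.A + 3 * x.C) x.B := by
  have h1 : ∀ r ∈ x.c, ∀ σ : Cfg (h + l + 1 + 1), |at2 (l + 1) (U r.1) σ| < 2 ^ (p.w - 1) ∧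
      |at2 (l + 1) (U' r.1) σ| < 2 ^ (p.w - 1) ∧
      |2 * at2 (l + 1) (U r.1) σ + -1 * at2 (l + 1) (U' r.1) σ| < 2 ^ (p.w - 1) := fun r hr σ => by
    have h2 := hb r hr σ
    rw [hP _ (hs.lt r hr)] at h2
    generalize at2 (l + 1) (U r.1) σ = a at h2 ⊢
    generalize at2 (l + 1) (U' r.1) σ = b at h2 ⊢
    have h3 := kc_norm a b
    have h4 := norm_nonneg ((a : ℂ) + b * om)
    refine ⟨kc_two hs.hw (abs_le_of_sq_le_sq ?_ (by linarith)) h2,
      kc_two hs.hw (abs_le_of_sq_le_sq ?_ (by linarith)) h2,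
      kc_two hs.hw (abs_le_of_sq_le_sq ?_ (by linarith)) h2⟩
    · push_cast at h3
      nlinarith [sq_nonneg ((a : ℝ) - 2 * b), sq_nonneg (a : ℝ)]
    · nlinarith [sq_nonneg (((2 * a + -1 * b : ℤ) : ℝ)), sq_nonneg (b : ℝ)]
    · nlinarith [sq_nonneg (b : ℝ)]
  refine ⟨?_, kc_diag hs hr (fun r hr σ => (h1 r hr σ).1) hB fun r hr => ?_⟩
  · have k1 := kc_quad hs (U := fun r a b => 2 * U r a b + -1 * U' r a b) (fun a b ha hb => by
      rw [kc_pack, Nat.cast_sub ((hr' a b ha hb).1.le.trans (Nat.le_add_left _ _)), neg_one_mul,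
        ← sub_eq_add_neg]
      push_cast
      refine Int.ModEq.sub ?_ (hr' a b ha hb).2
      simpa using ((hr a b ha hb).2.mul_left 2).add (Int.modulus_modEq_zero))
      (fun r hr σ => (h1 r hr σ).2.2) hA
    have k2 := kc_quad hs (fun a b ha hb => (hr' a b ha hb).2) (fun r hr σ => (h1 r hr σ).2.1) hC
    convert kc_appr_add k1 (kc_appr_add k2 (kc_appr_add k2 k2)) using 1
    · rw [← add_div, ← add_div, ← add_div, wsum, ← List.sum_map_mul_left, ← List.sum_map_add,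
        ← List.sum_map_add, ← List.sum_map_add]
      congr 2
      refine List.map_congr_left fun r hr => ?_
      simp only [← mul_add, ← Finset.sum_add_distrib]
      rw [mul_left_comm, FF, Finset.mul_sum]
      congr 1
      refine Finset.sum_congr rfl fun τ _ => ?_
      rw [hP _ (hs.lt r hr), Nat.cast_ofNat, kc_norm]
      simp only [at2]
      ring
    · simp only [YY]
      push_cast
      ring
    · push_cast
      ring
  · have h2 := congrArg Complex.im (hH.coe_re_apply_self (dec _ r.1))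
    rw [FT, hP _ (hs.lt r hr)] at *
    simp [om] at h2
    simp [h2]

end

theorem kc_clen {A : Type} [Ring A] [StarRing A] {t : A} (ht : IsSelfAdjoint t) (q : ℕ)
    (cs : List ℕ) : ∀ b1 b0 : A, IsSelfAdjoint b1 → Commute t b1 → IsSelfAdjoint b0 → Commute t b0 →
      IsSelfAdjoint (clen t q cs b1 b0) := by
  induction cs with
  | nil => exact fun _ _ h _ _ _ => h
  | cons c cs ih =>
    intro b1 b0 h1 h2 h3 h4
    refine ih _ _ ((((ht.commute_iff h1).1 h2).sub (((IsSelfAdjoint.natCast q).commute_iff h3).1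
      (Nat.cast_commute q b0))).add (IsSelfAdjoint.natCast c)) ?_ h1 h2
    exact (((Commute.refl t).mul_right h2).sub_right
      ((Nat.commute_cast t q).mul_right h4)).add_right (Nat.commute_cast t c)

theorem kc_PM_herm {ι : Type} [Fintype ι] [DecidableEq ι] {H : Matrix ι ι ℂ} (hH : H.IsHermitian)
    (s : ℕ) (c : ℤ) (q : ℕ) (cs : List ℕ) : (PM H s c q cs).IsHermitian := by
  refine kc_clen (A := Matrix ι ι ℂ) ?_ q cs 0 0 (.zero _) (.zero_right _) (.zero _) (.zero_right _)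
  change (_ : Matrix ι ι ℂ)ᴴ = _
  rw [conjTranspose_sub, conjTranspose_smul, conjTranspose_smul, conjTranspose_one, hH.eq]
  simp

theorem okP_sound (h l k : ℕ) (p : PD) (x : CD) (H : okP h l k p x = true)
    (hb : ∀ r ∈ x.c, ∀ τ, ‖PM (HR 1 (h + l + 1)) 1 ((p.cb : ℤ) - (h + l + 2 : ℕ)) p.q p.cs τ
      (dec _ r.1)‖ < 2 ^ (p.w - 2)) :
    Res (PM (HR 1 (h + l + 1)) 1 ((p.cb : ℤ) - (h + l + 2 : ℕ)) p.q p.cs) k p.w p.u 1 x.c x.A
      x.B := by
  rw [okP, Bool.and_eq_true] at H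
  have hs := kc_side H.1
  obtain ⟨f, hf, hr⟩ := run_P (α := Bool) h l p.w p.K p.q p.cb p.cs (x.c.map Prod.fst) hs.hK
  have H2 := H.2
  rw [kc_engR, ← hs.len, ← List.length_map Prod.fst, hf, kc_if] at H2
  exact kc_real hs hr (fun r hr τ => by
    simpa using PM_ring 1 (Or.inl rfl) h l p.cb p.q p.cs r hr τ) hb H2.1 (Nat.eq_of_beq_eq_true H2.2)

theorem okM_sound (h l k : ℕ) (p : PD) (x : CD) (H : okM h l k p x = true)
    (hb : ∀ r ∈ x.c, ∀ τ, ‖PM (HR (-1) (h + l + 1)) 1 ((p.cb : ℤ) - (h + l + 2 : ℕ)) p.q p.cs τ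
      (dec _ r.1)‖ < 2 ^ (p.w - 2)) :
    Res (PM (HR (-1) (h + l + 1)) 1 ((p.cb : ℤ) - (h + l + 2 : ℕ)) p.q p.cs) k p.w p.u 1 x.c x.A
      x.B := by
  rw [okM, Bool.and_eq_true] at H
  have hs := kc_side H.1
  obtain ⟨f, hf, hr⟩ := run_M (α := Bool) h l p.w p.K p.q p.cb p.cs (x.c.map Prod.fst) hs.hK
  have H2 := H.2
  rw [kc_engR, ← hs.len, ← List.length_map Prod.fst, hf, kc_if] at H2
  exact kc_real hs hr (fun r hr τ => by
    simpa using PM_ring (-1) (Or.inr rfl) h l p.cb p.q p.cs r hr τ) hb H2.1 (Nat.eq_of_beq_eq_true H2.2)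

theorem okF_sound (h l : ℕ) (p : PD) (x : CD) (H : okF h l (h + l + 2) p x = true)
    (hb : ∀ r ∈ x.c, ∀ τ, ‖PM (HR (-1) (h + l + 1)) 1 ((p.cb : ℤ) - (h + l + 2 : ℕ)) p.q p.cs τ
      (dec _ r.1)‖ < 2 ^ (p.w - 2)) :
    Res (PM (HR (-1) (h + l + 1)) 1 ((p.cb : ℤ) - (h + l + 2 : ℕ)) p.q p.cs) (h + l + 2) p.w p.u 1
        x.c x.A x.B ∧
      ResG (PM (HR (-1) (h + l + 1)) 1 ((p.cb : ℤ) - (h + l + 2 : ℕ)) p.q p.cs) (h + l + 2) p.w p.u
        x.c x.C := by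
  rw [okF, Bool.and_eq_true] at H
  have hs := kc_side H.1
  obtain ⟨f, hf, hr⟩ := run_M (α := Bool) h l p.w p.K p.q p.cb p.cs (x.c.map Prod.fst) hs.hK
  have H2 := H.2
  rw [kc_engF, ← hs.len, ← List.length_map Prod.fst, hf, kc_if, kc_if] at H2
  have hP := fun r hr τ => PM_ring (-1) (Or.inr rfl) h l p.cb p.q p.cs r hr τ
  rw [Int.cast_neg, Int.cast_one] at hP
  exact ⟨kc_real hs hr hP hb H2.1 H2.2.1, kc_flip hs hr hP hb (Nat.eq_of_beq_eq_true H2.2.2)⟩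

theorem okW_sound (h l k : ℕ) (p : PD) (x : CD) (H : okW h l k p x = true)
    (hb : ∀ r ∈ x.c, ∀ τ, ‖PM (HR om (h + l + 1)) 1 ((p.cb : ℤ) - (h + l + 2 : ℕ)) p.q p.cs τ
      (dec _ r.1)‖ < 2 ^ (p.w - 2)) :
    Res (PM (HR om (h + l + 1)) 1 ((p.cb : ℤ) - (h + l + 2 : ℕ)) p.q p.cs) k p.w p.u 4 x.c
      (x.A + 3 * x.C) x.B := by
  rw [okW, Bool.and_eq_true] at H
  have hs := kc_side H.1
  obtain ⟨f, hf, hr1, hr2⟩ :=
    run_W (α := Bool) h l p.w p.K p.g p.q p.cb p.cs (x.c.map Prod.fst) hs.hK hs.hg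
  have H2 := H.2
  rw [kc_engW, ← hs.len, ← List.length_map Prod.fst, hf, kc_if, kc_if] at H2
  exact kc_om hs hr1 hr2 (PM_om h l p.cb p.q p.cs) (kc_PM_herm (HR_isHermitian _ br_om_star _) _ _ _ _)
    hb H2.1 H2.2.1 (Nat.eq_of_beq_eq_true H2.2.2)

theorem okO_sound (sg : Bool) (h l k : ℕ) (p : PD) (x : CD) (H : okO sg h l k p x = true)
    (hb : ∀ r ∈ x.c, ∀ τ, ‖PM (HO (3 / 5) (sgn sg * (3 / 5)) (h + l + 1)) 5
      ((p.cb : ℤ) - (5 * (h + l + 1) + 6 : ℕ)) p.q p.cs τ (dec _ r.1)‖ < 2 ^ (p.w - 2)) :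
    Res (PM (HO (3 / 5) (sgn sg * (3 / 5)) (h + l + 1)) 5
      ((p.cb : ℤ) - (5 * (h + l + 1) + 6 : ℕ)) p.q p.cs) k p.w p.u 1 x.c x.A x.B := by
  rw [okO, Bool.and_eq_true] at H
  have hs := kc_side H.1
  obtain ⟨f, hf, hr⟩ := run_O (α := Bool) sg h l p.w p.K p.q p.cb p.cs (x.c.map Prod.fst) hs.hK
  have H2 := H.2
  rw [kc_engR, ← hs.len, ← List.length_map Prod.fst, hf, kc_if] at H2
  exact kc_real hs hr (fun r hr τ => PM_open sg h l p.cb p.q p.cs r hr τ) hb H2.1 (Nat.eq_of_beq_eq_true H2.2)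

theorem Res.join {n : ℕ} (P : Op n) (k w u m : ℕ) (xs : List CD) (fA : CD → ℕ)
    (h : ∀ x ∈ xs, Res P k w u m x.c (fA x) x.B) :
    Res P k w u m (xs.flatMap CD.c) (xs.map fA).sum (xs.map CD.B).sum := by
  induction xs with
  | nil => exact ⟨fun κ hκ => by simp [wsum, wtot, YY], by simp [wsum, wtot]⟩
  | cons x xs ih =>
    have h1 := h x List.mem_cons_self
    have h2 := ih fun y hy => h y (List.mem_cons_of_mem _ hy)
    simp only [List.flatMap_cons, List.map_cons, List.sum_cons]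
    constructor
    · convert kc_appr_add h1.sq h2.sq using 1
      · rw [kc_wsum_append]
        ring
      · simp only [YY, kc_wtot_append]
        push_cast
        ring
      · rw [kc_wtot_append]
        push_cast
        ring
    · rw [kc_wsum_append, kc_wtot_append, h1.tr, h2.tr]
      push_cast
      ring

theorem ResG.join {n : ℕ} (P : Op n) (k w u : ℕ) (xs : List CD)
    (h : ∀ x ∈ xs, ResG P k w u x.c x.C) :
    ResG P k w u (xs.flatMap CD.c) (xs.map CD.C).sum := by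
  induction xs with
  | nil => exact fun κ hκ => by simp [wsum, wtot, YY]
  | cons x xs ih =>
    have h1 := h x List.mem_cons_self
    have h2 := ih fun y hy => h y (List.mem_cons_of_mem _ hy)
    simp only [List.flatMap_cons, List.map_cons, List.sum_cons]
    unfold ResG
    convert kc_appr_add h1 h2 using 1
    · rw [kc_wsum_append]
      ring
    · simp only [YY, kc_wtot_append]
      push_cast
      ring
    · rw [kc_wtot_append]
      push_cast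
      ring

end Crest.Agent.R347
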