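import Mathlib

/-!
Executable (kernel-friendly) definitions for the numerical part of result 347.
All functions are plain recursions; the kernel shares repeated calls.

A configuration of `h + l` sites is addressed by the pair `(a, b)`: `b` is the code of the `l`
lowest sites, `a` the code of the `h` highest ones.  Many start vectors are treated at once: a
number holds one lane of `w` bits for each of them, and all arithmetic is modulo `2 ^ (w * len)`.
-/

set_option autoImplicit false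

namespace Crest.Agent.R347.K

/-- `frc n f = f n`, evaluating `n` first. -/
noncomputable def frc {α : Type} (n : ℕ) (f : ℕ → α) : α :=
  @Nat.rec (fun _ => α) (f 0) (fun m _ => f m) (Nat.succ n)

notation "ifn% " b:max x:max y:max => @Bool.rec (fun _ => ℕ) y x b
notation "ifb% " b:max x:max y:max => @Bool.rec (fun _ => Bool) y x b
notation "ift% " T:max b:max x:max y:max => @Bool.rec (fun _ => T) y x b

/-- Case distinction on a digit. -/
notation "dig% " T:max a:max x:max y:max z:max =>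
  @Nat.rec (fun _ => T) x (fun p _ => @Nat.rec (fun _ => T) y (fun _ _ => z) p) a

abbrev V2 := ℕ → ℕ → ℕ

/-- `chunk l k = k g` with `g f x = x + ∑_{i ∈ l} f i`. -/
noncomputable def chunk {α : Type} (l : List ℕ) (k : ((ℕ → ℕ) → ℕ → ℕ) → α) : α :=
  @List.rec ℕ (fun _ => α) (k fun _ x => x) (fun a l _ =>
  @List.rec ℕ (fun _ => α) (k fun f x => Nat.add x (f a)) (fun b l _ =>
  @List.rec ℕ (fun _ => α) (k fun f x => Nat.add (Nat.add x (f a)) (f b)) (fun c l _ =>
  @List.rec ℕ (fun _ => α) (k fun f x => Nat.add (Nat.add (Nat.add x (f a)) (f b)) (f c))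
    (fun d l _ =>
      @List.rec ℕ (fun _ => ℕ → ℕ → ℕ → ℕ → ((ℕ → ℕ) → ℕ → ℕ) → α)
        (fun cnt a b c g =>
          @Nat.rec (fun _ => α) (k g) (fun cnt _ =>
          @Nat.rec (fun _ => α) (k fun f x => Nat.add (g f x) (f a)) (fun cnt _ =>
          @Nat.rec (fun _ => α) (k fun f x => Nat.add (Nat.add (g f x) (f a)) (f b)) (fun _ _ =>
            k fun f x => Nat.add (Nat.add (Nat.add (g f x) (f a)) (f b)) (f c)) cnt) cnt) cnt)
        (fun d _ ih cnt a b c g =>
          @Nat.rec (fun _ => α) (ih 1 d 0 0 g) (fun cnt _ =>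
          @Nat.rec (fun _ => α) (ih 2 a d 0 g) (fun cnt _ =>
          @Nat.rec (fun _ => α) (ih 3 a b d g) (fun _ _ =>
            ih 0 0 0 0 fun f x =>
              Nat.add (Nat.add (Nat.add (Nat.add (g f x) (f a)) (f b)) (f c)) (f d)) cnt) cnt) cnt)
        l 0 0 0 0
        (fun f x => Nat.add (Nat.add (Nat.add (Nat.add x (f a)) (f b)) (f c)) (f d))) l) l) l) l

/-- `chunkH l k = k g` with `g f y x = x + ∑_{i ∈ l} f i y`. -/
noncomputable def chunkH {α : Type} (l : List ℕ) (k : (V2 → ℕ → ℕ → ℕ) → α) : α :=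
  @List.rec ℕ (fun _ => α) (k fun _ _ x => x) (fun a l _ =>
  @List.rec ℕ (fun _ => α) (k fun f y x => Nat.add x (f a y)) (fun b l _ =>
  @List.rec ℕ (fun _ => α) (k fun f y x => Nat.add (Nat.add x (f a y)) (f b y)) (fun c l _ =>
  @List.rec ℕ (fun _ => α) (k fun f y x => Nat.add (Nat.add (Nat.add x (f a y)) (f b y)) (f c y))
    (fun d l _ =>
      @List.rec ℕ (fun _ => ℕ → ℕ → ℕ → ℕ → (V2 → ℕ → ℕ → ℕ) → α)
        (fun cnt a b c g =>
          @Nat.rec (fun _ => α) (k g) (fun cnt _ =>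
          @Nat.rec (fun _ => α) (k fun f y x => Nat.add (g f y x) (f a y)) (fun cnt _ =>
          @Nat.rec (fun _ => α) (k fun f y x => Nat.add (Nat.add (g f y x) (f a y)) (f b y)) (fun _ _ =>
            k fun f y x => Nat.add (Nat.add (Nat.add (g f y x) (f a y)) (f b y)) (f c y)) cnt) cnt) cnt)
        (fun d _ ih cnt a b c g =>
          @Nat.rec (fun _ => α) (ih 1 d 0 0 g) (fun cnt _ =>
          @Nat.rec (fun _ => α) (ih 2 a d 0 g) (fun cnt _ =>
          @Nat.rec (fun _ => α) (ih 3 a b d g) (fun _ _ =>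
            ih 0 0 0 0 fun f y x =>
              Nat.add (Nat.add (Nat.add (Nat.add (g f y x) (f a y)) (f b y)) (f c y)) (f d y)) cnt) cnt) cnt)
        l 0 0 0 0
        (fun f y x => Nat.add (Nat.add (Nat.add (Nat.add x (f a y)) (f b y)) (f c y)) (f d y))) l) l) l) l

/-- The codes `b + ∑_{j<n} σ_j 3^j` with digit sum `k`, in front of `acc`. -/
noncomputable def secL (n : ℕ) : ℕ → ℕ → List ℕ → List ℕ :=
  @Nat.rec (fun _ => ℕ → ℕ → List ℕ → List ℕ)
    (fun k b acc => ift% (List ℕ) (Nat.beq k 0) (b :: acc) acc)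
    (fun m ih k b acc =>
      ift% (List ℕ) (Nat.ble k (Nat.mul 2 (Nat.succ m)))
        (ih k b (@Nat.rec (fun _ => List ℕ) acc (fun k1 _ =>
          frc (Nat.add b (Nat.pow 3 m)) fun b1 =>
            ih k1 b1 (@Nat.rec (fun _ => List ℕ) acc (fun k2 _ =>
              frc (Nat.add b1 (Nat.pow 3 m)) fun b2 => ih k2 b2 acc) k1)) k))
        acc) n

/-- A summation functional in compiled form. -/
structure Sm : Type where
  g : (ℕ → ℕ) → ℕ → ℕ

noncomputable def secS (n k : ℕ) : Sm := chunk (secL n k 0 []) Sm.mk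

/-- `∑ g a b` over the configurations with digit sum `k`. -/
noncomputable def sum2 (h l k : ℕ) (g : ℕ → ℕ → ℕ) : ℕ :=
  @Nat.rec (fun _ => ℕ) 0 (fun s ih => frc (Nat.sub k s) fun s' =>
    (secS h s).1 (fun a => (secS l s').1 (g a) 0) ih) (Nat.succ k)

noncomputable def allL (l : List ℕ) (f : ℕ → Bool) : Bool :=
  @List.rec ℕ (fun _ => Bool) true (fun a _ ih => ifb% (f a) ih false) l

/-- `g a b` holds for all configurations with digit sum `k`. -/
noncomputable def all2 (h l k : ℕ) (g : ℕ → ℕ → Bool) : Bool :=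
  @Nat.rec (fun _ => Bool) true (fun s ih => frc (Nat.sub k s) fun s' =>
    ifb% (allL (secL h s 0 []) fun a => allL (secL l s' 0 []) (g a)) ih false) (Nat.succ k)

/-- Hopping neighbours and Ising sum of the `n` bonds between the digits `0, …, n` of `x`;
`i` is the index and `h` twice the index step of the lowest digit. The continuation gets the list
and `∑ (m m' + 1)`. -/
noncomputable def inner {α : Type} (n : ℕ) (i : ℕ) (k : List ℕ → ℕ → α) :
    ℕ → ℕ → List ℕ → ℕ → α :=
  @Nat.rec (fun _ => ℕ → ℕ → List ℕ → ℕ → α) (fun _ _ l d => k l d)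
    (fun _ ih x h l d =>
      (fun (nx : List ℕ → ℕ → α) (b : ℕ) =>
        dig% α (Nat.mod x 3)
          (dig% α b (nx l (Nat.add d 2))
            (frc (Nat.sub i h) fun j => nx (j :: l) (Nat.succ d))
            (frc (Nat.sub i h) fun j => nx (j :: l) d))
          (dig% α b (frc (Nat.add i h) fun j => nx (j :: l) (Nat.succ d))
            (frc (Nat.sub i h) fun j => frc (Nat.add i h) fun j' => nx (j' :: j :: l) (Nat.succ d))
            (frc (Nat.sub i h) fun j => nx (j :: l) (Nat.succ d)))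
          (dig% α b (frc (Nat.add i h) fun j => nx (j :: l) d)
            (frc (Nat.add i h) fun j => nx (j :: l) (Nat.succ d))
            (nx l (Nat.add d 2))))
      (ih (Nat.div x 3) (Nat.mul 3 h)) (Nat.mod (Nat.div x 3) 3)) n

/-- Data of one half: summation over the inner neighbours, Ising sum, lowest and highest digit,
and the indices with the lowest (highest) digit raised and lowered. -/
structure Hf (γ : Type) : Type where
  g : γ
  d : ℕ
  bot : ℕ
  top : ℕ
  bu : ℕ
  bd : ℕ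
  tu : ℕ
  td : ℕ

abbrev HL := Hf ((ℕ → ℕ) → ℕ → ℕ)
abbrev HH := Hf (V2 → ℕ → ℕ → ℕ)

/-- The half with `n + 1` digits and code `x`. -/
noncomputable def half {γ : Type} (ck : List ℕ → (γ → Hf γ) → Hf γ) (n x : ℕ) : Hf γ :=
  inner n x (fun l d => ck l fun g => frc d fun d =>
    frc (Nat.mod x 3) fun bot => frc (Nat.div x (Nat.pow 3 n)) fun top =>
    frc (Nat.succ x) fun bu => frc (Nat.sub x 1) fun bd =>
    frc (Nat.add x (Nat.pow 3 n)) fun tu =>
    frc (Nat.sub x (Nat.pow 3 n)) fun td => ⟨g, d, bot, top, bu, bd, tu, td⟩) x 2 [] 0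

noncomputable def halfL (n x : ℕ) : HL := half chunk n x
noncomputable def halfH (n x : ℕ) : HH := half chunkH n x

/-- Bond between the digits `x`, `y`: the continuation is chosen by the hopping conditions (both,
`x` raised and `y` lowered, `x` lowered and `y` raised, none) and gets `m m' + 1`. -/
noncomputable def bnd4 {α : Type} (x y : ℕ) (k12 k1 k2 k0 : ℕ → α) : α :=
  dig% α x (dig% α y (k0 2) (k1 1) (k1 0)) (dig% α y (k2 1) (k12 1) (k1 1))
    (dig% α y (k2 0) (k2 1) (k0 2))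

/-- The hops across one bond, `(a1, b1)` for the first and `(a2, b2)` for the second kind. -/
noncomputable def cross {α : Type} (x y a1 b1 a2 b2 : ℕ) (k : (V2 → ℕ → ℕ) → ℕ → α) : α :=
  bnd4 x y (k fun F z => Nat.add (Nat.add z (F a1 b1)) (F a2 b2))
    (k fun F z => Nat.add z (F a1 b1)) (k fun F z => Nat.add z (F a2 b2)) (k fun _ z => z)

/-- A row in compiled form: from the two previous vectors and the coefficient to the new entry. -/
structure Row : Type where
  fn : V2 → V2 → ℕ → ℕ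

/-- Phase `1`: all hops are subtracted. -/
noncomputable def mkP (km mask q cb a b : ℕ) (gl : (ℕ → ℕ) → ℕ → ℕ) (gh : V2 → ℕ → ℕ → ℕ)
    (gm gc : V2 → ℕ → ℕ) (D : ℕ) : Row :=
  ift% Row (Nat.ble D cb)
    (frc (Nat.sub cb D) fun d =>
      ⟨fun f1 f0 _ => Nat.land (Nat.sub (Nat.add (Nat.mul d (f1 a b)) km)
        (gl (f1 a) (gh f1 b (gm f1 (gc f1 (Nat.mul q (f0 a b))))))) mask⟩)
    (frc (Nat.sub D cb) fun d =>
      ⟨fun f1 f0 _ => Nat.land (Nat.sub km
        (gl (f1 a) (gh f1 b (gm f1 (gc f1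
          (Nat.add (Nat.mul d (f1 a b)) (Nat.mul q (f0 a b)))))))) mask⟩)

/-- The hops in `gc` are added. -/
noncomputable def mkM (km mask q cb a b : ℕ) (gl : (ℕ → ℕ) → ℕ → ℕ) (gh : V2 → ℕ → ℕ → ℕ)
    (gm gc : V2 → ℕ → ℕ) (D : ℕ) : Row :=
  ift% Row (Nat.ble D cb)
    (frc (Nat.sub cb D) fun d =>
      ⟨fun f1 f0 _ => Nat.land (Nat.sub (gc f1 (Nat.add (Nat.mul d (f1 a b)) km))
        (gl (f1 a) (gh f1 b (gm f1 (Nat.mul q (f0 a b)))))) mask⟩)
    (frc (Nat.sub D cb) fun d =>
      ⟨fun f1 f0 _ => Nat.land (Nat.sub (gc f1 km)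
        (gl (f1 a) (gh f1 b (gm f1
          (Nat.add (Nat.mul d (f1 a b)) (Nat.mul q (f0 a b))))))) mask⟩)

/-- The hops in `gp` are added and those in `gc` subtracted. -/
noncomputable def mkW (km mask q cb a b : ℕ) (gl : (ℕ → ℕ) → ℕ → ℕ) (gh : V2 → ℕ → ℕ → ℕ)
    (gm gp gc : V2 → ℕ → ℕ) (D : ℕ) : Row :=
  ift% Row (Nat.ble D cb)
    (frc (Nat.sub cb D) fun d =>
      ⟨fun f1 f0 _ => Nat.land (Nat.sub (gp f1 (Nat.add (Nat.mul d (f1 a b)) km))
        (gl (f1 a) (gh f1 b (gm f1 (gc f1 (Nat.mul q (f0 a b))))))) mask⟩)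
    (frc (Nat.sub D cb) fun d =>
      ⟨fun f1 f0 _ => Nat.land (Nat.sub (gp f1 km)
        (gl (f1 a) (gh f1 b (gm f1 (gc f1
          (Nat.add (Nat.mul d (f1 a b)) (Nat.mul q (f0 a b)))))))) mask⟩)

/-- Hopping amplitude `5`, no closing bond. -/
noncomputable def mkO (km mask q cb a b : ℕ) (gl : (ℕ → ℕ) → ℕ → ℕ) (gh : V2 → ℕ → ℕ → ℕ)
    (gm : V2 → ℕ → ℕ) (D : ℕ) : Row :=
  ift% Row (Nat.ble D cb)
    (frc (Nat.sub cb D) fun d =>
      ⟨fun f1 f0 _ => Nat.land (Nat.sub (Nat.add (Nat.mul d (f1 a b)) km)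
        (Nat.add (Nat.mul 5 (gl (f1 a) (gh f1 b (gm f1 0)))) (Nat.mul q (f0 a b)))) mask⟩)
    (frc (Nat.sub D cb) fun d =>
      ⟨fun f1 f0 _ => Nat.land (Nat.sub km
        (Nat.add (Nat.mul 5 (gl (f1 a) (gh f1 b (gm f1 0))))
          (Nat.add (Nat.mul d (f1 a b)) (Nat.mul q (f0 a b))))) mask⟩)

/-- Both halves and the middle bond. -/
noncomputable def both {α : Type} (H : HH) (L : HL)
    (k : ((ℕ → ℕ) → ℕ → ℕ) → (V2 → ℕ → ℕ → ℕ) → (V2 → ℕ → ℕ) → ℕ →
      ℕ → ℕ → ℕ → ℕ → ℕ → ℕ → α) : α :=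
  @Hf.rec _ (fun _ => α) (fun gh dh hb ht hbu hbd htu htd =>
  @Hf.rec _ (fun _ => α) (fun gl dl lb lt lbu lbd ltu ltd =>
    cross lt hb hbd ltu hbu ltd fun gm dm =>
      k gl gh gm (Nat.add (Nat.add dh dl) dm) ht lb htu htd lbu lbd) L) H

/-- Rows of `c - H` for the ring with `h + 1` high and `l + 1` low sites, phase `1`. -/
noncomputable def rowP (h l km mask q cb a b : ℕ) : Row :=
  both (halfH h a) (halfL l b) fun gl gh gm D ht lb htu htd lbu lbd =>
    cross ht lb htu lbd htd lbu fun gc dc => mkP km mask q cb a b gl gh gm gc (Nat.add D dc)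

/-- Phase `-1`. -/
noncomputable def rowM (h l km mask q cb a b : ℕ) : Row :=
  both (halfH h a) (halfL l b) fun gl gh gm D ht lb htu htd lbu lbd =>
    cross ht lb htu lbd htd lbu fun gc dc => mkM km mask q cb a b gl gh gm gc (Nat.add D dc)

/-- Phase `ω`: a number holds the coefficients of `1` and of `ω` in two slots, `A + B * 2 ^ sh`
with `A, B ≤ m0`; `X1 = 1 + 2 ^ sh`. -/
noncomputable def rowW (m0 sh X1 h l km mask q cb a b : ℕ) : Row :=
  both (halfH h a) (halfL l b) fun gl gh gm D ht lb htu htd lbu lbd =>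
    (fun mk : (V2 → ℕ → ℕ) → (V2 → ℕ → ℕ) → ℕ → Row =>
      bnd4 ht lb
        (mk (fun F z => Nat.add (Nat.add z (Nat.mul (Nat.shiftRight (F htu lbd) sh) X1))
            (Nat.mul (Nat.land (F htd lbu) m0) X1))
          (fun F z => Nat.add (Nat.add z (Nat.shiftLeft (Nat.land (F htu lbd) m0) sh))
            (Nat.shiftRight (F htd lbu) sh)))
        (mk (fun F z => Nat.add z (Nat.mul (Nat.shiftRight (F htu lbd) sh) X1))
          (fun F z => Nat.add z (Nat.shiftLeft (Nat.land (F htu lbd) m0) sh)))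
        (mk (fun F z => Nat.add z (Nat.mul (Nat.land (F htd lbu) m0) X1))
          (fun F z => Nat.add z (Nat.shiftRight (F htd lbu) sh)))
        (mk (fun _ z => z) (fun _ z => z)))
    fun gp gc dc => mkW km mask q cb a b gl gh gm gp gc (Nat.add D dc)

/-- Rows of `c - 5 H` for the chain with fields `3/5` and `± 3/5`. -/
noncomputable def rowO (sg : Bool) (h l km mask q cb a b : ℕ) : Row :=
  both (halfH h a) (halfL l b) fun gl gh gm D ht lb _ _ _ _ =>
    mkO km mask q cb a b gl gh gm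
      (Nat.add (Nat.mul 5 D) (Nat.mul 3 (Nat.add lb (ifn% sg ht (Nat.sub 2 ht)))))

/-- Lists of pairs of numbers. -/
inductive EL : Type
  | nil : EL
  | cons (b v : ℕ) (t : EL) : EL

/-- The start vectors with high index `a`: low index and lane value. The start vector `k` sits at
`(rs[k] / T, rs[k] % T)`; `p` is the current shift. -/
noncomputable def starts (w T a : ℕ) (rs : List ℕ) : ℕ → EL :=
  @List.rec ℕ (fun _ => ℕ → EL) (fun _ => EL.nil)
    (fun r _ ih p => ift% EL (Nat.beq (Nat.div r T) a)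
      (frc (Nat.mod r T) fun b => frc (Nat.shiftLeft 1 p) fun v => EL.cons b v (ih (Nat.add p w)))
      (ih (Nat.add p w))) rs

/-- Add the start vectors to the rows. -/
noncomputable def rowE (rw : ℕ → ℕ → Row) (m0 mask w T : ℕ) (rs : List ℕ) (a b : ℕ) : Row :=
  @EL.rec (fun _ => Row) (rw a b)
    (fun b' v _ ih => ift% Row (Nat.beq b' b)
      ⟨fun f1 f0 c => Nat.land (Nat.add (ih.1 f1 f0 c) (Nat.land (Nat.mul c v) m0)) mask⟩ ih)
    (starts w T a rs 0)

/-- Run the recurrence along the coefficient list and hand the result to `fin`. -/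
noncomputable def run {α : Type} (rw : ℕ → ℕ → Row) (cs : List ℕ) (fin : V2 → α) : α :=
  @List.rec ℕ (fun _ => V2 → V2 → α) (fun f1 _ => fin f1)
    (fun c _ ih f1 f0 => ih (fun a b => (rw a b).1 f1 f0 c) f1) cs (fun _ _ => 0) (fun _ _ => 0)

/-- `∑_{k < length} 2^(w k) * B`. -/
noncomputable def bias (w B : ℕ) (rs : List ℕ) : ℕ :=
  @List.rec ℕ (fun _ => ℕ) 0 (fun _ _ ih => Nat.add B (Nat.shiftLeft ih w)) rs

/-- `∑_{k : cl[k] = c} 2^(w k) * D`. -/
noncomputable def cmask (w D c : ℕ) (cl : List ℕ) : ℕ :=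
  @List.rec ℕ (fun _ => ℕ) 0
    (fun a _ ih => Nat.add (ifn% (Nat.beq a c) D 0) (Nat.shiftLeft ih w)) cl

/-- `∑_k ws[k] * (digit 2 k of A cl[k])`, digits of width `w`; `p` is the current shift. -/
noncomputable def extr (w W : ℕ) (A : ℕ → ℕ) (cl : List ℕ) : List ℕ → ℕ → ℕ :=
  @List.rec ℕ (fun _ => List ℕ → ℕ → ℕ) (fun _ _ => 0)
    (fun c _ ih ws p => @List.rec ℕ (fun _ => ℕ) 0 (fun a ws' _ =>
      Nat.add (Nat.mul a (Nat.mod (Nat.shiftRight (A c) p) W))
        (frc (Nat.add p (Nat.mul 2 w)) fun p' => ih ws' p')) ws) cl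

/-- `∑_k ws[k] * (lane k of f rs[k] + bs)`. -/
noncomputable def diagS (w W T bs : ℕ) (f : V2) (rs : List ℕ) : List ℕ → ℕ → ℕ :=
  @List.rec ℕ (fun _ => List ℕ → ℕ → ℕ) (fun _ _ => 0)
    (fun r _ ih ws p => @List.rec ℕ (fun _ => ℕ) 0 (fun a ws' _ =>
      Nat.add (Nat.mul a (Nat.mod (Nat.shiftRight
          (Nat.add (frc (Nat.div r T) fun x => frc (Nat.mod r T) fun y => f x y) bs) p) W))
        (frc (Nat.add p w) fun p' => ih ws' p')) ws) rs

/-- Weighted sum of `t (D - t)` over lanes and configurations, `t` the truncated lanes of `v`. -/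
noncomputable def quad (h l k w W s D bs : ℕ) (cl ws : List ℕ) (v : V2) : ℕ :=
  (fun zz : V2 =>
    extr w W (fun c => frc (cmask w D c cl) fun m => sum2 h l k fun a b =>
      Nat.mul (Nat.land (zz a b) m) (Nat.sub m (Nat.land (zz a b) m))) cl ws 0)
  fun a b => Nat.shiftRight (Nat.add (v a b) bs) s

/-- Common set-up: `len` lanes of width `w`, `u` bits kept, `K` multiples of the modulus. -/
noncomputable def setup (w u len K : ℕ) (rs : List ℕ)
    (k : ℕ → ℕ → ℕ → ℕ → ℕ → ℕ → ℕ → Bool) : Bool :=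
  frc (Nat.shiftLeft 1 w) fun W => frc (Nat.div W 2) fun B =>
  frc (Nat.shiftLeft 1 (Nat.mul w len)) fun M => frc (Nat.sub M 1) fun mask =>
  frc (Nat.mul K M) fun km =>
  frc (bias w B rs) fun bs => frc (Nat.sub w u) fun s =>
  frc (Nat.sub (Nat.shiftLeft 1 u) 1) fun D => k W M mask km bs s D

/-- Real models: `row` is one of `rowP`, `rowM`, `rowO sg`. -/
noncomputable def engR (row : ℕ → ℕ → ℕ → ℕ → ℕ → ℕ → ℕ → ℕ → Row) (h l k w u len K q cb : ℕ)
    (cs rs ws cl : List ℕ) (A B : ℕ) : Bool :=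
  frc (Nat.pow 3 (Nat.succ l)) fun T => setup w u len K rs fun W _ mask km bs s D =>
    run (rowE (row h l km mask q cb) mask mask w T rs) cs fun f =>
      ifb% (Nat.beq (quad (Nat.succ h) (Nat.succ l) k w W s D bs cl ws f) A)
        (Nat.beq (diagS w W T bs f rs ws 0) B) false

/-- With the additional sum for `u x + u (flip x)`. -/
noncomputable def engF (h l k w u len K q cb : ℕ) (cs rs ws cl : List ℕ) (A B C : ℕ) : Bool :=
  frc (Nat.pow 3 (Nat.succ l)) fun T => setup w u len K rs fun W _ mask km bs s D =>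
    frc (Nat.sub (Nat.pow 3 (Nat.succ h)) 1) fun Fh => frc (Nat.sub T 1) fun Fl =>
    run (rowE (rowM h l km mask q cb) mask mask w T rs) cs fun f =>
      ifb% (Nat.beq (quad (Nat.succ h) (Nat.succ l) k w W s D bs cl ws f) A)
        (ifb% (Nat.beq (diagS w W T bs f rs ws 0) B)
          (Nat.beq (quad (Nat.succ h) (Nat.succ l) k w W s D bs cl ws fun a b =>
            frc (Nat.sub Fh a) fun a' => frc (Nat.sub Fl b) fun b' => Nat.add (f a b) (f a' b')) C)
          false) false

/-- Phase `ω`, with `g` guard bits between the slots. The sums are those of `2 a - b` and `b`. -/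
noncomputable def engW (h l k w u len K g q cb : ℕ) (cs rs ws cl : List ℕ) (A B C : ℕ) : Bool :=
  frc (Nat.pow 3 (Nat.succ l)) fun T => setup w u len K rs fun W M m0 km0 bs s D =>
    frc (Nat.add (Nat.mul w len) g) fun sh => frc (Nat.succ (Nat.shiftLeft 1 sh)) fun X1 =>
    frc (Nat.mul km0 X1) fun km => frc (Nat.mul m0 X1) fun mask =>
    run (rowE (rowW m0 sh X1 h l km mask q cb) m0 mask w T rs) cs fun f =>
      ifb% (Nat.beq (quad (Nat.succ h) (Nat.succ l) k w W s D bs cl ws fun a b =>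
            Nat.sub (Nat.add (Nat.mul 2 (Nat.land (f a b) m0)) M) (Nat.shiftRight (f a b) sh)) A)
        (ifb% (Nat.beq (diagS w W T bs (fun a b => Nat.land (f a b) m0) rs ws 0) B)
          (Nat.beq (quad (Nat.succ h) (Nat.succ l) k w W s D bs cl ws fun a b =>
            Nat.shiftRight (f a b) sh) C) false) false

end Crest.Agent.R347.K
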