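import Crest.Agent.R347.KRow
import Crest.Agent.R347.KQuad

/-! The kernel recurrence computes the packed vector recurrence modulo `2 ^ (w * len)`. -/

set_option autoImplicit false

namespace Crest.Agent.R347

open Matrix Crest.MathPhysics.SpinChain Filter Topology K

/-- `f` represents the lanes `U r`, `r ∈ rs`, on valid pairs. -/
def Rep (h l w : ℕ) (rs : List ℕ) (U : ℕ → Z2) (f : V2) : Prop :=
  ∀ a b, a < 3 ^ (h + 1) → b < 3 ^ (l + 1) → f a b < 2 ^ (w * rs.length) ∧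
    (f a b : ℤ) ≡ pack w (rs.map fun r => U r a b) [ZMOD 2 ^ (w * rs.length)]

theorem kr_add (w : ℕ) (rs : List ℕ) (X Y : ℕ → ℤ) :
    pack w (rs.map fun r => X r + Y r) = pack w (rs.map X) + pack w (rs.map Y) := by
  induction rs with
  | nil => rfl
  | cons r rs ih => simp only [List.map_cons, pack, ih]; ring

theorem kr_sub (w : ℕ) (rs : List ℕ) (X Y : ℕ → ℤ) :
    pack w (rs.map fun r => X r - Y r) = pack w (rs.map X) - pack w (rs.map Y) := by
  induction rs with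
  | nil => rfl
  | cons r rs ih => simp only [List.map_cons, pack, ih]; ring

theorem kr_mul (w : ℕ) (rs : List ℕ) (c : ℤ) (X : ℕ → ℤ) :
    pack w (rs.map fun r => c * X r) = c * pack w (rs.map X) := by
  induction rs with
  | nil => exact (mul_zero _).symm
  | cons r rs ih => simp only [List.map_cons, pack, ih]; ring

theorem kr_zero (w : ℕ) (rs : List ℕ) : pack w (rs.map fun _ => 0) = 0 := by
  simpa using kr_mul w rs 0 fun _ => 0

/-- `x` is the residue of `s`. -/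
def Jr (n : ℕ) (s : ℤ) (x : ℕ) : Prop := x < 2 ^ n ∧ (x : ℤ) ≡ s [ZMOD 2 ^ n]

theorem kr_iff (n x : ℕ) (y : ℤ) :
    (x : ℤ) ≡ y [ZMOD 2 ^ n] ↔ (x : ZMod (2 ^ n)) = (y : ZMod (2 ^ n)) := by
  have h := ZMod.intCast_eq_intCast_iff x y (2 ^ n)
  rw [Int.cast_natCast, Nat.cast_pow, Nat.cast_ofNat] at h
  exact h.symm

theorem kr_two (n : ℕ) : (2 : ZMod (2 ^ n)) ^ n = 0 := by
  exact_mod_cast ZMod.natCast_self (2 ^ n)

theorem kr_tsub (R : Type) [Ring R] (x y : ℕ) :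
    ((x - y : ℕ) : R) - ((y - x : ℕ) : R) = x - y := by
  rcases le_total x y with h | h
  · rw [Nat.sub_eq_zero_of_le h, Nat.cast_sub h, Nat.cast_zero, zero_sub, neg_sub]
  · rw [Nat.sub_eq_zero_of_le h, Nat.cast_sub h, Nat.cast_zero, sub_zero]

theorem kr_mod (n x : ℕ) (s : ℤ) (h : (x : ZMod (2 ^ n)) = s) : Jr n s (x % 2 ^ n) :=
  ⟨Nat.mod_lt _ (by positivity), (kr_iff _ _ _).2 (by rw [ZMod.natCast_mod, h])⟩

theorem kr_fin (n P N : ℕ) (s : ℤ) (h : N ≤ P) (e : (P : ZMod (2 ^ n)) - N = s) :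
    Jr n s ((P - N) &&& (2 ^ n - 1)) := by
  rw [Nat.and_two_pow_sub_one_eq_mod]
  exact kr_mod _ _ _ (by rw [Nat.cast_sub h, e])

theorem kr_cong {h l w a b : ℕ} {rs : List ℕ} (ha : a < 3 ^ (h + 1)) (hb : b < 3 ^ (l + 1))
    {U : ℕ → Z2} {F : V2} (H : Rep h l w rs U F) :
    ((sIn h l F a b : ℕ) : ZMod (2 ^ (w * rs.length))) =
        (pack w (rs.map fun r => sIn h l (U r) a b) : ℤ) ∧
      ((cl1 h F a b : ℕ) : ZMod (2 ^ (w * rs.length))) =
        (pack w (rs.map fun r => cl1 h (U r) a b) : ℤ) ∧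
      ((cl2 h F a b : ℕ) : ZMod (2 ^ (w * rs.length))) =
        (pack w (rs.map fun r => cl2 h (U r) a b) : ℤ) := by
  let ψ : (ℕ → ℤ) →+ ZMod (2 ^ (w * rs.length)) :=
    AddMonoidHom.mk' (fun V => (pack w (rs.map V) : ℤ)) fun X Y => by
      rw [← Int.cast_add, ← kr_add]; rfl
  have h1 := sIn_map (Nat.castAddMonoidHom (ZMod (2 ^ (w * rs.length)))) h l a b F
  have h2 := sIn_map ψ h l a b fun x y r => U r x y
  have h3 := fun r => sIn_map (Pi.evalAddMonoidHom (fun _ : ℕ => ℤ) r) h l a b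
    fun x y r => U r x y
  have h4 := sIn_congr h l a b ha hb (fun x y => (F x y : ZMod (2 ^ (w * rs.length))))
    (fun x y => ψ fun r => U r x y) fun x y hx hy => (kr_iff _ _ _).1 (H x y hx hy).2
  exact ⟨h1.1.trans (h4.1.trans (h2.1.symm.trans (congrArg ψ (funext fun r => (h3 r).1)))),
    h1.2.1.trans (h4.2.1.trans (h2.2.1.symm.trans (congrArg ψ (funext fun r => (h3 r).2.1)))),
    h1.2.2.trans (h4.2.2.trans (h2.2.2.symm.trans (congrArg ψ (funext fun r => (h3 r).2.2))))⟩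

theorem kr_facts {h l w a b : ℕ} {rs : List ℕ} (ha : a < 3 ^ (h + 1)) (hb : b < 3 ^ (l + 1))
    {U1 U0 : ℕ → Z2} {f1 f0 : V2} (h1 : Rep h l w rs U1 f1) (h0 : Rep h l w rs U0 f0) :
    ∃ m, m ≤ 2 ^ (w * rs.length) ∧ f1 a b ≤ m ∧ f0 a b ≤ m ∧
      sIn h l f1 a b ≤ 2 * (h + l + 1) * m ∧ cl1 h f1 a b ≤ m ∧ cl2 h f1 a b ≤ m ∧
      (f1 a b : ZMod (2 ^ (w * rs.length))) = (pack w (rs.map fun r => U1 r a b) : ℤ) ∧
      (f0 a b : ZMod (2 ^ (w * rs.length))) = (pack w (rs.map fun r => U0 r a b) : ℤ) ∧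
      ((sIn h l f1 a b : ℕ) : ZMod (2 ^ (w * rs.length))) =
        (pack w (rs.map fun r => sIn h l (U1 r) a b) : ℤ) ∧
      ((cl1 h f1 a b : ℕ) : ZMod (2 ^ (w * rs.length))) =
        (pack w (rs.map fun r => cl1 h (U1 r) a b) : ℤ) ∧
      ((cl2 h f1 a b : ℕ) : ZMod (2 ^ (w * rs.length))) =
        (pack w (rs.map fun r => cl2 h (U1 r) a b) : ℤ) := by
  have h2 := sIn_le h l a b _ ha hb f1 fun x y hx hy => (h1 x y hx hy).1.le
  exact ⟨_, le_rfl, (h1 a b ha hb).1.le, (h0 a b ha hb).1.le, h2.1, h2.2.1, h2.2.2,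
    (kr_iff _ _ _).1 (h1 a b ha hb).2, (kr_iff _ _ _).1 (h0 a b ha hb).2, kr_cong ha hb h1⟩

theorem kr_run {α V : Type} [AddCommGroup V] (rw : ℕ → ℕ → Row) (I : (ℕ → V) → V2 → Prop)
    (t : V → V) (q : ℕ) (e : ℕ → V) (h0 : I (fun _ => 0) fun _ _ => 0)
    (step : ∀ U1 U0 f1 f0 c, I U1 f1 → I U0 f0 →
      I (fun r => t (U1 r) - q • U0 r + c • e r) fun a b => (rw a b).fn f1 f0 c) (cs : List ℕ) :
    ∃ f : V2, (∀ fin : V2 → α, run rw cs fin = fin f) ∧
      I (fun r => clenV t q (e r) cs 0 0) f := by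
  suffices H : ∀ U1 U0 f1 f0, I U1 f1 → I U0 f0 → ∃ f : V2, (∀ fin : V2 → α,
      @List.rec ℕ (fun _ => V2 → V2 → α) (fun f1 _ => fin f1)
        (fun c _ ih f1 f0 => ih (fun a b => (rw a b).1 f1 f0 c) f1) cs f1 f0 = fin f) ∧
      I (fun r => clenV t q (e r) cs (U1 r) (U0 r)) f from H _ _ _ _ h0 h0
  induction cs with
  | nil => exact fun U1 U0 f1 f0 h1 _ => ⟨f1, fun _ => rfl, h1⟩
  | cons c cs ih => exact fun U1 U0 f1 f0 h1 h0 => ih _ _ _ _ (step U1 U0 f1 f0 c h1 h0) h1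

theorem kr_rowE (rw : ℕ → ℕ → Row) (m0 mask w T : ℕ) (rs : List ℕ) (a b : ℕ) (f1 f0 : V2) (c : ℕ)
    (J : ℤ → ℕ → Prop) (hJ : ∀ (s : ℤ) (x y : ℕ), J s x → J (s + y) ((x + (y &&& m0)) &&& mask))
    (s : ℤ) (h : J s ((rw a b).fn f1 f0 c)) :
    J (s + c * pack w (rs.map fun r => unitV T r a b)) ((rowE rw m0 mask w T rs a b).fn f1 f0 c) := by
  suffices H : ∀ p, J (s + c * 2 ^ p * pack w (rs.map fun r => unitV T r a b))
      ((@EL.rec (fun _ => Row) (rw a b) (fun b' v _ ih => ift% Row (Nat.beq b' b)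
        ⟨fun f1 f0 c => Nat.land (Nat.add (ih.1 f1 f0 c) (Nat.land (Nat.mul c v) m0)) mask⟩ ih)
        (starts w T a rs p)).fn f1 f0 c) by
    have h1 := H 0
    rwa [pow_zero, mul_one] at h1
  induction rs with
  | nil =>
    intro p
    rw [List.map_nil, pack, mul_zero, add_zero]
    exact h
  | cons r rs ih =>
    intro p
    have h1 := ih (p + w)
    have e : starts w T a (r :: rs) p = ift% EL (Nat.beq (r / T) a)
      (EL.cons (r % T) (1 <<< p) (starts w T a rs (p + w))) (starts w T a rs (p + w)) := rfl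
    rw [e, List.map_cons, pack, unitV]
    cases ha : Nat.beq (r / T) a with
    | false =>
      rw [if_neg fun h => Nat.ne_of_beq_eq_false ha h.1, zero_add, ← mul_assoc, mul_assoc (c : ℤ),
        ← pow_add]
      exact h1
    | true =>
      dsimp only
      cases hb : Nat.beq (r % T) b with
      | false =>
        rw [if_neg fun h => Nat.ne_of_beq_eq_false hb h.2, zero_add, ← mul_assoc,
          mul_assoc (c : ℤ), ← pow_add]
        exact h1
      | true =>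
        rw [if_pos ⟨Nat.eq_of_beq_eq_true ha, Nat.eq_of_beq_eq_true hb⟩]
        convert hJ _ _ (c * 1 <<< p) h1 using 1
        · rw [Nat.one_shiftLeft]
          push_cast
          ring
        · rfl

theorem kr_real {α : Type} (h l w q : ℕ) (cs rs : List ℕ) (row : ℕ → ℕ → Row) (t : Z2 → Z2)
    (H : ∀ a b, a < 3 ^ (h + 1) → b < 3 ^ (l + 1) → ∀ (U1 U0 : ℕ → Z2) (f1 f0 : V2) (c : ℕ),
      Rep h l w rs U1 f1 → Rep h l w rs U0 f0 → Jr (w * rs.length)
        (pack w (rs.map fun r => t (U1 r) a b) - q * pack w (rs.map fun r => U0 r a b))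
        ((row a b).fn f1 f0 c)) :
    ∃ f : V2, (∀ fin : V2 → α, run (rowE row (2 ^ (w * rs.length) - 1) (2 ^ (w * rs.length) - 1)
        w (3 ^ (l + 1)) rs) cs fin = fin f) ∧
      Rep h l w rs (fun r => clenV t q (unitV (3 ^ (l + 1)) r) cs 0 0) f := by
  refine kr_run _ (Rep h l w rs) t q _ (fun a b _ _ => ⟨by positivity, ?_⟩)
    (fun U1 U0 f1 f0 c h1 h0 a b ha hb => ?_) cs
  · exact (kr_zero w rs).symm ▸ Int.ModEq.refl _
  · have h2 := kr_rowE row (2 ^ (w * rs.length) - 1) (2 ^ (w * rs.length) - 1) w (3 ^ (l + 1)) rs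
      a b f1 f0 c (Jr (w * rs.length)) (fun s x y hx => by
        rw [Nat.and_two_pow_sub_one_eq_mod, Nat.and_two_pow_sub_one_eq_mod]
        refine kr_mod _ _ _ ?_
        rw [Nat.cast_add, ZMod.natCast_mod, (kr_iff _ _ _).1 hx.2, Int.cast_add,
          Int.cast_natCast]) _ (H a b ha hb U1 U0 f1 f0 c h1 h0)
    rw [← kr_mul, ← kr_mul, ← kr_sub, ← kr_add] at h2
    exact h2

theorem run_P {α : Type} (h l w K q cb : ℕ) (cs rs : List ℕ) (hK : 4 * (h + l + 2) + q ≤ K) :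
    ∃ f : V2, (∀ fin : V2 → α,
      run (rowE (rowP h l (K * 2 ^ (w * rs.length)) (2 ^ (w * rs.length) - 1) q cb)
        (2 ^ (w * rs.length) - 1) (2 ^ (w * rs.length) - 1) w (3 ^ (l + 1)) rs) cs fin = fin f) ∧
      Rep h l w rs (fun r => clenV (tR 1 h l cb) q (unitV (3 ^ (l + 1)) r) cs 0 0) f := by
  refine kr_real h l w q cs rs _ _ fun a b ha hb U1 U0 f1 f0 c h1 h0 => ?_
  obtain ⟨m, hm, b1, b0, bS, bc1, bc2, e1, e0, eS, ec1, ec2⟩ := kr_facts ha hb h1 h0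
  obtain ⟨d1, d2⟩ := dIn_le h l a b
  have d3 : dR h l a b - cb ≤ 2 * (h + l + 2) := by unfold dR; omega
  rw [rowP_spec _ _ _ _ _ _ _ _ ha hb]
  refine kr_fin _ _ _ _ ?_ ?_
  · nlinarith [Nat.mul_le_mul d3 b1, Nat.mul_le_mul_left q b0, Nat.mul_le_mul hK hm,
      Nat.zero_le ((cb - dR h l a b) * f1 a b)]
  · simp only [tR, kr_sub, kr_add, kr_mul]
    push_cast
    rw [e1, e0, eS, ec1, ec2, kr_two]
    linear_combination kr_tsub (ZMod (2 ^ (w * rs.length))) cb (dR h l a b) *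
      (pack w (rs.map fun r => U1 r a b) : ℤ)

theorem run_M {α : Type} (h l w K q cb : ℕ) (cs rs : List ℕ) (hK : 4 * (h + l + 2) + q ≤ K) :
    ∃ f : V2, (∀ fin : V2 → α,
      run (rowE (rowM h l (K * 2 ^ (w * rs.length)) (2 ^ (w * rs.length) - 1) q cb)
        (2 ^ (w * rs.length) - 1) (2 ^ (w * rs.length) - 1) w (3 ^ (l + 1)) rs) cs fin = fin f) ∧
      Rep h l w rs (fun r => clenV (tR (-1) h l cb) q (unitV (3 ^ (l + 1)) r) cs 0 0) f := by
  refine kr_real h l w q cs rs _ _ fun a b ha hb U1 U0 f1 f0 c h1 h0 => ?_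
  obtain ⟨m, hm, b1, b0, bS, bc1, bc2, e1, e0, eS, ec1, ec2⟩ := kr_facts ha hb h1 h0
  obtain ⟨d1, d2⟩ := dIn_le h l a b
  have d3 : dR h l a b - cb ≤ 2 * (h + l + 2) := by unfold dR; omega
  rw [rowM_spec _ _ _ _ _ _ _ _ ha hb]
  refine kr_fin _ _ _ _ ?_ ?_
  · nlinarith [Nat.mul_le_mul d3 b1, Nat.mul_le_mul_left q b0, Nat.mul_le_mul hK hm,
      Nat.zero_le ((cb - dR h l a b) * f1 a b), Nat.zero_le m]
  · simp only [tR, kr_sub, kr_add, kr_mul]
    push_cast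
    rw [e1, e0, eS, ec1, ec2, kr_two]
    linear_combination kr_tsub (ZMod (2 ^ (w * rs.length))) cb (dR h l a b) *
      (pack w (rs.map fun r => U1 r a b) : ℤ)

theorem run_O {α : Type} (sg : Bool) (h l w K q cb : ℕ) (cs rs : List ℕ)
    (hK : 20 * (h + l + 2) + 12 + q ≤ K) :
    ∃ f : V2, (∀ fin : V2 → α,
      run (rowE (rowO sg h l (K * 2 ^ (w * rs.length)) (2 ^ (w * rs.length) - 1) q cb)
        (2 ^ (w * rs.length) - 1) (2 ^ (w * rs.length) - 1) w (3 ^ (l + 1)) rs) cs fin = fin f) ∧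
      Rep h l w rs (fun r => clenV (tO sg h l cb) q (unitV (3 ^ (l + 1)) r) cs 0 0) f := by
  refine kr_real h l w q cs rs _ _ fun a b ha hb U1 U0 f1 f0 c h1 h0 => ?_
  obtain ⟨m, hm, b1, b0, bS, bc1, bc2, e1, e0, eS, ec1, ec2⟩ := kr_facts ha hb h1 h0
  obtain ⟨d1, d2⟩ := dIn_le h l a b
  have d3 : dO sg h l a b - cb ≤ 10 * (h + l + 1) + 12 := by
    have h2 : a / 3 ^ h < 3 := Nat.div_lt_of_lt_mul (by rwa [← pow_succ])
    unfold dO
    generalize a / 3 ^ h = z at h2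
    split_ifs <;> omega
  rw [rowO_spec _ _ _ _ _ _ _ _ _ ha hb]
  refine kr_fin _ _ _ _ ?_ ?_
  · nlinarith [Nat.mul_le_mul d3 b1, Nat.mul_le_mul_left q b0, Nat.mul_le_mul hK hm,
      Nat.zero_le ((cb - dO sg h l a b) * f1 a b), Nat.zero_le m]
  · simp only [tO, kr_sub, kr_mul]
    push_cast
    rw [e1, e0, eS, kr_two]
    linear_combination kr_tsub (ZMod (2 ^ (w * rs.length))) cb (dO sg h l a b) *
      (pack w (rs.map fun r => U1 r a b) : ℤ)

end Crest.Agent.R347
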