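import Crest.Agent.R347.Norm
import Crest.Agent.R347.KDefs

/-! Specification-level definitions for the numerical certificates. -/

set_option autoImplicit false

namespace Crest.Agent.R347

open Matrix Crest.MathPhysics.SpinChain Filter Topology K

/-! ### Codes and sectors -/

def code {n : ℕ} (σ : Cfg n) : ℕ := ∑ j : Fin n, (σ j : ℕ) * 3 ^ (j : ℕ)

def dec (n x : ℕ) : Cfg n := fun j => ⟨x / 3 ^ (j : ℕ) % 3, Nat.mod_lt _ (by norm_num)⟩

def dsum {n : ℕ} (σ : Cfg n) : ℕ := ∑ j : Fin n, (σ j : ℕ)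

def Sec (n k : ℕ) : Finset (Cfg n) := Finset.univ.filter fun σ => dsum σ = k

/-- The sectors with magnetisation `± m`. -/
def Sec2 (n k : ℕ) : Finset (Cfg n) := Finset.univ.filter fun σ => dsum σ = k ∨ dsum σ + k = 2 * n

def flp {n : ℕ} (σ : Cfg n) : Cfg n := fun j => (σ j).rev
def rfl' {n : ℕ} (σ : Cfg n) : Cfg n := fun j => σ j.rev
def rot {n : ℕ} (σ : Cfg n) : Cfg n := fun j => σ (finRotate n j)

/-- A function of the pair (high code, low code), `l` low sites, as a function of `σ`. -/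
def at2 {R : Type} {n : ℕ} (l : ℕ) (X : ℕ → ℕ → R) (σ : Cfg n) : R :=
  X (code σ / 3 ^ l) (code σ % 3 ^ l)

/-! ### The stencil of the Hamiltonian on pairs of codes -/

def dg (x j : ℕ) : ℕ := x / 3 ^ j % 3

/-- `m m' + 1`. -/
def isg2 (x y : ℕ) : ℕ := if x = 1 then 1 else if y = 1 then 1 else if x = y then 2 else 0

def hop1 {R : Type} [Zero R] (x y : ℕ) (u : R) : R := if x ≤ 1 ∧ 1 ≤ y then u else 0
def hop2 {R : Type} [Zero R] (x y : ℕ) (u : R) : R := if 1 ≤ x ∧ y ≤ 1 then u else 0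

def hopSum {R : Type} [AddCommMonoid R] (n x : ℕ) (X : ℕ → R) : R :=
  ∑ j ∈ Finset.range n, (hop1 (dg x j) (dg x (j + 1)) (X (x - 2 * 3 ^ j))
    + hop2 (dg x j) (dg x (j + 1)) (X (x + 2 * 3 ^ j)))

def isgS (n x : ℕ) : ℕ := ∑ j ∈ Finset.range n, isg2 (dg x j) (dg x (j + 1))

/-- Hops along the inner bonds of a chain with `h + 1` high and `l + 1` low sites. -/
def sIn {R : Type} [AddCommMonoid R] (h l : ℕ) (X : ℕ → ℕ → R) (a b : ℕ) : R :=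
  hopSum l b (X a) + hopSum h a (fun a' => X a' b)
    + (hop1 (b / 3 ^ l) (a % 3) (X (a - 1) (b + 3 ^ l))
      + hop2 (b / 3 ^ l) (a % 3) (X (a + 1) (b - 3 ^ l)))

def cl1 {R : Type} [Zero R] (h : ℕ) (X : ℕ → ℕ → R) (a b : ℕ) : R :=
  hop1 (a / 3 ^ h) (b % 3) (X (a + 3 ^ h) (b - 1))

def cl2 {R : Type} [Zero R] (h : ℕ) (X : ℕ → ℕ → R) (a b : ℕ) : R :=
  hop2 (a / 3 ^ h) (b % 3) (X (a - 3 ^ h) (b + 1))

def dIn (h l a b : ℕ) : ℕ := isgS h a + isgS l b + isg2 (b / 3 ^ l) (a % 3)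
def dCl (h a b : ℕ) : ℕ := isg2 (a / 3 ^ h) (b % 3)
/-- Diagonal value of the ring rows and of the chain rows. -/
def dR (h l a b : ℕ) : ℕ := dIn h l a b + dCl h a b
def dO (sg : Bool) (h l a b : ℕ) : ℕ :=
  5 * dIn h l a b + 3 * (b % 3 + if sg then a / 3 ^ h else 2 - a / 3 ^ h)

/-! ### The three-term recurrence -/

/-- `b_{j+1} = t b_j - q b_{j-1} + c_j`. -/
noncomputable def clen {A : Type} [Ring A] (t : A) (q : ℕ) : List ℕ → A → A → A
  | [], b1, _ => b1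
  | c :: cs, b1, b0 => clen t q cs (t * b1 - q * b0 + c) b1

/-- The polynomial in `c - s H`. -/
noncomputable def PM {ι : Type} [Fintype ι] [DecidableEq ι] (H : Matrix ι ι ℂ) (s : ℕ) (c : ℤ)
    (q : ℕ) (cs : List ℕ) : Matrix ι ι ℂ :=
  clen ((c : ℂ) • (1 : Matrix ι ι ℂ) - (s : ℂ) • H) q cs 0 0

/-- The same recurrence on vectors, with the start vector `e`. -/
def clenV {V : Type} [AddCommGroup V] (t : V → V) (q : ℕ) (e : V) : List ℕ → V → V → V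
  | [], b1, _ => b1
  | c :: cs, b1, b0 => clenV t q e cs (t b1 - q • b0 + c • e) b1

abbrev Z2 := ℕ → ℕ → ℤ

/-- `c - H` for the ring with phase `ε = ± 1`. -/
def tR (ε : ℤ) (h l cb : ℕ) (X : Z2) : Z2 := fun a b =>
  ((cb : ℤ) - dR h l a b) * X a b - sIn h l X a b - ε * (cl1 h X a b + cl2 h X a b)

/-- `c - 5 H` for the chain. -/
def tO (sg : Bool) (h l cb : ℕ) (X : Z2) : Z2 := fun a b =>
  ((cb : ℤ) - dO sg h l a b) * X a b - 5 * sIn h l X a b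

/-- `c - H` for the ring with phase `ω`, on the coefficients of `1` and `ω`. -/
def tW (h l cb : ℕ) (X : Z2 × Z2) : Z2 × Z2 :=
  (fun a b => ((cb : ℤ) - dR h l a b) * X.1 a b - sIn h l X.1 a b
      + cl1 h X.2 a b + cl2 h X.1 a b - cl2 h X.2 a b,
   fun a b => ((cb : ℤ) - dR h l a b) * X.2 a b - sIn h l X.2 a b
      + cl1 h X.2 a b - cl1 h X.1 a b + cl2 h X.1 a b)

/-- Unit vector at the code `r` (`T` low codes). -/
def unitV (T r : ℕ) : Z2 := fun a b => if r / T = a ∧ r % T = b then 1 else 0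

/-- Packing of lanes. -/
def pack (w : ℕ) : List ℤ → ℤ
  | [] => 0
  | x :: xs => x + 2 ^ w * pack w xs

/-- No colour class contains a three-term progression. -/
def APfree (cl : List ℕ) : Prop :=
  ∀ i j k, j < cl.length → k < cl.length → j + k = 2 * i → cl.getD j 0 = cl.getD i 0 →
    cl.getD k 0 = cl.getD i 0 → j = k

/-! ### Invariant blocks -/

structure Blk {ι : Type} [Fintype ι] [DecidableEq ι] (H : Matrix ι ι ℂ) (S : Finset ι)
    (lo hi : ℝ) : Prop where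
  herm : H.IsHermitian
  inv : ∀ σ τ, H σ τ ≠ 0 → (σ ∈ S ↔ τ ∈ S)
  lo_le : ∀ ψ : ι → ℂ, (∀ σ, σ ∉ S → ψ σ = 0) →
    lo * (star ψ ⬝ᵥ ψ).re ≤ (star ψ ⬝ᵥ H *ᵥ ψ).re
  le_hi : ∀ ψ : ι → ℂ, (∀ σ, σ ∉ S → ψ σ = 0) →
    (star ψ ⬝ᵥ H *ᵥ ψ).re ≤ hi * (star ψ ⬝ᵥ ψ).re

/-- `exp (-β H)`. -/
noncomputable def EX {ι : Type} [Fintype ι] [DecidableEq ι] (H : Matrix ι ι ℂ) (β : ℝ) :
    Matrix ι ι ℂ := NormedSpace.exp (-(β : ℂ) • H)

/-- Sums of diagonal entries of `exp (-β H)`. -/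
noncomputable def ZS {ι : Type} [Fintype ι] [DecidableEq ι] (H : Matrix ι ι ℂ) (β : ℝ)
    (S : Finset ι) : ℝ := ∑ σ ∈ S, (EX H β σ σ).re

noncomputable def GS {n : ℕ} (H : Op n) (β : ℝ) : ℝ := ∑ σ ∈ Sec n n, (EX H β (flp σ) σ).re

/-! ### Results of the kernel runs -/

/-- Weighted sum over a list of (code, weight) pairs. -/
noncomputable def wsum (n : ℕ) (c : List (ℕ × ℕ)) (F : Cfg n → ℝ) : ℝ :=
  (c.map fun p => (p.2 : ℝ) * F (dec n p.1)).sum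

def wtot (c : List (ℕ × ℕ)) : ℕ := (c.map Prod.snd).sum

/-- `F` is approximated by `Y`, a sum of `N` squares of rounded values. -/
def Appr (F Y N : ℝ) : Prop := ∀ κ : ℝ, 0 < κ → |F - Y| ≤ κ * Y + N * (1 / (4 * κ) + 1 / 4)

noncomputable def FF {n : ℕ} (P : Op n) (k : ℕ) (σ : Cfg n) : ℝ := ∑ τ ∈ Sec n k, ‖P τ σ‖ ^ 2
noncomputable def FG {n : ℕ} (P : Op n) (k : ℕ) (σ : Cfg n) : ℝ :=
  ∑ τ ∈ Sec n k, ‖P τ σ + P (flp τ) σ‖ ^ 2
noncomputable def FT {n : ℕ} (P : Op n) (σ : Cfg n) : ℝ := (P σ σ).re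

/-- `W N D² / 4 - A`. -/
noncomputable def YY (u W N A : ℕ) : ℝ := (W : ℝ) * N * (2 ^ u - 1) ^ 2 / 4 - A

/-- Data of one kernel run. -/
structure CD where
  c : List (ℕ × ℕ)
  len : ℕ
  A : ℕ
  B : ℕ
  C : ℕ

/-- Data of the polynomial and the number format. -/
structure PD where
  w : ℕ
  u : ℕ
  K : ℕ
  g : ℕ
  q : ℕ
  cb : ℕ
  cs : List ℕ

/-- A colouring of `0, …, 159` without monochromatic three-term progression. -/
def CL : List ℕ :=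
  [1, 1, 0, 1, 2, 0, 2, 0, 1, 2, 2, 0, 1, 0, 0, 2, 0, 1, 2, 2, 1, 3, 2, 3, 3, 1, 3, 1, 0, 0,
    3, 2, 0, 2, 0, 1, 1, 0, 0, 2, 3, 1, 3, 3, 1, 3, 2, 4, 1, 2, 4, 4, 3, 3, 2, 3, 1, 4, 4, 1,
    4, 4, 5, 5, 0, 5, 2, 6, 4, 5, 6, 5, 3, 3, 6, 6, 0, 6, 5, 0, 0, 5, 5, 4, 4, 0, 6, 4, 5, 5,
    3, 2, 6, 6, 4, 4, 6, 1, 3, 1, 3, 0, 1, 2, 0, 3, 5, 2, 0, 2, 0, 3, 5, 0, 1, 3, 1, 5, 2, 2,
    6, 6, 1, 1, 2, 4, 5, 6, 6, 5, 6, 3, 2, 5, 2, 4, 1, 6, 5, 3, 1, 1, 6, 0, 5, 6, 4, 4, 0, 4,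
    4, 6, 1, 2, 2, 1, 2, 5, 5, 6]

/-- Side conditions of a run on `n` sites; `Kmin` is the least admissible `K`. -/
noncomputable def side (n Kmin : ℕ) (p : PD) (x : CD) : Bool :=
  decide (x.c.length = x.len ∧ x.len ≤ 160 ∧ 2 ≤ p.w ∧ p.u ≤ p.w ∧ Kmin + p.q ≤ p.K ∧
    p.cb + p.K + 4 ≤ 2 ^ p.g ∧ 3 ^ n * x.len * 4 ^ p.u ≤ 2 ^ p.w) &&
  x.c.all fun r => decide (r.1 < 3 ^ n)

noncomputable def okP (h l k : ℕ) (p : PD) (x : CD) : Bool :=
  side (h + l + 2) (4 * (h + l + 2)) p x &&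
    engR rowP h l k p.w p.u x.len p.K p.q p.cb p.cs (x.c.map Prod.fst) (x.c.map Prod.snd)
      (CL.take x.len) x.A x.B

noncomputable def okM (h l k : ℕ) (p : PD) (x : CD) : Bool :=
  side (h + l + 2) (4 * (h + l + 2)) p x &&
    engR rowM h l k p.w p.u x.len p.K p.q p.cb p.cs (x.c.map Prod.fst) (x.c.map Prod.snd)
      (CL.take x.len) x.A x.B

noncomputable def okF (h l k : ℕ) (p : PD) (x : CD) : Bool :=
  side (h + l + 2) (4 * (h + l + 2)) p x &&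
    engF h l k p.w p.u x.len p.K p.q p.cb p.cs (x.c.map Prod.fst) (x.c.map Prod.snd)
      (CL.take x.len) x.A x.B x.C

noncomputable def okW (h l k : ℕ) (p : PD) (x : CD) : Bool :=
  side (h + l + 2) (4 * (h + l + 2)) p x &&
    engW h l k p.w p.u x.len p.K p.g p.q p.cb p.cs (x.c.map Prod.fst) (x.c.map Prod.snd)
      (CL.take x.len) x.A x.B x.C

noncomputable def okO (sg : Bool) (h l k : ℕ) (p : PD) (x : CD) : Bool :=
  side (h + l + 2) (20 * (h + l + 2) + 12) p x &&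
    engR (rowO sg) h l k p.w p.u x.len p.K p.q p.cb p.cs (x.c.map Prod.fst) (x.c.map Prod.snd)
      (CL.take x.len) x.A x.B

/-- What a run certifies about the matrix `P`; `m = 1` for real phases, `m = 4` for `ω`,
`A` is the (combined) output. -/
structure Res {n : ℕ} (P : Op n) (k w u m : ℕ) (c : List (ℕ × ℕ)) (A B : ℕ) : Prop where
  sq : Appr (m * wsum n c (FF P k) / 4 ^ (w - u)) (YY u (m * wtot c) (Sec n k).card A)
    (m * wtot c * (Sec n k).card)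
  tr : wsum n c (FT P) = B - wtot c * 2 ^ (w - 1)

/-- The additional sum for the flip. -/
def ResG {n : ℕ} (P : Op n) (k w u : ℕ) (c : List (ℕ × ℕ)) (C : ℕ) : Prop :=
  Appr (wsum n c (FG P k) / 4 ^ (w - u)) (YY u (wtot c) (Sec n k).card C) (wtot c * (Sec n k).card)

/-- The sign of the second field. -/
noncomputable def sgn (sg : Bool) : ℝ := if sg then 1 else -1

end Crest.Agent.R347
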