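import Crest.Agent.R347.CDefs

/-! A faster form of the step check: sums of products are accumulated in two natural numbers. -/

set_option autoImplicit false

namespace Crest.Agent.R347

open K

/-- Add `v * x` to the accumulator `P - N`. -/
noncomputable def fma (v x : ℤ) (k : ℕ → ℕ → ℤ) (P N : ℕ) : ℤ :=
  @Int.rec (fun _ => ℤ)
    (fun a => @Int.rec (fun _ => ℤ) (fun y => k (Nat.add P (Nat.mul a y)) N)
      (fun y => k P (Nat.add N (Nat.mul a (Nat.succ y)))) x)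
    (fun a => @Int.rec (fun _ => ℤ) (fun y => k P (Nat.add N (Nat.mul (Nat.succ a) y)))
      (fun y => k (Nat.add P (Nat.mul (Nat.succ a) (Nat.succ y))) N) x) v

/-- Subtract `v * x`. -/
noncomputable def fms (v x : ℤ) (k : ℕ → ℕ → ℤ) (P N : ℕ) : ℤ := fma v x (fun P N => k N P) N P

noncomputable def fin2 (P N : ℕ) : ℤ :=
  ift% ℤ (Nat.ble N P) (frc (Nat.sub P N) Int.ofNat)
    (frc (Nat.sub (Nat.sub N P) 1) Int.negSucc)

noncomputable def SL.acc (t : SL) (f : ℕ → ℤ) (k : ℕ → ℕ → ℤ) : ℕ → ℕ → ℤ :=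
  @SL.rec (fun _ => ℕ → ℕ → ℤ) k (fun i v _ ih P N => fma v (f i) ih P N) t

noncomputable def wz2 (A : Tn) (β γ : ℕ) : ℤ :=
  (A.col 0 β).acc (fun α => A.val 0 α γ)
    (fun P N => (A.col 2 β).acc (fun α => A.val 2 α γ) (fun N P => fin2 P N) N P) 0 0

noncomputable def wu2 (A : Tn) (β γ : ℕ) : ℤ :=
  (A.col 0 β).acc (fun α => A.val 1 α γ) ((A.col 1 β).acc (fun α => A.val 2 α γ) fin2) 0 0

noncomputable def kD2 (B2 R : ℤ) (A' : Tn) (X : List SL) (s α α' : ℕ) : ℤ :=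
  fma B2 (xval X α α')
    (dig% (ℕ → ℕ → ℤ) s (fma R (wz2 A' α α') fin2) fin2 (fms R (wz2 A' α α') fin2)) 0 0

noncomputable def kU2 (R : ℤ) (A' : Tn) (α α' : ℕ) : ℤ := fma R (wu2 A' α α') fin2 0 0

noncomputable def tI2 (B2 R : ℤ) (A' A : Tn) (X : List SL) (s α γ : ℕ) : ℤ :=
  (A.col s γ).acc (kD2 B2 R A' X s α)
    (dig% (ℕ → ℕ → ℤ) s ((A.col 1 γ).acc (fun α' => kU2 R A' α' α) fin2)
      ((A.col 0 γ).acc (kU2 R A' α) ((A.col 2 γ).acc (fun α' => kU2 R A' α' α) fin2))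
      ((A.col 1 γ).acc (kU2 R A' α) fin2)) 0 0

noncomputable def mI2 (B2 B4 R e : ℤ) (A' A : Tn) (X X' : List SL) (β γ : ℕ) : ℤ :=
  fms B4 (ift% ℤ (Nat.beq β γ) (Int.add (xval X' β γ) e) (xval X' β γ))
    ((A.col 0 β).acc (fun α => tI2 B2 R A' A X 0 α γ)
      ((A.col 1 β).acc (fun α => tI2 B2 R A' A X 1 α γ)
        ((A.col 2 β).acc (fun α => tI2 B2 R A' A X 2 α γ) fun P N => fin2 N P))) 0 0

noncomputable def stepChk2 (D' b r : ℕ) (e : ℤ) (A' A : Tn) (X X' : List SL) : Bool :=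
  frc (Nat.shiftLeft 1 (Nat.mul 2 b)) fun B2 => frc (Nat.mul B2 B2) fun B4 =>
  frc (Nat.shiftLeft 1 r) fun R =>
    ddChk D' (mI2 (Int.ofNat B2) (Int.ofNat B4) (Int.ofNat R) e A' A X X')

/-- The continuation depends on `P - N` only. -/
def Cont (k : ℕ → ℕ → ℤ) (g : ℤ → ℤ) : Prop := ∀ P N, k P N = g (P - N)

theorem fin2_cont : Cont fin2 id := by
  intro P N
  unfold fin2
  cases h : Nat.ble N P
  · have : P < N := by
      by_contra h'
      rw [Nat.ble_eq_true_of_le (Nat.le_of_not_lt h')] at h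
      exact Bool.noConfusion h
    show Int.negSucc (N - P - 1) = (P : ℤ) - N
    omega
  · have := Nat.le_of_ble_eq_true h
    show ((P - N : ℕ) : ℤ) = (P : ℤ) - N
    omega

theorem Cont.swap {k : ℕ → ℕ → ℤ} {g : ℤ → ℤ} (h : Cont k g) :
    Cont (fun P N => k N P) fun z => g (-z) := by
  intro P N
  show k N P = g (-((P : ℤ) - N))
  rw [h N P]; congr 1; ring

theorem Cont.fma {k : ℕ → ℕ → ℤ} {g : ℤ → ℤ} (h : Cont k g) (v x : ℤ) :
    Cont (fma v x k) fun z => g (z + v * x) := by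
  intro P N
  cases v with
  | ofNat a =>
    cases x with
    | ofNat y =>
      show k (P + a * y) N = g ((P : ℤ) - N + (a : ℤ) * (y : ℤ))
      rw [h]; congr 1; push_cast; ring
    | negSucc y =>
      show k P (N + a * (y + 1)) = g ((P : ℤ) - N + (a : ℤ) * Int.negSucc y)
      rw [h, Int.negSucc_eq]; congr 1; push_cast; ring
  | negSucc a =>
    cases x with
    | ofNat y =>
      show k P (N + (a + 1) * y) = g ((P : ℤ) - N + Int.negSucc a * (y : ℤ))
      rw [h, Int.negSucc_eq]; congr 1; push_cast; ring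
    | negSucc y =>
      show k (P + (a + 1) * (y + 1)) N = g ((P : ℤ) - N + Int.negSucc a * Int.negSucc y)
      rw [h, Int.negSucc_eq, Int.negSucc_eq]; congr 1; push_cast; ring

theorem Cont.fms {k : ℕ → ℕ → ℤ} {g : ℤ → ℤ} (h : Cont k g) (v x : ℤ) :
    Cont (fms v x k) fun z => g (z - v * x) := by
  intro P N
  show R347.fma v x (fun P N => k N P) N P = g ((P : ℤ) - N - v * x)
  rw [h.swap.fma v x N P]
  exact congrArg g (by ring)

theorem Cont.acc {k : ℕ → ℕ → ℤ} {g : ℤ → ℤ} (h : Cont k g) (t : SL) (f : ℕ → ℤ) :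
    Cont (t.acc f k) fun z => g (z + t.dot f) := by
  induction t with
  | nil =>
    intro P N
    show k P N = g ((P : ℤ) - N + 0)
    rw [h, add_zero]
  | cons i v t ih =>
    intro P N
    show R347.fma v (f i) (t.acc f k) P N = g ((P : ℤ) - N + (v * f i + t.dot f))
    rw [ih.fma v (f i) P N]
    exact congrArg g (by ring)

theorem fz_id (x : ℤ) : fz x = x := by cases x <;> rfl

theorem wz2_eq : wz2 = wzI := by
  funext A β γ
  unfold wz2 wzI gram
  rw [fz_id, ((fin2_cont.swap.acc _ _).swap.acc _ _) 0 0]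
  show -(-(((0 : ℕ) : ℤ) - (0 : ℕ) + _) + _) = _ - _
  push_cast; ring

theorem wu2_eq : wu2 = wuI := by
  funext A β γ
  unfold wu2 wuI gram
  rw [fz_id, ((fin2_cont.acc _ _).acc _ _) 0 0]
  show ((0 : ℕ) : ℤ) - (0 : ℕ) + _ + _ = _ + _
  push_cast; ring

theorem kU2_eq : kU2 = kU := by
  funext R A α α'
  unfold kU2 kU
  rw [fz_id, wu2_eq, (fin2_cont.fma _ _) 0 0]
  show ((0 : ℕ) : ℤ) - (0 : ℕ) + _ = _ * _
  push_cast; ring

theorem kD2_eq : kD2 = kD := by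
  funext B2 R A X s α α'
  unfold kD2 kD
  rw [fz_id, wz2_eq]
  match s with
  | 0 =>
    refine (((fin2_cont.fma _ _).fma _ _) 0 0).trans ?_
    show ((0 : ℕ) : ℤ) - (0 : ℕ) + _ + _ = _ * _ + _ * _
    push_cast; ring
  | 1 =>
    refine ((fin2_cont.fma _ _) 0 0).trans ?_
    show ((0 : ℕ) : ℤ) - (0 : ℕ) + _ = _ * _
    push_cast; ring
  | s + 2 =>
    refine (((fin2_cont.fms _ _).fma _ _) 0 0).trans ?_
    show ((0 : ℕ) : ℤ) - (0 : ℕ) + _ - _ = _ * _ - _ * _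
    push_cast; ring

theorem tI2_eq : tI2 = tI := by
  funext B2 R A' A X s α γ
  unfold tI2 tI
  rw [fz_id, kD2_eq, kU2_eq]
  match s with
  | 0 =>
    refine (((fin2_cont.acc _ _).acc _ _) 0 0).trans ?_
    show ((0 : ℕ) : ℤ) - (0 : ℕ) + _ + _ = _ + SL.dot _ _
    push_cast; ring
  | 1 =>
    refine ((((fin2_cont.acc _ _).acc _ _).acc _ _) 0 0).trans ?_
    show ((0 : ℕ) : ℤ) - (0 : ℕ) + _ + _ + _ = _ + (_ + _)
    push_cast; ring
  | s + 2 =>
    refine (((fin2_cont.acc _ _).acc _ _) 0 0).trans ?_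
    show ((0 : ℕ) : ℤ) - (0 : ℕ) + _ + _ = _ + _
    push_cast; ring

theorem mI2_eq : mI2 = mI := by
  funext B2 B4 R e A' A X X' β γ
  unfold mI2 mI
  rw [fz_id, tI2_eq, ((((fin2_cont.swap.acc _ _).acc _ _).acc _ _).fms _ _) 0 0]
  show -(((0 : ℕ) : ℤ) - (0 : ℕ) - _ + _ + _ + _) = _ * _ - (_ + _ + _)
  push_cast; ring

theorem stepChk2_eq : stepChk2 = stepChk := by
  funext D' b r e A' A X X'
  unfold stepChk2 stepChk
  rw [mI2_eq]

end Crest.Agent.R347
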