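import Crest.Agent.R347.MPSSem

/-! Soundness of the checks for matrix product states. -/

set_option autoImplicit false

namespace Crest.Agent.R347

open Matrix Crest.MathPhysics.SpinChain Filter Topology K

theorem mc_fz (x : ℤ) : fz x = x := by cases x <;> rfl

theorem mc_ifb (a b : Bool) : (ifb% a b false) = true ↔ a = true ∧ b = true := by
  cases a <;> simp

theorem mc_beq {T : Type} (i j : ℕ) (x y : T) : (ift% T (Nat.beq i j) x y) = if i = j then x else y := by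
  by_cases h : i = j
  · rw [if_pos h, Nat.beq_eq.mpr h]
  · have : Nat.beq i j = false := by
      cases h' : Nat.beq i j
      · rfl
      · exact absurd (Nat.eq_of_beq_eq_true h') h
    rw [if_neg h, this]

theorem mc_get_nil (a : ℕ) : SL.nil.get a = 0 := rfl

theorem mc_get_cons (i : ℕ) (v : ℤ) (t : SL) (a : ℕ) :
    (SL.cons i v t).get a = if i = a then v + t.get a else t.get a := mc_beq i a _ _

theorem mc_lt_cons (i : ℕ) (v : ℤ) (t : SL) (D : ℕ) :
    (SL.cons i v t).lt D = true ↔ i < D ∧ t.lt D = true := by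
  rw [← Nat.blt_eq]
  exact mc_ifb _ _

theorem mc_dot (t : SL) {D : ℕ} (h : t.lt D = true) (f : ℕ → ℤ) :
    t.dot f = ∑ a ∈ Finset.range D, t.get a * f a := by
  induction t with
  | nil => simp [mc_get_nil]; rfl
  | cons i v t ih =>
    rw [mc_lt_cons] at h
    have e : (SL.cons i v t).dot f = v * f i + t.dot f := rfl
    have e2 : ∀ a, (SL.cons i v t).get a * f a = (if i = a then v * f a else 0) + t.get a * f a := by
      intro a
      rw [mc_get_cons]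
      split_ifs <;> ring
    rw [e, ih h.2]
    simp only [e2, Finset.sum_add_distrib, Finset.sum_ite_eq, Finset.mem_range, if_pos h.1]

theorem mc_allLt (n : ℕ) (f : ℕ → Bool) : allLt n f = true ↔ ∀ i < n, f i = true := by
  induction n with
  | zero => simp; rfl
  | succ n ih =>
    have e : allLt (n + 1) f = ifb% (f n) (allLt n f) false := rfl
    rw [e, mc_ifb, ih, Nat.forall_lt_succ_right, and_comm]

theorem mc_sumLt (n : ℕ) (f : ℕ → ℕ) : sumLt n f = ∑ i ∈ Finset.range n, f i := by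
  induction n with
  | zero => rfl
  | succ n ih =>
    have e : sumLt (n + 1) f = f n + sumLt n f := rfl
    rw [e, ih, Finset.sum_range_succ, add_comm]

theorem mc_iso_iff (D D' B2 : ℕ) (A : Tn) : isoChk D D' B2 A = true ↔ ∀ β < D',
    ((A.col 0 β).lt D = true ∧ (A.col 1 β).lt D = true ∧ (A.col 2 β).lt D = true) ∧
      ∀ γ < D', gram A 0 0 β γ + gram A 1 1 β γ + gram A 2 2 β γ = if β = γ then (B2 : ℤ) else 0 := by
  unfold isoChk
  rw [mc_allLt]
  refine forall_congr' fun β => forall_congr' fun _ => ?_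
  rw [mc_ifb, mc_ifb, mc_ifb, mc_allLt]
  refine and_congr Iff.rfl (forall_congr' fun γ => forall_congr' fun _ => ?_)
  rw [Nat.beq_eq, Int.natAbs_eq_zero, mc_beq]
  change gram A 0 0 β γ + gram A 1 1 β γ + gram A 2 2 β γ - ((if β = γ then B2 else 0 : ℕ) : ℤ) = 0 ↔ _
  rw [sub_eq_zero]
  split_ifs <;> simp

theorem mc_val (A : Tn) (b : ℕ) (s : Fin 3) (α β : ℕ) :
    (((A.col s β).get α : ℤ) : ℝ) = 2 ^ b * A.real b s α β := by
  unfold Tn.real Tn.val
  rw [mc_fz]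
  field_simp

theorem mc_dotR (A : Tn) (b : ℕ) (s : Fin 3) {D β : ℕ} (h : (A.col s β).lt D = true) (f : ℕ → ℤ) :
    (((A.col s β).dot f : ℤ) : ℝ) = 2 ^ b * ∑ α ∈ Finset.range D, A.real b s α β * f α := by
  rw [mc_dot _ h, Finset.mul_sum]
  push_cast
  refine Finset.sum_congr rfl fun α _ => ?_
  rw [mc_val A b]
  ring

theorem mc_four (b : ℕ) : (4 : ℝ) ^ b = 2 ^ b * 2 ^ b := by
  rw [← mul_pow]; norm_num

theorem mc_gram (A : Tn) (b : ℕ) (s s' : Fin 3) {D β : ℕ} (h : (A.col s β).lt D = true) (γ : ℕ) :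
    ((gram A s s' β γ : ℤ) : ℝ) = 4 ^ b * ∑ α ∈ Finset.range D, A.real b s α β * A.real b s' α γ := by
  unfold gram
  rw [mc_dotR A b s h, mc_four, Finset.mul_sum, Finset.mul_sum]
  refine Finset.sum_congr rfl fun α _ => ?_
  unfold Tn.val
  rw [mc_fz, mc_val A b]
  ring

/-- all three columns have row indices below `D` -/
def mcLt (A : Tn) (D β : ℕ) : Prop :=
  (A.col 0 β).lt D = true ∧ (A.col 1 β).lt D = true ∧ (A.col 2 β).lt D = true

theorem mc_wz (A : Tn) (b : ℕ) {D β : ℕ} (h : mcLt A D β) (γ : ℕ) :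
    ((wzI A β γ : ℤ) : ℝ) = 4 ^ b * WZ D (A.real b) β γ := by
  have e : wzI A β γ = gram A (0 : Fin 3) (0 : Fin 3) β γ - gram A (2 : Fin 3) (2 : Fin 3) β γ := mc_fz _
  rw [e, Int.cast_sub, mc_gram A b 0 0 h.1, mc_gram A b 2 2 h.2.2, ← mul_sub]
  congr 1
  unfold WZ
  rw [Fin.sum_univ_three, ← Finset.sum_sub_distrib, ← Finset.sum_add_distrib, ← Finset.sum_add_distrib]
  refine Finset.sum_congr rfl fun α _ => ?_
  simp only [mz, Fin.val_zero, Fin.val_one, Fin.val_two]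
  push_cast
  ring

theorem mc_wu (A : Tn) (b : ℕ) {D β : ℕ} (h : mcLt A D β) (γ : ℕ) :
    ((wuI A β γ : ℤ) : ℝ) = 4 ^ b * WU D (A.real b) β γ := by
  have e : wuI A β γ = gram A (0 : Fin 3) (1 : Fin 3) β γ + gram A (1 : Fin 3) (2 : Fin 3) β γ := mc_fz _
  rw [e, Int.cast_add, mc_gram A b 0 1 h.1, mc_gram A b 1 2 h.2.1, ← mul_add]
  congr 1
  unfold WU
  simp [Fin.sum_univ_three, uu]

theorem mc_x (X : List SL) (r α β : ℕ) : ((xval X α β : ℤ) : ℝ) = 2 ^ r * xreal X r α β := by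
  unfold xreal
  field_simp

theorem mc_kD {B2 R : ℤ} {b r : ℕ} (hB : (B2 : ℝ) = 4 ^ b) (hR : (R : ℝ) = 2 ^ r) (A' : Tn)
    (X : List SL) (s : Fin 3) {D0 α : ℕ} (h : mcLt A' D0 α) (α' : ℕ) :
    ((kD B2 R A' X s α α' : ℤ) : ℝ) =
      4 ^ b * 2 ^ r * (xreal X r α α' + mz s * WZ D0 (A'.real b) α α') := by
  unfold kD
  rw [mc_fz]
  have h1 := mc_x X r α α'
  have h2 := mc_wz A' b h α'
  fin_cases s
  · change ((B2 * xval X α α' + R * wzI A' α α' : ℤ) : ℝ) = _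
    push_cast
    rw [h1, h2, hB, hR]
    simp [mz]
    ring
  · change ((B2 * xval X α α' : ℤ) : ℝ) = _
    push_cast
    rw [h1, hB]
    simp [mz]
    ring
  · change ((B2 * xval X α α' - R * wzI A' α α' : ℤ) : ℝ) = _
    push_cast
    rw [h1, h2, hB, hR]
    simp [mz]
    ring

theorem mc_kU {R : ℤ} (b : ℕ) {r : ℕ} (hR : (R : ℝ) = 2 ^ r) (A' : Tn) {D0 α : ℕ} (h : mcLt A' D0 α)
    (α' : ℕ) : ((kU R A' α α' : ℤ) : ℝ) = 4 ^ b * 2 ^ r * WU D0 (A'.real b) α α' := by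
  have e : kU R A' α α' = R * wuI A' α α' := mc_fz _
  rw [e, Int.cast_mul, hR, mc_wu A' b h]
  ring

theorem mc_tI {B2 R : ℤ} {b r : ℕ} (hB : (B2 : ℝ) = 4 ^ b) (hR : (R : ℝ) = 2 ^ r) (A' A : Tn)
    (X : List SL) (s : Fin 3) {D0 D α γ : ℕ} (h' : ∀ α < D, mcLt A' D0 α) (hα : α < D)
    (h : mcLt A D γ) :
    ((tI B2 R A' A X s α γ : ℤ) : ℝ) = 4 ^ b * 2 ^ r * 2 ^ b * ∑ s', ∑ α' ∈ Finset.range D,
      ((if s = s' then xreal X r α α' + mz s * WZ D0 (A'.real b) α α' else 0)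
        + uu s' s * WU D0 (A'.real b) α α' + uu s s' * WU D0 (A'.real b) α' α) * A.real b s' α' γ := by
  unfold tI
  rw [mc_fz, Fin.sum_univ_three, ← Finset.sum_add_distrib, ← Finset.sum_add_distrib, Finset.mul_sum]
  fin_cases s
  · change (((A.col (0 : Fin 3) γ).dot (kD B2 R A' X (0 : Fin 3) α) +
      (A.col (1 : Fin 3) γ).dot fun α' => kU R A' α' α : ℤ) : ℝ) = _
    rw [Int.cast_add, mc_dotR A b 0 h.1, mc_dotR A b 1 h.2.1, ← mul_add, ← Finset.sum_add_distrib,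
      Finset.mul_sum]
    refine Finset.sum_congr rfl fun α' hα' => ?_
    rw [mc_kD hB hR A' X 0 (h' α hα), mc_kU b hR A' (h' α' (Finset.mem_range.1 hα'))]
    simp [uu]
    ring
  · change (((A.col (1 : Fin 3) γ).dot (kD B2 R A' X (1 : Fin 3) α) +
      ((A.col (0 : Fin 3) γ).dot (kU R A' α) +
        (A.col (2 : Fin 3) γ).dot fun α' => kU R A' α' α) : ℤ) : ℝ) = _
    rw [Int.cast_add, Int.cast_add, mc_dotR A b 1 h.2.1, mc_dotR A b 0 h.1, mc_dotR A b 2 h.2.2,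
      ← mul_add, ← mul_add, ← Finset.sum_add_distrib, ← Finset.sum_add_distrib, Finset.mul_sum]
    refine Finset.sum_congr rfl fun α' hα' => ?_
    rw [mc_kD hB hR A' X 1 (h' α hα), mc_kU b hR A' (h' α' (Finset.mem_range.1 hα')),
      mc_kU b hR A' (h' α hα)]
    simp [uu]
    ring
  · change (((A.col (2 : Fin 3) γ).dot (kD B2 R A' X (2 : Fin 3) α) +
      (A.col (1 : Fin 3) γ).dot (kU R A' α) : ℤ) : ℝ) = _
    rw [Int.cast_add, mc_dotR A b 2 h.2.2, mc_dotR A b 1 h.2.1, ← mul_add, ← Finset.sum_add_distrib,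
      Finset.mul_sum]
    refine Finset.sum_congr rfl fun α' hα' => ?_
    rw [mc_kD hB hR A' X 2 (h' α hα), mc_kU b hR A' (h' α hα)]
    simp [uu]
    ring

theorem mc_mI {B2 B4 R : ℤ} {b r : ℕ} (hB : (B2 : ℝ) = 4 ^ b) (hB4 : (B4 : ℝ) = 4 ^ b * 4 ^ b)
    (hR : (R : ℝ) = 2 ^ r) (e : ℤ) (A' A : Tn) (X X' : List SL) {D0 D β γ : ℕ}
    (h' : ∀ α < D, mcLt A' D0 α) (hβ : mcLt A D β) (hγ : mcLt A D γ) :
    ((mI B2 B4 R e A' A X X' β γ : ℤ) : ℝ) = 4 ^ b * 4 ^ b * 2 ^ r *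
      (xreal X' r β γ + (if β = γ then (e : ℝ) / 2 ^ r else 0) -
        Nxt D (A.real b) (xreal X r) (WZ D0 (A'.real b)) (WU D0 (A'.real b)) β γ) := by
  have key : ∀ s : Fin 3, (A.col s β).lt D = true →
      (((A.col s β).dot fun α => tI B2 R A' A X s α γ : ℤ) : ℝ) = 4 ^ b * 4 ^ b * 2 ^ r *
        ∑ s', ∑ α ∈ Finset.range D, ∑ α' ∈ Finset.range D, A.real b s α β *
          ((if s = s' then xreal X r α α' + mz s * WZ D0 (A'.real b) α α' else 0)
            + uu s' s * WU D0 (A'.real b) α α' + uu s s' * WU D0 (A'.real b) α' α) *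
            A.real b s' α' γ := by
    intro s hs
    rw [mc_dotR A b s hs, Finset.sum_comm, Finset.mul_sum, Finset.mul_sum]
    refine Finset.sum_congr rfl fun α hα => ?_
    rw [mc_tI hB hR A' A X s h' (Finset.mem_range.1 hα) hγ]
    simp only [mul_assoc, ← Finset.mul_sum]
    rw [mc_four]
    ring
  unfold mI
  rw [mc_fz, mc_beq]
  change ((B4 * (if β = γ then xval X' β γ + e else xval X' β γ) -
    (((A.col (0 : Fin 3) β).dot fun α => tI B2 R A' A X (0 : Fin 3) α γ) +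
      ((A.col (1 : Fin 3) β).dot fun α => tI B2 R A' A X (1 : Fin 3) α γ) +
      (A.col (2 : Fin 3) β).dot fun α => tI B2 R A' A X (2 : Fin 3) α γ) : ℤ) : ℝ) = _
  rw [Int.cast_sub, Int.cast_add, Int.cast_add, key 0 hβ.1, key 1 hβ.2.1, key 2 hβ.2.2, ← mul_add,
    ← mul_add, mul_sub, Int.cast_mul, hB4]
  congr 1
  · split_ifs
    · rw [Int.cast_add, mc_x X' r]
      field_simp
    · rw [mc_x X' r]
      ring
  · unfold Nxt
    rw [Fin.sum_univ_three (fun s => ∑ s' : Fin 3, _)]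

theorem mc_dd {D : ℕ} {m : ℕ → ℕ → ℤ} (h : ddChk D m = true) (x : ℕ → ℝ) :
    0 ≤ qform D (fun β γ => (m β γ : ℝ)) x := by
  unfold ddChk at h
  rw [mc_allLt] at h
  have h1 : ∀ β ∈ Finset.range D, 0 ≤ (m β β : ℝ) ∧
      ∑ γ ∈ Finset.range D, (|(m β γ : ℝ)| + |(m γ β : ℝ)|) ≤ 4 * (m β β : ℝ) := by
    intro β hβ
    have h2 := h β (Finset.mem_range.1 hβ)
    rw [Nat.ble_eq, mc_sumLt] at h2
    change ∑ γ ∈ Finset.range D, ((m β γ).natAbs + (m γ β).natAbs) ≤ 4 * (m β β).toNat at h2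
    have h3 := (Finset.single_le_sum (f := fun γ => (m β γ).natAbs + (m γ β).natAbs)
      (fun _ _ => Nat.zero_le _) hβ).trans h2
    have h4 : 0 ≤ m β β := by omega
    refine ⟨by exact_mod_cast h4, ?_⟩
    have h5 : ((∑ γ ∈ Finset.range D, ((m β γ).natAbs + (m γ β).natAbs) : ℕ) : ℤ) ≤ 4 * m β β := by
      omega
    push_cast at h5
    exact_mod_cast h5
  calc (0 : ℝ) ≤ ∑ β ∈ Finset.range D, x β ^ 2 * (2 * (m β β : ℝ) -
        (∑ γ ∈ Finset.range D, (|(m β γ : ℝ)| + |(m γ β : ℝ)|)) / 2) :=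
        Finset.sum_nonneg fun β hβ => mul_nonneg (sq_nonneg _) (by linarith [(h1 β hβ).2])
    _ = ∑ β ∈ Finset.range D, ∑ γ ∈ Finset.range D, ((if β = γ then 2 * (m β β : ℝ) * x β ^ 2 else 0)
          - |(m β γ : ℝ)| * x β ^ 2 / 2 - |(m β γ : ℝ)| * x γ ^ 2 / 2) := by
        simp only [Finset.sum_sub_distrib]
        rw [Finset.sum_comm (f := fun β γ => |(m β γ : ℝ)| * x γ ^ 2 / 2), ← Finset.sum_sub_distrib,
          ← Finset.sum_sub_distrib]
        refine Finset.sum_congr rfl fun β hβ => ?_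
        rw [Finset.sum_ite_eq, if_pos hβ, Finset.sum_add_distrib, ← Finset.sum_div, ← Finset.sum_div,
          ← Finset.sum_mul, ← Finset.sum_mul]
        ring
    _ ≤ _ := by
        refine Finset.sum_le_sum fun β hβ => Finset.sum_le_sum fun γ _ => ?_
        split_ifs with hβγ
        · subst hβγ
          rw [abs_of_nonneg (h1 β hβ).1]
          exact le_of_eq (by ring)
        · rcases abs_cases (m β γ : ℝ) with ⟨e, he⟩ | ⟨e, he⟩ <;> rw [e]
          · nlinarith [mul_nonneg he (sq_nonneg (x β + x γ))]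
          · nlinarith [mul_nonneg (neg_nonneg.2 he.le) (sq_nonneg (x β - x γ))]

theorem isoChk_sound {D D' b : ℕ} {A : Tn} (H : isoChk D D' (4 ^ b) A = true) :
    Iso D D' (A.real b) := by
  intro β hβ γ hγ
  obtain ⟨h1, h2⟩ := (mc_iso_iff _ _ _ _).1 H β hβ
  have h3 : ((gram A (0 : Fin 3) (0 : Fin 3) β γ + gram A (1 : Fin 3) (1 : Fin 3) β γ +
      gram A (2 : Fin 3) (2 : Fin 3) β γ : ℤ) : ℝ) = ((if β = γ then ((4 ^ b : ℕ) : ℤ) else 0 : ℤ) : ℝ) :=
    congrArg _ (h2 γ hγ)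
  rw [Int.cast_add, Int.cast_add, mc_gram A b 0 0 h1.1, mc_gram A b 1 1 h1.2.1,
    mc_gram A b 2 2 h1.2.2, ← mul_add, ← mul_add] at h3
  rw [Fin.sum_univ_three]
  apply mul_left_cancel₀ (pow_ne_zero b (four_ne_zero (α := ℝ)))
  rw [h3]
  split_ifs <;> simp

theorem MI.step {n D0 D D' b r : ℕ} {A' A : Tn} {X X' : List SL} {c : ℝ} {e : ℤ}
    (H : MI n D0 D b r A' X c) (hA : isoChk D D' (4 ^ b) A = true)
    (hS : stepChk D' b r e A' A X X' = true) : MI (n + 1) D D' b r A X' (c + e / 2 ^ r) := by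
  refine ⟨hA, (H.2.step (isoChk_sound hA)).mono (fun x => ?_) (fun _ _ _ _ => rfl) (fun _ _ _ _ => rfl)⟩
  have h' : ∀ α < D, mcLt A' D0 α := fun α hα => ((mc_iso_iff _ _ _ _).1 H.1 α hα).1
  have h : ∀ β < D', mcLt A D β := fun β hβ => ((mc_iso_iff _ _ _ _).1 hA β hβ).1
  have hB : ((Int.ofNat (Nat.shiftLeft 1 (Nat.mul 2 b)) : ℤ) : ℝ) = 4 ^ b := by
    change (((1 <<< (2 * b) : ℕ) : ℤ) : ℝ) = _
    rw [Nat.one_shiftLeft, pow_mul]
    norm_num
  have hB4 : ((Int.ofNat (Nat.mul (Nat.shiftLeft 1 (Nat.mul 2 b)) (Nat.shiftLeft 1 (Nat.mul 2 b))) : ℤ) : ℝ)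
      = 4 ^ b * 4 ^ b := by
    rw [← hB, ← Int.cast_mul]
    rfl
  have hR : ((Int.ofNat (Nat.shiftLeft 1 r) : ℤ) : ℝ) = 2 ^ r := by
    change (((1 <<< r : ℕ) : ℤ) : ℝ) = _
    rw [Nat.one_shiftLeft]
    norm_num
  have h0 := mc_dd (D := D') hS x
  generalize Int.ofNat (Nat.mul (Nat.shiftLeft 1 (Nat.mul 2 b)) (Nat.shiftLeft 1 (Nat.mul 2 b))) = B4
    at hB4 h0
  generalize Int.ofNat (Nat.shiftLeft 1 (Nat.mul 2 b)) = B2 at hB h0
  generalize Int.ofNat (Nat.shiftLeft 1 r) = R at hR h0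
  have h1 : qform D' (fun β γ => ((mI B2 B4 R e A' A X X' β γ : ℤ) : ℝ)) x = 4 ^ b * 4 ^ b * 2 ^ r *
      (qform D' (xreal X' r) x + e / 2 ^ r * ∑ α ∈ Finset.range D', x α ^ 2 -
        qform D' (Nxt D (A.real b) (xreal X r) (WZ D0 (A'.real b)) (WU D0 (A'.real b))) x) := by
    unfold qform
    rw [Finset.mul_sum, ← Finset.sum_add_distrib, ← Finset.sum_sub_distrib, Finset.mul_sum]
    refine Finset.sum_congr rfl fun β hβ => ?_
    have e1 : (e : ℝ) / 2 ^ r * x β ^ 2 =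
        ∑ γ ∈ Finset.range D', x β * (if β = γ then (e : ℝ) / 2 ^ r else 0) * x γ := by
      simp only [mul_ite, ite_mul, mul_zero, zero_mul, Finset.sum_ite_eq, if_pos hβ]
      ring
    rw [e1, ← Finset.sum_add_distrib, ← Finset.sum_sub_distrib, Finset.mul_sum]
    refine Finset.sum_congr rfl fun γ hγ => ?_
    beta_reduce
    rw [mc_mI hB hB4 hR e A' A X X' h' (h β (Finset.mem_range.1 hβ)) (h γ (Finset.mem_range.1 hγ))]
    ring
  rw [h1] at h0
  have h2 := nonneg_of_mul_nonneg_right h0 (by positivity)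
  linarith

/-- The first site: identity tensor, `X` is diagonal with `-3/5 m` rounded up. -/
theorem MI.init (b r : ℕ) (x0 x2 : ℤ) (h0 : -3 * 2 ^ r ≤ 5 * x0) (h2 : 3 * 2 ^ r ≤ 5 * x2) :
    MI 0 1 3 b r
      ⟨[SL.cons 0 (Int.ofNat (2 ^ b)) SL.nil, SL.nil, SL.nil],
        [SL.nil, SL.cons 0 (Int.ofNat (2 ^ b)) SL.nil, SL.nil],
        [SL.nil, SL.nil, SL.cons 0 (Int.ofNat (2 ^ b)) SL.nil]⟩
      [SL.cons 0 x0 SL.nil, SL.nil, SL.cons 2 x2 SL.nil] 0 := by
  set A : Tn := ⟨[SL.cons 0 (Int.ofNat (2 ^ b)) SL.nil, SL.nil, SL.nil],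
        [SL.nil, SL.cons 0 (Int.ofNat (2 ^ b)) SL.nil, SL.nil],
        [SL.nil, SL.nil, SL.cons 0 (Int.ofNat (2 ^ b)) SL.nil]⟩ with hA
  have hcol : ∀ s < 3, ∀ β < 3, A.col s β =
      if s = β then SL.cons 0 (Int.ofNat (2 ^ b)) SL.nil else SL.nil := by
    intro s hs β hβ
    interval_cases s <;> interval_cases β <;> rfl
  have hlt : ∀ s < 3, ∀ β < 3, (A.col s β).lt 1 = true := by
    intro s hs β hβ
    rw [hcol s hs β hβ]
    split_ifs <;> rfl
  have hget : ∀ s < 3, ∀ β < 3, (A.col s β).get 0 = if s = β then 2 ^ b else 0 := by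
    intro s hs β hβ
    rw [hcol s hs β hβ]
    split_ifs
    · simp [mc_get_cons, mc_get_nil]
    · rfl
  have hreal : ∀ s : Fin 3, ∀ β < 3, A.real b s 0 β = if (s : ℕ) = β then 1 else 0 := by
    intro s β hβ
    unfold Tn.real Tn.val
    rw [mc_fz, hget s s.2 β hβ]
    split_ifs <;> simp
  refine ⟨(mc_iso_iff _ _ _ _).2 fun β hβ => ⟨⟨hlt 0 (by norm_num) β hβ, hlt 1 (by norm_num) β hβ,
    hlt 2 (by norm_num) β hβ⟩, fun γ hγ => ?_⟩, (minv_init (3 / 5)).mono (fun x => ?_) ?_ ?_⟩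
  · unfold gram Tn.val
    rw [mc_dot _ (hlt 0 (by norm_num) β hβ), mc_dot _ (hlt 1 (by norm_num) β hβ),
      mc_dot _ (hlt 2 (by norm_num) β hβ)]
    simp only [Finset.sum_range_one, mc_fz]
    rw [hget 0 (by norm_num) β hβ, hget 1 (by norm_num) β hβ, hget 2 (by norm_num) β hβ,
      hget 0 (by norm_num) γ hγ, hget 1 (by norm_num) γ hγ, hget 2 (by norm_num) γ hγ]
    interval_cases β <;> interval_cases γ <;> simp [← mul_pow]
  · have hx : ∀ α < 3, ∀ β < 3, xval [SL.cons 0 x0 SL.nil, SL.nil, SL.cons 2 x2 SL.nil] α β =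
        if α = β then (if α = 0 then x0 else if α = 2 then x2 else 0) else 0 := by
      intro α hα β hβ
      unfold xval
      rw [mc_fz]
      interval_cases α
      · change (SL.cons 0 x0 SL.nil).get β = _
        simp [mc_get_cons, mc_get_nil]
      · change SL.nil.get β = _
        simp [mc_get_nil]
      · change (SL.cons 2 x2 SL.nil).get β = _
        simp [mc_get_cons, mc_get_nil]
    have a0 : -(3 / 5 : ℝ) ≤ x0 / 2 ^ r := by
      rw [le_div_iff₀ (by positivity)]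
      have : (-3 * 2 ^ r : ℝ) ≤ 5 * x0 := by exact_mod_cast h0
      linarith
    have a2 : (3 / 5 : ℝ) ≤ x2 / 2 ^ r := by
      rw [le_div_iff₀ (by positivity)]
      have : (3 * 2 ^ r : ℝ) ≤ 5 * x2 := by exact_mod_cast h2
      linarith
    unfold qform xreal
    simp only [Finset.sum_range_succ, Finset.sum_range_zero]
    rw [hx 0 (by norm_num) 0 (by norm_num), hx 0 (by norm_num) 1 (by norm_num),
      hx 0 (by norm_num) 2 (by norm_num), hx 1 (by norm_num) 0 (by norm_num),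
      hx 1 (by norm_num) 1 (by norm_num), hx 1 (by norm_num) 2 (by norm_num),
      hx 2 (by norm_num) 0 (by norm_num), hx 2 (by norm_num) 1 (by norm_num),
      hx 2 (by norm_num) 2 (by norm_num)]
    norm_num
    nlinarith [mul_le_mul_of_nonneg_left a0 (mul_self_nonneg (x 0)),
      mul_le_mul_of_nonneg_left a2 (mul_self_nonneg (x 2))]
  · intro α hα β hβ
    unfold WZ
    simp only [Finset.sum_range_one, Fin.sum_univ_three, hreal _ α hα, hreal _ β hβ, mz]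
    interval_cases α <;> interval_cases β <;> simp
  · intro α hα β hβ
    unfold WU
    simp only [Finset.sum_range_one, Fin.sum_univ_three, hreal _ α hα, hreal _ β hβ, uu]
    interval_cases α <;> interval_cases β <;> simp

/-- Repetition of the bulk tensor. -/
theorem MI.iter {n D b r : ℕ} {A : Tn} {X : List SL} {c : ℝ} {e : ℤ}
    (H : MI n D D b r A X c) (hS : stepChk D b r e A A X X = true) (t : ℕ) :
    MI (n + t) D D b r A X (c + t * (e / 2 ^ r)) := by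
  induction t with
  | zero => simpa using H
  | succ t ih =>
    have h := ih.step ih.1 hS
    have e1 : c + ((t + 1 : ℕ) : ℝ) * (e / 2 ^ r) = c + t * (e / 2 ^ r) + e / 2 ^ r := by
      push_cast
      ring
    rw [e1]
    exact h

theorem MI.final {n D0 b r : ℕ} {A : Tn} {X : List SL} {c : ℝ} (H : MI n D0 1 b r A X c)
    (h' : ℝ) : ∃ ψ : Cfg (n + 1) → ℂ, ψ ≠ 0 ∧ (star ψ ⬝ᵥ HO (3 / 5) h' n *ᵥ ψ).re
      ≤ (xval X 0 0 / 2 ^ r + c - h' * (wzI A 0 0 / 4 ^ b)) * (star ψ ⬝ᵥ ψ).re := by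
  have h1 := mc_wz A b ((mc_iso_iff _ _ _ _).1 H.1 0 one_pos).1 0
  have h2 : (wzI A 0 0 : ℝ) / 4 ^ b = WZ D0 (A.real b) 0 0 := by
    rw [h1]
    field_simp
  rw [h2]
  exact H.2.final h'

end Crest.Agent.R347
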