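import Crest.Agent.R347.CDefs

/-! Energy bounds for matrix product states with isometric tensors. -/

set_option autoImplicit false

namespace Crest.Agent.R347

open Matrix Crest.MathPhysics.SpinChain Filter Topology K

/-! ### Appending a site -/

/-- The configuration `σ` followed by `a`. -/
def mpsS {n : ℕ} (σ : Cfg n) (a : Fin 3) : Cfg (n + 1) := Fin.snoc (α := fun _ => Fin 3) σ a

theorem mpsS_castSucc {n : ℕ} (σ : Cfg n) (a : Fin 3) (i : Fin n) : mpsS σ a i.castSucc = σ i :=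
  Fin.snoc_castSucc (α := fun _ => Fin 3) a σ i

theorem mpsS_last {n : ℕ} (σ : Cfg n) (a : Fin 3) : mpsS σ a (Fin.last n) = a :=
  Fin.snoc_last (α := fun _ => Fin 3) a σ

theorem mpsS_zero {n : ℕ} (σ : Cfg (n + 1)) (a : Fin 3) : mpsS σ a 0 = σ 0 := mpsS_castSucc σ a 0

theorem mpsS_init {n : ℕ} (σ : Cfg n) (a : Fin 3) : Fin.init (mpsS σ a) = σ :=
  Fin.init_snoc (α := fun _ => Fin 3) a σ

theorem mpsS_update {n : ℕ} (σ : Cfg n) (a b : Fin 3) :
    Function.update (mpsS σ a) (Fin.last n) b = mpsS σ b :=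
  Fin.update_snoc_last (α := fun _ => Fin 3) a σ b

theorem mpsS_inj {n : ℕ} {σ τ : Cfg n} {a b : Fin 3} : mpsS σ a = mpsS τ b ↔ σ = τ ∧ a = b :=
  Fin.snoc_inj (α := fun _ => Fin 3)

theorem mps_sum {n : ℕ} (F : Cfg (n + 1) → ℝ) : ∑ ω, F ω = ∑ a : Fin 3, ∑ σ : Cfg n, F (mpsS σ a) := by
  rw [← (Fin.snocEquiv fun _ : Fin (n + 1) => Fin 3).sum_comp, Fintype.sum_prod_type]
  rfl

/-- The configurations that agree with `σ` off the last site. -/
theorem mps_sum_off {n : ℕ} (σ : Cfg (n + 1)) (g : Cfg (n + 1) → ℝ) :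
    ∑ τ, (if (∀ i, i ≠ Fin.last n → σ i = τ i) then g τ else 0) =
      ∑ s : Fin 3, g (Function.update σ (Fin.last n) s) := by
  obtain ⟨ρ, t, rfl⟩ : ∃ ρ t, σ = mpsS ρ t := ⟨_, _, (Fin.snoc_init_self σ).symm⟩
  rw [mps_sum]
  refine Finset.sum_congr rfl fun s _ => ?_
  have h : ∀ τ : Cfg n, (∀ i, i ≠ Fin.last n → mpsS ρ t i = mpsS τ s i) ↔ ρ = τ := fun τ => by
    rw [Fin.forall_fin_succ', funext_iff]
    simp only [mpsS_castSucc, ne_eq, Fin.castSucc_ne_last, not_false_eq_true, true_implies,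
      not_true_eq_false, false_implies, and_true]
  simp only [h, Finset.sum_ite_eq, Finset.mem_univ, if_true, mpsS_update]

/-! ### Matrix elements -/

theorem mps_mg (a : Fin 3) : mg a = ((mz a : ℝ) : ℂ) := by
  simp [mg, mz, magneticNumber]

theorem mps_bnd (a b c d : Fin 3) : (bnd 1 a b c d).re =
    (if a = c then if b = d then mz a * mz b else 0 else 0) + uu a c * uu d b + uu c a * uu b d := by
  unfold bnd uu
  rw [mps_mg, mps_mg, ← Complex.ofReal_mul]
  simp only [Fin.ext_iff]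
  split_ifs <;> first | omega | simp

theorem mps_bond_old {m : ℕ} (j k : Fin m) (σ τ : Cfg m) (a b : Fin 3) :
    bondAt 1 j.castSucc k.castSucc (mpsS σ a) (mpsS τ b) = if a = b then bondAt 1 j k σ τ else 0 := by
  unfold bondAt
  rw [Matrix.of_apply, Matrix.of_apply]
  simp only [Fin.forall_fin_succ', mpsS_castSucc, mpsS_last, ne_eq, Fin.castSucc_inj,
    (Fin.castSucc_ne_last _).symm, not_false_eq_true, true_implies]
  by_cases h : a = b <;> simp [h]

theorem mps_bond_new {n : ℕ} (σ τ : Cfg (n + 1)) (a b : Fin 3) :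
    bondAt 1 (Fin.last n).castSucc (Fin.last (n + 1)) (mpsS σ a) (mpsS τ b) =
      if (∀ i, i ≠ Fin.last n → σ i = τ i) then bnd 1 (σ (Fin.last n)) a (τ (Fin.last n)) b else 0 := by
  unfold bondAt
  rw [Matrix.of_apply]
  have h : (∀ i, i ≠ (Fin.last n).castSucc → i ≠ Fin.last (n + 1) → mpsS σ a i = mpsS τ b i) ↔
      ∀ i, i ≠ Fin.last n → σ i = τ i := by
    rw [Fin.forall_fin_succ']
    simp only [mpsS_castSucc, ne_eq, Fin.castSucc_inj, Fin.castSucc_ne_last, not_false_eq_true,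
      true_implies, not_true_eq_false, false_implies, implies_true, and_true]
  simp only [h, mpsS_castSucc, mpsS_last]

theorem mps_HO_succ (h : ℝ) {n : ℕ} (σ τ : Cfg (n + 1)) (a b : Fin 3) :
    (HO h 0 (n + 1) (mpsS σ a) (mpsS τ b)).re = (if a = b then (HO h 0 n σ τ).re else 0) +
      if (∀ i, i ≠ Fin.last n → σ i = τ i) then (bnd 1 (σ (Fin.last n)) a (τ (Fin.last n)) b).re else 0 := by
  have e : HO h 0 (n + 1) (mpsS σ a) (mpsS τ b) = (if a = b then HO h 0 n σ τ else 0) +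
      if (∀ i, i ≠ Fin.last n → σ i = τ i) then bnd 1 (σ (Fin.last n)) a (τ (Fin.last n)) b else 0 := by
    unfold HO
    simp only [Matrix.sub_apply, Matrix.add_apply, Matrix.sum_apply, Fin.sum_univ_castSucc (n := n), Fin.succ_castSucc,
      Fin.succ_last, mps_bond_old, mps_bond_new, Matrix.diagonal_apply, mpsS_inj, mpsS_zero,
      Complex.ofReal_zero, zero_mul, add_zero]
    by_cases hab : a = b
    · simp only [hab, if_true, and_true]
      ring
    · simp only [hab, if_false, and_false, Finset.sum_const_zero]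
      ring
  rw [e, Complex.add_re, apply_ite Complex.re, apply_ite Complex.re, Complex.zero_re]

theorem mps_HO_field (h h' : ℝ) {n : ℕ} (σ τ : Cfg (n + 1)) :
    (HO h h' n σ τ).re = (HO h 0 n σ τ).re - if σ = τ then h' * mz (σ (Fin.last n)) else 0 := by
  unfold HO
  simp only [Matrix.sub_apply, Matrix.diagonal_apply, mps_mg, Complex.sub_re]
  split_ifs <;> simp
  ring

theorem mps_HO_zero (h : ℝ) (σ τ : Cfg 1) :
    (HO h 0 0 σ τ).re = if σ = τ then -h * mz (σ 0) else 0 := by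
  unfold HO
  simp only [Matrix.sub_apply, Matrix.diagonal_apply, mps_mg, Complex.sub_re]
  split_ifs <;> simp

/-- The energy of a state of the enlarged block in terms of its components. -/
theorem mps_energy (h : ℝ) {n : ℕ} (Φ : Cfg (n + 1 + 1) → ℝ) :
    ∑ ω, ∑ ω', Φ ω * (HO h 0 (n + 1) ω ω').re * Φ ω' = ∑ a : Fin 3, ∑ b : Fin 3,
      ((if a = b then (∑ σ, ∑ τ, Φ (mpsS σ a) * (HO h 0 n σ τ).re * Φ (mpsS τ b)) +
          mz a * ∑ σ, Φ (mpsS σ a) * mz (σ (Fin.last n)) * Φ (mpsS σ b) else 0) +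
        uu b a * (∑ σ, ∑ s, Φ (mpsS σ a) * uu (σ (Fin.last n)) s *
          Φ (mpsS (Function.update σ (Fin.last n) s) b)) +
        uu a b * ∑ σ, ∑ s, Φ (mpsS σ b) * uu (σ (Fin.last n)) s *
          Φ (mpsS (Function.update σ (Fin.last n) s) a)) := by
  rw [mps_sum]
  refine Finset.sum_congr rfl fun a _ => ?_
  simp only [mps_sum (n := n + 1) fun ω' => Φ _ * (HO h 0 (n + 1) _ ω').re * Φ ω']
  rw [Finset.sum_comm]
  refine Finset.sum_congr rfl fun b _ => ?_
  have e : ∀ σ τ : Cfg (n + 1), Φ (mpsS σ a) * (HO h 0 (n + 1) (mpsS σ a) (mpsS τ b)).re * Φ (mpsS τ b) =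
      (if a = b then Φ (mpsS σ a) * (HO h 0 n σ τ).re * Φ (mpsS τ b) else 0) +
      (if (∀ i, i ≠ Fin.last n → σ i = τ i) then (if σ (Fin.last n) = τ (Fin.last n) then
        (if a = b then mz a * (Φ (mpsS σ a) * mz (σ (Fin.last n)) * Φ (mpsS τ b)) else 0) else 0) else 0) +
      (if (∀ i, i ≠ Fin.last n → σ i = τ i) then
        uu b a * (Φ (mpsS σ a) * uu (σ (Fin.last n)) (τ (Fin.last n)) * Φ (mpsS τ b)) else 0) +
      (if (∀ i, i ≠ Fin.last n → τ i = σ i) then
        uu a b * (Φ (mpsS τ b) * uu (τ (Fin.last n)) (σ (Fin.last n)) * Φ (mpsS σ a)) else 0) := by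
    intro σ τ
    rw [mps_HO_succ, mps_bnd]
    simp only [eq_comm (a := τ _) (b := σ _)]
    split_ifs <;> ring
  simp only [e, Finset.sum_add_distrib]
  rw [Finset.sum_comm (f := fun σ τ : Cfg (n + 1) => if (∀ i, i ≠ Fin.last n → τ i = σ i) then
    uu a b * (Φ (mpsS τ b) * uu (τ (Fin.last n)) (σ (Fin.last n)) * Φ (mpsS σ a)) else 0)]
  simp only [mps_sum_off, Function.update_self, Finset.sum_ite_eq, Finset.mem_univ, if_true,
    Function.update_eq_self, ← Finset.mul_sum]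
  by_cases hab : a = b
  · simp only [hab, if_true, ← Finset.mul_sum]
  · simp only [hab, if_false, Finset.sum_const_zero, add_zero]

/-! ### Bilinear expansions -/

theorem mps_base (s : Finset ℕ) (x y P R : ℕ → ℝ) (k : ℝ) :
    (∑ α ∈ s, x α * P α) * k * (∑ β ∈ s, y β * R β) =
      ∑ α ∈ s, ∑ β ∈ s, x α * (P α * k * R β) * y β := by
  rw [Finset.sum_mul, Finset.sum_mul_sum]
  exact Finset.sum_congr rfl fun α _ => Finset.sum_congr rfl fun β _ => by ring

theorem mps_swap (s : Finset ℕ) (x y : ℕ → ℝ) {ι : Type} (J : Finset ι) (F : ι → ℕ → ℕ → ℝ) :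
    ∑ j ∈ J, ∑ α ∈ s, ∑ β ∈ s, x α * F j α β * y β =
      ∑ α ∈ s, ∑ β ∈ s, x α * (∑ j ∈ J, F j α β) * y β := by
  rw [Finset.sum_comm]
  refine Finset.sum_congr rfl fun α _ => ?_
  rw [Finset.sum_comm]
  refine Finset.sum_congr rfl fun β _ => ?_
  rw [Finset.mul_sum, Finset.sum_mul]

theorem mps_congr {D : ℕ} (x y : ℕ → ℝ) {W W' : RM} (h : ∀ α < D, ∀ β < D, W α β = W' α β) :
    ∑ α ∈ Finset.range D, ∑ β ∈ Finset.range D, x α * W α β * y β =
      ∑ α ∈ Finset.range D, ∑ β ∈ Finset.range D, x α * W' α β * y β :=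
  Finset.sum_congr rfl fun α hα => Finset.sum_congr rfl fun β hβ => by
    rw [h α (Finset.mem_range.1 hα) β (Finset.mem_range.1 hβ)]

theorem mps_delta (D : ℕ) (x y : ℕ → ℝ) :
    ∑ α ∈ Finset.range D, ∑ β ∈ Finset.range D, x α * (if α = β then 1 else 0) * y β =
      ∑ α ∈ Finset.range D, x α * y α :=
  Finset.sum_congr rfl fun α hα => by
    simp only [mul_ite, mul_one, mul_zero, ite_mul, zero_mul, Finset.sum_ite_eq, hα, if_true]

theorem mps_norm {ι : Type} [Fintype ι] {D : ℕ} {Ψ : ℕ → ι → ℝ}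
    (h : ∀ α < D, ∀ β < D, ∑ σ, Ψ α σ * Ψ β σ = if α = β then 1 else 0) (x y : ℕ → ℝ) (k : ℝ) :
    ∑ σ, (∑ α ∈ Finset.range D, x α * Ψ α σ) * k * (∑ β ∈ Finset.range D, y β * Ψ β σ) =
      ∑ α ∈ Finset.range D, k * x α * y α := by
  have e : ∀ σ, (∑ α ∈ Finset.range D, x α * Ψ α σ) * k * (∑ β ∈ Finset.range D, y β * Ψ β σ) =
      k * ((∑ α ∈ Finset.range D, x α * Ψ α σ) * 1 * (∑ β ∈ Finset.range D, y β * Ψ β σ)) :=
    fun σ => by ring
  simp only [e]
  rw [← Finset.mul_sum]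
  simp only [mps_base _ x y, mps_swap _ x y]
  simp only [mul_one]
  rw [mps_congr x y h, mps_delta, Finset.mul_sum]
  exact Finset.sum_congr rfl fun α _ => (mul_assoc _ _ _).symm

/-- One site: the identity tensor from the trivial block. -/
theorem minv_init (h : ℝ) :
    MInv h 0 3 (fun α β => if α = β then -h * (1 - (α : ℝ)) else 0) 0
      (fun α β => if α = β then 1 - (α : ℝ) else 0) (fun α β => if α + 1 = β then 1 else 0) := by
  refine ⟨fun α σ => if (σ (Fin.last 0) : ℕ) = α then 1 else 0, ?_, ?_, ?_, ?_⟩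
  · intro α hα β hβ
    simp only [mps_sum (n := 0), mpsS_last, Fintype.sum_unique, Fin.sum_univ_three]
    interval_cases α <;> interval_cases β <;> simp
  · intro α hα β hβ
    simp only [mps_sum (n := 0), mpsS_last, Fintype.sum_unique, Fin.sum_univ_three, mz]
    interval_cases α <;> interval_cases β <;> simp
  · intro α hα β hβ
    simp only [mps_sum (n := 0), mpsS_last, mpsS_update, Fintype.sum_unique, Fin.sum_univ_three, uu]
    interval_cases α <;> interval_cases β <;> simp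
  · intro x
    have e : ∀ (σ : Cfg 0) (a : Fin 3), mpsS σ a 0 = a := fun σ a => mpsS_last σ a
    simp only [mps_HO_zero, mps_sum (n := 0), mpsS_last, mpsS_inj, e, Fintype.sum_unique,
      Fin.sum_univ_three, mz, qform, Finset.sum_range_succ]
    simp

theorem MInv.step {h : ℝ} {n D D' : ℕ} {Q Wz Wu : RM} {c : ℝ} (H : MInv h n D Q c Wz Wu)
    {A : Fin 3 → RM} (hA : Iso D D' A) :
    MInv h (n + 1) D' (Nxt D A Q Wz Wu) c (WZ D A) (WU D A) := by
  obtain ⟨Ψ, h1, h2, h3, h4⟩ := H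
  refine ⟨fun β ω => ∑ α ∈ Finset.range D, A (ω (Fin.last (n + 1))) α β * Ψ α (Fin.init ω),
    ?_, ?_, ?_, ?_⟩
  · intro β hβ γ hγ
    rw [mps_sum, ← hA β hβ γ hγ]
    refine Finset.sum_congr rfl fun a _ => ?_
    have e := mps_norm h1 (fun α => A a α β) (fun α => A a α γ) 1
    simp only [mul_one, one_mul] at e
    simp only [mpsS_last, mpsS_init]
    exact e
  · intro β _ γ _
    rw [mps_sum]
    refine Finset.sum_congr rfl fun a _ => ?_
    simp only [mpsS_last, mpsS_init]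
    exact mps_norm h1 (fun α => A a α β) (fun α => A a α γ) (mz a)
  · intro β _ γ _
    rw [mps_sum]
    refine Finset.sum_congr rfl fun a _ => ?_
    rw [Finset.sum_comm]
    refine Finset.sum_congr rfl fun s _ => ?_
    simp only [mpsS_last, mpsS_init, mpsS_update]
    exact mps_norm h1 (fun α => A a α β) (fun α => A s α γ) (uu a s)
  · intro x
    obtain ⟨y, hy⟩ : ∃ y : Fin 3 → ℕ → ℝ, ∀ a α, y a α = ∑ β ∈ Finset.range D', x β * A a α β :=
      ⟨_, fun _ _ => rfl⟩
    have e1 : ∀ (σ : Cfg (n + 1)) (a : Fin 3), ∑ β ∈ Finset.range D', x β *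
        ∑ α ∈ Finset.range D, A (mpsS σ a (Fin.last (n + 1))) α β * Ψ α (Fin.init (mpsS σ a)) =
        ∑ α ∈ Finset.range D, y a α * Ψ α σ := by
      intro σ a
      simp only [mpsS_last, mpsS_init, hy, Finset.mul_sum, Finset.sum_mul]
      rw [Finset.sum_comm]
      simp only [mul_assoc]
    have e2 : qform D' (Nxt D A Q Wz Wu) x = ∑ a, ∑ b, ∑ α ∈ Finset.range D, ∑ α' ∈ Finset.range D,
        y a α * ((if a = b then Q α α' + mz a * Wz α α' else 0) + uu b a * Wu α α'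
          + uu a b * Wu α' α) * y b α' := by
      simp only [hy, mps_base _ x x, mps_swap _ x x]
      rfl
    have e3 : ∑ a, ∑ α ∈ Finset.range D, y a α ^ 2 = ∑ β ∈ Finset.range D', x β ^ 2 := by
      have e : ∀ a α, y a α ^ 2 = y a α * 1 * y a α := fun a α => by ring
      simp only [e]
      simp only [hy, mps_base _ x x, mps_swap _ x x]
      simp only [mul_one]
      rw [mps_congr x x hA, mps_delta]
      simp only [sq]
    have e4 : ∀ a b, ∑ σ, (∑ α ∈ Finset.range D, y a α * Ψ α σ) * mz (σ (Fin.last n)) *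
        (∑ β ∈ Finset.range D, y b β * Ψ β σ) =
        ∑ α ∈ Finset.range D, ∑ β ∈ Finset.range D, y a α * Wz α β * y b β := fun a b => by
      simp only [mps_base _ (y a) (y b), mps_swap _ (y a) (y b)]
      exact mps_congr _ _ h2
    have e5 : ∀ a b, ∑ σ, ∑ s, (∑ α ∈ Finset.range D, y a α * Ψ α σ) * uu (σ (Fin.last n)) s *
        (∑ β ∈ Finset.range D, y b β * Ψ β (Function.update σ (Fin.last n) s)) =
        ∑ α ∈ Finset.range D, ∑ β ∈ Finset.range D, y a α * Wu α β * y b β := fun a b => by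
      simp only [mps_base _ (y a) (y b), mps_swap _ (y a) (y b)]
      exact mps_congr _ _ h3
    rw [mps_energy h fun ω => ∑ β ∈ Finset.range D', x β *
      ∑ α ∈ Finset.range D, A (ω (Fin.last (n + 1))) α β * Ψ α (Fin.init ω), e2, ← e3, Finset.mul_sum,
      ← Finset.sum_add_distrib]
    simp only [e1, e4, e5]
    refine Finset.sum_le_sum fun a _ => ?_
    have e6 : ∀ b, ∑ α ∈ Finset.range D, ∑ α' ∈ Finset.range D,
        y a α * ((if a = b then Q α α' + mz a * Wz α α' else 0) + uu b a * Wu α α'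
          + uu a b * Wu α' α) * y b α' =
        (if a = b then qform D Q (y a) + mz a *
          ∑ α ∈ Finset.range D, ∑ β ∈ Finset.range D, y a α * Wz α β * y b β else 0) +
        uu b a * (∑ α ∈ Finset.range D, ∑ β ∈ Finset.range D, y a α * Wu α β * y b β) +
        uu a b * ∑ α ∈ Finset.range D, ∑ β ∈ Finset.range D, y b α * Wu α β * y a β := fun b => by
      rw [Finset.sum_comm (f := fun α β => y b α * Wu α β * y a β)]
      by_cases hab : a = b
      · subst hab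
        simp only [if_true, qform, Finset.mul_sum, ← Finset.sum_add_distrib]
        exact Finset.sum_congr rfl fun α _ => Finset.sum_congr rfl fun β _ => by ring
      · simp only [hab, if_false, zero_add, Finset.mul_sum, ← Finset.sum_add_distrib]
        exact Finset.sum_congr rfl fun α _ => Finset.sum_congr rfl fun β _ => by ring
    simp only [e6, Finset.sum_add_distrib, Finset.sum_ite_eq, Finset.mem_univ, if_true]
    linarith [h4 (y a)]

theorem MInv.mono {h : ℝ} {n D : ℕ} {Q Q' Wz Wu Wz' Wu' : RM} {c c' : ℝ}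
    (H : MInv h n D Q c Wz Wu)
    (hQ : ∀ x, qform D Q x + c * ∑ α ∈ Finset.range D, x α ^ 2
      ≤ qform D Q' x + c' * ∑ α ∈ Finset.range D, x α ^ 2)
    (hz : ∀ α < D, ∀ β < D, Wz α β = Wz' α β) (hu : ∀ α < D, ∀ β < D, Wu α β = Wu' α β) :
    MInv h n D Q' c' Wz' Wu' := by
  obtain ⟨Ψ, h1, h2, h3, h4⟩ := H
  exact ⟨Ψ, h1, fun α hα β hβ => (h2 α hα β hβ).trans (hz α hα β hβ),
    fun α hα β hβ => (h3 α hα β hβ).trans (hu α hα β hβ), fun x => (h4 x).trans (hQ x)⟩

theorem MInv.final {h : ℝ} {n : ℕ} {Q Wz Wu : RM} {c : ℝ} (H : MInv h n 1 Q c Wz Wu) (h' : ℝ) :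
    ∃ ψ : Cfg (n + 1) → ℂ, ψ ≠ 0 ∧ (star ψ ⬝ᵥ HO h h' n *ᵥ ψ).re
      ≤ (Q 0 0 + c - h' * Wz 0 0) * (star ψ ⬝ᵥ ψ).re := by
  obtain ⟨Ψ, h1, h2, -, h4⟩ := H
  have a1 := h1 0 one_pos 0 one_pos
  have a2 := h2 0 one_pos 0 one_pos
  have a4 := h4 fun _ => 1
  simp only [qform, Finset.sum_range_one, one_mul, mul_one, one_pow, if_true] at a1 a4
  have b1 : (star (fun σ => (Ψ 0 σ : ℂ)) ⬝ᵥ fun σ => (Ψ 0 σ : ℂ)).re = 1 := by
    rw [← a1, dotProduct, Complex.re_sum]
    refine Finset.sum_congr rfl fun σ _ => ?_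
    simp
  have b2 : (star (fun σ => (Ψ 0 σ : ℂ)) ⬝ᵥ HO h h' n *ᵥ fun σ => (Ψ 0 σ : ℂ)).re =
      ∑ σ, ∑ τ, Ψ 0 σ * (HO h h' n σ τ).re * Ψ 0 τ := by
    rw [dotProduct, Complex.re_sum]
    refine Finset.sum_congr rfl fun σ _ => ?_
    rw [mulVec, dotProduct, Finset.mul_sum, Complex.re_sum]
    refine Finset.sum_congr rfl fun τ _ => ?_
    simp [mul_assoc]
  refine ⟨fun σ => (Ψ 0 σ : ℂ), fun h0 => ?_, ?_⟩
  · rw [h0] at b1
    simp at b1
  · rw [b1, b2, mul_one, ← a2, Finset.mul_sum]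
    simp only [mps_HO_field h h', mul_sub, sub_mul, Finset.sum_sub_distrib, mul_ite, ite_mul, mul_zero,
      zero_mul, Finset.sum_ite_eq, Finset.mem_univ, if_true]
    refine sub_le_sub a4 (le_of_eq (Finset.sum_congr rfl fun σ _ => by ring))

end Crest.Agent.R347
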