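import Crest.Agent.R347.CDefs

/-! Isometric tensors. -/

set_option autoImplicit false
set_option maxRecDepth 100000
set_option Elab.async false

namespace Crest.Agent.R347.Dat

open Crest.Agent.R347 Crest.Agent.R347.K

noncomputable def A0 : Tn :=
  ⟨[.cons 0 (.ofNat (Nat.shiftLeft 0x1 171)) .nil,
    .nil,
    .nil],
   [.nil,
    .cons 0 (.ofNat (Nat.shiftLeft 0x1 171)) .nil,
    .nil],
   [.nil,
    .nil,
    .cons 0 (.ofNat (Nat.shiftLeft 0x1 171)) .nil]⟩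

noncomputable def A1 : Tn :=
  ⟨[.cons 0 (.ofNat (Nat.shiftLeft 0x1 171)) .nil,
    .nil,
    .nil,
    .cons 1 (.ofNat (Nat.shiftLeft 0x1 171)) .nil,
    .nil,
    .nil,
    .cons 2 (.ofNat (Nat.shiftLeft 0x1 171)) .nil,
    .nil,
    .nil],
   [.nil,
    .cons 0 (.ofNat (Nat.shiftLeft 0x1 171)) .nil,
    .nil,
    .nil,
    .cons 1 (.ofNat (Nat.shiftLeft 0x1 171)) .nil,
    .nil,
    .nil,
    .cons 2 (.ofNat (Nat.shiftLeft 0x1 171)) .nil,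
    .nil],
   [.nil,
    .nil,
    .cons 0 (.ofNat (Nat.shiftLeft 0x1 171)) .nil,
    .nil,
    .nil,
    .cons 1 (.ofNat (Nat.shiftLeft 0x1 171)) .nil,
    .nil,
    .nil,
    .cons 2 (.ofNat (Nat.shiftLeft 0x1 171)) .nil]⟩

noncomputable def A2 : Tn :=
  ⟨[.cons 0 (.ofNat (Nat.shiftLeft 0x1 171)) .nil,
    .nil,
    .nil,
    .cons 1 (.ofNat (Nat.shiftLeft 0x1 171)) .nil,
    .nil,
    .nil,
    .cons 2 (.ofNat (Nat.shiftLeft 0x1 171)) .nil,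
    .nil,
    .nil,
    .cons 3 (.ofNat (Nat.shiftLeft 0x1 171)) .nil,
    .nil,
    .nil,
    .cons 4 (.ofNat (Nat.shiftLeft 0x1 171)) .nil,
    .nil,
    .nil,
    .cons 5 (.ofNat (Nat.shiftLeft 0x1 171)) .nil,
    .nil,
    .nil,
    .cons 6 (.ofNat (Nat.shiftLeft 0x1 171)) .nil,
    .nil,
    .nil,
    .cons 7 (.ofNat (Nat.shiftLeft 0x1 171)) .nil,
    .nil,
    .nil,
    .cons 8 (.ofNat (Nat.shiftLeft 0x1 171)) .nil,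
    .nil,
    .nil],
   [.nil,
    .cons 0 (.ofNat (Nat.shiftLeft 0x1 171)) .nil,
    .nil,
    .nil,
    .cons 1 (.ofNat (Nat.shiftLeft 0x1 171)) .nil,
    .nil,
    .nil,
    .cons 2 (.ofNat (Nat.shiftLeft 0x1 171)) .nil,
    .nil,
    .nil,
    .cons 3 (.ofNat (Nat.shiftLeft 0x1 171)) .nil,
    .nil,
    .nil,
    .cons 4 (.ofNat (Nat.shiftLeft 0x1 171)) .nil,
    .nil,
    .nil,
    .cons 5 (.ofNat (Nat.shiftLeft 0x1 171)) .nil,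
    .nil,
    .nil,
    .cons 6 (.ofNat (Nat.shiftLeft 0x1 171)) .nil,
    .nil,
    .nil,
    .cons 7 (.ofNat (Nat.shiftLeft 0x1 171)) .nil,
    .nil,
    .nil,
    .cons 8 (.ofNat (Nat.shiftLeft 0x1 171)) .nil,
    .nil],
   [.nil,
    .nil,
    .cons 0 (.ofNat (Nat.shiftLeft 0x1 171)) .nil,
    .nil,
    .nil,
    .cons 1 (.ofNat (Nat.shiftLeft 0x1 171)) .nil,
    .nil,
    .nil,
    .cons 2 (.ofNat (Nat.shiftLeft 0x1 171)) .nil,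
    .nil,
    .nil,
    .cons 3 (.ofNat (Nat.shiftLeft 0x1 171)) .nil,
    .nil,
    .nil,
    .cons 4 (.ofNat (Nat.shiftLeft 0x1 171)) .nil,
    .nil,
    .nil,
    .cons 5 (.ofNat (Nat.shiftLeft 0x1 171)) .nil,
    .nil,
    .nil,
    .cons 6 (.ofNat (Nat.shiftLeft 0x1 171)) .nil,
    .nil,
    .nil,
    .cons 7 (.ofNat (Nat.shiftLeft 0x1 171)) .nil,
    .nil,
    .nil,
    .cons 8 (.ofNat (Nat.shiftLeft 0x1 171)) .nil]⟩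

noncomputable def A3 : Tn :=
  ⟨[.cons 1 (.negSucc (Nat.sub (Nat.shiftLeft 0x6ad 159) 1)) (.cons 3 (.ofNat (Nat.shiftLeft 0x697 160)) (.cons 9 (.negSucc (Nat.sub (Nat.shiftLeft 0x605 159) 1)) .nil)),
    .cons 2 (.ofNat (Nat.shiftLeft 0xbe41 153)) (.cons 4 (.negSucc (Nat.sub (Nat.shiftLeft 0x787f3f 147) 1)) (.cons 6 (.ofNat (Nat.shiftLeft 0x5ea99 152)) (.cons 10 (.ofNat (Nat.shiftLeft 0x427e21 147)) (.cons 12 (.negSucc (Nat.sub (Nat.shiftLeft 0x4db697 147) 1)) (.cons 18 (.ofNat (Nat.shiftLeft 0x13e417 147)) .nil))))),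
    .cons 2 (.negSucc (Nat.sub (Nat.shiftLeft 0x6d7a6c9f9f 131) 1)) (.cons 4 (.ofNat (Nat.shiftLeft 0x164f8b5372e1 125)) (.cons 6 (.ofNat (Nat.shiftLeft 0xec4e1d07b9 130)) (.cons 10 (.negSucc (Nat.sub (Nat.shiftLeft 0xb2efe7e23bf 125) 1)) (.cons 12 (.negSucc (Nat.sub (Nat.shiftLeft 0xbae08dd9f77 125) 1)) (.cons 18 (.ofNat (Nat.shiftLeft 0x46a81687cf7 125)) .nil))))),
    .cons 2 (.negSucc (Nat.sub (Nat.shiftLeft 0x3ea1cc539bd82f9 112) 1)) (.cons 4 (.ofNat (Nat.shiftLeft 0xb5c41cbdb810ee87 106)) (.cons 6 (.ofNat (Nat.shiftLeft 0x32f5ac26c37616f 111)) (.cons 10 (.negSucc (Nat.sub (Nat.shiftLeft 0x5b40f7cd50f06bd9 106) 1)) (.cons 12 (.negSucc (Nat.sub (Nat.shiftLeft 0x26382579779202e1 106) 1)) (.cons 18 (.ofNat (Nat.shiftLeft 0x12890e60408a2161 106)) .nil))))),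
    .cons 2 (.ofNat (Nat.shiftLeft 0x109981bd8f56830eb1 102)) (.cons 4 (.ofNat (Nat.shiftLeft 0x179e4ccd3003e30e931 96)) (.cons 6 (.ofNat (Nat.shiftLeft 0x152ff1a44d54fa8189 101)) (.cons 10 (.negSucc (Nat.sub (Nat.shiftLeft 0x541be4a3d130ab9bf6f 96) 1)) (.cons 12 (.ofNat (Nat.shiftLeft 0x2294b64dfb18a909b59 96)) (.cons 18 (.negSucc (Nat.sub (Nat.shiftLeft 0x121299e0877058885d9 96) 1)) .nil))))),
    .cons 5 (.ofNat (Nat.shiftLeft 0xa4dc63bb 138)) (.cons 7 (.negSucc (Nat.sub (Nat.shiftLeft 0x1abeb553 141) 1)) (.cons 11 (.negSucc (Nat.sub (Nat.shiftLeft 0x2334c6ff 140) 1)) (.cons 13 (.ofNat (Nat.shiftLeft 0x7f913e65 138)) (.cons 15 (.negSucc (Nat.sub (Nat.shiftLeft 0x21726813 138) 1)) (.cons 19 (.negSucc (Nat.sub (Nat.shiftLeft 0xb3b94ed 140) 1)) (.cons 21 (.ofNat (Nat.shiftLeft 0xda25fa5 138)) .nil)))))),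
    .cons 5 (.negSucc (Nat.sub (Nat.shiftLeft 0x69ff53b089e403 115) 1)) (.cons 7 (.ofNat (Nat.shiftLeft 0xb2a1a732801db 118)) (.cons 11 (.ofNat (Nat.shiftLeft 0x1b4f47cdcf06a7 117)) (.cons 13 (.negSucc (Nat.sub (Nat.shiftLeft 0x470f27d328791d 115) 1)) (.cons 15 (.ofNat (Nat.shiftLeft 0x181977110f269b 115)) (.cons 19 (.ofNat (Nat.shiftLeft 0x6c11a48f5ce65 117)) (.cons 21 (.negSucc (Nat.sub (Nat.shiftLeft 0xa2f2eaecf085d 115) 1)) .nil)))))),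
    .cons 5 (.ofNat (Nat.shiftLeft 0x11b24571bfd3c47e1ff 96)) (.cons 7 (.ofNat (Nat.shiftLeft 0x4778ad3eee2aa08d49 99)) (.cons 11 (.negSucc (Nat.sub (Nat.shiftLeft 0x65b647cd1f5d67fe73 98) 1)) (.cons 13 (.negSucc (Nat.sub (Nat.shiftLeft 0xdb0c6735dbe57a165f 96) 1)) (.cons 15 (.ofNat (Nat.shiftLeft 0x659cf3f89304fa1989 96)) (.cons 19 (.ofNat (Nat.shiftLeft 0x1eb21637dff8058d77 98)) (.cons 21 (.negSucc (Nat.sub (Nat.shiftLeft 0x3146aa29b32d87c61f 96) 1)) .nil)))))),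
    .cons 5 (.ofNat (Nat.shiftLeft 0xd1250e9cfc6f5c09d3df8af 77)) (.cons 7 (.ofNat (Nat.shiftLeft 0x478a161913fd406abeac519 80)) (.cons 11 (.negSucc (Nat.sub (Nat.shiftLeft 0x7cc357a3066ece9a7490d63 79) 1)) (.cons 13 (.negSucc (Nat.sub (Nat.shiftLeft 0xa46c887e897ec05b6e7eb0f 77) 1)) (.cons 15 (.ofNat (Nat.shiftLeft 0x59804e71cbdefda62ce6559 77)) (.cons 19 (.ofNat (Nat.shiftLeft 0x1b67327b273af5bd87471a7 79)) (.cons 21 (.negSucc (Nat.sub (Nat.shiftLeft 0x322051b6a61d5d6d9ca46cf 77) 1)) .nil)))))),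
    .cons 5 (.negSucc (Nat.sub (Nat.shiftLeft 0x9608ef05484b08c1b8e366ba0861 58) 1)) (.cons 7 (.ofNat (Nat.shiftLeft 0x1411dfe92eec8430aa94078202a9 61)) (.cons 11 (.negSucc (Nat.sub (Nat.shiftLeft 0x1a1bbc2e6059ddfbd344edddc793 60) 1)) (.cons 13 (.ofNat (Nat.shiftLeft 0xaa681c7934d1177e45aea82c7001 58)) (.cons 15 (.negSucc (Nat.sub (Nat.shiftLeft 0xc940e49214e3862a605acaed5917 58) 1)) (.cons 19 (.negSucc (Nat.sub (Nat.shiftLeft 0x2b3a8b4b6246ad3aeeb30d4e5fe9 60) 1)) (.cons 21 (.ofNat (Nat.shiftLeft 0x72f14fb3bfe09204898de6c75841 58)) .nil)))))),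
    .cons 5 (.ofNat (Nat.shiftLeft 0x7f489f372e492a9e92fde5b52c73ec31 42)) (.cons 7 (.ofNat (Nat.shiftLeft 0x4bafaa1b8e7a91cfa7117c5f3ffd707 45)) (.cons 11 (.negSucc (Nat.sub (Nat.shiftLeft 0x1fc2ab04c0d4f69bd9cedc87e909a1fd 44) 1)) (.cons 13 (.negSucc (Nat.sub (Nat.shiftLeft 0x6983b4c33d075fbd7defc2ef4daea5d1 42) 1)) (.cons 15 (.ofNat (Nat.shiftLeft 0x80036bdee7aa2dd1b88833d605287ec7 42)) (.cons 19 (.ofNat (Nat.shiftLeft 0x1c857b4382aae96b8d0d865e9fe68a39 44)) (.cons 21 (.negSucc (Nat.sub (Nat.shiftLeft 0x4b01b37da48fc323ffe7d64ee1fb8211 42) 1)) .nil)))))),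
    .cons 5 (.negSucc (Nat.sub (Nat.shiftLeft 0x8ac613fc0826bf1a37c1d1f230ce052313 30) 1)) (.cons 7 (.ofNat (Nat.shiftLeft 0xf2de6c4e7552a74e94e00eecc195eded6b 33)) (.cons 11 (.negSucc (Nat.sub (Nat.shiftLeft 0x19831751b1d26230f1b73b1adb1a6b28d89 32) 1)) (.cons 13 (.ofNat (Nat.shiftLeft 0x394e451f4508c88eea2bd4caac4991fdff3 30)) (.cons 15 (.negSucc (Nat.sub (Nat.shiftLeft 0x733dd0da7eb6aeb1b68984e9b7121c669d5 30) 1)) (.cons 19 (.negSucc (Nat.sub (Nat.shiftLeft 0x1204133c1de891f486732df32319441312b 32) 1)) (.cons 21 (.ofNat (Nat.shiftLeft 0x43ad4931f32e6f46540a3b644648e2614b3 30)) .nil)))))),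
    .cons 8 (.ofNat (Nat.shiftLeft 0x5293ff6b 137)) (.cons 14 (.negSucc (Nat.sub (Nat.shiftLeft 0x3d95846f 137) 1)) (.cons 16 (.ofNat (Nat.shiftLeft 0xa6c803 142)) (.cons 20 (.ofNat (Nat.shiftLeft 0x9464a81 139)) (.cons 22 (.negSucc (Nat.sub (Nat.shiftLeft 0xc4c3b3 141) 1)) (.cons 24 (.ofNat (Nat.shiftLeft 0xcc429f 138)) .nil))))),
    .cons 8 (.negSucc (Nat.sub (Nat.shiftLeft 0x86ff3ece18edf77 110) 1)) (.cons 14 (.ofNat (Nat.shiftLeft 0x7b679d166be950b 110)) (.cons 16 (.negSucc (Nat.sub (Nat.shiftLeft 0x18ed114b38456f 115) 1)) (.cons 20 (.negSucc (Nat.sub (Nat.shiftLeft 0x16d7fa5fea563a5 112) 1)) (.cons 22 (.ofNat (Nat.shiftLeft 0x21560467d7f5df 114)) (.cons 24 (.negSucc (Nat.sub (Nat.shiftLeft 0x2865ea1effe1fb 111) 1)) .nil))))),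
    .cons 8 (.ofNat (Nat.shiftLeft 0x3832a26b7b085cb98a50f 88)) (.cons 14 (.negSucc (Nat.sub (Nat.shiftLeft 0x39e20af7c1456121afdc3 88) 1)) (.cons 16 (.ofNat (Nat.shiftLeft 0xc36833e28dc3ee211c7 93)) (.cons 20 (.ofNat (Nat.shiftLeft 0xd264e72716623241c66d 90)) (.cons 22 (.negSucc (Nat.sub (Nat.shiftLeft 0x131572e2cf5ac97803b7 92) 1)) (.cons 24 (.ofNat (Nat.shiftLeft 0x19e98876ca38dc1d8033 89)) .nil))))),
    .cons 8 (.ofNat (Nat.shiftLeft 0x9c9e76c0df68d866aa4d93d 75)) (.cons 14 (.ofNat (Nat.shiftLeft 0x338449cd1564ffc05e6ee3e7 75)) (.cons 16 (.negSucc (Nat.sub (Nat.shiftLeft 0x10d6c7fd0092d165a12941b 80) 1)) (.cons 20 (.negSucc (Nat.sub (Nat.shiftLeft 0x150c190fc778c9b4143f2289 77) 1)) (.cons 22 (.ofNat (Nat.shiftLeft 0x21b32afc4b4d6fcc4272d4b 79)) (.cons 24 (.negSucc (Nat.sub (Nat.shiftLeft 0x3a98116601912720eac5397 76) 1)) .nil))))),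
    .cons 8 (.ofNat (Nat.shiftLeft 0x1b1f2de1db195f3aded313e2ef2af 57)) (.cons 14 (.negSucc (Nat.sub (Nat.shiftLeft 0xa17953cfeb539bc2550180576ee3 57) 1)) (.cons 16 (.negSucc (Nat.sub (Nat.shiftLeft 0x26b8559df6058bff68351959b99 62) 1)) (.cons 20 (.negSucc (Nat.sub (Nat.shiftLeft 0x9a538da98b9d88932dcb99c98b3 59) 1)) (.cons 22 (.ofNat (Nat.shiftLeft 0x50d80f51435e22cd35e51266fa9 61)) (.cons 24 (.negSucc (Nat.sub (Nat.shiftLeft 0xa290d828e303a1d776ca10aa4ad 58) 1)) .nil))))),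
    .cons 8 (.ofNat (Nat.shiftLeft 0x1817203ebfa65161eaf88e1944a6dde9 42)) (.cons 14 (.ofNat (Nat.shiftLeft 0x2931b4fac2273d66c30505190a92772b 42)) (.cons 16 (.negSucc (Nat.sub (Nat.shiftLeft 0x4a7acd49609ce1013b410b40eef50f 47) 1)) (.cons 20 (.negSucc (Nat.sub (Nat.shiftLeft 0x121c3a55b80a9b9f8cd16a7ab41ea385 44) 1)) (.cons 22 (.ofNat (Nat.shiftLeft 0x10045f2b1bc13a47989a032c3422f7f 46)) (.cons 24 (.negSucc (Nat.sub (Nat.shiftLeft 0x139f3a1c7a35887a529ab5f93d6fe1b 43) 1)) .nil))))),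
    .cons 8 (.negSucc (Nat.sub (Nat.shiftLeft 0xfe15fc557db469cc95683f1351741ea70f 34) 1)) (.cons 14 (.ofNat (Nat.shiftLeft 0x186f333413b7196f23e3feb002a03117c3 34)) (.cons 16 (.ofNat (Nat.shiftLeft 0x1ce361c681c17dc56f05077f391f85c39 39)) (.cons 20 (.ofNat (Nat.shiftLeft 0x3d0c3294ae70f3a85aa02be5a0c142b393 36)) (.cons 22 (.negSucc (Nat.sub (Nat.shiftLeft 0x6ebdd69f19dc9e4e216aa95e0dc644a49 38) 1)) (.cons 24 (.ofNat (Nat.shiftLeft 0xf464f1b7e43f30d3f686c76fdbeff45cd 35)) .nil))))),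
    .cons 17 (.ofNat (Nat.shiftLeft 0xd98f 149)) (.cons 23 (.negSucc (Nat.sub (Nat.shiftLeft 0x544dd 146) 1)) (.cons 25 (.ofNat (Nat.shiftLeft 0x4885 148)) .nil)),
    .cons 17 (.negSucc (Nat.sub (Nat.shiftLeft 0x236faa3611 130) 1)) (.cons 23 (.ofNat (Nat.shiftLeft 0xf4daec1c03 127)) (.cons 25 (.negSucc (Nat.sub (Nat.shiftLeft 0xef2e3675b 129) 1)) .nil)),
    .cons 17 (.negSucc (Nat.sub (Nat.shiftLeft 0x87f334905ed 120) 1)) (.cons 23 (.ofNat (Nat.shiftLeft 0x633c03c4be57 117)) (.cons 25 (.negSucc (Nat.sub (Nat.shiftLeft 0x9820818574f 119) 1)) .nil)),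
    .cons 17 (.negSucc (Nat.sub (Nat.shiftLeft 0x325ebe2bc5fd6d7 108) 1)) (.cons 23 (.ofNat (Nat.shiftLeft 0x18cd3cf3e4856735 105)) (.cons 25 (.negSucc (Nat.sub (Nat.shiftLeft 0x1d018c5fe75479d 107) 1)) .nil)),
    .nil],
   [.cons 0 (.ofNat (Nat.shiftLeft 0x139 159)) .nil,
    .cons 1 (.negSucc (Nat.sub (Nat.shiftLeft 0x7b56b 148) 1)) (.cons 3 (.ofNat (Nat.shiftLeft 0x98b75 149)) (.cons 9 (.negSucc (Nat.sub (Nat.shiftLeft 0x96d9d 148) 1)) .nil)),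
    .cons 1 (.ofNat (Nat.shiftLeft 0x8f1d2b1ff35 126)) (.cons 3 (.negSucc (Nat.sub (Nat.shiftLeft 0x86ab545e3eb 127) 1)) (.cons 9 (.ofNat (Nat.shiftLeft 0x79d3007acc3 126)) .nil)),
    .cons 1 (.negSucc (Nat.sub (Nat.shiftLeft 0x33409ac47dede3ad 107) 1)) (.cons 3 (.ofNat (Nat.shiftLeft 0x532ad08eb364fa73 108)) (.cons 9 (.negSucc (Nat.sub (Nat.shiftLeft 0x4db4a4838a699b8b 107) 1)) .nil)),
    .cons 1 (.negSucc (Nat.sub (Nat.shiftLeft 0xd432835790ec59703b 97) 1)) (.cons 3 (.ofNat (Nat.shiftLeft 0x10d9a23c514c15b2a5 98)) (.cons 9 (.ofNat (Nat.shiftLeft 0x773f1e237ad97c59b3 97)) .nil)),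
    .cons 2 (.ofNat (Nat.shiftLeft 0x141228a7 139)) (.cons 4 (.negSucc (Nat.sub (Nat.shiftLeft 0x9e3e2337 138) 1)) (.cons 6 (.ofNat (Nat.shiftLeft 0x131ac1f19 138)) (.cons 10 (.ofNat (Nat.shiftLeft 0x2f61a10f 139)) (.cons 12 (.negSucc (Nat.sub (Nat.shiftLeft 0x82f5d0e3 138) 1)) (.cons 18 (.ofNat (Nat.shiftLeft 0x11fa00cb 139)) .nil))))),
    .cons 2 (.ofNat (Nat.shiftLeft 0x8d6e6f1a7c5f1 116)) (.cons 4 (.negSucc (Nat.sub (Nat.shiftLeft 0x31e2f81a1729e1 115) 1)) (.cons 6 (.ofNat (Nat.shiftLeft 0x925da5ac7b484f 115)) (.cons 10 (.ofNat (Nat.shiftLeft 0x815cdc666a9c9 116)) (.cons 12 (.negSucc (Nat.sub (Nat.shiftLeft 0x3231eb6c40e915 115) 1)) (.cons 18 (.ofNat (Nat.shiftLeft 0x5d3da4b80016d 116)) .nil))))),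
    .cons 2 (.ofNat (Nat.shiftLeft 0xd33ec6302da76127fb 97)) (.cons 4 (.negSucc (Nat.sub (Nat.shiftLeft 0x2e604a1fb174599e94b 96) 1)) (.cons 6 (.negSucc (Nat.sub (Nat.shiftLeft 0x244091e091a5d1aa33b 96) 1)) (.cons 10 (.ofNat (Nat.shiftLeft 0x106d176f36e17cdd943 97)) (.cons 12 (.ofNat (Nat.shiftLeft 0x8df72bd10b132a9ef9 96)) (.cons 18 (.negSucc (Nat.sub (Nat.shiftLeft 0x1fb6c4552f06e2dc31 97) 1)) .nil))))),
    .cons 2 (.negSucc (Nat.sub (Nat.shiftLeft 0xc60c5b14196e5013170695 78) 1)) (.cons 4 (.negSucc (Nat.sub (Nat.shiftLeft 0x7517b5294db4febc1f1f3bb 77) 1)) (.cons 6 (.ofNat (Nat.shiftLeft 0x33eb4aafdd1f7422df1c755 77)) (.cons 10 (.ofNat (Nat.shiftLeft 0x7182215f49ed2be643c9933 78)) (.cons 12 (.negSucc (Nat.sub (Nat.shiftLeft 0x7d6612ad924cec14c8e7237 77) 1)) (.cons 18 (.ofNat (Nat.shiftLeft 0x12bda5b16b014eb9b901b7f 78)) .nil))))),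
    .cons 2 (.negSucc (Nat.sub (Nat.shiftLeft 0x4fb7c0605050794c7a4285d52be5 59) 1)) (.cons 4 (.ofNat (Nat.shiftLeft 0x8c5229c333615daf8715f4d4cc95 58)) (.cons 6 (.ofNat (Nat.shiftLeft 0xb98d98cdcf7fc7a48382e34f8a5 58)) (.cons 10 (.ofNat (Nat.shiftLeft 0x1715b6087b5a1644963f1de3d063 59)) (.cons 12 (.negSucc (Nat.sub (Nat.shiftLeft 0x8c3dcea49c1ec3edbf3bdb8e69a7 58) 1)) (.cons 18 (.ofNat (Nat.shiftLeft 0x2d78ce873adbfb9fd456b5e8076f 59)) .nil))))),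
    .cons 2 (.negSucc (Nat.sub (Nat.shiftLeft 0x5f3f3888cdadcbbcda73149936adc10b 43) 1)) (.cons 4 (.ofNat (Nat.shiftLeft 0xe58374da4a903fcda0b93df285e7215b 42)) (.cons 6 (.ofNat (Nat.shiftLeft 0xa24d38900536be7627c0b1236dd3d84b 42)) (.cons 10 (.negSucc (Nat.sub (Nat.shiftLeft 0x5892ee4fe146ee795104baa0d0669fd3 43) 1)) (.cons 12 (.ofNat (Nat.shiftLeft 0x1a1d00c338fea28af587898b6004d457 42)) (.cons 18 (.negSucc (Nat.sub (Nat.shiftLeft 0xdee6e071db2fc5094b6a45786d10c9f 43) 1)) .nil))))),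
    .cons 2 (.ofNat (Nat.shiftLeft 0x8d45c32b8773d87828c8e35d3973d5d6aa1 31)) (.cons 4 (.ofNat (Nat.shiftLeft 0x151ee563fcbf894c48f122f0f038cba6c6f 30)) (.cons 6 (.ofNat (Nat.shiftLeft 0x71e4026900ce7fe9bc090fc8828adb12f9f 30)) (.cons 10 (.negSucc (Nat.sub (Nat.shiftLeft 0x7e4a081054c29d158d8630fb813cdd6e507 31) 1)) (.cons 12 (.ofNat (Nat.shiftLeft 0x8a526a061b620ad002e60a9bf4596866d7b 30)) (.cons 18 (.negSucc (Nat.sub (Nat.shiftLeft 0x23b23fde7f07600879518a22712db8af0a3 31) 1)) .nil))))),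
    .cons 5 (.ofNat (Nat.shiftLeft 0xb352154b 137)) (.cons 7 (.negSucc (Nat.sub (Nat.shiftLeft 0xaa2d85f 142) 1)) (.cons 11 (.negSucc (Nat.sub (Nat.shiftLeft 0x8c6fad0b 137) 1)) (.cons 13 (.ofNat (Nat.shiftLeft 0xc046f839 137)) (.cons 15 (.negSucc (Nat.sub (Nat.shiftLeft 0x72a9821 140) 1)) (.cons 19 (.negSucc (Nat.sub (Nat.shiftLeft 0x47cbac7 141) 1)) (.cons 21 (.ofNat (Nat.shiftLeft 0xc4a5b75 138)) .nil)))))),
    .cons 5 (.negSucc (Nat.sub (Nat.shiftLeft 0xa55df0cbcce28d7 110) 1)) (.cons 7 (.ofNat (Nat.shiftLeft 0x7a98870365c6bb 115)) (.cons 11 (.ofNat (Nat.shiftLeft 0x9e9557e9db55797 110)) (.cons 13 (.negSucc (Nat.sub (Nat.shiftLeft 0xb846968934fc73d 110) 1)) (.cons 15 (.ofNat (Nat.shiftLeft 0xa9961a7b6afbc5 113)) (.cons 19 (.ofNat (Nat.shiftLeft 0x54a5acc4a617c3 114)) (.cons 21 (.negSucc (Nat.sub (Nat.shiftLeft 0x141ed692fb562e9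 111) 1)) .nil)))))),
    .cons 5 (.negSucc (Nat.sub (Nat.shiftLeft 0x2ec47e512249d8c98ba91 88) 1)) (.cons 7 (.ofNat (Nat.shiftLeft 0x555b555463e2aaf1d0d 93)) (.cons 11 (.ofNat (Nat.shiftLeft 0x2ffd01becaac6470e7dd1 88)) (.cons 13 (.negSucc (Nat.sub (Nat.shiftLeft 0x670676254c89918d0e3b 88) 1)) (.cons 15 (.negSucc (Nat.sub (Nat.shiftLeft 0xc1cd776417cf3b6c38d 91) 1)) (.cons 19 (.negSucc (Nat.sub (Nat.shiftLeft 0x72a2539749c8990c53b 92) 1)) (.cons 21 (.ofNat (Nat.shiftLeft 0x2be8d789381632d6dc51 89)) .nil)))))),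
    .cons 5 (.negSucc (Nat.sub (Nat.shiftLeft 0x1934c5782ba2b9cf5bd16ba3 75) 1)) (.cons 7 (.negSucc (Nat.sub (Nat.shiftLeft 0x45cded3aa460145a29168a9 80) 1)) (.cons 11 (.ofNat (Nat.shiftLeft 0x4ab86da26264a154c91ac163 75)) (.cons 13 (.ofNat (Nat.shiftLeft 0xab5b4ac5b4399d19507e1ff 75)) (.cons 15 (.ofNat (Nat.shiftLeft 0x2105b169d51ad071ecc5d29 78)) (.cons 19 (.ofNat (Nat.shiftLeft 0x11fc0caaa2a7bd13c352cff 79)) (.cons 21 (.negSucc (Nat.sub (Nat.shiftLeft 0x742b95fe34957fd8fd18b1d 76) 1)) .nil)))))),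
    .cons 5 (.ofNat (Nat.shiftLeft 0xefd25a2d8b72ef35e3b624e2b70f 57)) (.cons 7 (.negSucc (Nat.sub (Nat.shiftLeft 0x3af0e57c01fee50740b036fc613 62) 1)) (.cons 11 (.negSucc (Nat.sub (Nat.shiftLeft 0x2fa618586e87ab29b8cc94b5bbcf 57) 1)) (.cons 13 (.negSucc (Nat.sub (Nat.shiftLeft 0x145b7d0c8fdb5b4ab30863312ec5b 57) 1)) (.cons 15 (.ofNat (Nat.shiftLeft 0x43ba9575a173b3d23f46416daf93 60)) (.cons 19 (.ofNat (Nat.shiftLeft 0x16b49a6108b6dec600f1735cbca5 61)) (.cons 21 (.negSucc (Nat.sub (Nat.shiftLeft 0x9b26fb8d46465c6524545e6ded4f 58) 1)) .nil)))))),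
    .cons 5 (.negSucc (Nat.sub (Nat.shiftLeft 0x8afb30210d4523a70a56a526bbe3af77 42) 1)) (.cons 7 (.negSucc (Nat.sub (Nat.shiftLeft 0x54e5e4c71940e3d7b40b50228d9d525 47) 1)) (.cons 11 (.ofNat (Nat.shiftLeft 0x10243f0f0e4f3056a2a9953c4b7f3e637 42)) (.cons 13 (.ofNat (Nat.shiftLeft 0x204dd36ba78f3aa14ac8be8ffae52fe3 42)) (.cons 15 (.negSucc (Nat.sub (Nat.shiftLeft 0x953eb0fd9b67e935871e50ff5bb785b 45) 1)) (.cons 19 (.negSucc (Nat.sub (Nat.shiftLeft 0x1f791e03653807439b4f3ef42eb511d 46) 1)) (.cons 21 (.ofNat (Nat.shiftLeft 0x13a4ee5929abd4c9b27c14b6e0023bb7 43)) .nil)))))),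
    .cons 5 (.ofNat (Nat.shiftLeft 0x5feb4ffce0b2e6baf204cad8bf2c1f7891 34)) (.cons 7 (.negSucc (Nat.sub (Nat.shiftLeft 0x2c49a4024c9b6167753ac71d6aa69630d 39) 1)) (.cons 11 (.ofNat (Nat.shiftLeft 0x43420edec59434c5b5cba116f057d9442f 34)) (.cons 13 (.negSucc (Nat.sub (Nat.shiftLeft 0x3fad736d2c091a58c77ec6388be2fcc7c5 34) 1)) (.cons 15 (.ofNat (Nat.shiftLeft 0x56afd848cc754de516984040efa54098d 37)) (.cons 19 (.negSucc (Nat.sub (Nat.shiftLeft 0xdd63de463657cfe28dc60f1ec74710c5 38) 1)) (.cons 21 (.ofNat (Nat.shiftLeft 0x3bd1d0ac422e3c0abdc224ae56d9de5af 35)) .nil)))))),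
    .cons 8 (.negSucc (Nat.sub (Nat.shiftLeft 0xe1b79 149) 1)) (.cons 14 (.ofNat (Nat.shiftLeft 0x62c04f 146)) (.cons 16 (.negSucc (Nat.sub (Nat.shiftLeft 0x3158e7 146) 1)) (.cons 20 (.negSucc (Nat.sub (Nat.shiftLeft 0x1147b1 148) 1)) (.cons 22 (.ofNat (Nat.shiftLeft 0x1fabaf 146)) (.cons 24 (.negSucc (Nat.sub (Nat.shiftLeft 0x544dd 146) 1)) .nil))))),
    .cons 8 (.ofNat (Nat.shiftLeft 0x97446fe7e7 130)) (.cons 14 (.negSucc (Nat.sub (Nat.shiftLeft 0x6af980f5751 127) 1)) (.cons 16 (.ofNat (Nat.shiftLeft 0x4b1738a87b9 127)) (.cons 20 (.ofNat (Nat.shiftLeft 0x1bf5a2fa0af 129)) (.cons 22 (.negSucc (Nat.sub (Nat.shiftLeft 0x3ae1282eff1 127) 1)) (.cons 24 (.ofNat (Nat.shiftLeft 0xd2a2ec1c03 127)) .nil))))),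
    .cons 8 (.ofNat (Nat.shiftLeft 0x38bdb4bbc2f2b 120)) (.cons 14 (.negSucc (Nat.sub (Nat.shiftLeft 0x147e0607254a2d 117) 1)) (.cons 16 (.ofNat (Nat.shiftLeft 0xdcbb569035f5 117)) (.cons 20 (.ofNat (Nat.shiftLeft 0x37db8bfcccdd3 119)) (.cons 22 (.negSucc (Nat.sub (Nat.shiftLeft 0x12c12b0a1544d 117) 1)) (.cons 24 (.ofNat (Nat.shiftLeft 0x150babc4be57 117)) .nil))))),
    .cons 8 (.negSucc (Nat.sub (Nat.shiftLeft 0xb66cdd3a62f780f 108) 1)) (.cons 14 (.negSucc (Nat.sub (Nat.shiftLeft 0x5dcc861ae3b3b797 105) 1)) (.cons 16 (.ofNat (Nat.shiftLeft 0x53ad44a803ce216f 105)) (.cons 20 (.ofNat (Nat.shiftLeft 0x25388283b7f21069 107)) (.cons 22 (.negSucc (Nat.sub (Nat.shiftLeft 0x4bb10a17f737dff7 105) 1)) (.cons 24 (.ofNat (Nat.shiftLeft 0x13c0285f5c856735 105)) .nil))))),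
    .cons 17 (.negSucc (Nat.sub (Nat.shiftLeft 0x13 163) 1)) (.cons 23 (.ofNat (Nat.shiftLeft 0x11 163)) (.cons 25 (.negSucc (Nat.sub (Nat.shiftLeft 0x11 161) 1)) .nil))],
   [.cons 26 (.negSucc (Nat.sub (Nat.shiftLeft 0x3 159) 1)) .nil,
    .cons 0 (.ofNat (Nat.shiftLeft 0xe38f 148)) .nil,
    .cons 0 (.negSucc (Nat.sub (Nat.shiftLeft 0x19997fa6491 126) 1)) .nil,
    .cons 0 (.ofNat (Nat.shiftLeft 0xb1a888b987cb3a9 107)) .nil,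
    .cons 0 (.ofNat (Nat.shiftLeft 0x483d44b2b21e799e1f 97)) .nil,
    .cons 1 (.negSucc (Nat.sub (Nat.shiftLeft 0xc277d81 138) 1)) (.cons 3 (.ofNat (Nat.shiftLeft 0x1447c63d 139)) (.cons 9 (.negSucc (Nat.sub (Nat.shiftLeft 0x5539f67 140) 1)) .nil)),
    .cons 1 (.negSucc (Nat.sub (Nat.shiftLeft 0x891f013073627 115) 1)) (.cons 3 (.ofNat (Nat.shiftLeft 0xc3cf57d788ccb 116)) (.cons 9 (.negSucc (Nat.sub (Nat.shiftLeft 0x2a791a9d77d31 117) 1)) .nil)),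
    .cons 1 (.negSucc (Nat.sub (Nat.shiftLeft 0x1c057ef35b4dca7bc0d 96) 1)) (.cons 3 (.ofNat (Nat.shiftLeft 0x27731ab6562d0ce5b99 97)) (.cons 9 (.negSucc (Nat.sub (Nat.shiftLeft 0x9b2b48b820848c8fbb 98) 1)) .nil)),
    .cons 1 (.ofNat (Nat.shiftLeft 0xb5ec40f8f7f420d50808ae3 77)) (.cons 3 (.negSucc (Nat.sub (Nat.shiftLeft 0xeda1fea61dc4a010c8e2397 78) 1)) (.cons 9 (.ofNat (Nat.shiftLeft 0x2e19d63c8535883ea5572d5 79)) .nil)),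
    .cons 1 (.negSucc (Nat.sub (Nat.shiftLeft 0x71ae683b370f1afe8e3ccf0e2ed 58) 1)) (.cons 3 (.ofNat (Nat.shiftLeft 0x315506d48e3657d015bfd8fe4ef9 59)) (.cons 9 (.negSucc (Nat.sub (Nat.shiftLeft 0x12055d01fe55cd07e690a802a3db 60) 1)) .nil)),
    .cons 1 (.negSucc (Nat.sub (Nat.shiftLeft 0x201a5add22bb214c852ee1992970ab83 42) 1)) (.cons 3 (.ofNat (Nat.shiftLeft 0x54433d6c9911cc12734f78296c88f9b7 43)) (.cons 9 (.negSucc (Nat.sub (Nat.shiftLeft 0x1103a1b2a7037e84e57077728bdee335 44) 1)) .nil)),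
    .cons 1 (.negSucc (Nat.sub (Nat.shiftLeft 0x84568e28e61360d9a38ebee5d01b736c9f7 30) 1)) (.cons 3 (.ofNat (Nat.shiftLeft 0x2b82b7074fa4e627366ed98f0f07db0d5b 31)) (.cons 9 (.ofNat (Nat.shiftLeft 0x1b1a62aca3d7e6d335e9a355d3ff9fc221f 32)) .nil)),
    .cons 2 (.ofNat (Nat.shiftLeft 0x1d9c1dbf 138)) (.cons 4 (.negSucc (Nat.sub (Nat.shiftLeft 0x121a27775 137) 1)) (.cons 6 (.ofNat (Nat.shiftLeft 0x182fd5299 138)) (.cons 10 (.ofNat (Nat.shiftLeft 0x28844c25 139)) (.cons 12 (.negSucc (Nat.sub (Nat.shiftLeft 0x13efcfea3 137) 1)) (.cons 18 (.ofNat (Nat.shiftLeft 0x5858ab07 137)) .nil))))),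
    .cons 2 (.ofNat (Nat.shiftLeft 0x655815df8c9265 111)) (.cons 4 (.negSucc (Nat.sub (Nat.shiftLeft 0x31348ea0b2a9117 110) 1)) (.cons 6 (.ofNat (Nat.shiftLeft 0x6c8945f40c388e3 111)) (.cons 10 (.ofNat (Nat.shiftLeft 0x256e3d1df583a7 112)) (.cons 12 (.negSucc (Nat.sub (Nat.shiftLeft 0x41469d58d547571 110) 1)) (.cons 18 (.ofNat (Nat.shiftLeft 0xb1b8e7acb86efd 110)) .nil))))),
    .cons 2 (.negSucc (Nat.sub (Nat.shiftLeft 0x3a80e370c7e777cc032d 89) 1)) (.cons 4 (.ofNat (Nat.shiftLeft 0x150e16bda3ce3e22b37af 88)) (.cons 6 (.ofNat (Nat.shiftLeft 0xae03e122778070b37ca5 89)) (.cons 10 (.negSucc (Nat.sub (Nat.shiftLeft 0x4f5d88212b37960060bf 90) 1)) (.cons 12 (.negSucc (Nat.sub (Nat.shiftLeft 0x2a4995a27ff0e2e0c3e7 88) 1)) (.cons 18 (.ofNat (Nat.shiftLeft 0x1d3718ee6c2ba4f1707b 88)) .nil))))),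
    .cons 2 (.negSucc (Nat.sub (Nat.shiftLeft 0x14844589ac05c0f07e7787b7 76) 1)) (.cons 4 (.ofNat (Nat.shiftLeft 0x6ab573cc2db43606ce5a871d 75)) (.cons 6 (.ofNat (Nat.shiftLeft 0x17383ec35c138febbb85349f 76)) (.cons 10 (.negSucc (Nat.sub (Nat.shiftLeft 0x194ebf165c3fef8e2d35c14d 77) 1)) (.cons 12 (.ofNat (Nat.shiftLeft 0x1fb9695ce24e2d90e0c4ffbb 75)) (.cons 18 (.negSucc (Nat.sub (Nat.shiftLeft 0x103791a64cccb40f6dd19f3f 75) 1)) .nil))))),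
    .cons 2 (.ofNat (Nat.shiftLeft 0x3eef468218696a55f4d849c993f3 58)) (.cons 4 (.negSucc (Nat.sub (Nat.shiftLeft 0xdb35103658ae2bf5fbf3a5e87eb1 57) 1)) (.cons 6 (.negSucc (Nat.sub (Nat.shiftLeft 0xb8d7f23be367aad44a676b94d7b 58) 1)) (.cons 10 (.ofNat (Nat.shiftLeft 0xf208102d2adbaa311baca3a6fa1 59)) (.cons 12 (.ofNat (Nat.shiftLeft 0xa99b7185d6d2dcebfb9f75411d79 57)) (.cons 18 (.negSucc (Nat.sub (Nat.shiftLeft 0x91dfc2b335e1083c7680bc6dd965 57) 1)) .nil))))),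
    .cons 2 (.ofNat (Nat.shiftLeft 0x51adce8852da62b6c663c656b02eda45 43)) (.cons 4 (.negSucc (Nat.sub (Nat.shiftLeft 0xfdeda75ee503cc2ca5ede8dd5e25afb7 42) 1)) (.cons 6 (.negSucc (Nat.sub (Nat.shiftLeft 0x44f62027af89c8b127d2057d52d233fd 43) 1)) (.cons 10 (.ofNat (Nat.shiftLeft 0x2325d54417887cf749fb71216fa83847 44)) (.cons 12 (.ofNat (Nat.shiftLeft 0x1154824e0551341c73a2b8ac3095662f 42)) (.cons 18 (.negSucc (Nat.sub (Nat.shiftLeft 0x4aa05053165fe4a7e90a7d8bddc2023 42) 1)) .nil))))),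
    .cons 2 (.ofNat (Nat.shiftLeft 0x3128917a7dad3e797764c325bcc2b6092d 35)) (.cons 4 (.negSucc (Nat.sub (Nat.shiftLeft 0x4adfef119bbfb75f7193682d51d3f7f9af 34) 1)) (.cons 6 (.ofNat (Nat.shiftLeft 0x2432462f2a16ed7f52e8c3000cc0f46d5b 35)) (.cons 10 (.negSucc (Nat.sub (Nat.shiftLeft 0x20ec5733bb3c7cb2ef3ecb8cc942c6fd41 36) 1)) (.cons 12 (.ofNat (Nat.shiftLeft 0xce388169b5403a8768bb5aa3c1881e15e7 34)) (.cons 18 (.negSucc (Nat.sub (Nat.shiftLeft 0x70a5cc631f3162a5853652d3d892db1a7b 34) 1)) .nil))))),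
    .cons 5 (.negSucc (Nat.sub (Nat.shiftLeft 0x9c5047 146) 1)) (.cons 7 (.ofNat (Nat.shiftLeft 0x525d01 148)) (.cons 11 (.ofNat (Nat.shiftLeft 0x43ee2f 147)) (.cons 13 (.negSucc (Nat.sub (Nat.shiftLeft 0x1c19f 153) 1)) (.cons 15 (.ofNat (Nat.shiftLeft 0x7ced1d 146)) (.cons 19 (.ofNat (Nat.shiftLeft 0x655b7d 146)) (.cons 21 (.negSucc (Nat.sub (Nat.shiftLeft 0x1d8489 147) 1)) .nil)))))),
    .cons 5 (.negSucc (Nat.sub (Nat.shiftLeft 0x5085ea36ba7 127) 1)) (.cons 7 (.ofNat (Nat.shiftLeft 0x14de9f396a1 129)) (.cons 11 (.ofNat (Nat.shiftLeft 0x1dd63c9628f 128)) (.cons 13 (.negSucc (Nat.sub (Nat.shiftLeft 0x1d514bff 134) 1)) (.cons 15 (.negSucc (Nat.sub (Nat.shiftLeft 0x4994bbd0bc3 127) 1)) (.cons 19 (.negSucc (Nat.sub (Nat.shiftLeft 0x24fed084163 127) 1)) (.cons 21 (.ofNat (Nat.shiftLeft 0x179755c44d7 128)) .nil)))))),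
    .cons 5 (.ofNat (Nat.shiftLeft 0x85c5b52776415 117)) (.cons 7 (.negSucc (Nat.sub (Nat.shiftLeft 0x28841f89ba9c3 119) 1)) (.cons 11 (.negSucc (Nat.sub (Nat.shiftLeft 0x1f9874ccfbcd 118) 1)) (.cons 13 (.negSucc (Nat.sub (Nat.shiftLeft 0x1c1eaa8915e3 124) 1)) (.cons 15 (.ofNat (Nat.shiftLeft 0x2843a2741198e9 117)) (.cons 19 (.ofNat (Nat.shiftLeft 0xea58063fac5c9 117)) (.cons 21 (.negSucc (Nat.sub (Nat.shiftLeft 0xad098a417a9a5 118) 1)) .nil)))))),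
    .cons 5 (.ofNat (Nat.shiftLeft 0x1b94c2da6f8caf5cf 105)) (.cons 7 (.ofNat (Nat.shiftLeft 0x8a50349e47cc10c7 107)) (.cons 11 (.negSucc (Nat.sub (Nat.shiftLeft 0x15f53e3add9dbae77 106) 1)) (.cons 13 (.ofNat (Nat.shiftLeft 0xf6385b9772267 112)) (.cons 15 (.ofNat (Nat.shiftLeft 0xa217d7db9f7a28b 105)) (.cons 19 (.negSucc (Nat.sub (Nat.shiftLeft 0xc2cbb5d27eab0d5 105) 1)) (.cons 21 (.negSucc (Nat.sub (Nat.shiftLeft 0x9aabb61c43737f 106) 1)) .nil)))))),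
    .cons 8 (.ofNat (Nat.shiftLeft 0x20d 161)) (.cons 14 (.negSucc (Nat.sub (Nat.shiftLeft 0x233 161) 1)) (.cons 16 (.ofNat (Nat.shiftLeft 0x165 161)) (.cons 20 (.ofNat (Nat.shiftLeft 0x3d 164)) (.cons 22 (.negSucc (Nat.sub (Nat.shiftLeft 0x89 162) 1)) (.cons 24 (.ofNat (Nat.shiftLeft 0x11 163)) .nil)))))]⟩

noncomputable def A4 : Tn :=
  ⟨[.cons 1 (.ofNat (Nat.shiftLeft 0x7cb 160)) (.cons 2 (.negSucc (Nat.sub (Nat.shiftLeft 0xd9 161) 1)) (.cons 3 (.ofNat (Nat.shiftLeft 0x4d 160)) (.cons 4 (.ofNat (Nat.shiftLeft 0x23 160)) .nil))),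
    .cons 5 (.ofNat (Nat.shiftLeft 0x782f81 148)) (.cons 6 (.ofNat (Nat.shiftLeft 0x4cdca1 146)) (.cons 7 (.ofNat (Nat.shiftLeft 0x1c7e0f 147)) (.cons 8 (.negSucc (Nat.sub (Nat.shiftLeft 0x86e49 146) 1)) (.cons 9 (.ofNat (Nat.shiftLeft 0xad4b 147)) (.cons 10 (.ofNat (Nat.shiftLeft 0x1a95b 146)) (.cons 11 (.negSucc (Nat.sub (Nat.shiftLeft 0xfc1 146) 1)) .nil)))))),
    .cons 5 (.ofNat (Nat.shiftLeft 0x5693f041847 127)) (.cons 6 (.negSucc (Nat.sub (Nat.shiftLeft 0x1732f704f3d9 125) 1)) (.cons 7 (.negSucc (Nat.sub (Nat.shiftLeft 0xa44dc41fd57 126) 1)) (.cons 8 (.ofNat (Nat.shiftLeft 0x6d6998b8241 125)) (.cons 9 (.ofNat (Nat.shiftLeft 0x8ce33bce4d 126)) (.cons 10 (.ofNat (Nat.shiftLeft 0x9461e6ebd 125)) (.cons 11 (.negSucc (Nat.sub (Nat.shiftLeft 0x18c6fee2a07 125) 1)) .nil)))))),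
    .cons 5 (.ofNat (Nat.shiftLeft 0x2f0c79497af351 111)) (.cons 6 (.ofNat (Nat.shiftLeft 0x17fb03da4660aa71 109)) (.cons 7 (.ofNat (Nat.shiftLeft 0x16b52187c3e5ef3f 110)) (.cons 8 (.negSucc (Nat.sub (Nat.shiftLeft 0xeb264bd3b75cc99 109) 1)) (.cons 9 (.ofNat (Nat.shiftLeft 0xa25ebf3179933b 110)) (.cons 10 (.ofNat (Nat.shiftLeft 0x3afe0a28cb60c4b 109)) (.cons 11 (.ofNat (Nat.shiftLeft 0xf84317ce0c386f 109)) .nil)))))),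
    .cons 5 (.ofNat (Nat.shiftLeft 0x6947edc9813feaf9 103)) (.cons 6 (.negSucc (Nat.sub (Nat.shiftLeft 0x3482209842b53060e7 101) 1)) (.cons 7 (.ofNat (Nat.shiftLeft 0x105e2b45e214bc0e17 102)) (.cons 8 (.ofNat (Nat.shiftLeft 0x1ceef09a99d9f707f 101)) (.cons 9 (.ofNat (Nat.shiftLeft 0x167a5f06acbb94573 102)) (.cons 10 (.negSucc (Nat.sub (Nat.shiftLeft 0x2117d802652dc26fd 101) 1)) (.cons 11 (.negSucc (Nat.sub (Nat.shiftLeft 0x102a880851456a939 101) 1)) .nil)))))),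
    .cons 12 (.ofNat (Nat.shiftLeft 0x1c3dde3e79 134)) (.cons 13 (.ofNat (Nat.shiftLeft 0x562290ed 136)) (.cons 14 (.ofNat (Nat.shiftLeft 0x4c29041 134)) (.cons 15 (.negSucc (Nat.sub (Nat.shiftLeft 0x2a34143 135) 1)) (.cons 16 (.ofNat (Nat.shiftLeft 0x7c2f5 134)) (.cons 17 (.ofNat (Nat.shiftLeft 0x7c2f5 134)) (.cons 18 (.negSucc (Nat.sub (Nat.shiftLeft 0x7c2f5 136) 1)) .nil)))))),
    .cons 12 (.ofNat (Nat.shiftLeft 0x1c88f3b5ce9359807 105)) (.cons 13 (.ofNat (Nat.shiftLeft 0x23a243dc69808793 107)) (.cons 14 (.ofNat (Nat.shiftLeft 0x3c4c879f4a0afa3f 105)) (.cons 15 (.ofNat (Nat.shiftLeft 0xd1b3c81015d61c3 106)) (.cons 16 (.negSucc (Nat.sub (Nat.shiftLeft 0x3dcca4d40c05675 105) 1)) (.cons 17 (.negSucc (Nat.sub (Nat.shiftLeft 0x650bd4d40c05675 105) 1)) (.cons 18 (.negSucc (Nat.sub (Nat.shiftLeft 0xc00fabf3fa98b 107) 1)) .nil)))))),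
    .cons 12 (.negSucc (Nat.sub (Nat.shiftLeft 0x117fb8ab3845fb731cf75 86) 1)) (.cons 13 (.ofNat (Nat.shiftLeft 0x372141abc54be15846e67 88)) (.cons 14 (.ofNat (Nat.shiftLeft 0x207863a552f6ed2f68ee3 86)) (.cons 15 (.ofNat (Nat.shiftLeft 0x9e670801ade0588c91d7 87)) (.cons 16 (.ofNat (Nat.shiftLeft 0xc6411a4531e69de0f57f 86)) (.cons 17 (.ofNat (Nat.shiftLeft 0x2f971937eae69de0f57f 86)) (.cons 18 (.ofNat (Nat.shiftLeft 0x1f9c340da4f1621f0a81 88)) .nil)))))),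
    .cons 12 (.ofNat (Nat.shiftLeft 0x1226763ccd22ac98e4cfda22d9 68)) (.cons 13 (.negSucc (Nat.sub (Nat.shiftLeft 0x14852cd08905ed66e4a16a5333 70) 1)) (.cons 14 (.negSucc (Nat.sub (Nat.shiftLeft 0x71e2c10747b0986b983bd285f 68) 1)) (.cons 15 (.negSucc (Nat.sub (Nat.shiftLeft 0x8eae3061ad2aff59cde21c763 69) 1)) (.cons 16 (.negSucc (Nat.sub (Nat.shiftLeft 0x6254a098a18066871b0f0e62b 68) 1)) (.cons 17 (.ofNat (Nat.shiftLeft 0x2ff2dd820b26d2a8e4f0f19d5 68)) (.cons 18 (.negSucc (Nat.sub (Nat.shiftLeft 0x1058286cef55165464f0f19d5 70) 1)) .nil)))))),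
    .cons 12 (.negSucc (Nat.sub (Nat.shiftLeft 0x284a41d2615bd0b2e0e884479e363 52) 1)) (.cons 13 (.negSucc (Nat.sub (Nat.shiftLeft 0x114e3bebcfb1634e75393d1008321f 54) 1)) (.cons 14 (.ofNat (Nat.shiftLeft 0x327aea7493aca8d0c56738345e5785 52)) (.cons 15 (.ofNat (Nat.shiftLeft 0x53def988ebcaf7f1a560451dc06f1 53)) (.cons 16 (.negSucc (Nat.sub (Nat.shiftLeft 0xf7036f190629a18e41ec00cb605f7 52) 1)) (.cons 17 (.negSucc (Nat.sub (Nat.shiftLeft 0x8e52c82d590e960c1fc00cb605f7 52) 1)) (.cons 18 (.ofNat (Nat.shiftLeft 0x53b6078dab12316c5d280cb605f7 54)) .nil)))))),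
    .cons 12 (.negSucc (Nat.sub (Nat.shiftLeft 0x3684dde784cd967edba9f13f72635712b 33) 1)) (.cons 13 (.ofNat (Nat.shiftLeft 0x37252372c90124df52687000d7500fa479 35)) (.cons 14 (.ofNat (Nat.shiftLeft 0xd19bf54208309f534253cdefc229476b7d 33)) (.cons 15 (.ofNat (Nat.shiftLeft 0x724a27a4bc0e7188ae40338cea6b924f09 34)) (.cons 16 (.negSucc (Nat.sub (Nat.shiftLeft 0x3011acc3c0459e609eef5f7f5bb4bb0f9f 33) 1)) (.cons 17 (.negSucc (Nat.sub (Nat.shiftLeft 0x5dfebef86e8814f98a9301185bb4bb0f9f 33) 1)) (.cons 18 (.ofNat (Nat.shiftLeft 0x30d1320a6799d10f32295f383b4bb0f9f 35)) .nil)))))),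
    .cons 12 (.ofNat (Nat.shiftLeft 0x468921c13d006c894897b9084da0c90b1d 29)) (.cons 13 (.negSucc (Nat.sub (Nat.shiftLeft 0x1042dca6ef23a15162af9857fb6fe30219f 31) 1)) (.cons 14 (.negSucc (Nat.sub (Nat.shiftLeft 0x2ab0dd3c047c42b47a874b81ed44efdc45fb 29) 1)) (.cons 15 (.negSucc (Nat.sub (Nat.shiftLeft 0xaec252f7eb30b01fba0510b2aa7a8bd608f 30) 1)) (.cons 16 (.ofNat (Nat.shiftLeft 0x18a5a7c3181996510d235d2db0131051e89 29)) (.cons 17 (.ofNat (Nat.shiftLeft 0x213353e2b61e428d3614f8a5a0131051e89 29)) (.cons 18 (.negSucc (Nat.sub (Nat.shiftLeft 0x1f38f77855994a0089c64d6689931051e89 31) 1)) .nil)))))),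
    .cons 19 (.ofNat (Nat.shiftLeft 0xf8e802d 140)) (.cons 20 (.ofNat (Nat.shiftLeft 0x2f3a76b 137)) (.cons 21 (.ofNat (Nat.shiftLeft 0x10b5b5 137)) (.cons 22 (.negSucc (Nat.sub (Nat.shiftLeft 0x10b5b5 137) 1)) .nil))),
    .cons 19 (.ofNat (Nat.shiftLeft 0xaf06e9884c0db5 113)) (.cons 20 (.negSucc (Nat.sub (Nat.shiftLeft 0x8afe4b657b6a5d 110) 1)) (.cons 21 (.ofNat (Nat.shiftLeft 0x18d33c0872e47d 110)) (.cons 22 (.ofNat (Nat.shiftLeft 0x3edc3bf78d1b83 110)) .nil))),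
    .cons 19 (.ofNat (Nat.shiftLeft 0x2f506f0c8392d8e0faf39 89)) (.cons 20 (.negSucc (Nat.sub (Nat.shiftLeft 0x39bf0ee794e6adbdae401 86) 1)) (.cons 21 (.ofNat (Nat.shiftLeft 0x1ede2fbb65598fa8264a1 86)) (.cons 22 (.negSucc (Nat.sub (Nat.shiftLeft 0x49d939494fc0fa8264a1 86) 1)) .nil))),
    .cons 19 (.negSucc (Nat.sub (Nat.shiftLeft 0x1c6de7d239c2ae0ae77781b93 73) 1)) (.cons 20 (.ofNat (Nat.shiftLeft 0x51842e9193d927f45819e612b 70)) (.cons 21 (.negSucc (Nat.sub (Nat.shiftLeft 0x2ca4676ad5828b7c1dd0e1c0b 70) 1)) (.cons 22 (.negSucc (Nat.sub (Nat.shiftLeft 0xd6665b4b07b1fb8622f1e3f5 70) 1)) .nil))),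
    .cons 19 (.ofNat (Nat.shiftLeft 0xd9c2285c57920f8d2497592e393fb 54)) (.cons 20 (.ofNat (Nat.shiftLeft 0x270868ccbf3515269c55f995f6ab2d 51)) (.cons 21 (.ofNat (Nat.shiftLeft 0xc30398f0d73e0f1a00d11b9b958b3 51)) (.cons 22 (.ofNat (Nat.shiftLeft 0x270cae8035bb2b2c383f64646a74d 51)) .nil))),
    .cons 19 (.ofNat (Nat.shiftLeft 0x9a7f5cdf4e73d9ac21f41e02d232bb57 37)) (.cons 20 (.negSucc (Nat.sub (Nat.shiftLeft 0xe58506416498934f8829cdba01b4ab8b0f 34) 1)) (.cons 21 (.ofNat (Nat.shiftLeft 0x5ac4e853480a1a26ec15651df81e99746f 34)) (.cons 22 (.ofNat (Nat.shiftLeft 0xd84331bd2e6dc2da643b0e1afe1668b91 34)) .nil))),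
    .cons 19 (.ofNat (Nat.shiftLeft 0x877e73145df0f810a7532448b826045f023 28)) (.cons 20 (.ofNat (Nat.shiftLeft 0x190633e734ec2ae3906a2f9c8f748331675c5 25)) (.cons 21 (.negSucc (Nat.sub (Nat.shiftLeft 0xd7676452d9675cadec9d91250736ea1d10e5 25) 1)) (.cons 22 (.ofNat (Nat.shiftLeft 0x70f56983b6f74b540bd1be61affeea1d10e5 25)) .nil))),
    .cons 23 (.ofNat (Nat.shiftLeft 0x42706d 143)) .nil,
    .cons 23 (.negSucc (Nat.sub (Nat.shiftLeft 0x14f36d2b4a9 127) 1)) .nil,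
    .cons 23 (.ofNat (Nat.shiftLeft 0x4955ff1ada2d4abd 105)) .nil,
    .cons 23 (.ofNat (Nat.shiftLeft 0x1dfd35e17062ad2096d 95)) .nil,
    .nil],
   [.cons 0 (.negSucc (Nat.sub (Nat.shiftLeft 0x89 160) 1)) .nil,
    .cons 1 (.negSucc (Nat.sub (Nat.shiftLeft 0x92e493 146) 1)) (.cons 2 (.ofNat (Nat.shiftLeft 0xd999d 146)) (.cons 3 (.negSucc (Nat.sub (Nat.shiftLeft 0x3c0fd 146) 1)) .nil)),
    .cons 1 (.ofNat (Nat.shiftLeft 0x30d7264e20bb 125)) (.cons 2 (.negSucc (Nat.sub (Nat.shiftLeft 0xe94af65b7f5 125) 1)) (.cons 3 (.ofNat (Nat.shiftLeft 0x11bbc3ffc55 125)) (.cons 4 (.ofNat (Nat.shiftLeft 0x3183 152)) .nil))),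
    .cons 1 (.ofNat (Nat.shiftLeft 0x22295f4febf232fd 109)) (.cons 2 (.ofNat (Nat.shiftLeft 0x6144e77ef73482d 109)) (.cons 3 (.negSucc (Nat.sub (Nat.shiftLeft 0x4a51ada0f168d8d 109) 1)) (.cons 4 (.ofNat (Nat.shiftLeft 0x7033d75 136)) .nil))),
    .cons 1 (.negSucc (Nat.sub (Nat.shiftLeft 0x8305fc56f740bde7b 101) 1)) (.cons 2 (.ofNat (Nat.shiftLeft 0xd1b065c17ded01635 101)) (.cons 3 (.negSucc (Nat.sub (Nat.shiftLeft 0x5e51beaa40a65295 101) 1)) (.cons 4 (.ofNat (Nat.shiftLeft 0x38902636bd 128)) .nil))),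
    .cons 5 (.negSucc (Nat.sub (Nat.shiftLeft 0xe92e1687 138) 1)) (.cons 6 (.negSucc (Nat.sub (Nat.shiftLeft 0x1afe34ae9 134) 1)) (.cons 7 (.ofNat (Nat.shiftLeft 0x2f0ded5 136)) (.cons 8 (.negSucc (Nat.sub (Nat.shiftLeft 0x5baeee1 134) 1)) (.cons 9 (.negSucc (Nat.sub (Nat.shiftLeft 0x556087 134) 1)) (.cons 10 (.ofNat (Nat.shiftLeft 0x7c2f5 134)) (.cons 11 (.negSucc (Nat.sub (Nat.shiftLeft 0x7c2f5 134) 1)) .nil)))))),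
    .cons 5 (.ofNat (Nat.shiftLeft 0x345264aa52656d07 109)) (.cons 6 (.negSucc (Nat.sub (Nat.shiftLeft 0x3495aacbf1752397 105) 1)) (.cons 7 (.ofNat (Nat.shiftLeft 0x16bb0b72771f3dab 107)) (.cons 8 (.ofNat (Nat.shiftLeft 0x5888dc8cdffd461 105)) (.cons 9 (.negSucc (Nat.sub (Nat.shiftLeft 0x2e45e2e37bc48f9 105) 1)) (.cons 10 (.negSucc (Nat.sub (Nat.shiftLeft 0x6aeee8d40c05675 105) 1)) (.cons 11 (.negSucc (Nat.sub (Nat.shiftLeft 0x9d3792bf3fa98b 105) 1)) .nil)))))),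
    .cons 5 (.ofNat (Nat.shiftLeft 0x5c8a1e714010da90918b 90)) (.cons 6 (.negSucc (Nat.sub (Nat.shiftLeft 0x10bed80ce38f0f16bc83db 86) 1)) (.cons 7 (.negSucc (Nat.sub (Nat.shiftLeft 0x3e00915f7ac62dc2fae1 88) 1)) (.cons 8 (.ofNat (Nat.shiftLeft 0x117aae43f187d70eac13d 86)) (.cons 9 (.ofNat (Nat.shiftLeft 0x109f8cb9139973755738b 86)) (.cons 10 (.ofNat (Nat.shiftLeft 0x18fd990f86a69de0f57f 86)) (.cons 11 (.negSucc (Nat.sub (Nat.shiftLeft 0x52565c30a0469de0f57f 86) 1)) .nil)))))),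
    .cons 5 (.ofNat (Nat.shiftLeft 0x2580cba8937544e1cd552edd9 72)) (.cons 6 (.ofNat (Nat.shiftLeft 0x26b63191212aa275caccb796b7 68)) (.cons 7 (.negSucc (Nat.sub (Nat.shiftLeft 0x5fecba0cfa26e1ecc0b47364b 70) 1)) (.cons 8 (.negSucc (Nat.sub (Nat.shiftLeft 0x420446ddd97a13ed05e261241 68) 1)) (.cons 9 (.negSucc (Nat.sub (Nat.shiftLeft 0x363fd3cdf565f639d65a61c27 68) 1)) (.cons 10 (.ofNat (Nat.shiftLeft 0x7267ca060b731b3ce4f0f19d5 68)) (.cons 11 (.negSucc (Nat.sub (Nat.shiftLeft 0xecb60d20034d11ae4f0f19d5 68) 1)) .nil)))))),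
    .cons 5 (.negSucc (Nat.sub (Nat.shiftLeft 0x49e184a31bd608f80e8c1f7acc63 56) 1)) (.cons 6 (.negSucc (Nat.sub (Nat.shiftLeft 0x42564c8d7d6815fdbf05fcb36616cd 52) 1)) (.cons 7 (.ofNat (Nat.shiftLeft 0xe5d8b4e64872c8c0fa1a32f07bd69 54)) (.cons 8 (.ofNat (Nat.shiftLeft 0x11e4023f221dc4951d26096262675b 52)) (.cons 9 (.negSucc (Nat.sub (Nat.shiftLeft 0x2e06248949649f996c03f742dbe63 52) 1)) (.cons 10 (.negSucc (Nat.sub (Nat.shiftLeft 0x122b391fb4ad3426bb9800cb605f7 52) 1)) (.cons 11 (.negSucc (Nat.sub (Nat.shiftLeft 0x188d13cdeefd1851afdff349fa09 52) 1)) .nil)))))),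
    .cons 5 (.ofNat (Nat.shiftLeft 0xfdd35441fe21f6878b657fe4afde4dd5 37)) (.cons 6 (.ofNat (Nat.shiftLeft 0x22f6f9f70df4433e4f67721736facec3a7b 33)) (.cons 7 (.ofNat (Nat.shiftLeft 0xa4314bed35925a25fc5ee62c68851f14c1 35)) (.cons 8 (.negSucc (Nat.sub (Nat.shiftLeft 0x6b74ee355cf4df41f01bc8710b91e5779d 33) 1)) (.cons 9 (.negSucc (Nat.sub (Nat.shiftLeft 0x3207847ff978f90a810a13158f3bf6542b 33) 1)) (.cons 10 (.negSucc (Nat.sub (Nat.shiftLeft 0x259d657847e729f6e11ebfbc1bb4bb0f9f 33) 1)) (.cons 11 (.ofNat (Nat.shiftLeft 0xdd7a95bb7f91035964b2561bbb4bb0f9f 33)) .nil)))))),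
    .cons 5 (.ofNat (Nat.shiftLeft 0x276e4d7c2fa68809ea901a2bea4b33a21d 33)) (.cons 6 (.negSucc (Nat.sub (Nat.shiftLeft 0xaaad6e66cfc5a6a52e80a33c3ccb1dc1d4d 29) 1)) (.cons 7 (.ofNat (Nat.shiftLeft 0x48bd1c13d419343c9cf469d77db92f091e9 31)) (.cons 8 (.negSucc (Nat.sub (Nat.shiftLeft 0x10e07cd2d4cf9f3ef2b3d1381da130c78b25 29) 1)) (.cons 9 (.negSucc (Nat.sub (Nat.shiftLeft 0x41d63b1b783f86aac2ef44cbb8d1b384fe3 29) 1)) (.cons 10 (.ofNat (Nat.shiftLeft 0x651c70ac6e842963c39365e04131051e89 29)) (.cons 11 (.ofNat (Nat.shiftLeft 0x3d64d93308904ae4df0591c065ecefae177 29)) .nil)))))),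
    .cons 12 (.ofNat (Nat.shiftLeft 0x17276d529 138)) (.cons 13 (.negSucc (Nat.sub (Nat.shiftLeft 0x5fdef907 137) 1)) (.cons 14 (.negSucc (Nat.sub (Nat.shiftLeft 0x6c43fa1 137) 1)) (.cons 15 (.ofNat (Nat.shiftLeft 0x5af9bd 139)) (.cons 16 (.negSucc (Nat.sub (Nat.shiftLeft 0x1bd983 137) 1)) (.cons 17 (.negSucc (Nat.sub (Nat.shiftLeft 0x1db4d 137) 1)) (.cons 18 (.ofNat (Nat.shiftLeft 0x10b5b5 137)) .nil)))))),
    .cons 12 (.ofNat (Nat.shiftLeft 0xa44306786476811 111)) (.cons 13 (.ofNat (Nat.shiftLeft 0x13881f2a3094a61 110)) (.cons 14 (.ofNat (Nat.shiftLeft 0x2d89f333ececeb7 110)) (.cons 15 (.ofNat (Nat.shiftLeft 0x2838a466e34dc5 112)) (.cons 16 (.negSucc (Nat.sub (Nat.shiftLeft 0x25c341636a277b 110) 1)) (.cons 17 (.ofNat (Nat.shiftLeft 0x2e48c070d6ca2b 110)) (.cons 18 (.negSucc (Nat.sub (Nat.shiftLeft 0x2c2e3f78d1b83 110) 1)) .nil)))))),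
    .cons 12 (.negSucc (Nat.sub (Nat.shiftLeft 0x25372a1ae5ce7a273aabb 87) 1)) (.cons 13 (.negSucc (Nat.sub (Nat.shiftLeft 0x11bd16cc12e73c6302042b 86) 1)) (.cons 14 (.ofNat (Nat.shiftLeft 0x25df7cbde616fe3dd4023 86)) (.cons 15 (.negSucc (Nat.sub (Nat.shiftLeft 0x68627731c66ee5013177 88) 1)) (.cons 16 (.negSucc (Nat.sub (Nat.shiftLeft 0x1b9b06180bb7c4c2ea7b7 86) 1)) (.cons 17 (.negSucc (Nat.sub (Nat.shiftLeft 0xa8eb1102bf48d9cb5d9 86) 1)) (.cons 18 (.negSucc (Nat.sub (Nat.shiftLeft 0x16857c6bf707057d9b5f 86) 1)) .nil)))))),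
    .cons 12 (.ofNat (Nat.shiftLeft 0x335184ea74aa7b3937b310469 71)) (.cons 13 (.negSucc (Nat.sub (Nat.shiftLeft 0x8cb463a079d05fa2d28efc5c7 70) 1)) (.cons 14 (.negSucc (Nat.sub (Nat.shiftLeft 0x5eb09b2e8045c89bc269ea4e1 70) 1)) (.cons 15 (.negSucc (Nat.sub (Nat.shiftLeft 0x8cc9225efcd4367c9713ee03 72) 1)) (.cons 16 (.ofNat (Nat.shiftLeft 0xed659f50dd2001a5c5c22ebd 70)) (.cons 17 (.negSucc (Nat.sub (Nat.shiftLeft 0x146ad3a9279662278ae8ca78d 70) 1)) (.cons 18 (.negSucc (Nat.sub (Nat.shiftLeft 0xefc83b3e9a5cb8e1dd0e1c0b 70) 1)) .nil)))))),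
    .cons 12 (.ofNat (Nat.shiftLeft 0x182802a31f5b65ba9dcf2a4094fdf 52)) (.cons 13 (.ofNat (Nat.shiftLeft 0x9a4f4cde02b619d766bd5d33d0188f 51)) (.cons 14 (.negSucc (Nat.sub (Nat.shiftLeft 0x88de0ede3fe1b5a65f19858ab8eb27 51) 1)) (.cons 15 (.ofNat (Nat.shiftLeft 0x6cbe18c177a0174ce34468162e2eb 53)) (.cons 16 (.ofNat (Nat.shiftLeft 0x1522bac2e849084c460dea75206c2b 51)) (.cons 17 (.negSucc (Nat.sub (Nat.shiftLeft 0x12cc31475c3a5dd06d701f83109db 51) 1)) (.cons 18 (.negSucc (Nat.sub (Nat.shiftLeft 0x88ab4b725783135261ace4646a74d 51) 1)) .nil)))))),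
    .cons 12 (.ofNat (Nat.shiftLeft 0x819cd60d39c38b1d61c9e548aa8ccaa0b 35)) (.cons 13 (.ofNat (Nat.shiftLeft 0xe354d0c634423545a245561d3153c9dc7b 34)) (.cons 14 (.ofNat (Nat.shiftLeft 0x10e115582b89cc87d412b714af8f1312f0d 34)) (.cons 15 (.ofNat (Nat.shiftLeft 0x1e2f0cefcbcfd9c38eb99a7886db54107 36)) (.cons 16 (.negSucc (Nat.sub (Nat.shiftLeft 0x57aa9ca271056096130c552a4addaa6cb9 34) 1)) (.cons 17 (.negSucc (Nat.sub (Nat.shiftLeft 0xabb919cd8e66f01653c045d54752d7eb7 34) 1)) (.cons 18 (.ofNat (Nat.shiftLeft 0x1ead4e9f5b9314d96411d140981e99746f 34)) .nil)))))),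
    .cons 12 (.negSucc (Nat.sub (Nat.shiftLeft 0x10300cb19d57043ff5f0708917572657e319 26) 1)) (.cons 13 (.ofNat (Nat.shiftLeft 0x1e0ba92d48a0b8249ba03132284c2fc6017 25)) (.cons 14 (.ofNat (Nat.shiftLeft 0x35746fcc4457be3097de091807fa231a8211 25)) (.cons 15 (.ofNat (Nat.shiftLeft 0x72a65d12e712ee7cc5f9d2ff315221d38793 27)) (.cons 16 (.ofNat (Nat.shiftLeft 0x826410a1c0d343352fc935730778db85c6d3 25)) (.cons 17 (.ofNat (Nat.shiftLeft 0xde7af89eb9fef07bdabf873109452e6c8fd 25)) (.cons 18 (.negSucc (Nat.sub (Nat.shiftLeft 0x3ec2bf0393b28ce2caab7d37016ea1d10e5 25) 1)) .nil)))))),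
    .cons 19 (.ofNat (Nat.shiftLeft 0x3e222c5 143)) (.cons 20 (.negSucc (Nat.sub (Nat.shiftLeft 0x209b4f 145) 1)) (.cons 21 (.negSucc (Nat.sub (Nat.shiftLeft 0x26fb1d 143) 1)) (.cons 22 (.negSucc (Nat.sub (Nat.shiftLeft 0x2b261 143) 1)) .nil))),
    .cons 19 (.negSucc (Nat.sub (Nat.shiftLeft 0x891ef20a221 127) 1)) (.cons 20 (.ofNat (Nat.shiftLeft 0xf2099b5d63 129)) (.cons 21 (.negSucc (Nat.sub (Nat.shiftLeft 0x20e06cc267 127) 1)) (.cons 22 (.ofNat (Nat.shiftLeft 0x567b23f28d 127)) .nil))),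
    .cons 19 (.ofNat (Nat.shiftLeft 0x30ca79bf5449e2695 105)) (.cons 20 (.negSucc (Nat.sub (Nat.shiftLeft 0x103d8a410c1456bf 107) 1)) (.cons 21 (.ofNat (Nat.shiftLeft 0x5499af9dcca07793 105)) (.cons 22 (.ofNat (Nat.shiftLeft 0x982b5a00ec2a60f 105)) .nil))),
    .cons 19 (.ofNat (Nat.shiftLeft 0xbc3a9326825e7bb3c5 95)) (.cons 20 (.negSucc (Nat.sub (Nat.shiftLeft 0x14df683daf78c744e4f 97) 1)) (.cons 21 (.negSucc (Nat.sub (Nat.shiftLeft 0x6557b60a97b998841d 95) 1)) (.cons 22 (.ofNat (Nat.shiftLeft 0x9254545fe4f898109f 95)) .nil))),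
    .cons 23 (.ofNat (Nat.shiftLeft 0x217 159)) .nil],
   [.nil,
    .cons 0 (.ofNat (Nat.shiftLeft 0x4dc8f 146)) .nil,
    .cons 0 (.negSucc (Nat.sub (Nat.shiftLeft 0x3f0cd8107d7 125) 1)) .nil,
    .cons 0 (.ofNat (Nat.shiftLeft 0x5aabd5023a95bf 109)) .nil,
    .cons 0 (.ofNat (Nat.shiftLeft 0x2736d91269ebe3897 101)) .nil,
    .cons 1 (.ofNat (Nat.shiftLeft 0xc3b4cfa3 136)) (.cons 2 (.ofNat (Nat.shiftLeft 0xb5e94e3 134)) (.cons 3 (.negSucc (Nat.sub (Nat.shiftLeft 0x7c2f5 134) 1)) (.cons 4 (.ofNat (Nat.shiftLeft 0x1748df 134)) .nil))),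
    .cons 1 (.negSucc (Nat.sub (Nat.shiftLeft 0x501eb3ebb1c40023 107) 1)) (.cons 2 (.ofNat (Nat.shiftLeft 0x1b80b45626415a9d 105)) (.cons 3 (.ofNat (Nat.shiftLeft 0x5945acd40c05675 105)) (.cons 4 (.ofNat (Nat.shiftLeft 0x235d7f83dbefca1 105)) .nil))),
    .cons 1 (.ofNat (Nat.shiftLeft 0x59a9207cf93f6e34e2549 88)) (.cons 2 (.negSucc (Nat.sub (Nat.shiftLeft 0x26d090bbbb9aebb7862f7 86) 1)) (.cons 3 (.negSucc (Nat.sub (Nat.shiftLeft 0xa73e1988b3669de0f57f 86) 1)) (.cons 4 (.ofNat (Nat.shiftLeft 0x9dee94ba4513d9a2e07d 86)) .nil))),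
    .cons 1 (.ofNat (Nat.shiftLeft 0x114aa20faf4797e74b75c459c3 70)) (.cons 2 (.negSucc (Nat.sub (Nat.shiftLeft 0x16512f6b673ba19a0a30e128fd 68) 1)) (.cons 3 (.negSucc (Nat.sub (Nat.shiftLeft 0x680086b1ca8e4180e4f0f19d5 68) 1)) (.cons 4 (.ofNat (Nat.shiftLeft 0x675f29e60522abcaed2d4d7f 68)) .nil))),
    .cons 1 (.negSucc (Nat.sub (Nat.shiftLeft 0x18cbc47d28290f865628081b06711 54) 1)) (.cons 2 (.ofNat (Nat.shiftLeft 0x17e714fe843274812a1b2d615d432f 52)) (.cons 3 (.ofNat (Nat.shiftLeft 0x3e95f265e89993d4cec400cb605f7 52)) (.cons 4 (.ofNat (Nat.shiftLeft 0x2fc4516ab5cd9f554a95fd9ddee1b 52)) .nil))),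
    .cons 1 (.ofNat (Nat.shiftLeft 0x4c596de18a6faa811a022018a5e7491dd7 35)) (.cons 2 (.ofNat (Nat.shiftLeft 0xc35cb9b594a10f285b0da0f32a41fc1e17 33)) (.cons 3 (.negSucc (Nat.sub (Nat.shiftLeft 0x1b614c01778c698d2e847c2f244b44f061 33) 1)) (.cons 4 (.negSucc (Nat.sub (Nat.shiftLeft 0x4b230b6bba4da757e55b181731e312edd 33) 1)) .nil))),
    .cons 1 (.ofNat (Nat.shiftLeft 0x1187b238920d3d5243c5f8b250b0814f06f 31)) (.cons 2 (.ofNat (Nat.shiftLeft 0x1df8c7a86b278ec15cf8e615353ece7fbaaf 29)) (.cons 3 (.ofNat (Nat.shiftLeft 0x302332808b1cb55eb77382cb27ecefae177 29)) (.cons 4 (.negSucc (Nat.sub (Nat.shiftLeft 0x447e26d687c800f0d154f2f995c6cf0a465 29) 1)) .nil))),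
    .cons 5 (.negSucc (Nat.sub (Nat.shiftLeft 0x2ad78ad57 137) 1)) (.cons 6 (.ofNat (Nat.shiftLeft 0x469a6d1b 137)) (.cons 7 (.ofNat (Nat.shiftLeft 0x591e7 144)) (.cons 8 (.ofNat (Nat.shiftLeft 0x44b221 139)) (.cons 9 (.ofNat (Nat.shiftLeft 0x94881 137)) (.cons 10 (.ofNat (Nat.shiftLeft 0x1db4d 137)) .nil))))),
    .cons 5 (.ofNat (Nat.shiftLeft 0x162613b414324191 110)) (.cons 6 (.negSucc (Nat.sub (Nat.shiftLeft 0x839041af7e1e92d 110) 1)) (.cons 7 (.ofNat (Nat.shiftLeft 0x3a8cafd7ba17f 117)) (.cons 8 (.ofNat (Nat.shiftLeft 0x2f1adfb0f4c7c9 112)) (.cons 9 (.negSucc (Nat.sub (Nat.shiftLeft 0x8c2523431f2d7 110) 1)) (.cons 10 (.ofNat (Nat.shiftLeft 0x1f8c878f2935d5 110)) (.cons 11 (.ofNat (Nat.shiftLeft 0x1f87 147)) .nil)))))),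
    .cons 5 (.ofNat (Nat.shiftLeft 0x2afa6e170a040e7a9fcc5 86)) (.cons 6 (.ofNat (Nat.shiftLeft 0x98b95a61a43bd22472eef 86)) (.cons 7 (.negSucc (Nat.sub (Nat.shiftLeft 0x130d4724b49c729de75 93) 1)) (.cons 8 (.negSucc (Nat.sub (Nat.shiftLeft 0x15f60c1dd7378859b7a3 88) 1)) (.cons 9 (.negSucc (Nat.sub (Nat.shiftLeft 0x10228a59a4c093bf072c3 86) 1)) (.cons 10 (.ofNat (Nat.shiftLeft 0x5a2eff70f1dc8d9cb5d9 86)) (.cons 11 (.negSucc (Nat.sub (Nat.shiftLeft 0x12ab1bfd8cd 123) 1)) .nil)))))),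
    .cons 5 (.ofNat (Nat.shiftLeft 0x7fe1a4a57fd093c547c7861e9 70)) (.cons 6 (.ofNat (Nat.shiftLeft 0x16e1fbfb0bf7e270dda6b782db 70)) (.cons 7 (.negSucc (Nat.sub (Nat.shiftLeft 0x7aad703588bf0c6245a0959 77) 1)) (.cons 8 (.negSucc (Nat.sub (Nat.shiftLeft 0x11cfba0132c47e15ec5abc89f 72) 1)) (.cons 9 (.negSucc (Nat.sub (Nat.shiftLeft 0x1e30b6c39385d93b49740ba3f 70) 1)) (.cons 10 (.negSucc (Nat.sub (Nat.shiftLeft 0x50abdc955987237f51735873 70) 1)) (.cons 11 (.negSucc (Nat.sub (Nat.shiftLeft 0x28919bade8fc491 107) 1)) .nil)))))),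
    .cons 5 (.ofNat (Nat.shiftLeft 0x9c03410525fcd6e816da4df065e5f 51)) (.cons 6 (.ofNat (Nat.shiftLeft 0x43a599a8f002d89ff42b7d10cdc6fd 51)) (.cons 7 (.negSucc (Nat.sub (Nat.shiftLeft 0x5a48ba120c20205ccdfb676ce26f 58) 1)) (.cons 8 (.negSucc (Nat.sub (Nat.shiftLeft 0x8ec17486bc024895a466720e99359 53) 1)) (.cons 9 (.ofNat (Nat.shiftLeft 0x96ee08ca6344500f3e299d8f53147 51)) (.cons 10 (.negSucc (Nat.sub (Nat.shiftLeft 0xad672f8c048f71eb7cac607cef625 51) 1)) (.cons 11 (.ofNat (Nat.shiftLeft 0x6a662e3d96d2b9a0709 88)) .nil)))))),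
    .cons 5 (.ofNat (Nat.shiftLeft 0x71aacd45d61bc64b6df0652ae1449fa8b 34)) (.cons 6 (.ofNat (Nat.shiftLeft 0xe664661b4ecb68cb2351b0fc2bf50da101 34)) (.cons 7 (.ofNat (Nat.shiftLeft 0xcf3cf56fd753cabc2ec8771dcf887c25 41)) (.cons 8 (.negSucc (Nat.sub (Nat.shiftLeft 0x3c9f8d1e5eb4481c42606da3b106caf8d 36) 1)) (.cons 9 (.negSucc (Nat.sub (Nat.shiftLeft 0x383e909c509b86973864c0b289b61c866d 34) 1)) (.cons 10 (.negSucc (Nat.sub (Nat.shiftLeft 0x43059a710ee3ba300479a72138ad28149 34) 1)) (.cons 11 (.negSucc (Nat.sub (Nat.shiftLeft 0x3ff0b403f578960116d75703 71) 1)) .nil)))))),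
    .cons 5 (.negSucc (Nat.sub (Nat.shiftLeft 0x4a4d9f8e1e79fba33315e9fb6cd4514899 25) 1)) (.cons 6 (.ofNat (Nat.shiftLeft 0xa81ab8bd507782eb0959b1d96a7b79daf315 25)) (.cons 7 (.ofNat (Nat.shiftLeft 0x56fbcb0bd6c9d293dd7703acf0c374ba509 32)) (.cons 8 (.ofNat (Nat.shiftLeft 0x4446fcae557462fd74e2f18a4e6004a4f36f 27)) (.cons 9 (.ofNat (Nat.shiftLeft 0x377cd2eb46fecab8d2da0bae202a617e130f 25)) (.cons 10 (.negSucc (Nat.sub (Nat.shiftLeft 0x2b57e8938e85639cfb557d99441c52e6c8fd 25) 1)) (.cons 11 (.ofNat (Nat.shiftLeft 0x102c1fc75c267aa72e46f07a2c1 62)) .nil)))))),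
    .cons 12 (.ofNat (Nat.shiftLeft 0x7630889 144)) (.cons 13 (.negSucc (Nat.sub (Nat.shiftLeft 0x467feab 143) 1)) (.cons 14 (.ofNat (Nat.shiftLeft 0xd87a99 144)) (.cons 15 (.negSucc (Nat.sub (Nat.shiftLeft 0xa0d3b 145) 1)) (.cons 16 (.ofNat (Nat.shiftLeft 0x15d1cb 143)) (.cons 17 (.negSucc (Nat.sub (Nat.shiftLeft 0x2b261 143) 1)) (.cons 18 (.negSucc (Nat.sub (Nat.shiftLeft 0x234db 143) 1)) .nil)))))),
    .cons 12 (.ofNat (Nat.shiftLeft 0x2f60b88bc6b 128)) (.cons 13 (.ofNat (Nat.shiftLeft 0x96eec76068f 127)) (.cons 14 (.negSucc (Nat.sub (Nat.shiftLeft 0x2fce6ffc865 128) 1)) (.cons 15 (.ofNat (Nat.shiftLeft 0x9650cbcddf 129)) (.cons 16 (.ofNat (Nat.shiftLeft 0xe4f2f46cd1 127)) (.cons 17 (.ofNat (Nat.shiftLeft 0x35db23f28d 127)) (.cons 18 (.negSucc (Nat.sub (Nat.shiftLeft 0x868cb40b01 127) 1)) .nil)))))),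
    .cons 12 (.negSucc (Nat.sub (Nat.shiftLeft 0xc360797f1ae3167 106) 1)) (.cons 13 (.ofNat (Nat.shiftLeft 0x1b3a5df429236c625 105)) (.cons 14 (.negSucc (Nat.sub (Nat.shiftLeft 0xe1acde2945378657 106) 1)) (.cons 15 (.ofNat (Nat.shiftLeft 0x27a7b92a82a6f695 107)) (.cons 16 (.negSucc (Nat.sub (Nat.shiftLeft 0x18c5adbf08e11105 105) 1)) (.cons 17 (.ofNat (Nat.shiftLeft 0x1cf13ef92ec2a60f 105)) (.cons 18 (.negSucc (Nat.sub (Nat.shiftLeft 0x27ebb5bdf6d51b0b 105) 1)) .nil)))))),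
    .cons 12 (.ofNat (Nat.shiftLeft 0x9525f593c3b5d4cd89 96)) (.cons 13 (.ofNat (Nat.shiftLeft 0x99bcd6dd610fd8be255 95)) (.cons 14 (.ofNat (Nat.shiftLeft 0x5a487d379500b3a0f99 96)) (.cons 15 (.negSucc (Nat.sub (Nat.shiftLeft 0x10f4a981f672e07c3b 97) 1)) (.cons 16 (.negSucc (Nat.sub (Nat.shiftLeft 0x7c4a967ad7e12b6f35 95) 1)) (.cons 17 (.ofNat (Nat.shiftLeft 0x599659fbbc1898109f 95)) (.cons 18 (.ofNat (Nat.shiftLeft 0x1a974da8fc1dfc23c25 95)) .nil)))))),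
    .cons 19 (.ofNat (Nat.shiftLeft 0xf13 159)) (.cons 20 (.negSucc (Nat.sub (Nat.shiftLeft 0x4eb 159) 1)) (.cons 21 (.negSucc (Nat.sub (Nat.shiftLeft 0x2d 160) 1)) (.cons 22 (.negSucc (Nat.sub (Nat.shiftLeft 0x4d 159) 1)) .nil)))]⟩

noncomputable def A5 : Tn :=
  ⟨[.cons 1 (.ofNat (Nat.shiftLeft 0xf77 159)) (.cons 2 (.negSucc (Nat.sub (Nat.shiftLeft 0x3bf 159) 1)) (.cons 3 (.negSucc (Nat.sub (Nat.shiftLeft 0x31 159) 1)) (.cons 4 (.ofNat (Nat.shiftLeft 0x45 160)) .nil))),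
    .cons 5 (.ofNat (Nat.shiftLeft 0x786e89 148)) (.cons 6 (.negSucc (Nat.sub (Nat.shiftLeft 0xef90d9 145) 1)) (.cons 7 (.ofNat (Nat.shiftLeft 0x63ed45 145)) (.cons 8 (.ofNat (Nat.shiftLeft 0x1325e5 145)) (.cons 9 (.negSucc (Nat.sub (Nat.shiftLeft 0x4ecf 145) 1)) (.cons 10 (.ofNat (Nat.shiftLeft 0x2e4cd 145)) (.cons 11 (.ofNat (Nat.shiftLeft 0x4ecf 145)) .nil)))))),
    .cons 5 (.ofNat (Nat.shiftLeft 0xaa91312e307 126)) (.cons 6 (.ofNat (Nat.shiftLeft 0x9b2071e9ca49 123)) (.cons 7 (.negSucc (Nat.sub (Nat.shiftLeft 0x4e45087573f5 123) 1)) (.cons 8 (.negSucc (Nat.sub (Nat.shiftLeft 0x2718a7ac8295 123) 1)) (.cons 9 (.ofNat (Nat.shiftLeft 0xb53be4572df 123)) (.cons 10 (.ofNat (Nat.shiftLeft 0x67989d99503 123)) (.cons 11 (.ofNat (Nat.shiftLeft 0x74561ba8d21 123)) .nil)))))),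
    .cons 5 (.negSucc (Nat.sub (Nat.shiftLeft 0x2a49e24a7ff49 114) 1)) (.cons 6 (.ofNat (Nat.shiftLeft 0x833597aa5f0fd99 111)) (.cons 7 (.negSucc (Nat.sub (Nat.shiftLeft 0x5fa18b2c22ea305 111) 1)) (.cons 8 (.negSucc (Nat.sub (Nat.shiftLeft 0x34c9301950093a5 111) 1)) (.cons 9 (.ofNat (Nat.shiftLeft 0x96edf7c3bbb00f 111)) (.cons 10 (.negSucc (Nat.sub (Nat.shiftLeft 0x760e9bdcb1108d 111) 1)) (.cons 11 (.ofNat (Nat.shiftLeft 0x241c0b5c444ff1 111)) .nil)))))),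
    .cons 5 (.ofNat (Nat.shiftLeft 0x1c22a51cd87e10ad9 101)) (.cons 6 (.ofNat (Nat.shiftLeft 0x1091b6863ddef5661d7 98)) (.cons 7 (.ofNat (Nat.shiftLeft 0x19d0c28c7c72300ae55 98)) (.cons 8 (.ofNat (Nat.shiftLeft 0x15d1eef029c85d08f5 98)) (.cons 9 (.ofNat (Nat.shiftLeft 0x21a5b4884338f8be01 98)) (.cons 10 (.negSucc (Nat.sub (Nat.shiftLeft 0x5c924d5da378893a3 98) 1)) (.cons 11 (.negSucc (Nat.sub (Nat.shiftLeft 0xe6718fb5858f8be01 98) 1)) .nil)))))),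
    .cons 12 (.ofNat (Nat.shiftLeft 0x5a49e9a69 136)) (.cons 13 (.negSucc (Nat.sub (Nat.shiftLeft 0x9671ae61 136) 1)) (.cons 14 (.negSucc (Nat.sub (Nat.shiftLeft 0x36401f1 137) 1)) (.cons 15 (.negSucc (Nat.sub (Nat.shiftLeft 0x1929b97 137) 1)) (.cons 16 (.negSucc (Nat.sub (Nat.shiftLeft 0xb14b9 138) 1)) (.cons 17 (.negSucc (Nat.sub (Nat.shiftLeft 0x3b193 137) 1)) .nil))))),
    .cons 12 (.ofNat (Nat.shiftLeft 0x536f581c6a04f771 108)) (.cons 13 (.negSucc (Nat.sub (Nat.shiftLeft 0x2233c76e48a78d29 108) 1)) (.cons 14 (.ofNat (Nat.shiftLeft 0x509295682b226c7 109)) (.cons 15 (.ofNat (Nat.shiftLeft 0x1f6e86362bf9171 109)) (.cons 16 (.ofNat (Nat.shiftLeft 0x2042cdd6180fbf 110)) (.cons 17 (.ofNat (Nat.shiftLeft 0x3e0197475d5a95 109)) (.cons 18 (.ofNat (Nat.shiftLeft 0xd4e53 142)) .nil)))))),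
    .cons 12 (.ofNat (Nat.shiftLeft 0x8896a7605ff5256651d 93)) (.cons 13 (.ofNat (Nat.shiftLeft 0x17b6158c02aff843ab8b 93)) (.cons 14 (.negSucc (Nat.sub (Nat.shiftLeft 0x119360f16fc878d5745 94) 1)) (.cons 15 (.negSucc (Nat.sub (Nat.shiftLeft 0xd95556f1f64bf208e3 94) 1)) (.cons 16 (.negSucc (Nat.sub (Nat.shiftLeft 0x46ee68c13a93b475ad 95) 1)) (.cons 17 (.ofNat (Nat.shiftLeft 0x337b5f2c74796e8371 94)) (.cons 18 (.ofNat (Nat.shiftLeft 0x573a657757 127)) .nil)))))),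
    .cons 12 (.negSucc (Nat.sub (Nat.shiftLeft 0x1eafe26aa8cdee3a960203bb 76) 1)) (.cons 13 (.negSucc (Nat.sub (Nat.shiftLeft 0x58d83471a76e6d7ebe82c45d 76) 1)) (.cons 14 (.ofNat (Nat.shiftLeft 0x9636a8f5ebf46886c0dfe53 77)) (.cons 15 (.ofNat (Nat.shiftLeft 0xcab9e0c53d0a3cd4b2c9e45 77)) (.cons 16 (.ofNat (Nat.shiftLeft 0x21a624dc114546143d49aab 78)) (.cons 17 (.ofNat (Nat.shiftLeft 0x1487e199f993f3dc146de39 77)) (.cons 18 (.negSucc (Nat.sub (Nat.shiftLeft 0x12194edafa78331 110) 1)) .nil)))))),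
    .cons 12 (.ofNat (Nat.shiftLeft 0x4546daa4ea7e777ed64fa45b6f 62)) (.cons 13 (.ofNat (Nat.shiftLeft 0x14bb4d4def2d7fc12635efdb949 62)) (.cons 14 (.negSucc (Nat.sub (Nat.shiftLeft 0x82169ac07b3d9148b54d8fb88a7 63) 1)) (.cons 15 (.negSucc (Nat.sub (Nat.shiftLeft 0x3dbc6801d0ae6a8b3b0c6af7e91 63) 1)) (.cons 16 (.ofNat (Nat.shiftLeft 0x353d917e7b02e23ebeb66be761 64)) (.cons 17 (.negSucc (Nat.sub (Nat.shiftLeft 0x10b4aca8c84873ec3686ddc0835 63) 1)) (.cons 18 (.ofNat (Nat.shiftLeft 0xf2b56191acb09aa4d 96)) .nil)))))),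
    .cons 12 (.ofNat (Nat.shiftLeft 0x4a3ba931c09c8c44f66f551c0b67f3 45)) (.cons 13 (.ofNat (Nat.shiftLeft 0x1f338583d445fcda334e0fd5f8005be5 45)) (.cons 14 (.ofNat (Nat.shiftLeft 0x1085dc619910f52a6543ec8cc8d93db5 46)) (.cons 15 (.ofNat (Nat.shiftLeft 0x15334b7fb0eba7cfc6798abff7975f3 46)) (.cons 16 (.negSucc (Nat.sub (Nat.shiftLeft 0x1d1e0f15ba83dd0aa662dd1be40c463 47) 1)) (.cons 17 (.ofNat (Nat.shiftLeft 0x5d3c20dc804394f071fe5cc09513df 46)) (.cons 18 (.negSucc (Nat.sub (Nat.shiftLeft 0x8b22653ca56bb4e1699027 79) 1)) .nil)))))),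
    .cons 12 (.ofNat (Nat.shiftLeft 0x868a983dcb61b435b9662e7b0ce172ad 37)) (.cons 13 (.negSucc (Nat.sub (Nat.shiftLeft 0x74a8237cea3d62a5adf4b13d9708a2985 37) 1)) (.cons 14 (.ofNat (Nat.shiftLeft 0xea7931bcea9589aa9f860a0dbc2062aab 38)) (.cons 15 (.ofNat (Nat.shiftLeft 0x5cb78499ba08ae31562148edfb9dba4ad 38)) (.cons 16 (.ofNat (Nat.shiftLeft 0x44686da8b85fe67cdbd255d8864a27c3 39)) (.cons 17 (.ofNat (Nat.shiftLeft 0xe7e7664ad03268123cfe97fad76e0d41 38)) (.cons 18 (.negSucc (Nat.sub (Nat.shiftLeft 0x1ada072a52946a015c5aedff9 71) 1)) .nil)))))),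
    .cons 19 (.ofNat (Nat.shiftLeft 0xdd8ebb5 140)) (.cons 20 (.ofNat (Nat.shiftLeft 0x66a9ef 140)) (.cons 21 (.negSucc (Nat.sub (Nat.shiftLeft 0x22c8f 140) 1)) (.cons 22 (.ofNat (Nat.shiftLeft 0x22c8f 140)) .nil))),
    .cons 19 (.negSucc (Nat.sub (Nat.shiftLeft 0x56a7315ca45a825 111) 1)) (.cons 20 (.ofNat (Nat.shiftLeft 0xbf29a7603171c1 111)) (.cons 21 (.ofNat (Nat.shiftLeft 0x20270d8ae9dedf 111)) (.cons 22 (.ofNat (Nat.shiftLeft 0x158c5e75162121 111)) .nil))),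
    .cons 19 (.negSucc (Nat.sub (Nat.shiftLeft 0x2e70674bdcf7c574ae823 89) 1)) (.cons 20 (.ofNat (Nat.shiftLeft 0xa6df6d6c553c221b0ce7 89)) (.cons 21 (.ofNat (Nat.shiftLeft 0x2eff388607e93c1d8b79 89)) (.cons 22 (.negSucc (Nat.sub (Nat.shiftLeft 0x1a143e06dc753c1d8b79 89) 1)) .nil))),
    .cons 19 (.negSucc (Nat.sub (Nat.shiftLeft 0x5ea5f7731aae37c37f47cbb81 71) 1)) (.cons 20 (.ofNat (Nat.shiftLeft 0x526a17486f91931d4509427ed 71)) (.cons 21 (.ofNat (Nat.shiftLeft 0x14d6d81b1df774b6e442aa433 71)) (.cons 22 (.negSucc (Nat.sub (Nat.shiftLeft 0x5f171f6a88b7572442aa433 71) 1)) .nil))),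
    .cons 19 (.ofNat (Nat.shiftLeft 0x608f1618f552db3fbde7ea3d3b8d85 51)) (.cons 20 (.ofNat (Nat.shiftLeft 0x48f6ac54ddb2ad56c7a0920543245f 51)) (.cons 21 (.negSucc (Nat.sub (Nat.shiftLeft 0x5d5884f2028e7f47452738069a0ff 51) 1)) (.cons 22 (.negSucc (Nat.sub (Nat.shiftLeft 0x3a462206790c59d874b787f965f01 51) 1)) .nil))),
    .cons 19 (.ofNat (Nat.shiftLeft 0x26a2daba3b0bedb120c20ca11d66d24ca7 35)) (.cons 20 (.negSucc (Nat.sub (Nat.shiftLeft 0x18277cdb53b495478ad5ebb32d8517211b 35) 1)) (.cons 21 (.negSucc (Nat.sub (Nat.shiftLeft 0xfd3936b6bdb3dd6a5771db61329c177c5 35) 1)) (.cons 22 (.negSucc (Nat.sub (Nat.shiftLeft 0x88975a3a10a8f88869b78f350d63e883b 35) 1)) .nil))),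
    .cons 19 (.ofNat (Nat.shiftLeft 0x422c1b6b91342a61d3c5f52bf8411bc1dfc9 26)) (.cons 20 (.ofNat (Nat.shiftLeft 0x12b05e344322866f11d1e2aeaaad033d4556b 26)) (.cons 21 (.ofNat (Nat.shiftLeft 0x491259185f7a341bcae140097a596e567575 26)) (.cons 22 (.negSucc (Nat.sub (Nat.shiftLeft 0x49f9e0e35f2f0e7b87cfe827df356e567575 26) 1)) .nil))),
    .cons 23 (.ofNat (Nat.shiftLeft 0x228315 144)) .nil,
    .cons 23 (.negSucc (Nat.sub (Nat.shiftLeft 0xbb6d7452ad 128) 1)) .nil,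
    .cons 23 (.negSucc (Nat.sub (Nat.shiftLeft 0x12cf9c14cacc8fb 109) 1)) .nil,
    .cons 23 (.negSucc (Nat.sub (Nat.shiftLeft 0x180682fb32fc1c53cb 98) 1)) .nil,
    .nil],
   [.cons 0 (.ofNat (Nat.shiftLeft 0x193 159)) .nil,
    .cons 1 (.ofNat (Nat.shiftLeft 0x71d76b 146)) (.cons 2 (.negSucc (Nat.sub (Nat.shiftLeft 0xc0189 146) 1)) (.cons 3 (.negSucc (Nat.sub (Nat.shiftLeft 0x5b9d7 145) 1)) (.cons 4 (.ofNat (Nat.shiftLeft 0xfc3 149)) .nil))),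
    .cons 1 (.negSucc (Nat.sub (Nat.shiftLeft 0x4d380d8555bb 124) 1)) (.cons 2 (.ofNat (Nat.shiftLeft 0x16d88c947ff9 124)) (.cons 3 (.negSucc (Nat.sub (Nat.shiftLeft 0x19b468dda99 123) 1)) (.cons 4 (.negSucc (Nat.sub (Nat.shiftLeft 0x9efedab093 127) 1)) .nil))),
    .cons 1 (.ofNat (Nat.shiftLeft 0x5e74335a8477a55 112)) (.cons 2 (.negSucc (Nat.sub (Nat.shiftLeft 0x4c92559e682db7 112) 1)) (.cons 3 (.ofNat (Nat.shiftLeft 0x10cea2debd63117 111)) (.cons 4 (.ofNat (Nat.shiftLeft 0x5759a6740ffd 115)) .nil))),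
    .cons 1 (.ofNat (Nat.shiftLeft 0xa8c51c191b3e2555b 99)) (.cons 2 (.negSucc (Nat.sub (Nat.shiftLeft 0x400b8573d6e21b0dd9 99) 1)) (.cons 3 (.negSucc (Nat.sub (Nat.shiftLeft 0x71d9e4ed65c53cb87 98) 1)) (.cons 4 (.negSucc (Nat.sub (Nat.shiftLeft 0x1ff4397317f64f2cd 102) 1)) .nil))),
    .cons 5 (.negSucc (Nat.sub (Nat.shiftLeft 0x1619fa687 138) 1)) (.cons 6 (.ofNat (Nat.shiftLeft 0x2e1935a1 138)) (.cons 7 (.ofNat (Nat.shiftLeft 0x37a2b63 137)) (.cons 8 (.ofNat (Nat.shiftLeft 0x1b0282f 137)) (.cons 9 (.negSucc (Nat.sub (Nat.shiftLeft 0x28a151 136) 1)) (.cons 10 (.ofNat (Nat.shiftLeft 0x3b193 136)) (.cons 11 (.ofNat (Nat.shiftLeft 0x3b193 137)) .nil)))))),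
    .cons 5 (.ofNat (Nat.shiftLeft 0x15b9c6c654892b01 110)) (.cons 6 (.ofNat (Nat.shiftLeft 0x215bee955e67e69 110)) (.cons 7 (.ofNat (Nat.shiftLeft 0x5d2d579d11db9bb 109)) (.cons 8 (.negSucc (Nat.sub (Nat.shiftLeft 0xce83959daa6619 109) 1)) (.cons 9 (.ofNat (Nat.shiftLeft 0xd1f4121102e467 108)) (.cons 10 (.negSucc (Nat.sub (Nat.shiftLeft 0xa97081475d5a95 108) 1)) (.cons 11 (.ofNat (Nat.shiftLeft 0xce6c0b8a2a56b 109)) .nil)))))),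
    .cons 5 (.negSucc (Nat.sub (Nat.shiftLeft 0x168c3d086f356a20693 95) 1)) (.cons 6 (.negSucc (Nat.sub (Nat.shiftLeft 0x8ef11753c0a8642734b 95) 1)) (.cons 7 (.ofNat (Nat.shiftLeft 0x16cb154b36daef6429f 94)) (.cons 8 (.ofNat (Nat.shiftLeft 0x14299ea353a807ded5b 94)) (.cons 9 (.negSucc (Nat.sub (Nat.shiftLeft 0x202dda8aad4c8405a25 93) 1)) (.cons 10 (.negSucc (Nat.sub (Nat.shiftLeft 0x1c3f454ca16796e8371 93) 1)) (.cons 11 (.negSucc (Nat.sub (Nat.shiftLeft 0x2cb46fcefc796e8371 94) 1)) .nil)))))),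
    .cons 5 (.negSucc (Nat.sub (Nat.shiftLeft 0x74d3296c17119f80236c8eb 78) 1)) (.cons 6 (.ofNat (Nat.shiftLeft 0x50bae3faf310909d0888e9d 78)) (.cons 7 (.ofNat (Nat.shiftLeft 0xe515a857f992d910c48cc57 77)) (.cons 8 (.negSucc (Nat.sub (Nat.shiftLeft 0x33a5904f64bcd935563900d 77) 1)) (.cons 9 (.ofNat (Nat.shiftLeft 0x6dd6181808fada14e0b8c73 76)) (.cons 10 (.negSucc (Nat.sub (Nat.shiftLeft 0x44e321c37da386fc146de39 76) 1)) (.cons 11 (.negSucc (Nat.sub (Nat.shiftLeft 0x150a4987777b005c146de39 77) 1)) .nil)))))),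
    .cons 5 (.ofNat (Nat.shiftLeft 0x16b2abe4f1cd273c273d8245df 64)) (.cons 6 (.ofNat (Nat.shiftLeft 0x423a40856ae6edcb142191a6d77 64)) (.cons 7 (.negSucc (Nat.sub (Nat.shiftLeft 0x7ff796637772be4d81493dc461b 63) 1)) (.cons 8 (.ofNat (Nat.shiftLeft 0xf2907ae2c9dd0346c358fc039 63)) (.cons 9 (.ofNat (Nat.shiftLeft 0xba03511f68ba9c97b1478ba5b9 62)) (.cons 10 (.ofNat (Nat.shiftLeft 0x1407b5fda8b84d905926ddc0835 62)) (.cons 11 (.ofNat (Nat.shiftLeft 0x164b43c9423b7ea8106ddc0835 63)) .nil)))))),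
    .cons 5 (.negSucc (Nat.sub (Nat.shiftLeft 0x226c3e206f165cba1d9c5d7f90935d 47) 1)) (.cons 6 (.ofNat (Nat.shiftLeft 0x8f69b41686a9f9b96c6cfdb7b70ffdb 47)) (.cons 7 (.ofNat (Nat.shiftLeft 0x6f884fbade4f227b7e163dab3a84b11 46)) (.cons 8 (.negSucc (Nat.sub (Nat.shiftLeft 0x85f5c9c48668858540669fa042214eb 46) 1)) (.cons 9 (.negSucc (Nat.sub (Nat.shiftLeft 0x32595d5adca07382f8890db998256b 45) 1)) (.cons 10 (.ofNat (Nat.shiftLeft 0x8604f02f63830b876254a53f6aec21 45)) (.cons 11 (.negSucc (Nat.sub (Nat.shiftLeft 0x2203ce693feeb607c44654c09513df 46) 1)) .nil)))))),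
    .cons 5 (.negSucc (Nat.sub (Nat.shiftLeft 0x4d97af5464d380040a1f86ae1cd51803 39) 1)) (.cons 6 (.negSucc (Nat.sub (Nat.shiftLeft 0x2c617a51cc69a12580bb6bc71aa7f6a3b 39) 1)) (.cons 7 (.negSucc (Nat.sub (Nat.shiftLeft 0x1497298ec96668d0ccd8c68dd0ce9a7a31 38) 1)) (.cons 8 (.negSucc (Nat.sub (Nat.shiftLeft 0x72fe04834032ce62bf3a9db4e754c0eb5 38) 1)) (.cons 9 (.ofNat (Nat.shiftLeft 0x430c27283e2a4cd7daadcc21141ba91cb 37)) (.cons 10 (.ofNat (Nat.shiftLeft 0x66ba2c07edbec190b5347bac32891f2bf 37)) (.cons 11 (.ofNat (Nat.shiftLeft 0x2395e6464634771f02c74c6fd2891f2bf 38)) .nil)))))),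
    .cons 12 (.negSucc (Nat.sub (Nat.shiftLeft 0x7af8587 143) 1)) (.cons 13 (.negSucc (Nat.sub (Nat.shiftLeft 0x3ddadd7 141) 1)) (.cons 14 (.ofNat (Nat.shiftLeft 0x6a0bb1 140)) (.cons 15 (.negSucc (Nat.sub (Nat.shiftLeft 0x22c8f 144) 1)) (.cons 16 (.negSucc (Nat.sub (Nat.shiftLeft 0x3dd7 142) 1)) (.cons 17 (.negSucc (Nat.sub (Nat.shiftLeft 0xb985 140) 1)) (.cons 18 (.ofNat (Nat.shiftLeft 0x3dd7 142)) .nil)))))),
    .cons 12 (.ofNat (Nat.shiftLeft 0x192af0e54c4e257 114)) (.cons 13 (.negSucc (Nat.sub (Nat.shiftLeft 0x5a801bfb763e59 112) 1)) (.cons 14 (.ofNat (Nat.shiftLeft 0x2130c68881afa9f 111)) (.cons 15 (.ofNat (Nat.shiftLeft 0x2fbb40ae9dedf 115)) (.cons 16 (.negSucc (Nat.sub (Nat.shiftLeft 0xadea97090ae59 113) 1)) (.cons 17 (.negSucc (Nat.sub (Nat.shiftLeft 0x109f00d1b20b0b 111) 1)) (.cons 18 (.ofNat (Nat.shiftLeft 0x1eef090ae59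 113)) .nil)))))),
    .cons 12 (.negSucc (Nat.sub (Nat.shiftLeft 0x1ea2fb0cc44ebb8df13f 92) 1)) (.cons 13 (.ofNat (Nat.shiftLeft 0xfe6a012243f5acfb3bf1 90)) (.cons 14 (.ofNat (Nat.shiftLeft 0x4e30b14207c952d0a5b9 89)) (.cons 15 (.negSucc (Nat.sub (Nat.shiftLeft 0x2d4982b437943e27487 93) 1)) (.cons 16 (.negSucc (Nat.sub (Nat.shiftLeft 0xcd6a866b3db95c3d40f 91) 1)) (.cons 17 (.ofNat (Nat.shiftLeft 0x14c045e2a07dbeb483d3 89)) (.cons 18 (.ofNat (Nat.shiftLeft 0xb4b63dda3215c3d40f 91)) .nil)))))),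
    .cons 12 (.negSucc (Nat.sub (Nat.shiftLeft 0x908fa50f311676cfc54187b5 74) 1)) (.cons 13 (.negSucc (Nat.sub (Nat.shiftLeft 0x339ee5947c8be19d9ac9e76a5 72) 1)) (.cons 14 (.ofNat (Nat.shiftLeft 0x5100104bd41dece261f6e44f3 71)) (.cons 15 (.ofNat (Nat.shiftLeft 0x110c1073e6ce7732c42aa433 75)) (.cons 16 (.negSucc (Nat.sub (Nat.shiftLeft 0x3c2cada5ddb2d12aea3426a5 73) 1)) (.cons 17 (.negSucc (Nat.sub (Nat.shiftLeft 0x72bf177776f53cb3e9c73ef 71) 1)) (.cons 18 (.negSucc (Nat.sub (Nat.shiftLeft 0x3475598d5819fa1d95cbd95b 73) 1)) .nil)))))),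
    .cons 12 (.ofNat (Nat.shiftLeft 0x1bc2d8eb8180fdc4246c8ca95da89 54)) (.cons 13 (.ofNat (Nat.shiftLeft 0x18ddecbeb0542d6e515e2352644539 52)) (.cons 14 (.ofNat (Nat.shiftLeft 0xc11d9fce21a20786bf0c1a22593b41 51)) (.cons 15 (.negSucc (Nat.sub (Nat.shiftLeft 0xabdb6f940f374b3daf4a0069a0ff 55) 1)) (.cons 16 (.negSucc (Nat.sub (Nat.shiftLeft 0x59cce1fb7a5613248ee8738ef4ac7 53) 1)) (.cons 17 (.ofNat (Nat.shiftLeft 0x1000bf63f744e0d8026fded5321fab 51)) (.cons 18 (.negSucc (Nat.sub (Nat.shiftLeft 0x23bc607cb4744e9dc070e4710b539 53) 1)) .nil)))))),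
    .cons 12 (.negSucc (Nat.sub (Nat.shiftLeft 0x2aad37ff8b5ba5ae81c2038f5cf0676d 38) 1)) (.cons 13 (.ofNat (Nat.shiftLeft 0x5723e5279b4476c44ade69d330f8c03f23 36)) (.cons 14 (.ofNat (Nat.shiftLeft 0x4694a11221ea5545d2f931e912da40afb 35)) (.cons 15 (.negSucc (Nat.sub (Nat.shiftLeft 0x35fb747246b4a55b2b9152f02a9c177c5 39) 1)) (.cons 16 (.negSucc (Nat.sub (Nat.shiftLeft 0x1fec3331c542300661339d00c6831f0dd 37) 1)) (.cons 17 (.negSucc (Nat.sub (Nat.shiftLeft 0x1f43017499bdfec2438f50ecbb895d297 35) 1)) (.cons 18 (.negSucc (Nat.sub (Nat.shiftLeft 0x204b102819d56f403ec279e817ce0f23 37) 1)) .nil)))))),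
    .cons 12 (.ofNat (Nat.shiftLeft 0x4f87011b5d2c004609f00ae086bcfa53a9d 29)) (.cons 13 (.negSucc (Nat.sub (Nat.shiftLeft 0x1a3962b95a56f29c2a5c5eaacdf65a0922f3 27) 1)) (.cons 14 (.negSucc (Nat.sub (Nat.shiftLeft 0x1eb35cd4e257c5bb8a5b0bfb954d9440614b 26) 1)) (.cons 15 (.negSucc (Nat.sub (Nat.shiftLeft 0x99f0865deb458e4d9297dabd4af11a98a8b 30) 1)) (.cons 16 (.negSucc (Nat.sub (Nat.shiftLeft 0xdaf4d57a66d0dd0375dfe1863903ad9f2f3 28) 1)) (.cons 17 (.ofNat (Nat.shiftLeft 0x3129aefe0b3ac7435f8381c50e8dcf722727 26)) (.cons 18 (.negSucc (Nat.sub (Nat.shiftLeft 0x11490e5fe8d45bc0ef095ca30c345260d0d 28) 1)) .nil)))))),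
    .cons 19 (.negSucc (Nat.sub (Nat.shiftLeft 0x280104f 144) 1)) (.cons 20 (.ofNat (Nat.shiftLeft 0x5b4c3d 144)) (.cons 21 (.negSucc (Nat.sub (Nat.shiftLeft 0xeee45 145) 1)) (.cons 22 (.negSucc (Nat.sub (Nat.shiftLeft 0x1b69f 143) 1)) .nil))),
    .cons 19 (.ofNat (Nat.shiftLeft 0x4ef60097a97 128)) (.cons 20 (.negSucc (Nat.sub (Nat.shiftLeft 0x2d23cbdb495 128) 1)) (.cons 21 (.ofNat (Nat.shiftLeft 0x16b875805d 129)) (.cons 22 (.ofNat (Nat.shiftLeft 0xa0e1fcb267 127)) .nil))),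
    .cons 19 (.ofNat (Nat.shiftLeft 0x2856b2bf6dfa80e1 109)) (.cons 20 (.ofNat (Nat.shiftLeft 0x232329163c2b7ad 109)) (.cons 21 (.negSucc (Nat.sub (Nat.shiftLeft 0x2b7be2dcd61bb35 110) 1)) (.cons 22 (.ofNat (Nat.shiftLeft 0x12f00683487ab91 108)) .nil))),
    .cons 19 (.ofNat (Nat.shiftLeft 0x5aa51393636ebf4a51 98)) (.cons 20 (.negSucc (Nat.sub (Nat.shiftLeft 0x71bab305c36805f1a3 98) 1)) (.cons 21 (.negSucc (Nat.sub (Nat.shiftLeft 0x640b5bc537b955565 99) 1)) (.cons 22 (.negSucc (Nat.sub (Nat.shiftLeft 0x2259d9cbf16a7a0dff 97) 1)) .nil))),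
    .cons 23 (.negSucc (Nat.sub (Nat.shiftLeft 0x1c1 159) 1)) .nil],
   [.nil,
    .cons 0 (.ofNat (Nat.shiftLeft 0xb63eb 145)) .nil,
    .cons 0 (.negSucc (Nat.sub (Nat.shiftLeft 0x10bfa0099a3b 123) 1)) .nil,
    .cons 0 (.ofNat (Nat.shiftLeft 0xd55c6195df8dd5 111)) .nil,
    .cons 0 (.ofNat (Nat.shiftLeft 0x23d232f6e9e40c89db 98)) .nil,
    .cons 1 (.negSucc (Nat.sub (Nat.shiftLeft 0x6f9a6095 137) 1)) (.cons 2 (.negSucc (Nat.sub (Nat.shiftLeft 0xe15007 138) 1)) (.cons 3 (.ofNat (Nat.shiftLeft 0x3b193 137)) (.cons 4 (.negSucc (Nat.sub (Nat.shiftLeft 0x3b193 137) 1)) .nil))),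
    .cons 1 (.ofNat (Nat.shiftLeft 0x99da1c745abec03 109)) (.cons 2 (.negSucc (Nat.sub (Nat.shiftLeft 0x724b4efec16a7f 110) 1)) (.cons 3 (.ofNat (Nat.shiftLeft 0x3e2ec4b8a2a56b 109)) (.cons 4 (.negSucc (Nat.sub (Nat.shiftLeft 0x871e78b8a2a56b 109) 1)) .nil))),
    .cons 1 (.ofNat (Nat.shiftLeft 0x16e0bd85dde30a257b47 94)) (.cons 2 (.negSucc (Nat.sub (Nat.shiftLeft 0x10b34a038fe10aaae13 95) 1)) (.cons 3 (.ofNat (Nat.shiftLeft 0x133f57e82b786917c8f 94)) (.cons 4 (.ofNat (Nat.shiftLeft 0xcd9925e5a4796e8371 94)) .nil))),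
    .cons 1 (.ofNat (Nat.shiftLeft 0x1f8ef6433fb9811cd4446c3f 77)) (.cons 2 (.negSucc (Nat.sub (Nat.shiftLeft 0x3aaf4698088a1bff21d0c6b 78) 1)) (.cons 3 (.ofNat (Nat.shiftLeft 0x3cce295e775f84e3eb921c7 77)) (.cons 4 (.negSucc (Nat.sub (Nat.shiftLeft 0x12002830a9d62123eb921c7 77) 1)) .nil))),
    .cons 1 (.ofNat (Nat.shiftLeft 0x6309a118ea3434044869cc4069d 63)) (.cons 2 (.ofNat (Nat.shiftLeft 0x8b1edf4f0046ec5cd8d2920b5f 64)) (.cons 3 (.ofNat (Nat.shiftLeft 0xc620135d5689c3a38c6ddc0835 63)) (.cons 4 (.ofNat (Nat.shiftLeft 0x5c94c1a463e42d4ea79223f7cb 63)) .nil))),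
    .cons 1 (.ofNat (Nat.shiftLeft 0x688b26fbc20bd8fcb08347cd85b66e9 46)) (.cons 2 (.negSucc (Nat.sub (Nat.shiftLeft 0xc102b0626723ec6c540ad71c7a43dd 47) 1)) (.cons 3 (.ofNat (Nat.shiftLeft 0x15e903f4e466a372534c0373f6aec21 46)) (.cons 4 (.negSucc (Nat.sub (Nat.shiftLeft 0x20d680a9bf01c48d0f21bd33f6aec21 46) 1)) .nil))),
    .cons 1 (.ofNat (Nat.shiftLeft 0x1e9c65a0c6af3d05981b456652e3276f7 38)) (.cons 2 (.ofNat (Nat.shiftLeft 0x71b54a7c2087e3268a871e8d65539287d 39)) (.cons 3 (.negSucc (Nat.sub (Nat.shiftLeft 0x41fcc800f042d6fe2ef896d0ed76e0d41 38) 1)) (.cons 4 (.negSucc (Nat.sub (Nat.shiftLeft 0xe98d0cfe7faed37f158897d52891f2bf 38) 1)) .nil))),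
    .cons 5 (.ofNat (Nat.shiftLeft 0x6f02a91 144)) (.cons 6 (.ofNat (Nat.shiftLeft 0x2a9ede1 141)) (.cons 7 (.negSucc (Nat.sub (Nat.shiftLeft 0xbd627 141) 1)) (.cons 8 (.ofNat (Nat.shiftLeft 0x16f2c9 140)) (.cons 9 (.negSucc (Nat.sub (Nat.shiftLeft 0x13533 140) 1)) (.cons 10 (.negSucc (Nat.sub (Nat.shiftLeft 0x3dd7 141) 1)) .nil))))),
    .cons 5 (.ofNat (Nat.shiftLeft 0x778efe830da1bf 115)) (.cons 6 (.ofNat (Nat.shiftLeft 0x131ef34cb72976f 112)) (.cons 7 (.ofNat (Nat.shiftLeft 0x87d5b9f44ea0f7 112)) (.cons 8 (.negSucc (Nat.sub (Nat.shiftLeft 0x6a3232ba4f4cf9 111) 1)) (.cons 9 (.negSucc (Nat.sub (Nat.shiftLeft 0x1f482ab2d367bd 111) 1)) (.cons 10 (.ofNat (Nat.shiftLeft 0x4245e0f6f51a7 112)) (.cons 11 (.negSucc (Nat.sub (Nat.shiftLeft 0x3e7d 144) 1)) .nil)))))),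
    .cons 5 (.ofNat (Nat.shiftLeft 0x8a9ef02f3ff0feab99 93)) (.cons 6 (.negSucc (Nat.sub (Nat.shiftLeft 0xb4480119ae97fd888e97 90) 1)) (.cons 7 (.negSucc (Nat.sub (Nat.shiftLeft 0x20006f6efa9c2a7b96df 90) 1)) (.cons 8 (.ofNat (Nat.shiftLeft 0x1262fd0018c413abb191 89)) (.cons 9 (.negSucc (Nat.sub (Nat.shiftLeft 0x1bbbe5d3087a6cd3244b 89) 1)) (.cons 10 (.negSucc (Nat.sub (Nat.shiftLeft 0x511f764e5f715c3d40f 90) 1)) (.cons 11 (.ofNat (Nat.shiftLeft 0x620097ac475 122)) .nil)))))),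
    .cons 5 (.negSucc (Nat.sub (Nat.shiftLeft 0x2af239aa126a1b8a60fe3a6d 75) 1)) (.cons 6 (.ofNat (Nat.shiftLeft 0x4910cd123916cd1df25162583 72)) (.cons 7 (.ofNat (Nat.shiftLeft 0x14422602b24207e67ac049a6b 72)) (.cons 8 (.negSucc (Nat.sub (Nat.shiftLeft 0x2388cb0899504fb0096a5a8c5 71) 1)) (.cons 9 (.ofNat (Nat.shiftLeft 0x2bec4c473ee16613ecfb3ec7 71)) (.cons 10 (.ofNat (Nat.shiftLeft 0x4786ecdd0b094aa695cbd95b 72)) (.cons 11 (.negSucc (Nat.sub (Nat.shiftLeft 0x29c1ada09f3b40f9 104) 1)) .nil)))))),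
    .cons 5 (.ofNat (Nat.shiftLeft 0x17350508de489e87ac1355c93821 55)) (.cons 6 (.negSucc (Nat.sub (Nat.shiftLeft 0x2204456276ee1e73d42d07a93e678f 52) 1)) (.cons 7 (.ofNat (Nat.shiftLeft 0x1e47b59e357ff4cad008059a32afe9 52)) (.cons 8 (.negSucc (Nat.sub (Nat.shiftLeft 0x209d80135d99ad4e85742e5f334027 51) 1)) (.cons 9 (.negSucc (Nat.sub (Nat.shiftLeft 0x16cd2dc7706590ad2f6e389cac75e3 51) 1)) (.cons 10 (.negSucc (Nat.sub (Nat.shiftLeft 0x2dc7e38c96652bbbf8f9eb8ef4ac7 52) 1)) (.cons 11 (.ofNat (Nat.shiftLeft 0x1b5fcc94f299496eb08dd 84)) .nil)))))),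
    .cons 5 (.negSucc (Nat.sub (Nat.shiftLeft 0x173ee40457fdb9dc5060af9817aa0d65 39) 1)) (.cons 6 (.ofNat (Nat.shiftLeft 0x53ada29a4b87ad533b8c86630f7eb7150b 36)) (.cons 7 (.negSucc (Nat.sub (Nat.shiftLeft 0xe834ff168b255cf2012656185718f1a4d 36) 1)) (.cons 8 (.negSucc (Nat.sub (Nat.shiftLeft 0x17214c7c955e2877fd9bc76e36d5779dfd 35) 1)) (.cons 9 (.negSucc (Nat.sub (Nat.shiftLeft 0x7786e3f2484b124078fd2a6f788f9b451 35) 1)) (.cons 10 (.ofNat (Nat.shiftLeft 0x8e21d1c5b0d172e545711990917ce0f23 36)) (.cons 11 (.negSucc (Nat.sub (Nat.shiftLeft 0x547a822e1d90280b0e9b3e11 68) 1)) .nil)))))),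
    .cons 5 (.ofNat (Nat.shiftLeft 0x8589598553f7fd804809928486dbeef115 30)) (.cons 6 (.ofNat (Nat.shiftLeft 0x27e86f5a81a39a1d7023abf3022796615a5 27)) (.cons 7 (.negSucc (Nat.sub (Nat.shiftLeft 0x9a5136dde388aac0e42f1e0e1ecdc3b78083 27) 1)) (.cons 8 (.ofNat (Nat.shiftLeft 0xa0df6ac442934f8b86751dd7533f56e1282d 26)) (.cons 9 (.negSucc (Nat.sub (Nat.shiftLeft 0xc0cfb81c9d03b98976f3fb58bafa641bebf 26) 1)) (.cons 10 (.negSucc (Nat.sub (Nat.shiftLeft 0x73b8321ed173d765b6f054f6e4dbad9f2f3 27) 1)) (.cons 11 (.ofNat (Nat.shiftLeft 0x13afef4f8153e352f8a9f82eaf01 59)) .nil)))))),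
    .cons 12 (.ofNat (Nat.shiftLeft 0x7564b91 144)) (.cons 13 (.ofNat (Nat.shiftLeft 0x2cbf0f5 143)) (.cons 14 (.ofNat (Nat.shiftLeft 0x154f599 144)) (.cons 15 (.negSucc (Nat.sub (Nat.shiftLeft 0x13d379 145) 1)) (.cons 16 (.ofNat (Nat.shiftLeft 0x1f15d7 143)) (.cons 18 (.ofNat (Nat.shiftLeft 0x1b69f 143)) .nil))))),
    .cons 12 (.ofNat (Nat.shiftLeft 0x301f0b5e5b7 128)) (.cons 13 (.negSucc (Nat.sub (Nat.shiftLeft 0x4cdf6e4e98d 127) 1)) (.cons 14 (.negSucc (Nat.sub (Nat.shiftLeft 0x3d50f6eae11 128) 1)) (.cons 15 (.ofNat (Nat.shiftLeft 0x8583b534f1 129)) (.cons 16 (.ofNat (Nat.shiftLeft 0xbd4c851221 127)) (.cons 17 (.negSucc (Nat.sub (Nat.shiftLeft 0x1d5 158) 1)) (.cons 18 (.ofNat (Nat.shiftLeft 0x92e6034d99 127)) .nil)))))),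
    .cons 12 (.ofNat (Nat.shiftLeft 0x3e91af52d8e16c1 109)) (.cons 13 (.ofNat (Nat.shiftLeft 0x871c1e6ba8d3ee5 108)) (.cons 14 (.ofNat (Nat.shiftLeft 0x2f62a6046e89a249 109)) (.cons 15 (.negSucc (Nat.sub (Nat.shiftLeft 0x590c6d134de1a29 110) 1)) (.cons 16 (.ofNat (Nat.shiftLeft 0x5e636c756628e27 108)) (.cons 17 (.ofNat (Nat.shiftLeft 0xd90caed 139)) (.cons 18 (.negSucc (Nat.sub (Nat.shiftLeft 0x65b1b93bc87ab91 108) 1)) .nil)))))),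
    .cons 12 (.negSucc (Nat.sub (Nat.shiftLeft 0x1da5bcb7d2444a6dcf 98) 1)) (.cons 13 (.ofNat (Nat.shiftLeft 0x39f6d1dd80296f04615 97)) (.cons 14 (.negSucc (Nat.sub (Nat.shiftLeft 0x832651c027371f1ec7 98) 1)) (.cons 15 (.negSucc (Nat.sub (Nat.shiftLeft 0x2676e014772ba8eb19 99) 1)) (.cons 16 (.ofNat (Nat.shiftLeft 0x1749140151c8ef9037 97)) (.cons 17 (.ofNat (Nat.shiftLeft 0x4668c74d9d 128)) (.cons 18 (.ofNat (Nat.shiftLeft 0x2c5d7e4b02627a0dff 97)) .nil)))))),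
    .cons 19 (.ofNat (Nat.shiftLeft 0x775 160)) (.cons 20 (.negSucc (Nat.sub (Nat.shiftLeft 0x567 159) 1)) (.cons 21 (.ofNat (Nat.shiftLeft 0xfb 159)) (.cons 22 (.ofNat (Nat.shiftLeft 0x97 159)) .nil)))]⟩

noncomputable def A6 : Tn :=
  ⟨[.cons 1 (.ofNat (Nat.shiftLeft 0x7a7 160)) (.cons 2 (.negSucc (Nat.sub (Nat.shiftLeft 0x22b 160) 1)) (.cons 3 (.ofNat (Nat.shiftLeft 0x33 161)) (.cons 4 (.ofNat (Nat.shiftLeft 0x3f 160)) .nil))),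
    .cons 5 (.ofNat (Nat.shiftLeft 0x1db559 150)) (.cons 6 (.negSucc (Nat.sub (Nat.shiftLeft 0x2d5287 147) 1)) (.cons 7 (.negSucc (Nat.sub (Nat.shiftLeft 0x48c151 146) 1)) (.cons 8 (.negSucc (Nat.sub (Nat.shiftLeft 0xb81cd 146) 1)) (.cons 9 (.negSucc (Nat.sub (Nat.shiftLeft 0x17135 147) 1)) (.cons 10 (.negSucc (Nat.sub (Nat.shiftLeft 0x2747 149) 1)) (.cons 11 (.negSucc (Nat.sub (Nat.shiftLeft 0x36fd 146) 1)) .nil)))))),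
    .cons 5 (.negSucc (Nat.sub (Nat.shiftLeft 0x5c79c7d33f1 127) 1)) (.cons 6 (.negSucc (Nat.sub (Nat.shiftLeft 0x31f758b47711 124) 1)) (.cons 7 (.negSucc (Nat.sub (Nat.shiftLeft 0x63bf23f6e2d7 123) 1)) (.cons 8 (.negSucc (Nat.sub (Nat.shiftLeft 0x26f0d72397bb 123) 1)) (.cons 9 (.ofNat (Nat.shiftLeft 0x27634a6e36d 124)) (.cons 10 (.negSucc (Nat.sub (Nat.shiftLeft 0x82563a8051 126) 1)) (.cons 11 (.ofNat (Nat.shiftLeft 0xba7467ae5f5 123)) .nil)))))),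
    .cons 5 (.negSucc (Nat.sub (Nat.shiftLeft 0x47ca995d771cd1 112) 1)) (.cons 6 (.negSucc (Nat.sub (Nat.shiftLeft 0x2412c895145dbf1 109) 1)) (.cons 7 (.ofNat (Nat.shiftLeft 0x68304cab311be709 108)) (.cons 8 (.ofNat (Nat.shiftLeft 0x18f97e76987652a5 108)) (.cons 9 (.ofNat (Nat.shiftLeft 0x3edc0c87e0800cd 109)) (.cons 10 (.ofNat (Nat.shiftLeft 0x3a8c9072f082cf 111)) (.cons 11 (.negSucc (Nat.sub (Nat.shiftLeft 0x2a8dfc8b97c15ab 108) 1)) .nil)))))),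
    .cons 5 (.ofNat (Nat.shiftLeft 0xa60f5135456add553 98)) (.cons 6 (.ofNat (Nat.shiftLeft 0xdf4474c8c6679d24eb3 95)) (.cons 7 (.negSucc (Nat.sub (Nat.shiftLeft 0x674b37de0021c68e4fb 94) 1)) (.cons 8 (.ofNat (Nat.shiftLeft 0x4f2a03f6123be07cfb1 94)) (.cons 9 (.ofNat (Nat.shiftLeft 0x55e34e6f56deb2239 95)) (.cons 10 (.ofNat (Nat.shiftLeft 0x4d623e1918c2964a73 97)) (.cons 11 (.negSucc (Nat.sub (Nat.shiftLeft 0x7b301a7cbbc6c7315f 94) 1)) .nil)))))),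
    .cons 12 (.ofNat (Nat.shiftLeft 0x6e58b81 144)) (.cons 13 (.ofNat (Nat.shiftLeft 0x18ae325 142)) (.cons 14 (.ofNat (Nat.shiftLeft 0x119c09 140)) (.cons 15 (.negSucc (Nat.sub (Nat.shiftLeft 0x2090c7 140) 1)) (.cons 16 (.ofNat (Nat.shiftLeft 0x3dc1 140)) (.cons 17 (.negSucc (Nat.sub (Nat.shiftLeft 0x3dc1 140) 1)) (.cons 18 (.ofNat (Nat.shiftLeft 0x3dc1 140)) .nil)))))),
    .cons 12 (.negSucc (Nat.sub (Nat.shiftLeft 0x78e675711a64219 111) 1)) (.cons 13 (.negSucc (Nat.sub (Nat.shiftLeft 0xb2f291651ce6b1d 109) 1)) (.cons 14 (.ofNat (Nat.shiftLeft 0x12d0f139bafbcc9f 107)) (.cons 15 (.negSucc (Nat.sub (Nat.shiftLeft 0x79b8bacf417cb11 107) 1)) (.cons 16 (.ofNat (Nat.shiftLeft 0x12dbd64f488b5a7 107)) (.cons 17 (.negSucc (Nat.sub (Nat.shiftLeft 0x218f504f488b5a7 107) 1)) (.cons 18 (.negSucc (Nat.sub (Nat.shiftLeft 0xfcdb30b774a59 107)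 1)) .nil)))))),
    .cons 12 (.negSucc (Nat.sub (Nat.shiftLeft 0x771eca7e9a841dc004d7 88) 1)) (.cons 13 (.ofNat (Nat.shiftLeft 0xcf65ed88ccb0c9fdb426d 86)) (.cons 14 (.negSucc (Nat.sub (Nat.shiftLeft 0x91050da7f6ee0ed24830f 84) 1)) (.cons 15 (.ofNat (Nat.shiftLeft 0x5cdc795133f6aeb2777a1 84)) (.cons 16 (.ofNat (Nat.shiftLeft 0x3437578b2134818ce6769 84)) (.cons 17 (.negSucc (Nat.sub (Nat.shiftLeft 0xf74b46e8b1a818ce6769 84) 1)) (.cons 18 (.negSucc (Nat.sub (Nat.shiftLeft 0x2b9a0b74adc1fe7319897 84) 1)) .nil)))))),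
    .cons 12 (.ofNat (Nat.shiftLeft 0x2b9e77300684eb7de81638063 71)) (.cons 13 (.negSucc (Nat.sub (Nat.shiftLeft 0x2545193d0acd46c052be377531 69) 1)) (.cons 14 (.ofNat (Nat.shiftLeft 0x20be8fb09c3256d977710710fb 67)) (.cons 15 (.negSucc (Nat.sub (Nat.shiftLeft 0x2df5b2006b5e5a4e8687613b75 67) 1)) (.cons 16 (.negSucc (Nat.sub (Nat.shiftLeft 0xa39c1689c8bff726f3d9330dd 67) 1)) (.cons 17 (.negSucc (Nat.sub (Nat.shiftLeft 0x74a609d9ab4e6d7b0c26ccf23 67) 1)) (.cons 18 (.ofNat (Nat.shiftLeft 0xadc96c7209c634318c26ccf23 67)) .nil)))))),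
    .cons 12 (.negSucc (Nat.sub (Nat.shiftLeft 0x1974671d3bd318b737d72d9cd071 55) 1)) (.cons 13 (.negSucc (Nat.sub (Nat.shiftLeft 0x234a42544a26df9596a834eabfc1d5 53) 1)) (.cons 14 (.negSucc (Nat.sub (Nat.shiftLeft 0x6a13f7797160b788fa0426f0aa4079 51) 1)) (.cons 15 (.ofNat (Nat.shiftLeft 0x147188bcd989cd79bc2e3368e6af57 51)) (.cons 16 (.negSucc (Nat.sub (Nat.shiftLeft 0x1f0b522ec67a68cfbc8e8c96959eb1 51) 1)) (.cons 17 (.negSucc (Nat.sub (Nat.shiftLeft 0x970a0578ba7bd9d56013696a614f 51) 1)) (.cons 18 (.negSucc (Nat.sub (Nat.shiftLeft 0x1a4be2998f66ec174c3e496959eb1 51) 1)) .nil)))))),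
    .cons 12 (.ofNat (Nat.shiftLeft 0x874f7beeb855c258403a0a321bb220f 37)) (.cons 13 (.ofNat (Nat.shiftLeft 0x547e7db67f44dcb4ca9e6b14fdee8e0aab 35)) (.cons 14 (.negSucc (Nat.sub (Nat.shiftLeft 0x8da723997852308f17559a9d116ff779f9 33) 1)) (.cons 15 (.ofNat (Nat.shiftLeft 0xcbf101e4f4e77ac1ac0219526a54526dd7 33)) (.cons 16 (.negSucc (Nat.sub (Nat.shiftLeft 0x190d0b1c7ff40ec2128a6efc2698540c31 33) 1)) (.cons 17 (.ofNat (Nat.shiftLeft 0x67296edce93719863e00b89d8698540c31 33)) (.cons 18 (.negSucc (Nat.sub (Nat.shiftLeft 0xd89329c2db6ab1b22b78b957e98540c31 33) 1)) .nil)))))),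
    .cons 12 (.ofNat (Nat.shiftLeft 0x91d8e5ee78be7d4f320e3d8b2daf7135e5 27)) (.cons 13 (.ofNat (Nat.shiftLeft 0x14d6f7386b8c4193e16ff0ec6b7c40b8f999 25)) (.cons 14 (.negSucc (Nat.sub (Nat.shiftLeft 0x9e577bf8c06683f2bffd9a5697ca3209ce473 23) 1)) (.cons 15 (.ofNat (Nat.shiftLeft 0x554c6611666f4c30ac1bc29de763d0433ad7d 23)) (.cons 16 (.negSucc (Nat.sub (Nat.shiftLeft 0xad2497614219594c6929b13ad1f62a376db 23) 1)) (.cons 17 (.ofNat (Nat.shiftLeft 0x25c8dbd9153df3c542f897d7243f62a376db 23)) (.cons 18 (.negSucc (Nat.sub (Nat.shiftLeft 0x2419fb3bcfecb4ca120fd12a565e762a376db 23) 1)) .nil)))))),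
    .cons 19 (.ofNat (Nat.shiftLeft 0xf2f6e7 144)) (.cons 20 (.ofNat (Nat.shiftLeft 0x17febc3 138)) (.cons 21 (.ofNat (Nat.shiftLeft 0x10b135 138)) (.cons 22 (.negSucc (Nat.sub (Nat.shiftLeft 0x59067 139) 1)) .nil))),
    .cons 19 (.ofNat (Nat.shiftLeft 0x2e09aacbcdc8db 115)) (.cons 20 (.negSucc (Nat.sub (Nat.shiftLeft 0x14d472d350af379 109) 1)) (.cons 21 (.ofNat (Nat.shiftLeft 0x13e0512a372d11 109)) (.cons 22 (.ofNat (Nat.shiftLeft 0x5b3205f1ed9ba5 110)) .nil))),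
    .cons 19 (.negSucc (Nat.sub (Nat.shiftLeft 0x17112618f42306edf2039 90) 1)) (.cons 20 (.ofNat (Nat.shiftLeft 0xf99607ce7f975d841a023 84)) (.cons 21 (.negSucc (Nat.sub (Nat.shiftLeft 0x7ae887f4bca87bef2042b 84) 1)) (.cons 22 (.ofNat (Nat.shiftLeft 0xf93c04f020a794fb56b9 85)) .nil))),
    .cons 19 (.ofNat (Nat.shiftLeft 0x70a4dcda2181c9e7758a6e15 75)) (.cons 20 (.negSucc (Nat.sub (Nat.shiftLeft 0xbf7492f394da0b0351d5a05d7 69) 1)) (.cons 21 (.ofNat (Nat.shiftLeft 0x4b3fb966ae028a8d18449ffbf 69)) (.cons 22 (.ofNat (Nat.shiftLeft 0x13d98f3e6442cda13d3e7556b 70)) .nil))),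
    .cons 19 (.ofNat (Nat.shiftLeft 0xe5a5eaecc71eb071ecc34761e60e7 54)) (.cons 20 (.ofNat (Nat.shiftLeft 0xe01737bc04d87d19f124ffb3707dc3 48)) (.cons 21 (.ofNat (Nat.shiftLeft 0x7cb38b903b52a9d409ffed8d5def35 48)) (.cons 22 (.ofNat (Nat.shiftLeft 0x10d920f7a6834b74eb868b26360599 49)) .nil))),
    .cons 19 (.ofNat (Nat.shiftLeft 0x91f584b3eec566525800c3ca26ddf32d 39)) (.cons 20 (.negSucc (Nat.sub (Nat.shiftLeft 0xed9f306f5be565b64f7c43522a3ae3ba5f 33) 1)) (.cons 21 (.ofNat (Nat.shiftLeft 0x305e16beba41041bb74d95d7f099440307 33)) (.cons 22 (.ofNat (Nat.shiftLeft 0x299798fd88385ec6eba9ada226cce95453 34)) .nil))),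
    .cons 19 (.ofNat (Nat.shiftLeft 0x5686994ae26111e06686e44c76d7b71eb07 29)) (.cons 20 (.ofNat (Nat.shiftLeft 0x899a84ec1d2e9e5eab90b545b74af19a84863 23)) (.cons 21 (.negSucc (Nat.sub (Nat.shiftLeft 0x39da9834e6e500c3878efad0669f48f94826b 23) 1)) (.cons 22 (.ofNat (Nat.shiftLeft 0xa97e385ef0fafa9774772f3c48e12fdc2b79 24)) .nil))),
    .cons 23 (.ofNat (Nat.shiftLeft 0x102e67 145)) .nil,
    .cons 23 (.negSucc (Nat.sub (Nat.shiftLeft 0x14b1b3580bb 127) 1)) .nil,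
    .cons 23 (.ofNat (Nat.shiftLeft 0x82b534b2c59f173 108)) .nil,
    .cons 23 (.negSucc (Nat.sub (Nat.shiftLeft 0x2be7d8e629231148db 98) 1)) .nil,
    .nil],
   [.cons 0 (.negSucc (Nat.sub (Nat.shiftLeft 0xb9 160) 1)) .nil,
    .cons 1 (.ofNat (Nat.shiftLeft 0x2538af 148)) (.cons 2 (.negSucc (Nat.sub (Nat.shiftLeft 0x8ce85 147) 1)) (.cons 3 (.ofNat (Nat.shiftLeft 0x54eff 146)) (.cons 4 (.ofNat (Nat.shiftLeft 0x7db 148)) .nil))),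
    .cons 1 (.ofNat (Nat.shiftLeft 0x2b610e3d3329 125)) (.cons 2 (.negSucc (Nat.sub (Nat.shiftLeft 0x224ec6512bc3 124) 1)) (.cons 3 (.ofNat (Nat.shiftLeft 0x58d56b4f159 123)) (.cons 4 (.ofNat (Nat.shiftLeft 0x2ac3ba54cdd 125)) .nil))),
    .cons 1 (.ofNat (Nat.shiftLeft 0x10b09abe51473d09 110)) (.cons 2 (.ofNat (Nat.shiftLeft 0x7bd8f733b20879d 109)) (.cons 3 (.negSucc (Nat.sub (Nat.shiftLeft 0x931ae34f34e7ac7 108) 1)) (.cons 4 (.ofNat (Nat.shiftLeft 0xd6603260364c3d 110)) .nil))),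
    .cons 1 (.ofNat (Nat.shiftLeft 0x2da606f5647f9f9d905 96)) (.cons 2 (.negSucc (Nat.sub (Nat.shiftLeft 0x3109bcaaf2fa5e6e837 95) 1)) (.cons 3 (.negSucc (Nat.sub (Nat.shiftLeft 0x1012e3360d4f3e9a98b 94) 1)) (.cons 4 (.negSucc (Nat.sub (Nat.shiftLeft 0x4a2891f607d9514217 96) 1)) .nil))),
    .cons 5 (.ofNat (Nat.shiftLeft 0x1f4ccf81 141)) (.cons 6 (.negSucc (Nat.sub (Nat.shiftLeft 0x89e0379 140) 1)) (.cons 7 (.ofNat (Nat.shiftLeft 0x419d1 144)) (.cons 8 (.ofNat (Nat.shiftLeft 0x293feb 140)) (.cons 9 (.negSucc (Nat.sub (Nat.shiftLeft 0xb943 140) 1)) (.cons 10 (.ofNat (Nat.shiftLeft 0x3dc1 140)) (.cons 11 (.ofNat (Nat.shiftLeft 0xb943 140)) .nil)))))),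
    .cons 5 (.ofNat (Nat.shiftLeft 0x660590413e9a19e7 108)) (.cons 6 (.ofNat (Nat.shiftLeft 0x112c59f4985ee551 107)) (.cons 7 (.negSucc (Nat.sub (Nat.shiftLeft 0x1cc04cf42ebefe9 111) 1)) (.cons 8 (.ofNat (Nat.shiftLeft 0x2003c475751568d 107)) (.cons 9 (.ofNat (Nat.shiftLeft 0x1d6cd392265df0b 107)) (.cons 10 (.ofNat (Nat.shiftLeft 0x1badec4f488b5a7 107)) (.cons 11 (.negSucc (Nat.sub (Nat.shiftLeft 0x46eea92265df0b 107) 1)) .nil)))))),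
    .cons 5 (.negSucc (Nat.sub (Nat.shiftLeft 0xa2dcd25c742d14a4820d7 85) 1)) (.cons 6 (.negSucc (Nat.sub (Nat.shiftLeft 0x457f28400ad956254c15e1 84) 1)) (.cons 7 (.negSucc (Nat.sub (Nat.shiftLeft 0x5c8d3aaaeb3ada4b2207 88) 1)) (.cons 8 (.negSucc (Nat.sub (Nat.shiftLeft 0x70be5176bea2f6e20ecdd 84) 1)) (.cons 9 (.ofNat (Nat.shiftLeft 0x4fad865dc7e3fb594c9c5 84)) (.cons 10 (.negSucc (Nat.sub (Nat.shiftLeft 0x1a1ae71f9f417e7319897 84) 1)) (.cons 11 (.ofNat (Nat.shiftLeft 0x1fbb42be6c2304a6b363b 84)) .nil)))))),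
    .cons 5 (.negSucc (Nat.sub (Nat.shiftLeft 0x272a60f7d8c057f6c89797339d 68) 1)) (.cons 6 (.ofNat (Nat.shiftLeft 0x4f730c70d2b8975d869f0c86b5 67)) (.cons 7 (.negSucc (Nat.sub (Nat.shiftLeft 0x43bf9e9918f8a4b6496c63ead 71) 1)) (.cons 8 (.ofNat (Nat.shiftLeft 0xfb64aabf842991be9deae5c61 67)) (.cons 9 (.ofNat (Nat.shiftLeft 0x1f9c574069fa7ef55b8b99297 67)) (.cons 10 (.ofNat (Nat.shiftLeft 0x10e1d5dd099af12070c26ccf23 67)) (.cons 11 (.ofNat (Nat.shiftLeft 0x674314259ceac5b7a47466d69 67)) .nil)))))),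
    .cons 5 (.ofNat (Nat.shiftLeft 0xd052da83f388464a62d143c2b8f 52)) (.cons 6 (.negSucc (Nat.sub (Nat.shiftLeft 0x4ee12b1da19ac0b43b9e38b92e1f17 51) 1)) (.cons 7 (.ofNat (Nat.shiftLeft 0x947261e880b4aa72911d28010763f 55)) (.cons 8 (.negSucc (Nat.sub (Nat.shiftLeft 0x2152650d4e24d6d63471d095f1003b 51) 1)) (.cons 9 (.negSucc (Nat.sub (Nat.shiftLeft 0x8e39d60228a9f24016d323c3f23ed 51) 1)) (.cons 10 (.ofNat (Nat.shiftLeft 0x13db00364c11962ce33d3696a614f 51)) (.cons 11 (.negSucc (Nat.sub (Nat.shiftLeft 0x2aa7ba276cc1fa22016bdc3c0dc13 51) 1)) .nil)))))),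
    .cons 5 (.negSucc (Nat.sub (Nat.shiftLeft 0x9fb5bc844b08de3c68635d3cf3181e1f1 34) 1)) (.cons 6 (.ofNat (Nat.shiftLeft 0x29cbae9b9c7e4df354c74a7684f92678269 33)) (.cons 7 (.ofNat (Nat.shiftLeft 0x1e79232c089f33ae75187ef958626b30bf 37)) (.cons 8 (.ofNat (Nat.shiftLeft 0xb3dcbfb84292d36f6cbfd4dc503fdbdb45 33)) (.cons 9 (.negSucc (Nat.sub (Nat.shiftLeft 0x3484cac0eecc08702047e1c8643703db6d 33) 1)) (.cons 10 (.negSucc (Nat.sub (Nat.shiftLeft 0x11e29711fee52fbc1a049b29c698540c31 33) 1)) (.cons 11 (.negSucc (Nat.sub (Nat.shiftLeft 0x1c521cc4d3211b6479e79b638bc8fc2493 33) 1)) .nil)))))),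
    .cons 5 (.ofNat (Nat.shiftLeft 0x549f7a6f3ad2e8f7ecb573c12c2643df09e5 24)) (.cons 6 (.ofNat (Nat.shiftLeft 0x293a8c928fcedc51692e3c196c1b2a160d543 23)) (.cons 7 (.negSucc (Nat.sub (Nat.shiftLeft 0x431048fdc4168d3b868936d103b80cdae48b 27) 1)) (.cons 8 (.negSucc (Nat.sub (Nat.shiftLeft 0x5322d2a3d3890d3f6f85f483fc2eee3306449 23) 1)) (.cons 9 (.ofNat (Nat.shiftLeft 0x13fe24de4b25ee41cd1e5d75d281627ea6491 23)) (.cons 10 (.negSucc (Nat.sub (Nat.shiftLeft 0xa07b1f3a65f084eba07665ef5aff62a376db 23) 1)) (.cons 11 (.ofNat (Nat.shiftLeft 0x14a734a9f7eba751c32f31489c099d8159b6f 23)) .nil)))))),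
    .cons 12 (.ofNat (Nat.shiftLeft 0x2b15d83f 141)) (.cons 13 (.negSucc (Nat.sub (Nat.shiftLeft 0x30c03675 138) 1)) (.cons 14 (.ofNat (Nat.shiftLeft 0x2a8abe3 138)) (.cons 15 (.ofNat (Nat.shiftLeft 0x101cd4f 138)) (.cons 16 (.negSucc (Nat.sub (Nat.shiftLeft 0xcfb9b 138) 1)) (.cons 18 (.negSucc (Nat.sub (Nat.shiftLeft 0x94601 138) 1)) .nil))))),
    .cons 12 (.ofNat (Nat.shiftLeft 0x57a8a3ce1c06f53 112)) (.cons 13 (.ofNat (Nat.shiftLeft 0x3d24e65b4dab6af 109)) (.cons 14 (.negSucc (Nat.sub (Nat.shiftLeft 0x6bd4b8b9be0b5d9 109) 1)) (.cons 15 (.ofNat (Nat.shiftLeft 0x1388c6a36a97f23 109)) (.cons 16 (.negSucc (Nat.sub (Nat.shiftLeft 0x3967e9cb803f7f 109) 1)) (.cons 17 (.negSucc (Nat.sub (Nat.shiftLeft 0x43580f 142) 1)) (.cons 18 (.ofNat (Nat.shiftLeft 0x1417039336ae13 109)) .nil)))))),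
    .cons 12 (.ofNat (Nat.shiftLeft 0x1e6af05f50c7cf1c2cc1f 87)) (.cons 13 (.ofNat (Nat.shiftLeft 0x465ab4cdc087595628d6eb 84)) (.cons 14 (.ofNat (Nat.shiftLeft 0x93b9cc2d1739023e4e443 84)) (.cons 15 (.ofNat (Nat.shiftLeft 0x896f2dcff794a5e82a32f 84)) (.cons 16 (.ofNat (Nat.shiftLeft 0x7689cc3860c86064a7505 84)) (.cons 17 (.negSucc (Nat.sub (Nat.shiftLeft 0xca4a0216dcb 117) 1)) (.cons 18 (.negSucc (Nat.sub (Nat.shiftLeft 0x6182b69a1ddb25d1a21 84) 1)) .nil)))))),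
    .cons 12 (.negSucc (Nat.sub (Nat.shiftLeft 0x1f1d15f5622a00d95ca546ee3 72) 1)) (.cons 13 (.ofNat (Nat.shiftLeft 0xd72a3f96cc6c1489aa3e16881 69)) (.cons 14 (.negSucc (Nat.sub (Nat.shiftLeft 0xfcc8074a0a0a4c59fed8bd177 69) 1)) (.cons 15 (.ofNat (Nat.shiftLeft 0x4be493631d56690b0fb218a4d 69)) (.cons 16 (.negSucc (Nat.sub (Nat.shiftLeft 0x18b635143b28d92bf66e438b1 69) 1)) (.cons 17 (.negSucc (Nat.sub (Nat.shiftLeft 0x1bc9bdf9f80568521 102) 1)) (.cons 18 (.negSucc (Nat.sub (Nat.shiftLeft 0x2c026ef144ae8fc53497e71a3 69) 1)) .nil)))))),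
    .cons 12 (.negSucc (Nat.sub (Nat.shiftLeft 0xa11859d12023cb73ea354da6adc1 51) 1)) (.cons 13 (.ofNat (Nat.shiftLeft 0x4bfea4288bddcf55a74b0dacb530b8b 48)) (.cons 14 (.ofNat (Nat.shiftLeft 0x4457c9b82cecbd7d375473112d9fde3 48)) (.cons 15 (.ofNat (Nat.shiftLeft 0x108958ec52e55cabfdac93a6ae3a74f 48)) (.cons 16 (.ofNat (Nat.shiftLeft 0xac101af89c52c3cf9139b903d36265 48)) (.cons 17 (.ofNat (Nat.shiftLeft 0xd776741f6458e4a43f995 81)) (.cons 18 (.ofNat (Nat.shiftLeft 0x3f434aa8dbb1ab273ee33d9504b3ff 48)) .nil)))))),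
    .cons 12 (.ofNat (Nat.shiftLeft 0x240e9c046f1432c93f30a739f5a8cb3f5 36)) (.cons 13 (.ofNat (Nat.shiftLeft 0x1d1a5e61030342be7b2cd1e168e605dd339 33)) (.cons 14 (.negSucc (Nat.sub (Nat.shiftLeft 0x1ed5168fa8aaf8712f7c63a8593962aa0ff 33) 1)) (.cons 15 (.ofNat (Nat.shiftLeft 0xc3c4ba224c08defde6f237496f3f1a67a5 33)) (.cons 16 (.negSucc (Nat.sub (Nat.shiftLeft 0x4ce602b026fdc91452a92c0a107734e5e9 33) 1)) (.cons 17 (.ofNat (Nat.shiftLeft 0x4811f2c289116fdcca307bd27 66)) (.cons 18 (.negSucc (Nat.sub (Nat.shiftLeft 0x301e3d06c541879c56a7d50f265525c8cb 33) 1)) .nil)))))),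
    .cons 12 (.negSucc (Nat.sub (Nat.shiftLeft 0x1389923072eddfa855f021e17a38afe1f6a1 26) 1)) (.cons 13 (.negSucc (Nat.sub (Nat.shiftLeft 0x27e4e6a74a6f5ca9cfc10b9b8a1aea9ef1ad5 23) 1)) (.cons 14 (.ofNat (Nat.shiftLeft 0x3354370213639900426a16948b873cbc9e483 23)) (.cons 15 (.ofNat (Nat.shiftLeft 0x6794576f37616fab3ee56fc430ec80126cc6f 23)) (.cons 16 (.ofNat (Nat.shiftLeft 0x3155aee48f4f7e2e6937db3778fa1c501bac5 23)) (.cons 17 (.negSucc (Nat.sub (Nat.shiftLeft 0x1179a21c06e9cfca359325ad640b 56) 1)) (.cons 18 (.ofNat (Nat.shiftLeft 0xe7b2de3d033cc28dbf66e44e876cfa6ef31f 23)) .nil)))))),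
    .cons 19 (.ofNat (Nat.shiftLeft 0x8060a0b 142)) (.cons 20 (.negSucc (Nat.sub (Nat.shiftLeft 0x10c3775 142) 1)) (.cons 21 (.negSucc (Nat.sub (Nat.shiftLeft 0x58c073 142) 1)) (.cons 22 (.negSucc (Nat.sub (Nat.shiftLeft 0x122483 142) 1)) .nil))),
    .cons 19 (.negSucc (Nat.sub (Nat.shiftLeft 0x46b3bfd5320f 124) 1)) (.cons 20 (.ofNat (Nat.shiftLeft 0x2084d095e171 124)) (.cons 21 (.negSucc (Nat.sub (Nat.shiftLeft 0x1459a4726a9 124) 1)) (.cons 22 (.ofNat (Nat.shiftLeft 0x4a45aa0d627 124)) .nil))),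
    .cons 19 (.ofNat (Nat.shiftLeft 0x2f6dff2607deea9e7 105)) (.cons 20 (.negSucc (Nat.sub (Nat.shiftLeft 0x44a3f1859f283599 105) 1)) (.cons 21 (.ofNat (Nat.shiftLeft 0x563bcc342cbd5791 105)) (.cons 22 (.ofNat (Nat.shiftLeft 0xdab45ee0e45d241 105)) .nil))),
    .cons 19 (.negSucc (Nat.sub (Nat.shiftLeft 0x10762764ca3f2f6f1af 95) 1)) (.cons 20 (.ofNat (Nat.shiftLeft 0x495bdc6d30371e071d1 95)) (.cons 21 (.ofNat (Nat.shiftLeft 0x9017c466d2243803f7 95)) (.cons 22 (.negSucc (Nat.sub (Nat.shiftLeft 0xec52da892a37b65139 95) 1)) .nil))),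
    .cons 23 (.ofNat (Nat.shiftLeft 0x1f7 159)) .nil],
   [.nil,
    .cons 0 (.negSucc (Nat.sub (Nat.shiftLeft 0xd419 149) 1)) .nil,
    .cons 0 (.negSucc (Nat.sub (Nat.shiftLeft 0x27b526f1b4f 126) 1)) .nil,
    .cons 0 (.ofNat (Nat.shiftLeft 0xb94c7d245f591 111)) .nil,
    .cons 0 (.negSucc (Nat.sub (Nat.shiftLeft 0x307ec96a2cfc6e0793 97) 1)) .nil,
    .cons 1 (.ofNat (Nat.shiftLeft 0xd4799cd 140)) (.cons 2 (.ofNat (Nat.shiftLeft 0x2375d3 141)) (.cons 3 (.negSucc (Nat.sub (Nat.shiftLeft 0x3dc1 141) 1)) (.cons 4 (.ofNat (Nat.shiftLeft 0x134c5 140)) .nil))),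
    .cons 1 (.ofNat (Nat.shiftLeft 0x4b38f311c9f81a7b 107)) (.cons 2 (.negSucc (Nat.sub (Nat.shiftLeft 0x4386297957fb11b 108) 1)) (.cons 3 (.negSucc (Nat.sub (Nat.shiftLeft 0xdf5584f488b5a7 108) 1)) (.cons 4 (.negSucc (Nat.sub (Nat.shiftLeft 0x142134f395473bd 107) 1)) .nil))),
    .cons 1 (.ofNat (Nat.shiftLeft 0x59340f578621159ab2cf55 84)) (.cons 2 (.negSucc (Nat.sub (Nat.shiftLeft 0x64a4fa0a01909c17a9eb5 85) 1)) (.cons 3 (.negSucc (Nat.sub (Nat.shiftLeft 0x1da6f094a892818ce6769 85) 1)) (.cons 4 (.ofNat (Nat.shiftLeft 0x42abab89587307c08050d 84)) .nil))),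
    .cons 1 (.ofNat (Nat.shiftLeft 0x8153a61724bb78dd27400709c7 67)) (.cons 2 (.negSucc (Nat.sub (Nat.shiftLeft 0x1ccc45f673b172f9b05b850ee7 68) 1)) (.cons 3 (.negSucc (Nat.sub (Nat.shiftLeft 0x88599c54a33b3ca30c26ccf23 68) 1)) (.cons 4 (.ofNat (Nat.shiftLeft 0x13e97d3f20358b6bcc200baf 67)) .nil))),
    .cons 1 (.ofNat (Nat.shiftLeft 0x1850ee82f299545f35fcaa354eea03 51)) (.cons 2 (.ofNat (Nat.shiftLeft 0x1a92dfe0b2415fee1cec358815e05d 52)) (.cons 3 (.ofNat (Nat.shiftLeft 0x25d49e93ccda732ed336c96959eb1 52)) (.cons 4 (.ofNat (Nat.shiftLeft 0x8ac4679867ac3c53afa390f13e68b 51)) .nil))),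
    .cons 1 (.ofNat (Nat.shiftLeft 0x1639fd1ad94763174b0e2e93178351cda83 33)) (.cons 2 (.ofNat (Nat.shiftLeft 0x324afce35169e1a3ff18d424c687bcffdd 34)) (.cons 3 (.negSucc (Nat.sub (Nat.shiftLeft 0x1afdf3fc5689c6d9c9c7a98ef967abf3cf 34) 1)) (.cons 4 (.negSucc (Nat.sub (Nat.shiftLeft 0xd7b2cc863f9a90a1a0a6dd5c8f9a43cf5 33) 1)) .nil))),
    .cons 1 (.negSucc (Nat.sub (Nat.shiftLeft 0x17adde051c2958f441824ad08db1120d6161f 23) 1)) (.cons 2 (.negSucc (Nat.sub (Nat.shiftLeft 0x3f99f46954c53aadbdb5afd79b0b5a3dd3fc1 24) 1)) (.cons 3 (.negSucc (Nat.sub (Nat.shiftLeft 0x8f7b88c7ba315f9e311ce3d825409d5c8925 24) 1)) (.cons 4 (.ofNat (Nat.shiftLeft 0x194f93f5b577ad86bebfcb906750b12ceadb9 23)) .nil))),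
    .cons 5 (.ofNat (Nat.shiftLeft 0x1709bc829 138)) (.cons 6 (.ofNat (Nat.shiftLeft 0x25378b9d 138)) (.cons 7 (.ofNat (Nat.shiftLeft 0x1dca7cd 138)) (.cons 8 (.negSucc (Nat.sub (Nat.shiftLeft 0x624c71 139) 1)) (.cons 9 (.ofNat (Nat.shiftLeft 0x1dacd 138)) (.cons 10 (.ofNat (Nat.shiftLeft 0x1dacd 139)) (.cons 11 (.ofNat (Nat.shiftLeft 0x1dacd 138)) .nil)))))),
    .cons 5 (.negSucc (Nat.sub (Nat.shiftLeft 0x28968f8b39d1b70b 109) 1)) (.cons 6 (.negSucc (Nat.sub (Nat.shiftLeft 0x1179dfc435a568a7 109) 1)) (.cons 7 (.ofNat (Nat.shiftLeft 0x4aa27930ad23fc9 109)) (.cons 8 (.negSucc (Nat.sub (Nat.shiftLeft 0xf7a3fc4def979d 110) 1)) (.cons 9 (.ofNat (Nat.shiftLeft 0xe5cbaf5b76c9 109)) (.cons 10 (.ofNat (Nat.shiftLeft 0x318ff0af5b76c9 110)) (.cons 11 (.negSucc (Nat.sub (Nat.shiftLeft 0x8ef0050a48937 109) 1)) .nil)))))),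
    .cons 5 (.ofNat (Nat.shiftLeft 0xe82e28b6a534671630149 84)) (.cons 6 (.negSucc (Nat.sub (Nat.shiftLeft 0x2b9e5b9c3e4bc32d27bcc3 84) 1)) (.cons 7 (.ofNat (Nat.shiftLeft 0x454175749ee92cfe4a56d 84)) (.cons 8 (.negSucc (Nat.sub (Nat.shiftLeft 0x1ccf330cdddbf62a7ae91 85) 1)) (.cons 9 (.ofNat (Nat.shiftLeft 0x3c1eff589ecf723ac386d 84)) (.cons 10 (.negSucc (Nat.sub (Nat.shiftLeft 0x17c21db2f33cfdc53c793 85) 1)) (.cons 11 (.negSucc (Nat.sub (Nat.shiftLeft 0x1502c642c7904dc53c793 84) 1)) .nil)))))),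
    .cons 5 (.ofNat (Nat.shiftLeft 0x101a8f8476f2d040b5fe88291b 69)) (.cons 6 (.negSucc (Nat.sub (Nat.shiftLeft 0x2b1804075f0aec3b3a0c585809 69) 1)) (.cons 7 (.ofNat (Nat.shiftLeft 0xab47201e333d36b67c1966a87 69)) (.cons 8 (.negSucc (Nat.sub (Nat.shiftLeft 0x67479e31fc58fbde70b091af3 70) 1)) (.cons 9 (.ofNat (Nat.shiftLeft 0x3e86c393c7d7114f10eb2e387 69)) (.cons 10 (.negSucc (Nat.sub (Nat.shiftLeft 0x12a9acf12eed5c23f14d1c79 70) 1)) (.cons 11 (.negSucc (Nat.sub (Nat.shiftLeft 0x13fc5f84045e0b002f14d1c79 69) 1)) .nil)))))),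
    .cons 5 (.negSucc (Nat.sub (Nat.shiftLeft 0x17d6f45a369352790538ba353541d7 48) 1)) (.cons 6 (.ofNat (Nat.shiftLeft 0x13addbf5fb1fa7290c45bf5bf53399d 48)) (.cons 7 (.negSucc (Nat.sub (Nat.shiftLeft 0x1fd7ae803726621091fef741ebe8a33 48) 1)) (.cons 8 (.ofNat (Nat.shiftLeft 0xb0282eca215de33cbb1ef4f8650d8f 49)) (.cons 9 (.ofNat (Nat.shiftLeft 0x360db277a55cc7e93339cb4898a8cd 48)) (.cons 10 (.negSucc (Nat.sub (Nat.shiftLeft 0x44597abcf7f9d285b1481bb7675733 49) 1)) (.cons 11 (.ofNat (Nat.shiftLeft 0x71f4e75b0d7a3ed806b4f4898a8cd 48)) .nil)))))),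
    .cons 5 (.negSucc (Nat.sub (Nat.shiftLeft 0xe369b1967a24d29cb9619c46c5efe117d 33) 1)) (.cons 6 (.ofNat (Nat.shiftLeft 0x21e742fa2911ce5e1ae709d239bb8a3a37f 33)) (.cons 7 (.ofNat (Nat.shiftLeft 0x19ca30df2a7e596d6ee151bcfd118961d8f 33)) (.cons 8 (.negSucc (Nat.sub (Nat.shiftLeft 0xc6f387b180e07baa8077403c28690839b 34) 1)) (.cons 9 (.negSucc (Nat.sub (Nat.shiftLeft 0x5e4da16c71f903bc4530c7c067eef87171 33) 1)) (.cons 10 (.negSucc (Nat.sub (Nat.shiftLeft 0x54e5cf1866d68969475c5de94eef87171 34) 1)) (.cons 11 (.negSucc (Nat.sub (Nat.shiftLeft 0x453b49ca45a7397cb3f496cbbeef87171 33) 1)) .nil)))))),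
    .cons 5 (.negSucc (Nat.sub (Nat.shiftLeft 0x290618f9621955af8745c1359d45fe999df7 23) 1)) (.cons 6 (.ofNat (Nat.shiftLeft 0x836d7b08c2d9899106a13d2fae588a53e2fd 23)) (.cons 7 (.ofNat (Nat.shiftLeft 0x88c4ee70d12873918d70cc0996be15152c92d 23)) (.cons 8 (.negSucc (Nat.sub (Nat.shiftLeft 0x2312f381c4c11bab390c2d190331b07ce5551 24) 1)) (.cons 9 (.ofNat (Nat.shiftLeft 0x11cf03841a96b62e7002d842d88ce9ab69c2d 23)) (.cons 10 (.negSucc (Nat.sub (Nat.shiftLeft 0x860e79e527d4da7cb08138a76338654963d3 24) 1)) (.cons 11 (.negSucc (Nat.sub (Nat.shiftLeft 0x127100291da027146fd632c4cf22d654963d3 23) 1)) .nil)))))),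
    .cons 12 (.ofNat (Nat.shiftLeft 0x1d8d1d31 142)) (.cons 13 (.negSucc (Nat.sub (Nat.shiftLeft 0x84baaed 142) 1)) (.cons 14 (.negSucc (Nat.sub (Nat.shiftLeft 0xfd81a3 144) 1)) (.cons 15 (.negSucc (Nat.sub (Nat.shiftLeft 0x122483 145) 1)) (.cons 16 (.ofNat (Nat.shiftLeft 0xc422f 144)) (.cons 17 (.ofNat (Nat.shiftLeft 0xf3359 142)) (.cons 18 (.ofNat (Nat.shiftLeft 0x469bf 142)) .nil)))))),
    .cons 12 (.ofNat (Nat.shiftLeft 0x2f24d96c0e03 124)) (.cons 13 (.ofNat (Nat.shiftLeft 0x463d8b378a89 124)) (.cons 14 (.ofNat (Nat.shiftLeft 0xc19b4f0e0c7 126)) (.cons 15 (.ofNat (Nat.shiftLeft 0x30c72a0d627 127)) (.cons 16 (.ofNat (Nat.shiftLeft 0x2057ba12a1d 126)) (.cons 17 (.negSucc (Nat.sub (Nat.shiftLeft 0x1be5b7fd605 124) 1)) (.cons 18 (.ofNat (Nat.shiftLeft 0x5f0814e7fcd 124)) .nil)))))),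
    .cons 12 (.negSucc (Nat.sub (Nat.shiftLeft 0x183a13f2cb33c5fb 105) 1)) (.cons 13 (.ofNat (Nat.shiftLeft 0x1991e3229a338f98f 105)) (.cons 14 (.ofNat (Nat.shiftLeft 0x79612320e9298ea1 107)) (.cons 15 (.ofNat (Nat.shiftLeft 0x1b5fcf063645d241 108)) (.cons 16 (.negSucc (Nat.sub (Nat.shiftLeft 0x5926ed036668725 107) 1)) (.cons 17 (.negSucc (Nat.sub (Nat.shiftLeft 0x28f3394d56562cb3 105) 1)) (.cons 18 (.ofNat (Nat.shiftLeft 0x2f7d8f896c1887ab 105)) .nil)))))),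
    .cons 12 (.negSucc (Nat.sub (Nat.shiftLeft 0xf242b1f3591aa07edd 95) 1)) (.cons 13 (.negSucc (Nat.sub (Nat.shiftLeft 0xa47f9ff0231a3b6ec17 95) 1)) (.cons 14 (.ofNat (Nat.shiftLeft 0x2c1937eb2fedab97567 97)) (.cons 15 (.negSucc (Nat.sub (Nat.shiftLeft 0x79b1e42291fb65139 98) 1)) (.cons 16 (.ofNat (Nat.shiftLeft 0x71f0498a73f5f82fd 97)) (.cons 17 (.ofNat (Nat.shiftLeft 0xce15d3d0d94f8aea1b 95)) (.cons 18 (.ofNat (Nat.shiftLeft 0x16b0f338352dc411aad 95)) .nil)))))),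
    .cons 19 (.ofNat (Nat.shiftLeft 0x783 160)) (.cons 20 (.negSucc (Nat.sub (Nat.shiftLeft 0x517 159) 1)) (.cons 21 (.negSucc (Nat.sub (Nat.shiftLeft 0x6d 159) 1)) (.cons 22 (.negSucc (Nat.sub (Nat.shiftLeft 0x97 159) 1)) .nil)))]⟩

theorem iso0 : isoChk 1 3 (4 ^ 171) A0 = true := by decide +kernel

theorem iso1 : isoChk 3 9 (4 ^ 171) A1 = true := by decide +kernel

theorem iso2 : isoChk 9 27 (4 ^ 171) A2 = true := by decide +kernel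

theorem iso3 : isoChk 27 24 (4 ^ 171) A3 = true := by decide +kernel

theorem iso4 : isoChk 24 24 (4 ^ 171) A4 = true := by decide +kernel

theorem iso5 : isoChk 24 24 (4 ^ 171) A5 = true := by decide +kernel

theorem iso6 : isoChk 24 24 (4 ^ 171) A6 = true := by decide +kernel


end Crest.Agent.R347.Dat
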