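import Crest.Agent.R347.CDefs

/-! Isometric tensors. -/

set_option autoImplicit false
set_option maxRecDepth 100000
set_option Elab.async false

namespace Crest.Agent.R347.Dat

open Crest.Agent.R347 Crest.Agent.R347.K

noncomputable def A7 : Tn :=
  ⟨[.cons 1 (.ofNat (Nat.shiftLeft 0xf47 159)) (.cons 2 (.ofNat (Nat.shiftLeft 0x45d 159)) (.cons 3 (.ofNat (Nat.shiftLeft 0xb 160)) (.cons 4 (.ofNat (Nat.shiftLeft 0xc9 159)) .nil))),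
    .cons 5 (.ofNat (Nat.shiftLeft 0x771c1c1 144)) (.cons 6 (.ofNat (Nat.shiftLeft 0x3dc9f99 143)) (.cons 7 (.ofNat (Nat.shiftLeft 0x1ef6ac1 143)) (.cons 8 (.ofNat (Nat.shiftLeft 0x5b9dd5 143)) (.cons 9 (.ofNat (Nat.shiftLeft 0x1b827 145)) (.cons 10 (.ofNat (Nat.shiftLeft 0x117067 143)) (.cons 11 (.negSucc (Nat.sub (Nat.shiftLeft 0x2b3ab 143) 1)) .nil)))))),
    .cons 5 (.negSucc (Nat.sub (Nat.shiftLeft 0x16d8990406a1 125) 1)) (.cons 6 (.ofNat (Nat.shiftLeft 0x480e93fc5e87 124)) (.cons 7 (.ofNat (Nat.shiftLeft 0x2b7b876e705f 124)) (.cons 8 (.ofNat (Nat.shiftLeft 0x175249e6dbcb 124)) (.cons 9 (.negSucc (Nat.sub (Nat.shiftLeft 0x1906f187e47 126) 1)) (.cons 10 (.negSucc (Nat.sub (Nat.shiftLeft 0x1e8cbf86e87 124) 1)) (.cons 11 (.ofNat (Nat.shiftLeft 0x5aadf267d4b 124)) .nil)))))),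
    .cons 5 (.ofNat (Nat.shiftLeft 0xb5a51c68576b7f5 105)) (.cons 6 (.ofNat (Nat.shiftLeft 0x3b9d37e330ae26dad 104)) (.cons 7 (.ofNat (Nat.shiftLeft 0x369ac78849e8db4f5 104)) (.cons 8 (.ofNat (Nat.shiftLeft 0x1da64d9eaede46419 104)) (.cons 9 (.negSucc (Nat.sub (Nat.shiftLeft 0x7834d15732902ed 106) 1)) (.cons 10 (.ofNat (Nat.shiftLeft 0x6a25deea0516e253 104)) (.cons 11 (.ofNat (Nat.shiftLeft 0x3102fa3994650499 104)) .nil)))))),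
    .cons 5 (.ofNat (Nat.shiftLeft 0x10639b675f1a323d25 98)) (.cons 6 (.negSucc (Nat.sub (Nat.shiftLeft 0x258ca80abc49f941ca3 97) 1)) (.cons 7 (.ofNat (Nat.shiftLeft 0x306a572f3bbeb71ea25 97)) (.cons 8 (.ofNat (Nat.shiftLeft 0x6d3dbcd0f33320109 97)) (.cons 9 (.ofNat (Nat.shiftLeft 0x112cfd72406579bb63 99)) (.cons 10 (.negSucc (Nat.sub (Nat.shiftLeft 0x189f9255e16ebf935d 97) 1)) (.cons 11 (.ofNat (Nat.shiftLeft 0x2d951f391a2489d989 97)) .nil)))))),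
    .cons 12 (.ofNat (Nat.shiftLeft 0x5e8d1f089 136)) (.cons 13 (.negSucc (Nat.sub (Nat.shiftLeft 0x974b4073 136) 1)) (.cons 14 (.ofNat (Nat.shiftLeft 0x7c3d7ff 136)) (.cons 15 (.ofNat (Nat.shiftLeft 0x3a0a7ab 136)) (.cons 16 (.negSucc (Nat.sub (Nat.shiftLeft 0xb3049 136) 1)) (.cons 17 (.negSucc (Nat.sub (Nat.shiftLeft 0xb3049 136) 1)) (.cons 18 (.negSucc (Nat.sub (Nat.shiftLeft 0x3bac3 137) 1)) .nil)))))),
    .cons 12 (.ofNat (Nat.shiftLeft 0x272267bbf4f37f67 109)) (.cons 13 (.negSucc (Nat.sub (Nat.shiftLeft 0x11ace95a12326ddd 109) 1)) (.cons 14 (.negSucc (Nat.sub (Nat.shiftLeft 0x53ba71633eaec6f 109) 1)) (.cons 15 (.negSucc (Nat.sub (Nat.shiftLeft 0x234de202a8170db 109) 1)) (.cons 16 (.ofNat (Nat.shiftLeft 0x243fcd4d9edc59 109)) (.cons 17 (.ofNat (Nat.shiftLeft 0x67186d4d9edc59 109)) (.cons 18 (.ofNat (Nat.shiftLeft 0x461f5c48a4973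 110)) .nil)))))),
    .cons 12 (.negSucc (Nat.sub (Nat.shiftLeft 0x4616056e2d475381e34e9 86) 1)) (.cons 13 (.negSucc (Nat.sub (Nat.shiftLeft 0xbff7256a8c00520a2c96d 86) 1)) (.cons 14 (.negSucc (Nat.sub (Nat.shiftLeft 0x168e094250dc6a3698e9f 86) 1)) (.cons 15 (.negSucc (Nat.sub (Nat.shiftLeft 0x14d3bcfffa15640d04acb 86) 1)) (.cons 16 (.ofNat (Nat.shiftLeft 0xaeb2532d6c4f7f3d1ca9 86)) (.cons 17 (.negSucc (Nat.sub (Nat.shiftLeft 0x9e730a44b91080c2e357 86) 1)) (.cons 18 (.negSucc (Nat.sub (Nat.shiftLeft 0x571cd98274742aeba11d 87) 1)) .nil)))))),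
    .cons 12 (.ofNat (Nat.shiftLeft 0x7b9be81a0c16e56f9558f2125d 66)) (.cons 13 (.ofNat (Nat.shiftLeft 0x14ba7b2a913329a56226aff4631 66)) (.cons 14 (.ofNat (Nat.shiftLeft 0x5affb6833ce533026636a821cb 66)) (.cons 15 (.ofNat (Nat.shiftLeft 0x767f1eeaeecfa0b6834351e867 66)) (.cons 16 (.negSucc (Nat.sub (Nat.shiftLeft 0x1defb4a9d2d1ffe4241666c51d 66) 1)) (.cons 17 (.negSucc (Nat.sub (Nat.shiftLeft 0x160eff2fd850b1b441666c51d 66) 1)) (.cons 18 (.ofNat (Nat.shiftLeft 0xb4949d1d33b2c9f52a33313a1 67)) .nil)))))),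
    .cons 12 (.negSucc (Nat.sub (Nat.shiftLeft 0x62f51c9ab8181b4e039073a176cd 52) 1)) (.cons 13 (.ofNat (Nat.shiftLeft 0x4cb4446c1207710c48daeb8fc319f 52)) (.cons 14 (.ofNat (Nat.shiftLeft 0x36ed7bb8305a9a2288baf4352b2325 52)) (.cons 15 (.ofNat (Nat.shiftLeft 0x1d14b5d1b25262b554d2f2ddc2fb49 52)) (.cons 16 (.ofNat (Nat.shiftLeft 0x33e39ed323dd429376a4dd850ed8d 52)) (.cons 17 (.negSucc (Nat.sub (Nat.shiftLeft 0x88a9f9904d3655d98289227af1273 52) 1)) (.cons 18 (.ofNat (Nat.shiftLeft 0x19b2b66087b82eb128a509d704f2f 53)) .nil)))))),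
    .cons 12 (.ofNat (Nat.shiftLeft 0x5e1080f7c1ff29003065d2e2f61791361 34)) (.cons 13 (.ofNat (Nat.shiftLeft 0x11653dce8d7041b48ab32ec68ea7162e2c5 34)) (.cons 14 (.negSucc (Nat.sub (Nat.shiftLeft 0xe83b982eab1fa4687f88f1b7560f624e19 34) 1)) (.cons 15 (.negSucc (Nat.sub (Nat.shiftLeft 0x999fb48177df7e3f8c7ec2440fffb7e4d 34) 1)) (.cons 16 (.negSucc (Nat.sub (Nat.shiftLeft 0x3432b8f37c65e1621fbf9a358090f6cd21 34) 1)) (.cons 17 (.negSucc (Nat.sub (Nat.shiftLeft 0x292de17643dd1ad69341a932090f6cd21 34) 1)) (.cons 18 (.negSucc (Nat.sub (Nat.shiftLeft 0x950cdf96387d2f8b068686166dafcef0b 35) 1)) .nil)))))),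
    .cons 12 (.negSucc (Nat.sub (Nat.shiftLeft 0x248cd669bac7216b7bcf0b7edbce18d6bdaf 24) 1)) (.cons 13 (.ofNat (Nat.shiftLeft 0x57860fbce342ebd1595d59f3485123f50f75 24)) (.cons 14 (.ofNat (Nat.shiftLeft 0x3da131ec0c5d14e955b64fac78bb2bb7f9677 24)) (.cons 15 (.ofNat (Nat.shiftLeft 0x1f12243939403b7cf0fe88aa5513c24ae6583 24)) (.cons 16 (.negSucc (Nat.sub (Nat.shiftLeft 0x4366aba8494220a0235dfb7789d2444c2011 24) 1)) (.cons 17 (.ofNat (Nat.shiftLeft 0x4e7ed862d570afacdd171969d28dbbb3dfef 24)) (.cons 18 (.ofNat (Nat.shiftLeft 0x86d18432dade6df8cb8d405c4f933e914aa5 25)) .nil)))))),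
    .cons 19 (.ofNat (Nat.shiftLeft 0x37e77d77 138)) (.cons 20 (.ofNat (Nat.shiftLeft 0x1924cd5 138)) (.cons 21 (.negSucc (Nat.sub (Nat.shiftLeft 0x1152ed 137) 1)) (.cons 22 (.negSucc (Nat.sub (Nat.shiftLeft 0x99fd9 138) 1)) .nil))),
    .cons 19 (.negSucc (Nat.sub (Nat.shiftLeft 0x98a3367b3c09e05 110) 1)) (.cons 20 (.ofNat (Nat.shiftLeft 0x14d53f144d66ea1 110)) (.cons 21 (.ofNat (Nat.shiftLeft 0x732919356154a7 109)) (.cons 22 (.negSucc (Nat.sub (Nat.shiftLeft 0x3bd5d8a9749815 110) 1)) .nil))),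
    .cons 19 (.negSucc (Nat.sub (Nat.shiftLeft 0xb483640dba52fd916753 91) 1)) (.cons 20 (.ofNat (Nat.shiftLeft 0x237d84cb68a9774563d7 91)) (.cons 21 (.ofNat (Nat.shiftLeft 0x159631c5409d5f4ddaa1 90)) (.cons 22 (.ofNat (Nat.shiftLeft 0x88ad8d310736dd5eb3d 91)) .nil))),
    .cons 19 (.ofNat (Nat.shiftLeft 0xdca5f9b20ba0dc601b9b0a925 70)) (.cons 20 (.negSucc (Nat.sub (Nat.shiftLeft 0x93ba519252293c82936473b41 70) 1)) (.cons 21 (.negSucc (Nat.sub (Nat.shiftLeft 0x50b43c75862f2bea13601d507 69) 1)) (.cons 22 (.ofNat (Nat.shiftLeft 0x2f29a27e7dc4b2f0a91b6d35 70)) .nil))),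
    .cons 19 (.ofNat (Nat.shiftLeft 0xb342c193f25cb7a969a0d2587a88b 54)) (.cons 20 (.ofNat (Nat.shiftLeft 0x84111bb8b7e9c7c2d57a8e5fddb51 54)) (.cons 21 (.negSucc (Nat.sub (Nat.shiftLeft 0x15be27991fb682d8245c8ba496689 53) 1)) (.cons 22 (.negSucc (Nat.sub (Nat.shiftLeft 0x19012f09db23d2986124677e1c85 54) 1)) .nil))),
    .cons 19 (.ofNat (Nat.shiftLeft 0x1c6ddba3cf89805bb2027fd1ffb49c42ab 36)) (.cons 20 (.negSucc (Nat.sub (Nat.shiftLeft 0x7f44d291a4e7a68cb5c4bc0b640b7544f 36) 1)) (.cons 21 (.negSucc (Nat.sub (Nat.shiftLeft 0x104f18bf4c3f07a2e8a8d925517dd35be9 35) 1)) (.cons 22 (.ofNat (Nat.shiftLeft 0x5a939c7b31d6c0f53132eb18164c3779b 36)) .nil))),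
    .cons 19 (.negSucc (Nat.sub (Nat.shiftLeft 0x3752aaeb4c8be9247c92476f6d5a625653d 30) 1)) (.cons 20 (.negSucc (Nat.sub (Nat.shiftLeft 0x112b1fb4c3f9bfdaab9e6601f37ff922c287 30) 1)) (.cons 21 (.negSucc (Nat.sub (Nat.shiftLeft 0x7a5e8779a1b911830e9a68b9ebf01853d71 29) 1)) (.cons 22 (.negSucc (Nat.sub (Nat.shiftLeft 0x461d3fa4d1454b946b9df843f0d39bbcccd 30) 1)) .nil))),
    .cons 23 (.ofNat (Nat.shiftLeft 0x86a8c1 142)) .nil,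
    .cons 23 (.negSucc (Nat.sub (Nat.shiftLeft 0x16a97e3d1a7b 123) 1)) .nil,
    .cons 23 (.ofNat (Nat.shiftLeft 0x49f429ab5f1cf6b 107)) .nil,
    .cons 23 (.negSucc (Nat.sub (Nat.shiftLeft 0x39ca0bb6f722f281e5 97) 1)) .nil,
    .nil],
   [.cons 0 (.negSucc (Nat.sub (Nat.shiftLeft 0x1b7 159) 1)) .nil,
    .cons 1 (.negSucc (Nat.sub (Nat.shiftLeft 0x3e7ec07 143) 1)) (.cons 2 (.negSucc (Nat.sub (Nat.shiftLeft 0x7624c1 143) 1)) (.cons 3 (.negSucc (Nat.sub (Nat.shiftLeft 0xefb9d 144) 1)) (.cons 4 (.negSucc (Nat.sub (Nat.shiftLeft 0x235e9 146) 1)) .nil))),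
    .cons 1 (.negSucc (Nat.sub (Nat.shiftLeft 0x4b911d5b69d9 124) 1)) (.cons 2 (.negSucc (Nat.sub (Nat.shiftLeft 0x1b939c6cf65f 124) 1)) (.cons 3 (.ofNat (Nat.shiftLeft 0x17fe1d570fd 125)) (.cons 4 (.negSucc (Nat.sub (Nat.shiftLeft 0xaa5ae08237 127) 1)) .nil))),
    .cons 1 (.ofNat (Nat.shiftLeft 0x5d6373627ed4fa58d 104)) (.cons 2 (.ofNat (Nat.shiftLeft 0x68dc5679876fc90b 104)) (.cons 3 (.negSucc (Nat.sub (Nat.shiftLeft 0x497fc5cf9e2ce681 105) 1)) (.cons 4 (.negSucc (Nat.sub (Nat.shiftLeft 0x6cd3b06d238fc3d 107) 1)) .nil))),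
    .cons 1 (.negSucc (Nat.sub (Nat.shiftLeft 0x32173263355342b2c3 97) 1)) (.cons 2 (.negSucc (Nat.sub (Nat.shiftLeft 0x101bdc4d15af0d14c25 97) 1)) (.cons 3 (.negSucc (Nat.sub (Nat.shiftLeft 0x18ab3cefc6d04960f1 98) 1)) (.cons 4 (.ofNat (Nat.shiftLeft 0x7011b0a0ce9880f13 100)) .nil))),
    .cons 5 (.negSucc (Nat.sub (Nat.shiftLeft 0x29d256881 137) 1)) (.cons 6 (.negSucc (Nat.sub (Nat.shiftLeft 0x60a2067b 137) 1)) (.cons 7 (.ofNat (Nat.shiftLeft 0x753f525 136)) (.cons 8 (.ofNat (Nat.shiftLeft 0x41f7591 136)) (.cons 9 (.negSucc (Nat.sub (Nat.shiftLeft 0x3bac3 136) 1)) (.cons 10 (.ofNat (Nat.shiftLeft 0xb3049 136)) (.cons 11 (.negSucc (Nat.sub (Nat.shiftLeft 0x12a5cf 136) 1)) .nil)))))),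
    .cons 5 (.ofNat (Nat.shiftLeft 0x167e1139d7281c11 110)) (.cons 6 (.negSucc (Nat.sub (Nat.shiftLeft 0x25d9dfe9cf6eb55 110) 1)) (.cons 7 (.ofNat (Nat.shiftLeft 0x6d0db16d449af0b 109)) (.cons 8 (.negSucc (Nat.sub (Nat.shiftLeft 0xee172444df3221 109) 1)) (.cons 9 (.ofNat (Nat.shiftLeft 0x4aab61c48a4973 109)) (.cons 10 (.negSucc (Nat.sub (Nat.shiftLeft 0x868d6d4d9edc59 109) 1)) (.cons 11 (.negSucc (Nat.sub (Nat.shiftLeft 0x12e1ef294c90c1 109) 1)) .nil)))))),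
    .cons 5 (.ofNat (Nat.shiftLeft 0x16facebaf80c34ddc61e1 87)) (.cons 6 (.negSucc (Nat.sub (Nat.shiftLeft 0x8e602a8a1b2cc13317865 87) 1)) (.cons 7 (.negSucc (Nat.sub (Nat.shiftLeft 0x1a6e0318aae03ab067005 86) 1)) (.cons 8 (.negSucc (Nat.sub (Nat.shiftLeft 0x1e5f105c98e488d84e4f1 86) 1)) (.cons 9 (.ofNat (Nat.shiftLeft 0x15d63c43c1cb7d5145ee3 86)) (.cons 10 (.ofNat (Nat.shiftLeft 0xd5c5b63e341080c2e357 86)) (.cons 11 (.negSucc (Nat.sub (Nat.shiftLeft 0x3f370684bac0d69a2591 86) 1)) .nil)))))),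
    .cons 5 (.ofNat (Nat.shiftLeft 0x4261775c169ec1dcc2ed12c74b 67)) (.cons 6 (.ofNat (Nat.shiftLeft 0x2a260ab803ff62ca8686679689 67)) (.cons 7 (.negSucc (Nat.sub (Nat.shiftLeft 0x852fe454a62f367acaa95b9157 66) 1)) (.cons 8 (.ofNat (Nat.shiftLeft 0x2493b6a7450feb416996894d05 66)) (.cons 9 (.negSucc (Nat.sub (Nat.shiftLeft 0x15c5ea5cee3f33e0495cccec5f 66) 1)) (.cons 10 (.ofNat (Nat.shiftLeft 0x1a054a45d6fef244441666c51d 66)) (.cons 11 (.negSucc (Nat.sub (Nat.shiftLeft 0x117254b04278091a36d0009ddb 66) 1)) .nil)))))),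
    .cons 5 (.negSucc (Nat.sub (Nat.shiftLeft 0x22cb5fbd471665f06894aab10a5b 53) 1)) (.cons 6 (.negSucc (Nat.sub (Nat.shiftLeft 0x22d2ac4dd1fa5fa1b6c5a0bd0c5739 53) 1)) (.cons 7 (.negSucc (Nat.sub (Nat.shiftLeft 0x42cdeb53d177b31c4a1cb957ab9559 52) 1)) (.cons 8 (.negSucc (Nat.sub (Nat.shiftLeft 0x5d319b0eba8241d0519a20b2788f5 52) 1)) (.cons 9 (.ofNat (Nat.shiftLeft 0x45edd6d3abe07d5cb1b2c9d704f2f 52)) (.cons 10 (.ofNat (Nat.shiftLeft 0x4f379fe430a0b86724f9227af1273 52)) (.cons 11 (.negSucc (Nat.sub (Nat.shiftLeft 0x261298e45d3e761a861d8ecce7415 52) 1)) .nil)))))),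
    .cons 5 (.ofNat (Nat.shiftLeft 0x86dcb0f38c4ba577cb5b072f9d236567 35)) (.cons 6 (.negSucc (Nat.sub (Nat.shiftLeft 0x86db486e222e982d3bf47f7420038da403 35) 1)) (.cons 7 (.ofNat (Nat.shiftLeft 0xa670ffdd787b7afc18d4e85c3c46f9ae9d 34)) (.cons 8 (.negSucc (Nat.sub (Nat.shiftLeft 0x83f17a135273ec71202ece0b37ea63bed7 34) 1)) (.cons 9 (.negSucc (Nat.sub (Nat.shiftLeft 0x68fdc413e03e9886c6e331e32dafcef0b 34) 1)) (.cons 10 (.ofNat (Nat.shiftLeft 0x21276a4611d812099090bb02090f6cd21 34)) (.cons 11 (.ofNat (Nat.shiftLeft 0x7d7fc5df95482e5268c1eca99b90f54c9 34)) .nil)))))),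
    .cons 5 (.ofNat (Nat.shiftLeft 0x16dd384c054ceebb0c026f94d6d6bdeb91f7 25)) (.cons 6 (.negSucc (Nat.sub (Nat.shiftLeft 0x9e82dbbec0c80bba7eaf165071ffdd78f2d3 25) 1)) (.cons 7 (.ofNat (Nat.shiftLeft 0x413a27fd34cdb371bf0c2b69aa294108655cd 24)) (.cons 8 (.ofNat (Nat.shiftLeft 0x280c9e6988a67106321312210330dd5627b99 24)) (.cons 9 (.negSucc (Nat.sub (Nat.shiftLeft 0xe2375c288acfe1a76af613189c78c16eb55b 24) 1)) (.cons 10 (.negSucc (Nat.sub (Nat.shiftLeft 0xbc9d9be26e93a2d77849df79858dbbb3dfef 24) 1)) (.cons 11 (.ofNat (Nat.shiftLeft 0xb3da505674b62c69741016f131bc38d67539 24)) .nil)))))),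
    .cons 12 (.negSucc (Nat.sub (Nat.shiftLeft 0x80e26289 139) 1)) (.cons 13 (.negSucc (Nat.sub (Nat.shiftLeft 0x25177019 138) 1)) (.cons 14 (.negSucc (Nat.sub (Nat.shiftLeft 0x5e51b5 140) 1)) (.cons 15 (.ofNat (Nat.shiftLeft 0xca1ccd 138)) (.cons 16 (.ofNat (Nat.shiftLeft 0x1ecc5 137)) (.cons 17 (.negSucc (Nat.sub (Nat.shiftLeft 0x5c64f 137) 1)) (.cons 18 (.ofNat (Nat.shiftLeft 0x99fd9 137)) .nil)))))),
    .cons 12 (.ofNat (Nat.shiftLeft 0xc866f5a5a7101fb 111)) (.cons 13 (.negSucc (Nat.sub (Nat.shiftLeft 0x217853843f14f55 110) 1)) (.cons 14 (.negSucc (Nat.sub (Nat.shiftLeft 0x107bb7416436c01 112) 1)) (.cons 15 (.negSucc (Nat.sub (Nat.shiftLeft 0x5b99a2196f8647 110) 1)) (.cons 16 (.negSucc (Nat.sub (Nat.shiftLeft 0xaa32cd77b57b2f 109) 1)) (.cons 17 (.negSucc (Nat.sub (Nat.shiftLeft 0x5a19cf98df8e73 109) 1)) (.cons 18 (.ofNat (Nat.shiftLeft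 0x17a314a9749815 109)) .nil)))))),
    .cons 12 (.negSucc (Nat.sub (Nat.shiftLeft 0x169896d08f7dbf200753 92) 1)) (.cons 13 (.ofNat (Nat.shiftLeft 0x889ef00300ad7f05fc7d 91)) (.cons 14 (.negSucc (Nat.sub (Nat.shiftLeft 0x46050f033bf3202cb77 93) 1)) (.cons 15 (.ofNat (Nat.shiftLeft 0x10aeca31622ffd73b3ff 91)) (.cons 16 (.negSucc (Nat.sub (Nat.shiftLeft 0x17129f4a0ff17c5dfbd9 90) 1)) (.cons 17 (.ofNat (Nat.shiftLeft 0xcd0b97c4fcc7519f38b 90)) (.cons 18 (.negSucc (Nat.sub (Nat.shiftLeft 0x4056ab4458f6dd5eb3d 90) 1)) .nil)))))),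
    .cons 12 (.ofNat (Nat.shiftLeft 0x4d7fbcfd89b0ec878fb7b0925 71)) (.cons 13 (.ofNat (Nat.shiftLeft 0xac4cc9bb83dd0dc4eec4cac75 70)) (.cons 14 (.ofNat (Nat.shiftLeft 0x2872ed2c31bcbebac12d994a1 72)) (.cons 15 (.ofNat (Nat.shiftLeft 0x24d09a930e1ec77aa20c00aa7 70)) (.cons 16 (.ofNat (Nat.shiftLeft 0x3387e493609e9621577c7508f 69)) (.cons 17 (.ofNat (Nat.shiftLeft 0x27d613eb11cf0aef798aa0e53 69)) (.cons 18 (.ofNat (Nat.shiftLeft 0x39a92a0ff8a17da5356e492cb 69)) .nil)))))),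
    .cons 12 (.ofNat (Nat.shiftLeft 0xb4069141ae5aa58134c81697488b 55)) (.cons 13 (.ofNat (Nat.shiftLeft 0x3be5bcd2ae62c1bd49aad262db03b 54)) (.cons 14 (.negSucc (Nat.sub (Nat.shiftLeft 0x5f0ac62612ff95117ee33f63a4ab1 56) 1)) (.cons 15 (.ofNat (Nat.shiftLeft 0xde40d0dde678d0ca9c147d5856e9 54)) (.cons 16 (.negSucc (Nat.sub (Nat.shiftLeft 0x4c95c820ff71b77eb9397eb4d2d7f 53) 1)) (.cons 17 (.ofNat (Nat.shiftLeft 0x2894b8f6a484c4d10f20fc1e7887d 53)) (.cons 18 (.negSucc (Nat.sub (Nat.shiftLeft 0x45592f52cd7152093b05f9881e37b 53) 1)) .nil)))))),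
    .cons 12 (.ofNat (Nat.shiftLeft 0x6527166f5821f3468061a7f90c7e2ab 37)) (.cons 13 (.ofNat (Nat.shiftLeft 0x592d263299afeb0a39f0d8693eeee98c5b 36)) (.cons 14 (.negSucc (Nat.sub (Nat.shiftLeft 0x2160b24c5266ef8c39274038e57b79f11 38) 1)) (.cons 15 (.ofNat (Nat.shiftLeft 0x1eeb193b1cd58c4e8ee0224d7abbf73049 36)) (.cons 16 (.negSucc (Nat.sub (Nat.shiftLeft 0x85041edc135639a2ec15d516c475a4b1f 35) 1)) (.cons 17 (.negSucc (Nat.sub (Nat.shiftLeft 0xf024ebb3fb41d5dd0e53097329f11ea3 35) 1)) (.cons 18 (.negSucc (Nat.sub (Nat.shiftLeft 0x2f61f9e51ee889eda74081c8564c3779b 35) 1)) .nil)))))),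
    .cons 12 (.negSucc (Nat.sub (Nat.shiftLeft 0xe8c6ee5474de36a4e6ecf9466288b4c53d 31) 1)) (.cons 13 (.ofNat (Nat.shiftLeft 0x4bbd2e96e3e42606cf66d0fe5014cd61df3 30)) (.cons 14 (.ofNat (Nat.shiftLeft 0x93cfcbea29a3317d33310bda4f309c5c27 32)) (.cons 15 (.negSucc (Nat.sub (Nat.shiftLeft 0xb4702f21826f7328edb33d708124398332f 30) 1)) (.cons 16 (.ofNat (Nat.shiftLeft 0x656229f5002f6d4e57b9522c78371f25c29 29)) (.cons 17 (.negSucc (Nat.sub (Nat.shiftLeft 0x5c832895d85f95be8cfac92700255d7147b 29) 1)) (.cons 18 (.ofNat (Nat.shiftLeft 0x41181b20dfe42703cbfb1619ae939bbcccd 29)) .nil)))))),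
    .cons 19 (.negSucc (Nat.sub (Nat.shiftLeft 0x4cb9a29 143) 1)) (.cons 20 (.ofNat (Nat.shiftLeft 0xadd531 143)) (.cons 21 (.negSucc (Nat.sub (Nat.shiftLeft 0x702267 142) 1)) (.cons 22 (.ofNat (Nat.shiftLeft 0x65d9f 142)) .nil))),
    .cons 19 (.ofNat (Nat.shiftLeft 0x4d757eb8ad73 124)) (.cons 20 (.negSucc (Nat.sub (Nat.shiftLeft 0x29cdf2abf84b 124) 1)) (.cons 21 (.ofNat (Nat.shiftLeft 0x48ecf4a27bd 123)) (.cons 22 (.negSucc (Nat.sub (Nat.shiftLeft 0xcbb04eb9da5 123) 1)) .nil))),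
    .cons 19 (.negSucc (Nat.sub (Nat.shiftLeft 0x4d9393c642b3b3e3 108) 1)) (.cons 20 (.negSucc (Nat.sub (Nat.shiftLeft 0x76c84b9510da9c5 108) 1)) (.cons 21 (.ofNat (Nat.shiftLeft 0x14c9857e720817b3 107)) (.cons 22 (.ofNat (Nat.shiftLeft 0x4b7678e10dce2b5 107)) .nil))),
    .cons 19 (.ofNat (Nat.shiftLeft 0x974f2f5ec7276f95ed 98)) (.cons 20 (.negSucc (Nat.sub (Nat.shiftLeft 0x7441e5db8623390e15 98) 1)) (.cons 21 (.negSucc (Nat.sub (Nat.shiftLeft 0x1db51a11e0779c751d 97) 1)) (.cons 22 (.ofNat (Nat.shiftLeft 0x2d1a4f238ccec15605 97)) .nil))),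
    .cons 23 (.negSucc (Nat.sub (Nat.shiftLeft 0x1c3 159) 1)) .nil],
   [.nil,
    .cons 0 (.ofNat (Nat.shiftLeft 0x36c5ff 143)) .nil,
    .cons 0 (.ofNat (Nat.shiftLeft 0x94aa9f3b6e1 124)) .nil,
    .cons 0 (.negSucc (Nat.sub (Nat.shiftLeft 0x7145b306e1d15d35 104) 1)) .nil,
    .cons 0 (.ofNat (Nat.shiftLeft 0x4328be286d9cb8519b 97)) .nil,
    .cons 1 (.ofNat (Nat.shiftLeft 0xe8e81f99 136)) (.cons 2 (.negSucc (Nat.sub (Nat.shiftLeft 0x25874a3 137) 1)) (.cons 3 (.negSucc (Nat.sub (Nat.shiftLeft 0xb3049 137) 1)) (.cons 4 (.ofNat (Nat.shiftLeft 0x3bac3 138)) .nil))),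
    .cons 1 (.negSucc (Nat.sub (Nat.shiftLeft 0xb21396cc7e8d8a9 109) 1)) (.cons 2 (.negSucc (Nat.sub (Nat.shiftLeft 0x9d7e9f6507cead 110) 1)) (.cons 3 (.negSucc (Nat.sub (Nat.shiftLeft 0x58796b26123a7 110) 1)) (.cons 4 (.ofNat (Nat.shiftLeft 0x2efb143b75b68d 111)) .nil))),
    .cons 1 (.ofNat (Nat.shiftLeft 0x169aa2c289286858de6607 86)) (.cons 2 (.ofNat (Nat.shiftLeft 0x16528eb81e1c101cfacc3 87)) (.cons 3 (.negSucc (Nat.sub (Nat.shiftLeft 0xde94326b3c5480c2e357 87) 1)) (.cons 4 (.ofNat (Nat.shiftLeft 0x1b59d1b5199e2aeba11d 88)) .nil))),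
    .cons 1 (.ofNat (Nat.shiftLeft 0xf595e0742c884b56f6514d30ad 66)) (.cons 2 (.ofNat (Nat.shiftLeft 0x27677a9d87afc6a7e8a31f5841 67)) (.cons 3 (.negSucc (Nat.sub (Nat.shiftLeft 0xe1851fe6cc218e1b01666c51d 67) 1)) (.cons 4 (.negSucc (Nat.sub (Nat.shiftLeft 0x5e85b093dad381044a33313a1 68) 1)) .nil))),
    .cons 1 (.negSucc (Nat.sub (Nat.shiftLeft 0x35a6d6a033938b58501633eca0f41d 52) 1)) (.cons 2 (.ofNat (Nat.shiftLeft 0x3de291e87d725df8a8ac303a1cc8f 53)) (.cons 3 (.ofNat (Nat.shiftLeft 0x41f65ff9a002abd792619d850ed8d 53)) (.cons 4 (.ofNat (Nat.shiftLeft 0x4a3d2ebd72bccf394201628fb0d1 54)) .nil))),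
    .cons 1 (.negSucc (Nat.sub (Nat.shiftLeft 0x4721d98a41a4c28dcf0657e7f65e7bf40f 34) 1)) (.cons 2 (.negSucc (Nat.sub (Nat.shiftLeft 0x17d1fe174a0a2a697d6f0db5ffb91255eb 35) 1)) (.cons 3 (.ofNat (Nat.shiftLeft 0xab3db542c0bae705093605036f0932df 35)) (.cons 4 (.ofNat (Nat.shiftLeft 0xbd6a6e2e1a4c5925741b6b00cdafcef0b 36)) .nil))),
    .cons 1 (.ofNat (Nat.shiftLeft 0xbd1076019137337673faf3e424bfb4a781e1 24)) (.cons 2 (.negSucc (Nat.sub (Nat.shiftLeft 0x1f8bedfa1603e3620ba6d4840b3b5a6a00e3b 25) 1)) (.cons 3 (.ofNat (Nat.shiftLeft 0xa2910bfcbebd2bcc1761b77b9c71bbb3dfef 25)) (.cons 4 (.negSucc (Nat.sub (Nat.shiftLeft 0x50fcb344dcf69e5b1d995f6ad4d3e914aa5 26) 1)) .nil))),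
    .cons 5 (.ofNat (Nat.shiftLeft 0x1b485cf99 138)) (.cons 6 (.negSucc (Nat.sub (Nat.shiftLeft 0x194d3979 138) 1)) (.cons 7 (.negSucc (Nat.sub (Nat.shiftLeft 0xb30391 138) 1)) (.cons 8 (.ofNat (Nat.shiftLeft 0x107b56d 137)) (.cons 9 (.negSucc (Nat.sub (Nat.shiftLeft 0x5c64f 137) 1)) (.cons 10 (.negSucc (Nat.sub (Nat.shiftLeft 0x1ecc5 137) 1)) (.cons 11 (.ofNat (Nat.shiftLeft 0x1ecc5 137)) .nil)))))),
    .cons 5 (.ofNat (Nat.shiftLeft 0xf7a6e0a1899e0d5 110)) (.cons 6 (.negSucc (Nat.sub (Nat.shiftLeft 0x5f447797b83cf35 110) 1)) (.cons 7 (.ofNat (Nat.shiftLeft 0x27709cc7cedc013 110)) (.cons 8 (.negSucc (Nat.sub (Nat.shiftLeft 0x1d535ad101eec27 109) 1)) (.cons 9 (.negSucc (Nat.sub (Nat.shiftLeft 0x92d81798df8e73 109) 1)) (.cons 10 (.ofNat (Nat.shiftLeft 0x46689577b57b2f 109)) (.cons 11 (.ofNat (Nat.shiftLeft 0x80a884a84d1 109)) .nil)))))),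
    .cons 5 (.ofNat (Nat.shiftLeft 0xd63a1491a2eaba82603 91)) (.cons 6 (.ofNat (Nat.shiftLeft 0x60aead873177bf5f6b5d 91)) (.cons 7 (.negSucc (Nat.sub (Nat.shiftLeft 0x1239f2f247add1db822b 91) 1)) (.cons 8 (.ofNat (Nat.shiftLeft 0x1209ee33473c71b438df 90)) (.cons 9 (.negSucc (Nat.sub (Nat.shiftLeft 0x1025e8989bab8ae60c75 90) 1)) (.cons 10 (.negSucc (Nat.sub (Nat.shiftLeft 0x49caf67f81683a20427 90) 1)) (.cons 11 (.negSucc (Nat.sub (Nat.shiftLeft 0x915590b4d897c5dfbd9 90) 1)) .nil)))))),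
    .cons 5 (.ofNat (Nat.shiftLeft 0x5f214d2a4e2ad71803b33d20b 70)) (.cons 6 (.ofNat (Nat.shiftLeft 0x11c0d9d40e598eb210911a1855 70)) (.cons 7 (.negSucc (Nat.sub (Nat.shiftLeft 0x5a51cc8871ebaaff4836843f3 70) 1)) (.cons 8 (.ofNat (Nat.shiftLeft 0xb462fe39b9b59d63519aa1c87 69)) (.cons 9 (.negSucc (Nat.sub (Nat.shiftLeft 0x124d57ed1257065c06755f1ad 69) 1)) (.cons 10 (.negSucc (Nat.sub (Nat.shiftLeft 0x2c935dd86728274dd77c7508f 69) 1)) (.cons 11 (.negSucc (Nat.sub (Nat.shiftLeft 0x1fc516210cef35fc28838af71 69) 1)) .nil)))))),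
    .cons 5 (.ofNat (Nat.shiftLeft 0x3a0ac8b68c72fd4012979a2be945 54)) (.cons 6 (.ofNat (Nat.shiftLeft 0xa6a8714c00f7f1733b1a7ed77065b 54)) (.cons 7 (.ofNat (Nat.shiftLeft 0xa2271847bb4dd872c6ed87b098723 54)) (.cons 8 (.negSucc (Nat.sub (Nat.shiftLeft 0x79bd6c2972aae0ebd8084ec4d58f7 53) 1)) (.cons 9 (.negSucc (Nat.sub (Nat.shiftLeft 0x66edebe2317ea9c3b0db83e187783 53) 1)) (.cons 10 (.negSucc (Nat.sub (Nat.shiftLeft 0x14ffe22e78d9ba141cd2014b2d281 53) 1)) (.cons 11 (.negSucc (Nat.sub (Nat.shiftLeft 0x50f9d59f464f1c07943feb4d2d7f 53) 1)) .nil)))))),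
    .cons 5 (.negSucc (Nat.sub (Nat.shiftLeft 0x8d9d5d8ad86ac40bce85adbc70db62db 36) 1)) (.cons 6 (.negSucc (Nat.sub (Nat.shiftLeft 0x4d14e5c6eb66aed0af4e4a6dfa1a229185 36) 1)) (.cons 7 (.negSucc (Nat.sub (Nat.shiftLeft 0x912c87530e08984dbe7648c021432b5bd 36) 1)) (.cons 8 (.negSucc (Nat.sub (Nat.shiftLeft 0x20295dccdfe83a7df1ba3a9c2a2f523397 35) 1)) (.cons 9 (.negSucc (Nat.sub (Nat.shiftLeft 0x7392160de051c86e5499a043b29f11ea3 35) 1)) (.cons 10 (.ofNat (Nat.shiftLeft 0x15f04d23b640fb2a099c6dbbb4475a4b1f 35)) (.cons 11 (.ofNat (Nat.shiftLeft 0xa79c78029eca4d2d90779eebb8a5b4e1 35)) .nil)))))),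
    .cons 5 (.negSucc (Nat.sub (Nat.shiftLeft 0x9637a289ea7e152e72478796387604873 30) 1)) (.cons 6 (.ofNat (Nat.shiftLeft 0x1075653c8312529f1b72671a8f7394a9913 30)) (.cons 7 (.ofNat (Nat.shiftLeft 0x137efcee350058fe6cb115fc8c279af4851b 30)) (.cons 8 (.negSucc (Nat.sub (Nat.shiftLeft 0x149de5263f5e9a1c3b57b1239ba0054cae0f 29) 1)) (.cons 9 (.ofNat (Nat.shiftLeft 0x2593c713f6dfdbc0f720db3ccf5aa28eb85 29)) (.cons 10 (.ofNat (Nat.shiftLeft 0x1bd89d02a5819eb37d0af23c7048e0da3d7 29)) (.cons 11 (.ofNat (Nat.shiftLeft 0x7405bc97e03798e98ff0650109b71f25c29 29)) .nil)))))),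
    .cons 12 (.ofNat (Nat.shiftLeft 0x1d61fe59 142)) (.cons 13 (.ofNat (Nat.shiftLeft 0x6245469 142)) (.cons 14 (.negSucc (Nat.sub (Nat.shiftLeft 0x2a5369d 143) 1)) (.cons 15 (.ofNat (Nat.shiftLeft 0xc2661f 142)) (.cons 16 (.ofNat (Nat.shiftLeft 0x20ced1 143)) (.cons 17 (.ofNat (Nat.shiftLeft 0x36d7d 142)) (.cons 18 (.ofNat (Nat.shiftLeft 0x562e9 142)) .nil)))))),
    .cons 12 (.ofNat (Nat.shiftLeft 0x603df0541b7d 123)) (.cons 13 (.negSucc (Nat.sub (Nat.shiftLeft 0x5b9d3f551a33 123) 1)) (.cons 14 (.ofNat (Nat.shiftLeft 0x3aac82d6342f 124)) (.cons 15 (.negSucc (Nat.sub (Nat.shiftLeft 0x2bbb13cc9325 123) 1)) (.cons 16 (.ofNat (Nat.shiftLeft 0x44e307cbfd5 124)) (.cons 17 (.negSucc (Nat.sub (Nat.shiftLeft 0xaeca03019cf 123) 1)) (.cons 18 (.ofNat (Nat.shiftLeft 0x11d1b1fd8e4d 123)) .nil)))))),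
    .cons 12 (.negSucc (Nat.sub (Nat.shiftLeft 0xf3a55897923280d 107) 1)) (.cons 13 (.ofNat (Nat.shiftLeft 0x8627315c51ebca3 107)) (.cons 14 (.ofNat (Nat.shiftLeft 0x60fe4c3972fa18a1 108)) (.cons 15 (.negSucc (Nat.sub (Nat.shiftLeft 0x2f0111ce30ba2fcb 107) 1)) (.cons 16 (.negSucc (Nat.sub (Nat.shiftLeft 0x7344dabb7dc5be5 108) 1)) (.cons 17 (.negSucc (Nat.sub (Nat.shiftLeft 0x450741e0a9cc101 107) 1)) (.cons 18 (.ofNat (Nat.shiftLeft 0x13f7f8de1d09ac23 107)) .nil)))))),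
    .cons 12 (.negSucc (Nat.sub (Nat.shiftLeft 0x28dd1077c7c6f1b0dd 97) 1)) (.cons 13 (.ofNat (Nat.shiftLeft 0x380c3f0f216fc89fed3 97)) (.cons 14 (.ofNat (Nat.shiftLeft 0x72fe9bdf3561f6cab1 98)) (.cons 15 (.ofNat (Nat.shiftLeft 0xb16f9b15ed13d51b85 97)) (.cons 16 (.ofNat (Nat.shiftLeft 0xf2e48eb8090f81dcb 98)) (.cons 17 (.ofNat (Nat.shiftLeft 0x4607f16624f92d06ef 97)) (.cons 18 (.ofNat (Nat.shiftLeft 0x18d063b58a478fe653 97)) .nil)))))),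
    .cons 19 (.ofNat (Nat.shiftLeft 0xef3 159)) (.cons 20 (.negSucc (Nat.sub (Nat.shiftLeft 0x54f 159) 1)) (.cons 21 (.ofNat (Nat.shiftLeft 0x71 160)) (.cons 22 (.negSucc (Nat.sub (Nat.shiftLeft 0xad 159) 1)) .nil)))]⟩

noncomputable def A8 : Tn :=
  ⟨[.cons 1 (.ofNat (Nat.shiftLeft 0xf29 159)) (.cons 2 (.ofNat (Nat.shiftLeft 0x4bb 159)) (.cons 3 (.negSucc (Nat.sub (Nat.shiftLeft 0xd9 159) 1)) (.cons 4 (.ofNat (Nat.shiftLeft 0x53 160)) .nil))),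
    .cons 5 (.ofNat (Nat.shiftLeft 0x1d8b2719 142)) (.cons 6 (.negSucc (Nat.sub (Nat.shiftLeft 0xc69369 145) 1)) (.cons 7 (.ofNat (Nat.shiftLeft 0x4ef0a5 146)) (.cons 8 (.ofNat (Nat.shiftLeft 0xd548ff 142)) (.cons 9 (.negSucc (Nat.sub (Nat.shiftLeft 0x3767b5 142) 1)) (.cons 10 (.negSucc (Nat.sub (Nat.shiftLeft 0xf331b 142) 1)) (.cons 11 (.ofNat (Nat.shiftLeft 0x65fc1 142)) .nil)))))),
    .cons 5 (.ofNat (Nat.shiftLeft 0x2f7ba1d4b409 124)) (.cons 6 (.ofNat (Nat.shiftLeft 0x694aec3dca7 127)) (.cons 7 (.negSucc (Nat.sub (Nat.shiftLeft 0x343fc593d2b 128) 1)) (.cons 8 (.negSucc (Nat.sub (Nat.shiftLeft 0x16ca517d0971 124) 1)) (.cons 9 (.negSucc (Nat.sub (Nat.shiftLeft 0x2013f3570e5 124) 1)) (.cons 10 (.ofNat (Nat.shiftLeft 0x36675e17b15 124)) (.cons 11 (.ofNat (Nat.shiftLeft 0x7d48af40631 124)) .nil)))))),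
    .cons 5 (.negSucc (Nat.sub (Nat.shiftLeft 0x2d09089f0a17e035 105) 1)) (.cons 6 (.negSucc (Nat.sub (Nat.shiftLeft 0x18ecc1de1c08ecbb 108) 1)) (.cons 7 (.negSucc (Nat.sub (Nat.shiftLeft 0x3463f52446fd1591 109) 1)) (.cons 8 (.negSucc (Nat.sub (Nat.shiftLeft 0xa90995d00de37383 105) 1)) (.cons 9 (.ofNat (Nat.shiftLeft 0x4572886037e94861 105)) (.cons 10 (.negSucc (Nat.sub (Nat.shiftLeft 0x9e82b82beade0d1 105) 1)) (.cons 11 (.ofNat (Nat.shiftLeft 0x2904018e5bd54dc3 105)) .nil)))))),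
    .cons 5 (.ofNat (Nat.shiftLeft 0x347cd016866b1958b3 95)) (.cons 6 (.ofNat (Nat.shiftLeft 0x1a834f2d8185cad5ddd 98)) (.cons 7 (.ofNat (Nat.shiftLeft 0x1620f555107cb2dd37 99)) (.cons 8 (.negSucc (Nat.sub (Nat.shiftLeft 0x33eb9a14039bdc3b0ab 95) 1)) (.cons 9 (.ofNat (Nat.shiftLeft 0x64575f3ecfaf296b19 95)) (.cons 10 (.ofNat (Nat.shiftLeft 0x151ce1dafabb941bbf7 95)) (.cons 11 (.ofNat (Nat.shiftLeft 0x241daa6abcb1cba8eb 95)) .nil)))))),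
    .cons 12 (.ofNat (Nat.shiftLeft 0x6c792479 140)) (.cons 13 (.ofNat (Nat.shiftLeft 0xd9a15ad 139)) (.cons 14 (.ofNat (Nat.shiftLeft 0xbf428d 138)) (.cons 15 (.ofNat (Nat.shiftLeft 0x4fc591 139)) (.cons 16 (.ofNat (Nat.shiftLeft 0xf60b 138)) (.cons 17 (.negSucc (Nat.sub (Nat.shiftLeft 0xf60b 138) 1)) .nil))))),
    .cons 12 (.negSucc (Nat.sub (Nat.shiftLeft 0x1f428ddc3349f81 113) 1)) (.cons 13 (.negSucc (Nat.sub (Nat.shiftLeft 0x19c0b0cc0399b55 112) 1)) (.cons 14 (.ofNat (Nat.shiftLeft 0x14d72a85097b8cb 111)) (.cons 15 (.ofNat (Nat.shiftLeft 0x407c3ac3b458a7 112)) (.cons 16 (.ofNat (Nat.shiftLeft 0x170353997d8bdd 111)) (.cons 17 (.negSucc (Nat.sub (Nat.shiftLeft 0x23bf7b997d8bdd 111) 1)) (.cons 18 (.ofNat (Nat.shiftLeft 0x1f59 147)) .nil)))))),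
    .cons 12 (.negSucc (Nat.sub (Nat.shiftLeft 0x504b043de78817ffdfd 93) 1)) (.cons 13 (.ofNat (Nat.shiftLeft 0x330045f52351e355db7f 92)) (.cons 14 (.negSucc (Nat.sub (Nat.shiftLeft 0x1300236f323c25c090e1 91) 1)) (.cons 15 (.negSucc (Nat.sub (Nat.shiftLeft 0x654dad68e9b703a7275 92) 1)) (.cons 16 (.ofNat (Nat.shiftLeft 0x7520fab004f7a0576e9 91)) (.cons 17 (.negSucc (Nat.sub (Nat.shiftLeft 0x15e62d73fd77a0576e9 91) 1)) (.cons 18 (.ofNat (Nat.shiftLeft 0x602ff90a75 127)) .nil)))))),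
    .cons 12 (.ofNat (Nat.shiftLeft 0x2ff463ed63dd45941ea0805d 75)) (.cons 13 (.negSucc (Nat.sub (Nat.shiftLeft 0x11e2f8261b41686ed4cb9819f 74) 1)) (.cons 14 (.ofNat (Nat.shiftLeft 0xadb16db1fd0644a2bdbf1ec1 73)) (.cons 15 (.ofNat (Nat.shiftLeft 0x686d1b556f565fc1b9ea15d5 74)) (.cons 16 (.negSucc (Nat.sub (Nat.shiftLeft 0x2281c1f8f818b904fdc293c9 73) 1)) (.cons 17 (.negSucc (Nat.sub (Nat.shiftLeft 0x254c7fe8a198a873023d6c37 73) 1)) (.cons 18 (.negSucc (Nat.sub (Nat.shiftLeft 0x2e6134680c5add5 109) 1)) .nil)))))),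
    .cons 12 (.negSucc (Nat.sub (Nat.shiftLeft 0x3339b3c47a79b17f58d8f3d799f 57) 1)) (.cons 13 (.ofNat (Nat.shiftLeft 0x43cd140d62461f5a07219580113b5 56)) (.cons 14 (.ofNat (Nat.shiftLeft 0x6b698b7a19ebfbedcdb456c236395 55)) (.cons 15 (.ofNat (Nat.shiftLeft 0xa369d96b3f15aa4cffc4b19afb39 56)) (.cons 16 (.ofNat (Nat.shiftLeft 0x1bf742aaa2af8c2433e813692d4c3 55)) (.cons 17 (.ofNat (Nat.shiftLeft 0x333a23ce0d47172b90a6c96d2b3d 55)) (.cons 18 (.negSucc (Nat.sub (Nat.shiftLeft 0x2a98b34f88b35087339 91) 1)) .nil)))))),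
    .cons 12 (.ofNat (Nat.shiftLeft 0x1e40b6b09cc4dd36a4e524ce0fe3b67 41)) (.cons 13 (.ofNat (Nat.shiftLeft 0x315dd5fab063110eac65c3da19f2c0fb3 40)) (.cons 14 (.negSucc (Nat.sub (Nat.shiftLeft 0x1ee521bcb69bc31237001e224d678992d 39) 1)) (.cons 15 (.negSucc (Nat.sub (Nat.shiftLeft 0x192b0ced0b92410273b9cc638df3de0b1 40) 1)) (.cons 16 (.negSucc (Nat.sub (Nat.shiftLeft 0x52c10b286300b0f558f40976468b8a6b 39) 1)) (.cons 17 (.ofNat (Nat.shiftLeft 0x19ff578d20ac9cbb6582e018e468b8a6b 39)) (.cons 18 (.ofNat (Nat.shiftLeft 0x2d916a242c7e730705598b1 75)) .nil)))))),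
    .cons 12 (.ofNat (Nat.shiftLeft 0x1452d970df3526fe6969aefbb327e5b211 32)) (.cons 13 (.negSucc (Nat.sub (Nat.shiftLeft 0x51f634a86ea7d64bf7a51642fc246f22db 31) 1)) (.cons 14 (.negSucc (Nat.sub (Nat.shiftLeft 0x12db5f31725cb3de4c269d985910b31308fb 30) 1)) (.cons 15 (.negSucc (Nat.sub (Nat.shiftLeft 0x50f4a5f0b798d5c344fe4522926f1ecec97 31) 1)) (.cons 16 (.ofNat (Nat.shiftLeft 0xcc4712fd6505a868f800fe3de4284415d3 30)) (.cons 17 (.negSucc (Nat.sub (Nat.shiftLeft 0xed1b42d3cd66f88d9d019b3c284415d3 30) 1)) (.cons 18 (.ofNat (Nat.shiftLeft 0x4d2d87489a317f692bf504f497 66)) .nil)))))),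
    .cons 19 (.ofNat (Nat.shiftLeft 0xefdab5c5 136)) (.cons 20 (.ofNat (Nat.shiftLeft 0x5f9eca3 136)) (.cons 21 (.negSucc (Nat.sub (Nat.shiftLeft 0x3bd9b 140) 1)) (.cons 22 (.negSucc (Nat.sub (Nat.shiftLeft 0x21aa73 136) 1)) .nil))),
    .cons 19 (.ofNat (Nat.shiftLeft 0x307f4a6398fe12d7 107)) (.cons 20 (.negSucc (Nat.sub (Nat.shiftLeft 0x5e69615c9d4855f 107) 1)) (.cons 21 (.ofNat (Nat.shiftLeft 0x21fa27d0d09b7 111)) (.cons 22 (.ofNat (Nat.shiftLeft 0x341f0926575576f 107)) .nil))),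
    .cons 19 (.negSucc (Nat.sub (Nat.shiftLeft 0x2d4ebbb81ca204713a17b5 85) 1)) (.cons 20 (.ofNat (Nat.shiftLeft 0x7838328cdcdfc3e0e59cd 85)) (.cons 21 (.ofNat (Nat.shiftLeft 0x3dbb997c98f25dbc5dab 89)) (.cons 22 (.ofNat (Nat.shiftLeft 0x109f73b78c0314b9f4b03 85)) .nil))),
    .cons 19 (.ofNat (Nat.shiftLeft 0x1cd746fa284cbc86b3d9f927bb 69)) (.cons 20 (.negSucc (Nat.sub (Nat.shiftLeft 0xc749b31531cf607f435b8fe23 69) 1)) (.cons 21 (.negSucc (Nat.sub (Nat.shiftLeft 0x408d60b7231ad3e89616b4e5 73) 1)) (.cons 22 (.ofNat (Nat.shiftLeft 0x2e2077825e66a723eb933a3f3 69)) .nil))),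
    .cons 19 (.ofNat (Nat.shiftLeft 0x7272ef35165dcf2abcd9b8e0cdb401 51)) (.cons 20 (.ofNat (Nat.shiftLeft 0x13ea653a137555ef22db48c01f9347 51)) (.cons 21 (.negSucc (Nat.sub (Nat.shiftLeft 0x11f555ac9ffae6495683c328b07df 55) 1)) (.cons 22 (.ofNat (Nat.shiftLeft 0x573c33d9b18f749c15166391cb929 51)) .nil))),
    .cons 19 (.ofNat (Nat.shiftLeft 0x742dbf766efc9995693740be6ceed7e99 36)) (.cons 20 (.negSucc (Nat.sub (Nat.shiftLeft 0x16636f1ec38bd8eba919fbe1b749561491 36) 1)) (.cons 21 (.negSucc (Nat.sub (Nat.shiftLeft 0x152d796f2e21b77a521d4f665e558a47 40) 1)) (.cons 22 (.ofNat (Nat.shiftLeft 0xc77cdc42e765929b7f4de2f4aaefe2381 36)) .nil))),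
    .cons 19 (.negSucc (Nat.sub (Nat.shiftLeft 0x1b029519e5e47c9243c1c1922d2e543a07d 31) 1)) (.cons 20 (.negSucc (Nat.sub (Nat.shiftLeft 0x89df56907ee33fc40cdf75b0c414a810dab 31) 1)) (.cons 21 (.negSucc (Nat.sub (Nat.shiftLeft 0x34acf1a7c5d752f241247805b16537641d 35) 1)) (.cons 22 (.negSucc (Nat.sub (Nat.shiftLeft 0xe6cb71e9cd610623948e6cf2b08ef28505 31) 1)) .nil))),
    .cons 23 (.ofNat (Nat.shiftLeft 0x1fdd3f 144)) .nil,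
    .cons 23 (.ofNat (Nat.shiftLeft 0xa47709f730d 124)) .nil,
    .cons 23 (.ofNat (Nat.shiftLeft 0x1c7094b7eaea1d93 106)) .nil,
    .cons 23 (.negSucc (Nat.sub (Nat.shiftLeft 0x128e510cad489ec85cf 95) 1)) .nil,
    .nil],
   [.cons 0 (.ofNat (Nat.shiftLeft 0x1a1 159)) .nil,
    .cons 1 (.ofNat (Nat.shiftLeft 0x250c91d 144)) (.cons 2 (.ofNat (Nat.shiftLeft 0x13271b5 142)) (.cons 3 (.negSucc (Nat.sub (Nat.shiftLeft 0x5f9c4f 142) 1)) (.cons 4 (.ofNat (Nat.shiftLeft 0x7d85 145)) .nil))),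
    .cons 1 (.negSucc (Nat.sub (Nat.shiftLeft 0x14424959c033 126) 1)) (.cons 2 (.negSucc (Nat.sub (Nat.shiftLeft 0x24106167251b 124) 1)) (.cons 3 (.ofNat (Nat.shiftLeft 0x277fbb3a321 124)) (.cons 4 (.negSucc (Nat.sub (Nat.shiftLeft 0xd4d1284e4b 127) 1)) .nil))),
    .cons 1 (.ofNat (Nat.shiftLeft 0x7b740460507d3fd7 107)) (.cons 2 (.negSucc (Nat.sub (Nat.shiftLeft 0x87f2458ff3672a61 105) 1)) (.cons 3 (.ofNat (Nat.shiftLeft 0x44c6baf2fe807193 105)) (.cons 4 (.ofNat (Nat.shiftLeft 0x56030e94e9a410f 108)) .nil))),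
    .cons 1 (.ofNat (Nat.shiftLeft 0x1d8966e21c8eafc5d5f 97)) (.cons 2 (.ofNat (Nat.shiftLeft 0x31bc0245ba28a0442e7 95)) (.cons 3 (.ofNat (Nat.shiftLeft 0xbce2074f90f5111a3b 95)) (.cons 4 (.negSucc (Nat.sub (Nat.shiftLeft 0x1301bf2efaa22b6929 98) 1)) .nil))),
    .cons 5 (.ofNat (Nat.shiftLeft 0x105d472af 138)) (.cons 6 (.negSucc (Nat.sub (Nat.shiftLeft 0x2730fa8d 138) 1)) (.cons 7 (.negSucc (Nat.sub (Nat.shiftLeft 0x125231b 138) 1)) (.cons 8 (.negSucc (Nat.sub (Nat.shiftLeft 0xda2bc1 138) 1)) (.cons 9 (.ofNat (Nat.shiftLeft 0xf60b 138)) (.cons 11 (.negSucc (Nat.sub (Nat.shiftLeft 0x2e221 138) 1)) .nil))))),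
    .cons 5 (.ofNat (Nat.shiftLeft 0xc8b9d09bf0f5d19 111)) (.cons 6 (.ofNat (Nat.shiftLeft 0x13b8d18118dbf35 111)) (.cons 7 (.ofNat (Nat.shiftLeft 0x1f410e2216c5db3 111)) (.cons 8 (.negSucc (Nat.sub (Nat.shiftLeft 0x265c951a5304f7 111) 1)) (.cons 9 (.ofNat (Nat.shiftLeft 0x234217997d8bdd 111)) (.cons 10 (.ofNat (Nat.shiftLeft 0x1d637 147)) (.cons 11 (.ofNat (Nat.shiftLeft 0x4ec0133875c69 111)) .nil)))))),
    .cons 5 (.negSucc (Nat.sub (Nat.shiftLeft 0x237616d1cc973d54cecb 91) 1)) (.cons 6 (.negSucc (Nat.sub (Nat.shiftLeft 0x8d280d76fa08b4d3d71f 91) 1)) (.cons 7 (.ofNat (Nat.shiftLeft 0xd2dde0cd8db9f7d5467 91)) (.cons 8 (.ofNat (Nat.shiftLeft 0x1188aa2c8be2cd278f65 91)) (.cons 9 (.ofNat (Nat.shiftLeft 0xaa17cf316037a0576e9 91)) (.cons 10 (.negSucc (Nat.sub (Nat.shiftLeft 0x5347686325 127) 1)) (.cons 11 (.negSucc (Nat.sub (Nat.shiftLeft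 0x411db6c54e26e1064bb 91) 1)) .nil)))))),
    .cons 5 (.negSucc (Nat.sub (Nat.shiftLeft 0x13ed8c416f4c46f2ac8de7c95 73) 1)) (.cons 6 (.ofNat (Nat.shiftLeft 0x124b5acff1fb9a5b7a958493f 73)) (.cons 7 (.ofNat (Nat.shiftLeft 0x12d2de3fe504930e654d21279 73)) (.cons 8 (.negSucc (Nat.sub (Nat.shiftLeft 0x4aea5f78cc838f6efc76f4c5 73) 1)) (.cons 9 (.ofNat (Nat.shiftLeft 0x150fc7760aaf5fc7023d6c37 73)) (.cons 10 (.ofNat (Nat.shiftLeft 0x4276c17ab6ad085 109)) (.cons 11 (.negSucc (Nat.sub (Nat.shiftLeft 0x288cefe38e1bf77d06b844a5 73) 1)) .nil)))))),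
    .cons 5 (.ofNat (Nat.shiftLeft 0x451a6035988a600c2f243e93c707 55)) (.cons 6 (.ofNat (Nat.shiftLeft 0x3229f20703dbac7adf7f7a29e246b 55)) (.cons 7 (.ofNat (Nat.shiftLeft 0xa1d5cd476da00710d4c11fb1083ad 55)) (.cons 8 (.negSucc (Nat.sub (Nat.shiftLeft 0x1c12efec899e9b974c59f6432a8e9 55) 1)) (.cons 9 (.ofNat (Nat.shiftLeft 0x95ce7df88d179af63c3d3692d4c3 55)) (.cons 10 (.negSucc (Nat.sub (Nat.shiftLeft 0x2d407312ec2587ec057 91) 1)) (.cons 11 (.negSucc (Nat.sub (Nat.shiftLeft 0x8c97474a8565dab995ffa3b87e49 55) 1)) .nil)))))),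
    .cons 5 (.negSucc (Nat.sub (Nat.shiftLeft 0x4120b7de3c7d10fa25cfc6544c7b9f8f 39) 1)) (.cons 6 (.ofNat (Nat.shiftLeft 0xb10c1623643185b9a4ee4e286a419512d 39)) (.cons 7 (.negSucc (Nat.sub (Nat.shiftLeft 0x5c7985c5c97d5e7329c2442f9f3c01685 39) 1)) (.cons 8 (.negSucc (Nat.sub (Nat.shiftLeft 0x35bed105aa3653bf49a151c737244431f 39) 1)) (.cons 9 (.negSucc (Nat.sub (Nat.shiftLeft 0xb18c090d2f98618087846452468b8a6b 39) 1)) (.cons 10 (.negSucc (Nat.sub (Nat.shiftLeft 0x2e244208dd086fcd5fc0da1 75) 1)) (.cons 11 (.ofNat (Nat.shiftLeft 0x6e1ea8256b9c1050e8d05dfed3a29f41 39)) .nil)))))),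
    .cons 5 (.ofNat (Nat.shiftLeft 0x133697e6951213d895f6d4069d17c2d7ad7 30)) (.cons 6 (.ofNat (Nat.shiftLeft 0x4c69aa45109944e4d53607db14a0faa10fb 30)) (.cons 7 (.ofNat (Nat.shiftLeft 0x89254ede5a572c164793bb36df006e1ff9d 30)) (.cons 8 (.ofNat (Nat.shiftLeft 0xb854dfc3481f33a3359e84ba1644ba0a5e7 30)) (.cons 9 (.ofNat (Nat.shiftLeft 0x2d61c1a23dc2c36306646edc8e0284415d3 30)) (.cons 10 (.negSucc (Nat.sub (Nat.shiftLeft 0x1c70d92d98780d4715d1b5ab27 66) 1)) (.cons 11 (.negSucc (Nat.sub (Nat.shiftLeft 0x2ee0d9ab844b615d8001f49a56878cc4179 30) 1)) .nil)))))),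
    .cons 12 (.ofNat (Nat.shiftLeft 0x52065a263 136)) (.cons 13 (.negSucc (Nat.sub (Nat.shiftLeft 0xc49e233 140) 1)) (.cons 14 (.ofNat (Nat.shiftLeft 0x8a6767 140)) (.cons 15 (.negSucc (Nat.sub (Nat.shiftLeft 0x483dc17 136) 1)) (.cons 16 (.negSucc (Nat.sub (Nat.shiftLeft 0x2925a9 136) 1)) (.cons 18 (.ofNat (Nat.shiftLeft 0x1a2f3d 136)) .nil))))),
    .cons 12 (.ofNat (Nat.shiftLeft 0xb5451dd82caa91e1 107)) (.cons 13 (.ofNat (Nat.shiftLeft 0x12a20ddcfd4ea2f 111)) (.cons 14 (.negSucc (Nat.sub (Nat.shiftLeft 0x1d54bf812e26773 111) 1)) (.cons 15 (.negSucc (Nat.sub (Nat.shiftLeft 0x46c827b0f43461d 107) 1)) (.cons 16 (.negSucc (Nat.sub (Nat.shiftLeft 0x8f8878a0709523 107) 1)) (.cons 17 (.negSucc (Nat.sub (Nat.shiftLeft 0x28bdcb 143) 1)) (.cons 18 (.negSucc (Nat.sub (Nat.shiftLeft 0x634afd6b5b4401 107) 1)) .nil)))))),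
    .cons 12 (.ofNat (Nat.shiftLeft 0x69cf463e752030344d00d 85)) (.cons 13 (.ofNat (Nat.shiftLeft 0x234017288eeb2efcfb6c3 89)) (.cons 14 (.ofNat (Nat.shiftLeft 0x4370f058782c73c67649 89)) (.cons 15 (.negSucc (Nat.sub (Nat.shiftLeft 0x4c5bd1cd4dde0dba2f099 85) 1)) (.cons 16 (.ofNat (Nat.shiftLeft 0x3a67bd05bf40607180659 85)) (.cons 17 (.ofNat (Nat.shiftLeft 0x27bf47ed4d1 121)) (.cons 18 (.negSucc (Nat.sub (Nat.shiftLeft 0x3c1228e5fa3c90268fad 85) 1)) .nil)))))),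
    .cons 12 (.negSucc (Nat.sub (Nat.shiftLeft 0x1129441cfda8e8ce49bb6f93e3 69) 1)) (.cons 13 (.ofNat (Nat.shiftLeft 0xbe598698aaa1b277ef67bbb3 73)) (.cons 14 (.negSucc (Nat.sub (Nat.shiftLeft 0x117afd9e5f7e46bee4eb7dae7 73) 1)) (.cons 15 (.negSucc (Nat.sub (Nat.shiftLeft 0x5026c37a904f223e929685869 69) 1)) (.cons 16 (.negSucc (Nat.sub (Nat.shiftLeft 0xbfba5d2b224018a272f9c5d7 69) 1)) (.cons 17 (.negSucc (Nat.sub (Nat.shiftLeft 0x3f4b087bdc1e31df 105) 1)) (.cons 18 (.ofNat (Nat.shiftLeft 0x3293ca7f06dc73f001a9ef243 69)) .nil)))))),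
    .cons 12 (.negSucc (Nat.sub (Nat.shiftLeft 0x27444f6154d3a85cfd68b136371f9 51) 1)) (.cons 13 (.ofNat (Nat.shiftLeft 0x93c19f02f19b1d94ab994f5432469 55)) (.cons 14 (.ofNat (Nat.shiftLeft 0x886a9875be2f83f6661cf4e18233b 55)) (.cons 15 (.negSucc (Nat.sub (Nat.shiftLeft 0x1d720b07f03f3149a8e46d01d0802b 51) 1)) (.cons 16 (.ofNat (Nat.shiftLeft 0x109cfbbb6df657547b70bdd406a96b 51)) (.cons 17 (.ofNat (Nat.shiftLeft 0x55c4ea709e79597319d3 87)) (.cons 18 (.negSucc (Nat.sub (Nat.shiftLeft 0x9eea9de0fcc7360300fae9e32c8e7 51) 1)) .nil)))))),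
    .cons 12 (.ofNat (Nat.shiftLeft 0x1d1420322ec99c737d1c255f2e98f482f 36)) (.cons 13 (.ofNat (Nat.shiftLeft 0x3ce289938eb3f18c6d61d31b318fcbcc1 40)) (.cons 14 (.negSucc (Nat.sub (Nat.shiftLeft 0x383b299bddc8a1fb1f6a174785da303bd 40) 1)) (.cons 15 (.negSucc (Nat.sub (Nat.shiftLeft 0x1d0731dd6b71340ef2f64fceb3dd3fe7b3 36) 1)) (.cons 16 (.negSucc (Nat.sub (Nat.shiftLeft 0x523128a2687e2374f8e14fc320dacf10d 36) 1)) (.cons 17 (.ofNat (Nat.shiftLeft 0x11f288974e625c5286014d1b 72)) (.cons 18 (.ofNat (Nat.shiftLeft 0x51e6a7b3b69804049cfadf0989456c7f1 36)) .nil)))))),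
    .cons 12 (.ofNat (Nat.shiftLeft 0x85a487e72d99073b8b203c85bc86d38295 31)) (.cons 13 (.ofNat (Nat.shiftLeft 0x28014f5de1885b8933590a32bf7d081cbb 35)) (.cons 14 (.negSucc (Nat.sub (Nat.shiftLeft 0x4c3c27ced059ae637cb7ad58085efe87cf 35) 1)) (.cons 15 (.ofNat (Nat.shiftLeft 0x63fda16c8d9b28e53e168c0b794d42428ff 31)) (.cons 16 (.negSucc (Nat.sub (Nat.shiftLeft 0x2e70475a33bc6f3b05eafe2d6a359614d3f 31) 1)) (.cons 17 (.negSucc (Nat.sub (Nat.shiftLeft 0x281e5645aaef2b26e83b09007 67) 1)) (.cons 18 (.ofNat (Nat.shiftLeft 0x14325a01dd8b0efb55ddfecc5ddc483bccb 31)) .nil)))))),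
    .cons 19 (.ofNat (Nat.shiftLeft 0x41e7619 143)) (.cons 20 (.negSucc (Nat.sub (Nat.shiftLeft 0x451ef3 144) 1)) (.cons 21 (.ofNat (Nat.shiftLeft 0x56475 146)) (.cons 22 (.negSucc (Nat.sub (Nat.shiftLeft 0x22ce39 142) 1)) .nil))),
    .cons 19 (.ofNat (Nat.shiftLeft 0x901f350ad37b 123)) (.cons 20 (.negSucc (Nat.sub (Nat.shiftLeft 0x20f3c17963e9 124) 1)) (.cons 21 (.negSucc (Nat.sub (Nat.shiftLeft 0x8ac2c58231 126) 1)) (.cons 22 (.negSucc (Nat.sub (Nat.shiftLeft 0x1760491c71db 122) 1)) .nil))),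
    .cons 19 (.ofNat (Nat.shiftLeft 0x2eaf8a8c9b5cd44e5 105)) (.cons 20 (.negSucc (Nat.sub (Nat.shiftLeft 0x1ef4543bc2233c37 106) 1)) (.cons 21 (.negSucc (Nat.sub (Nat.shiftLeft 0xa45be99d0b0feef 108) 1)) (.cons 22 (.ofNat (Nat.shiftLeft 0x2ccd8cc5cf766d7b 104)) .nil))),
    .cons 19 (.negSucc (Nat.sub (Nat.shiftLeft 0x29c898ece9d85054c09 94) 1)) (.cons 20 (.ofNat (Nat.shiftLeft 0x4443ff7c4c7fffd2243 95)) (.cons 21 (.negSucc (Nat.sub (Nat.shiftLeft 0x2bdd58de4b2b2416a5 97) 1)) (.cons 22 (.negSucc (Nat.sub (Nat.shiftLeft 0x3f82eba71db008b6dd7 93) 1)) .nil))),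
    .cons 23 (.ofNat (Nat.shiftLeft 0x1ed 159)) .nil],
   [.nil,
    .cons 0 (.ofNat (Nat.shiftLeft 0x782049 142)) .nil,
    .cons 0 (.negSucc (Nat.sub (Nat.shiftLeft 0xaaa5192edc7 124) 1)) .nil,
    .cons 0 (.negSucc (Nat.sub (Nat.shiftLeft 0x656f7c5585fbca5 105) 1)) .nil,
    .cons 0 (.ofNat (Nat.shiftLeft 0xe23b0f3b8a4a745bc3 95)) .nil,
    .cons 1 (.ofNat (Nat.shiftLeft 0x372f4999 138)) (.cons 2 (.negSucc (Nat.sub (Nat.shiftLeft 0xaa1d9b 139) 1)) (.cons 3 (.ofNat (Nat.shiftLeft 0x4ce37 138)) (.cons 4 (.ofNat (Nat.shiftLeft 0x6ba4d 138)) .nil))),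
    .cons 1 (.ofNat (Nat.shiftLeft 0x469d6ce1b9daa5f 111)) (.cons 2 (.ofNat (Nat.shiftLeft 0x46b694e0324c33 112)) (.cons 3 (.ofNat (Nat.shiftLeft 0x1cdbe1ff73bb51 111)) (.cons 4 (.negSucc (Nat.sub (Nat.shiftLeft 0x1cf446cd912cf5 111) 1)) .nil))),
    .cons 1 (.ofNat (Nat.shiftLeft 0xb12385eb6a5337c29463 91)) (.cons 2 (.ofNat (Nat.shiftLeft 0xda40dcd27e6a238c8e7 92)) (.cons 3 (.ofNat (Nat.shiftLeft 0x874957a3fcd621b528d 91)) (.cons 4 (.ofNat (Nat.shiftLeft 0xa106bdd9cdc5626405f 91)) .nil))),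
    .cons 1 (.ofNat (Nat.shiftLeft 0x1f4dace1c336375799cc479fd 73)) (.cons 2 (.ofNat (Nat.shiftLeft 0x798f90d2b9da24d973882df9 74)) (.cons 3 (.ofNat (Nat.shiftLeft 0x4a481fe593226ca70b331d13 73)) (.cons 4 (.negSucc (Nat.sub (Nat.shiftLeft 0x10817846e3f33d2f0520a7f 73) 1)) .nil))),
    .cons 1 (.negSucc (Nat.sub (Nat.shiftLeft 0x2aec0ea30089857dc0a877f41a77f 55) 1)) (.cons 2 (.ofNat (Nat.shiftLeft 0x1a15779eeb2956171e387447ae52d 56)) (.cons 3 (.ofNat (Nat.shiftLeft 0x13ddcdec1b28de8d154610de27cf 55)) (.cons 4 (.negSucc (Nat.sub (Nat.shiftLeft 0xbe327ad2171510eec0e781fc2eab 55) 1)) .nil))),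
    .cons 1 (.ofNat (Nat.shiftLeft 0x5ab39e9064a9412eb001d440b71db5247 39)) (.cons 2 (.negSucc (Nat.sub (Nat.shiftLeft 0x423833af687339efccd25ea739854c05 40) 1)) (.cons 3 (.ofNat (Nat.shiftLeft 0x10469801b06f6c633fbd7e9f09f464be9 39)) (.cons 4 (.negSucc (Nat.sub (Nat.shiftLeft 0x6dd77123fba5c76cb199f34bedd0c8ed 39) 1)) .nil))),
    .cons 1 (.negSucc (Nat.sub (Nat.shiftLeft 0x360a6c67c123a8d2b712aaa3d5c02aee5cf 30) 1)) (.cons 2 (.ofNat (Nat.shiftLeft 0x80bca01e8c0cae83829524cd6be28ece91d 31)) (.cons 3 (.ofNat (Nat.shiftLeft 0x2b7002c210e1a8f85c6b3569634c9546d1f 30)) (.cons 4 (.ofNat (Nat.shiftLeft 0x3b0f84d552184c5e645f4e8ddcd19dc98c5 30)) .nil))),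
    .cons 5 (.ofNat (Nat.shiftLeft 0x5fe103bd9 136)) (.cons 6 (.ofNat (Nat.shiftLeft 0x4a7297dd 137)) (.cons 7 (.negSucc (Nat.sub (Nat.shiftLeft 0x81c0f09 136) 1)) (.cons 8 (.ofNat (Nat.shiftLeft 0x381c15 140)) (.cons 9 (.negSucc (Nat.sub (Nat.shiftLeft 0x3bd9b 136) 1)) (.cons 10 (.ofNat (Nat.shiftLeft 0xb38d1 136)) (.cons 11 (.negSucc (Nat.sub (Nat.shiftLeft 0xb38d1 136) 1)) .nil)))))),
    .cons 5 (.negSucc (Nat.sub (Nat.shiftLeft 0x99582b8f7435fccd 107) 1)) (.cons 6 (.negSucc (Nat.sub (Nat.shiftLeft 0x23721b62ce7c5921 108) 1)) (.cons 7 (.negSucc (Nat.sub (Nat.shiftLeft 0x14aee0dee4bbf043 107) 1)) (.cons 8 (.ofNat (Nat.shiftLeft 0x89bd102c3c6e47 111)) (.cons 9 (.ofNat (Nat.shiftLeft 0xbf0d67d0d09b7 107)) (.cons 10 (.ofNat (Nat.shiftLeft 0x1ee4e7488d8e2db 107)) (.cons 11 (.ofNat (Nat.shiftLeft 0x10301b77271d25 107)) .nil)))))),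
    .cons 5 (.ofNat (Nat.shiftLeft 0x81def3d28893414cb0a77 85)) (.cons 6 (.negSucc (Nat.sub (Nat.shiftLeft 0xba49acc4be7738fec364d 86) 1)) (.cons 7 (.negSucc (Nat.sub (Nat.shiftLeft 0x2f548dce10ce2c8a0ee47 85) 1)) (.cons 8 (.ofNat (Nat.shiftLeft 0x2a00a28d7e5401f682fb 89)) (.cons 9 (.ofNat (Nat.shiftLeft 0x1db54126d75165dbc5dab 85)) (.cons 10 (.negSucc (Nat.sub (Nat.shiftLeft 0x18d515479efab19351901 85) 1)) (.cons 11 (.ofNat (Nat.shiftLeft 0xf5242566a6fb19351901 85)) .nil)))))),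
    .cons 5 (.ofNat (Nat.shiftLeft 0xfb0f9937c13a4f001c1fb97a7 69)) (.cons 6 (.negSucc (Nat.sub (Nat.shiftLeft 0x1466c054ff8b627d88e215c65d 70) 1)) (.cons 7 (.negSucc (Nat.sub (Nat.shiftLeft 0xc246d3ca7625625d1633a2c77 69) 1)) (.cons 8 (.ofNat (Nat.shiftLeft 0xea68f2adce698d804b54996b 73)) (.cons 9 (.ofNat (Nat.shiftLeft 0x3dd7c2816cbf5b37b69e94b1b 69)) (.cons 10 (.negSucc (Nat.sub (Nat.shiftLeft 0x2e538e496648b5a3dbbe151 69) 1)) (.cons 11 (.ofNat (Nat.shiftLeft 0x1dd08d9c765c00baa3dbbe151 69)) .nil)))))),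
    .cons 5 (.ofNat (Nat.shiftLeft 0x7c17ddd85cda1fcf38f8569a6705 51)) (.cons 6 (.ofNat (Nat.shiftLeft 0xbace13f3dbe1c1703462ded09a739 52)) (.cons 7 (.ofNat (Nat.shiftLeft 0x50ce41493eea0d63563b026c95ef8b 51)) (.cons 8 (.negSucc (Nat.sub (Nat.shiftLeft 0x31ddbcf6f626b31e80a9289da89ef 55) 1)) (.cons 9 (.ofNat (Nat.shiftLeft 0x675b7020b814c60a84dafcd74f821 51)) (.cons 10 (.negSucc (Nat.sub (Nat.shiftLeft 0x12cb5910b8571766f48947685ee863 51) 1)) (.cons 11 (.negSucc (Nat.sub (Nat.shiftLeft 0x3c250d0f33451c88282c897a1179d 51) 1)) .nil)))))),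
    .cons 5 (.negSucc (Nat.sub (Nat.shiftLeft 0x1d2dcba7b0dd457e1563e42eb1c49dc03 36) 1)) (.cons 6 (.ofNat (Nat.shiftLeft 0x23fa975cf561b151fddb00a71b78730b11 37)) (.cons 7 (.negSucc (Nat.sub (Nat.shiftLeft 0x32d8bf9f65dd3a4bbb2a097f0a8372c7ed 36) 1)) (.cons 8 (.ofNat (Nat.shiftLeft 0x14e56b3f223180c760be92c207031a29 40)) (.cons 9 (.negSucc (Nat.sub (Nat.shiftLeft 0xb143b9608521521b4dd01dd5a5e558a47 36) 1)) (.cons 10 (.negSucc (Nat.sub (Nat.shiftLeft 0x2c94e874469bc2c3f95305968e4ff612b 36) 1)) (.cons 11 (.ofNat (Nat.shiftLeft 0x24d3af80d6cc940841ec383d8e4ff612b 36)) .nil)))))),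
    .cons 5 (.ofNat (Nat.shiftLeft 0x4e7d074ecd25432331aff15a8459ca068f 31)) (.cons 6 (.negSucc (Nat.sub (Nat.shiftLeft 0x32ed7488cd2adccf0b9c9210168e9682d5 32) 1)) (.cons 7 (.ofNat (Nat.shiftLeft 0x7f8859af9dcc26040c9c11996f590e9f521 31)) (.cons 8 (.negSucc (Nat.sub (Nat.shiftLeft 0x47e2fe969758b59bbb7c42562791c1224d 35) 1)) (.cons 9 (.negSucc (Nat.sub (Nat.shiftLeft 0x11cc0a54f4a7416e3bec48b29ed6537641d 31) 1)) (.cons 10 (.ofNat (Nat.shiftLeft 0x10dec87f4519fa3f6e4e997d9202fa62c57 31)) (.cons 11 (.negSucc (Nat.sub (Nat.shiftLeft 0x19cdc7ebe091b6b07d52d7b35502fa62c57 31) 1)) .nil)))))),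
    .cons 12 (.ofNat (Nat.shiftLeft 0x1d854501 142)) (.cons 13 (.negSucc (Nat.sub (Nat.shiftLeft 0x3fe1b5b 143) 1)) (.cons 14 (.negSucc (Nat.sub (Nat.shiftLeft 0x8abb65 145) 1)) (.cons 15 (.ofNat (Nat.shiftLeft 0xb8d007 142)) (.cons 16 (.ofNat (Nat.shiftLeft 0x2f8d1f 142)) (.cons 17 (.ofNat (Nat.shiftLeft 0xc4167 143)) (.cons 18 (.negSucc (Nat.sub (Nat.shiftLeft 0x1787d 144) 1)) .nil)))))),
    .cons 12 (.negSucc (Nat.sub (Nat.shiftLeft 0xbdd69b98804d 122) 1)) (.cons 13 (.negSucc (Nat.sub (Nat.shiftLeft 0x872afbabe0a1 123) 1)) (.cons 14 (.negSucc (Nat.sub (Nat.shiftLeft 0x1824cfb2479f 125) 1)) (.cons 15 (.ofNat (Nat.shiftLeft 0x6986b60334e5 122)) (.cons 16 (.negSucc (Nat.sub (Nat.shiftLeft 0x1ea78b709353 122) 1)) (.cons 17 (.ofNat (Nat.shiftLeft 0x33836b37b05 123)) (.cons 18 (.ofNat (Nat.shiftLeft 0x73389c18099 124)) .nil)))))),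
    .cons 12 (.negSucc (Nat.sub (Nat.shiftLeft 0x2ffab5c7d64c7853 104) 1)) (.cons 13 (.ofNat (Nat.shiftLeft 0x186f887eddc0cc181 105)) (.cons 14 (.ofNat (Nat.shiftLeft 0x7f1f3adcd8c99ebf 107)) (.cons 15 (.negSucc (Nat.sub (Nat.shiftLeft 0x1e645aad7bcb22145 104) 1)) (.cons 16 (.negSucc (Nat.sub (Nat.shiftLeft 0x2f7ab929a318c80d 104) 1)) (.cons 17 (.negSucc (Nat.sub (Nat.shiftLeft 0x2f0c1b19ce924365 105) 1)) (.cons 18 (.negSucc (Nat.sub (Nat.shiftLeft 0x187f96b058cfba79 106) 1)) .nil)))))),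
    .cons 12 (.negSucc (Nat.sub (Nat.shiftLeft 0x3017dbb94d350165871 93) 1)) (.cons 13 (.negSucc (Nat.sub (Nat.shiftLeft 0x1539ece55eaeabd33bd5 94) 1)) (.cons 14 (.ofNat (Nat.shiftLeft 0x56aa9ed813252e64695 96)) (.cons 15 (.ofNat (Nat.shiftLeft 0x22624c469905270f7e9 93)) (.cons 16 (.negSucc (Nat.sub (Nat.shiftLeft 0x15e7c0bdf478b6cc7af 93) 1)) (.cons 17 (.ofNat (Nat.shiftLeft 0x1d47e47328efef3cc89 94)) (.cons 18 (.negSucc (Nat.sub (Nat.shiftLeft 0x137ebdaa542d73bf9d3 95) 1)) .nil)))))),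
    .cons 19 (.ofNat (Nat.shiftLeft 0xf09 159)) (.cons 20 (.negSucc (Nat.sub (Nat.shiftLeft 0x50b 159) 1)) (.cons 21 (.ofNat (Nat.shiftLeft 0x53 159)) (.cons 22 (.negSucc (Nat.sub (Nat.shiftLeft 0x6b 160) 1)) .nil)))]⟩

noncomputable def A9 : Tn :=
  ⟨[.cons 1 (.ofNat (Nat.shiftLeft 0x795 160)) (.cons 2 (.negSucc (Nat.sub (Nat.shiftLeft 0x4af 159) 1)) (.cons 3 (.negSucc (Nat.sub (Nat.shiftLeft 0x7 159) 1)) (.cons 4 (.ofNat (Nat.shiftLeft 0xef 159)) .nil))),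
    .cons 5 (.ofNat (Nat.shiftLeft 0x1d9ccf11 142)) (.cons 6 (.ofNat (Nat.shiftLeft 0x7b4a4c3 142)) (.cons 7 (.ofNat (Nat.shiftLeft 0x4524519 142)) (.cons 8 (.ofNat (Nat.shiftLeft 0x668847 143)) (.cons 9 (.negSucc (Nat.sub (Nat.shiftLeft 0x170eb9 142) 1)) (.cons 10 (.ofNat (Nat.shiftLeft 0xa4d63 144)) (.cons 11 (.negSucc (Nat.sub (Nat.shiftLeft 0x75bd9 142) 1)) .nil)))))),
    .cons 5 (.negSucc (Nat.sub (Nat.shiftLeft 0x5e03ab983f51 123) 1)) (.cons 6 (.ofNat (Nat.shiftLeft 0x89359352667d 123)) (.cons 7 (.ofNat (Nat.shiftLeft 0x5bd0926568a7 123)) (.cons 8 (.ofNat (Nat.shiftLeft 0x19af0fd9f1f9 124)) (.cons 9 (.ofNat (Nat.shiftLeft 0xcc6eef148f9 123)) (.cons 10 (.negSucc (Nat.sub (Nat.shiftLeft 0x3b0e60ea23 125) 1)) (.cons 11 (.ofNat (Nat.shiftLeft 0xe09aa8e5e19 123)) .nil)))))),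
    .cons 5 (.ofNat (Nat.shiftLeft 0x4830a68f7d83113 107)) (.cons 6 (.ofNat (Nat.shiftLeft 0x6a06645d5fdda7e9 107)) (.cons 7 (.ofNat (Nat.shiftLeft 0x797e332452f8022b 107)) (.cons 8 (.ofNat (Nat.shiftLeft 0x1ff81f715a20f9f5 108)) (.cons 9 (.negSucc (Nat.sub (Nat.shiftLeft 0x264064adeeeb0b 107) 1)) (.cons 10 (.ofNat (Nat.shiftLeft 0x3d94c3570654dc9 109)) (.cons 11 (.ofNat (Nat.shiftLeft 0x8d98d527c931195 107)) .nil)))))),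
    .cons 5 (.ofNat (Nat.shiftLeft 0x10cecc1af746c482d77 94)) (.cons 6 (.negSucc (Nat.sub (Nat.shiftLeft 0x146979b9d6454971b2ab 94) 1)) (.cons 7 (.ofNat (Nat.shiftLeft 0x16adf6fc2e24138887af 94)) (.cons 8 (.negSucc (Nat.sub (Nat.shiftLeft 0x4fd04107fc06ad6a0f 95) 1)) (.cons 9 (.negSucc (Nat.sub (Nat.shiftLeft 0x22d49daf7d3bc388b0f 94) 1)) (.cons 10 (.negSucc (Nat.sub (Nat.shiftLeft 0x442f9265df818f964b 96) 1)) (.cons 11 (.ofNat (Nat.shiftLeft 0x1b24b617d4055f8d911 94)) .nil)))))),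
    .cons 12 (.ofNat (Nat.shiftLeft 0x61499e049 136)) (.cons 13 (.negSucc (Nat.sub (Nat.shiftLeft 0x252fd3e5 138) 1)) (.cons 14 (.ofNat (Nat.shiftLeft 0x209953f 138)) (.cons 15 (.ofNat (Nat.shiftLeft 0x3c45d9d 136)) (.cons 16 (.ofNat (Nat.shiftLeft 0x3c09d 136)) (.cons 17 (.negSucc (Nat.sub (Nat.shiftLeft 0x3c09d 138) 1)) (.cons 18 (.ofNat (Nat.shiftLeft 0x3c09d 138)) .nil)))))),
    .cons 12 (.ofNat (Nat.shiftLeft 0x4aec0ff20ff0f831 108)) (.cons 13 (.negSucc (Nat.sub (Nat.shiftLeft 0x8df5e16471d2a2d 110) 1)) (.cons 14 (.negSucc (Nat.sub (Nat.shiftLeft 0x2b7dd88e8872169 110) 1)) (.cons 15 (.negSucc (Nat.sub (Nat.shiftLeft 0x4938a9197d32b5b 108) 1)) (.cons 16 (.ofNat (Nat.shiftLeft 0x2756e76afd2fa5 108)) (.cons 17 (.ofNat (Nat.shiftLeft 0x40b4149502d05b 110)) (.cons 18 (.negSucc (Nat.sub (Nat.shiftLeft 0x35b7d9502d05b 110) 1)) .nil)))))),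
    .cons 12 (.negSucc (Nat.sub (Nat.shiftLeft 0x8ccb3e89ce5dfd6e03a91 85) 1)) (.cons 13 (.negSucc (Nat.sub (Nat.shiftLeft 0x6187194cd0b1d2b6594f3 87) 1)) (.cons 14 (.negSucc (Nat.sub (Nat.shiftLeft 0xd607474f2bec8407a737 87) 1)) (.cons 15 (.negSucc (Nat.sub (Nat.shiftLeft 0x31f7e9938f065e7388285 85) 1)) (.cons 16 (.ofNat (Nat.shiftLeft 0x1903a46cc4ee253c5027b 85)) (.cons 17 (.negSucc (Nat.sub (Nat.shiftLeft 0x5a068de3b85e53c5027b 87) 1)) (.cons 18 (.ofNat (Nat.shiftLeft 0x5340f689d72753c5027b 87)) .nil)))))),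
    .cons 12 (.ofNat (Nat.shiftLeft 0xf3bfb2042b64de6d80fb4cabd 69)) (.cons 13 (.ofNat (Nat.shiftLeft 0x9e53896d9c9896e278a55bc77 71)) (.cons 14 (.ofNat (Nat.shiftLeft 0x31e5fd5b2af39a280bdfeef6b 71)) (.cons 15 (.ofNat (Nat.shiftLeft 0xfb2e7d3a2b0db15749fbf69a1 69)) (.cons 16 (.negSucc (Nat.sub (Nat.shiftLeft 0x3c898db340e88cda05709375f 69) 1)) (.cons 17 (.negSucc (Nat.sub (Nat.shiftLeft 0x544abc264bd7493a8f6c8a1 71) 1)) (.cons 18 (.negSucc (Nat.sub (Nat.shiftLeft 0xac9f09cd4482ea015709375f 71) 1)) .nil)))))),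
    .cons 12 (.ofNat (Nat.shiftLeft 0xae7c1193e774f2c4e2ec597f4c5f9 49)) (.cons 13 (.negSucc (Nat.sub (Nat.shiftLeft 0x14547d8e96a04940bb453351706d5 51) 1)) (.cons 14 (.negSucc (Nat.sub (Nat.shiftLeft 0x6aa4a731cf2f546acc05a25b5686f1 51) 1)) (.cons 15 (.negSucc (Nat.sub (Nat.shiftLeft 0xe346b6f3c58ce78a9bb7e717615cf3 49) 1)) (.cons 16 (.negSucc (Nat.sub (Nat.shiftLeft 0x1a5861555dacaf1f25abc31ff769f3 49) 1)) (.cons 17 (.ofNat (Nat.shiftLeft 0x12a174401702916c58cd9f1ff769f3 51)) (.cons 18 (.ofNat (Nat.shiftLeft 0x704ca4c7c13d28457756fe008960d 51)) .nil)))))),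
    .cons 12 (.ofNat (Nat.shiftLeft 0x662e83fd1d32607a77f449edd14c22011 34)) (.cons 13 (.ofNat (Nat.shiftLeft 0x494f57807b8f93727433f049e781322573 36)) (.cons 14 (.negSucc (Nat.sub (Nat.shiftLeft 0x30aaf9f3b842dbb90857119f7b0d083249 36) 1)) (.cons 15 (.ofNat (Nat.shiftLeft 0x6d329ec49186dd3ad1ed544cb404ec605 34)) (.cons 16 (.negSucc (Nat.sub (Nat.shiftLeft 0x2f52369e872da20355261c13834d723efb 34) 1)) (.cons 17 (.negSucc (Nat.sub (Nat.shiftLeft 0x2e2b0d4dd34a4f90a2eb97900b28dc105 36) 1)) (.cons 18 (.ofNat (Nat.shiftLeft 0x3ec253d43c61629220f9280b7b28dc105 36)) .nil)))))),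
    .cons 12 (.negSucc (Nat.sub (Nat.shiftLeft 0x2fe2362c2033e93f0b41ac2627374c38199d 24) 1)) (.cons 13 (.negSucc (Nat.sub (Nat.shiftLeft 0x21eb8d6130c30d2ccae4984e0601b3c4117 26) 1)) (.cons 14 (.ofNat (Nat.shiftLeft 0xf94fb73ac50853e76e8a8ec1c22e978a5075 26)) (.cons 15 (.ofNat (Nat.shiftLeft 0x228be1feacc43e35902716963744db69311ff 24)) (.cons 16 (.negSucc (Nat.sub (Nat.shiftLeft 0x66d8a8ad8aa2288c84a42b4ce2fcc97fed01 24) 1)) (.cons 17 (.ofNat (Nat.shiftLeft 0x1bc23f6e407f7c5352e9a7db18b0c97fed01 26)) (.cons 18 (.negSucc (Nat.sub (Nat.shiftLeft 0x440b0b7335563046aaee2aa43a3bc97fed01 26) 1)) .nil)))))),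
    .cons 19 (.ofNat (Nat.shiftLeft 0xe1fc855 140)) (.cons 20 (.negSucc (Nat.sub (Nat.shiftLeft 0x31e3b 145) 1)) (.cons 21 (.negSucc (Nat.sub (Nat.shiftLeft 0x3d67 143) 1)) (.cons 22 (.negSucc (Nat.sub (Nat.shiftLeft 0x2289f 140) 1)) .nil))),
    .cons 19 (.negSucc (Nat.sub (Nat.shiftLeft 0x118a247e7556d251 109) 1)) (.cons 20 (.negSucc (Nat.sub (Nat.shiftLeft 0x1304dd0b653d01 114) 1)) (.cons 21 (.ofNat (Nat.shiftLeft 0xd6d81e195c03b 112)) (.cons 22 (.negSucc (Nat.sub (Nat.shiftLeft 0x93209c91bc3ded 109) 1)) .nil))),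
    .cons 19 (.negSucc (Nat.sub (Nat.shiftLeft 0x58d775088fc8681fea079 88) 1)) (.cons 20 (.negSucc (Nat.sub (Nat.shiftLeft 0x807d24d52a992383ea9 93) 1)) (.cons 21 (.ofNat (Nat.shiftLeft 0xa8d5da4931bafd449f3 91)) (.cons 22 (.ofNat (Nat.shiftLeft 0x4fe99abb426fae76998b 88)) .nil))),
    .cons 19 (.ofNat (Nat.shiftLeft 0xea4732f47a4abb52c84cc193f 70)) (.cons 20 (.ofNat (Nat.shiftLeft 0x43b546afbda18138eba0518f 75)) (.cons 21 (.negSucc (Nat.sub (Nat.shiftLeft 0x4dab8c77cb5e7da5a8f3aaf5 73) 1)) (.cons 22 (.ofNat (Nat.shiftLeft 0x46b28be855a4d9978f6efd63 70)) .nil))),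
    .cons 19 (.ofNat (Nat.shiftLeft 0x4f8e2f5e8df431d1c858d8fefbc4a9 51)) (.cons 20 (.negSucc (Nat.sub (Nat.shiftLeft 0x1c3cebf441a98f5aab3bb91ab2c27 56) 1)) (.cons 21 (.negSucc (Nat.sub (Nat.shiftLeft 0xa1636981134dd8de7c555020dc03 54) 1)) (.cons 22 (.negSucc (Nat.sub (Nat.shiftLeft 0x78087a28443e495a4f96e5127bc1b 51) 1)) .nil))),
    .cons 19 (.negSucc (Nat.sub (Nat.shiftLeft 0x23da2c992907b3849c6da3551ccf3a0bc07 32) 1)) (.cons 20 (.negSucc (Nat.sub (Nat.shiftLeft 0x33f32d569708eb86cc9cb5de77ffc35d7 37) 1)) (.cons 21 (.ofNat (Nat.shiftLeft 0x1034da84575d164b8e9e5c94e7ec4f0f8d 35)) (.cons 22 (.negSucc (Nat.sub (Nat.shiftLeft 0x5f1b4ffed74a8aa20d7b36cf0f3138740b 32) 1)) .nil))),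
    .cons 19 (.negSucc (Nat.sub (Nat.shiftLeft 0x1c9389913213a097084e939e7f0b17af3fb01 23) 1)) (.cons 20 (.ofNat (Nat.shiftLeft 0x4252bb719ef519893b257acc1de84ddd914f 28)) (.cons 21 (.negSucc (Nat.sub (Nat.shiftLeft 0x3a5f15eb66796bbc7987c97f7e1aa1651c35 26) 1)) (.cons 22 (.negSucc (Nat.sub (Nat.shiftLeft 0x212f591c2a76928d141cf57c9f5e52c8dfddd 23) 1)) .nil))),
    .cons 23 (.ofNat (Nat.shiftLeft 0x84b573 142)) .nil,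
    .cons 23 (.negSucc (Nat.sub (Nat.shiftLeft 0x162a4477e49 127) 1)) .nil,
    .cons 23 (.ofNat (Nat.shiftLeft 0x8f803716f4c78f 109)) .nil,
    .cons 23 (.ofNat (Nat.shiftLeft 0x7e38b0ff2f51439cc7 96)) .nil,
    .nil],
   [.cons 0 (.negSucc (Nat.sub (Nat.shiftLeft 0x1cd 159) 1)) .nil,
    .cons 1 (.negSucc (Nat.sub (Nat.shiftLeft 0x82f4a39 142) 1)) (.cons 2 (.ofNat (Nat.shiftLeft 0x10771bf 142)) (.cons 3 (.negSucc (Nat.sub (Nat.shiftLeft 0x7d97 149) 1)) (.cons 4 (.negSucc (Nat.sub (Nat.shiftLeft 0x1afb71 143) 1)) .nil))),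
    .cons 1 (.negSucc (Nat.sub (Nat.shiftLeft 0x94d8560d9b87 123) 1)) (.cons 2 (.ofNat (Nat.shiftLeft 0x3cb9a2e40a81 123)) (.cons 3 (.ofNat (Nat.shiftLeft 0x1018c31757 130)) (.cons 4 (.negSucc (Nat.sub (Nat.shiftLeft 0x5eeebf5fc4f 124) 1)) .nil))),
    .cons 1 (.ofNat (Nat.shiftLeft 0xb932dde5ff0ad275 107)) (.cons 2 (.negSucc (Nat.sub (Nat.shiftLeft 0xd7da036e22aa8a3 107) 1)) (.cons 3 (.negSucc (Nat.sub (Nat.shiftLeft 0x250873b9340fe5 114) 1)) (.cons 4 (.negSucc (Nat.sub (Nat.shiftLeft 0x54aeb31748f6a33 108) 1)) .nil))),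
    .cons 1 (.negSucc (Nat.sub (Nat.shiftLeft 0x258d4d56d1d65b02b8f 94) 1)) (.cons 2 (.ofNat (Nat.shiftLeft 0x82bfc09ceb7c3ccd839 94)) (.cons 3 (.negSucc (Nat.sub (Nat.shiftLeft 0x3bc4cecd64ef18b21 101) 1)) (.cons 4 (.ofNat (Nat.shiftLeft 0xd16300319e733b1be9 95)) .nil))),
    .cons 5 (.negSucc (Nat.sub (Nat.shiftLeft 0x50687844f 136) 1)) (.cons 6 (.negSucc (Nat.sub (Nat.shiftLeft 0xc3e6c481 136) 1)) (.cons 7 (.ofNat (Nat.shiftLeft 0x380d293 137)) (.cons 8 (.ofNat (Nat.shiftLeft 0x9257eb 139)) (.cons 9 (.negSucc (Nat.sub (Nat.shiftLeft 0x12c311 136) 1)) (.cons 10 (.ofNat (Nat.shiftLeft 0x3c09d 138)) (.cons 11 (.negSucc (Nat.sub (Nat.shiftLeft 0xb41d7 137) 1)) .nil)))))),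
    .cons 5 (.ofNat (Nat.shiftLeft 0x5be4b98d3bc1cfd9 108)) (.cons 6 (.negSucc (Nat.sub (Nat.shiftLeft 0xa487aec94186129 108) 1)) (.cons 7 (.ofNat (Nat.shiftLeft 0x76464fae25f7b0b 109)) (.cons 8 (.negSucc (Nat.sub (Nat.shiftLeft 0x3cc214b36dbddd 111) 1)) (.cons 9 (.negSucc (Nat.sub (Nat.shiftLeft 0x628b2d16f1ee39 108) 1)) (.cons 10 (.negSucc (Nat.sub (Nat.shiftLeft 0x51e15d9502d05b 110) 1)) (.cons 11 (.negSucc (Nat.sub (Nat.shiftLeft 0x15d3ea40f78eef 109) 1)) .nil)))))),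
    .cons 5 (.ofNat (Nat.shiftLeft 0x5aef402f1428525268ec7 85)) (.cons 6 (.negSucc (Nat.sub (Nat.shiftLeft 0x238219da0217975c4a7f77 85) 1)) (.cons 7 (.negSucc (Nat.sub (Nat.shiftLeft 0x1bda3e11056e1cb12af2b 86) 1)) (.cons 8 (.negSucc (Nat.sub (Nat.shiftLeft 0x925307bf1bef3cfc9f43 88) 1)) (.cons 9 (.negSucc (Nat.sub (Nat.shiftLeft 0x311d25426f2c3a2d90c67 85) 1)) (.cons 10 (.ofNat (Nat.shiftLeft 0x57ff5844910753c5027b 87)) (.cons 11 (.negSucc (Nat.sub (Nat.shiftLeft 0x51a474e9a9f2fb4f0771 86) 1)) .nil)))))),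
    .cons 5 (.ofNat (Nat.shiftLeft 0x11c429d5d793300154c4db4845 69)) (.cons 6 (.ofNat (Nat.shiftLeft 0xaac40a63a8005ef37e427c2ab 69)) (.cons 7 (.negSucc (Nat.sub (Nat.shiftLeft 0x90a7c9cbae6badf1b419ab1b1 70) 1)) (.cons 8 (.ofNat (Nat.shiftLeft 0x9c64ef2e69b247b4bd989087 72)) (.cons 9 (.ofNat (Nat.shiftLeft 0x2241f2832d3783999b32e14db 69)) (.cons 10 (.ofNat (Nat.shiftLeft 0xe5fcaab52c73519ea8f6c8a1 71)) (.cons 11 (.negSucc (Nat.sub (Nat.shiftLeft 0x175b99986ff9339c2fae459e3 70) 1)) .nil)))))),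
    .cons 5 (.ofNat (Nat.shiftLeft 0xbb3344f7dcf0d766647b4e03244e1 49)) (.cons 6 (.ofNat (Nat.shiftLeft 0x21b8e7d9f74f33f4bc10a5bdfbe4b4f 49)) (.cons 7 (.ofNat (Nat.shiftLeft 0x1160cf02e9b1d308145bab328041623 50)) (.cons 8 (.ofNat (Nat.shiftLeft 0x7ead36a2df3a47f5c05c0214edbfb 52)) (.cons 9 (.ofNat (Nat.shiftLeft 0x21e0420cd355ee500992e79fd511bf 49)) (.cons 10 (.negSucc (Nat.sub (Nat.shiftLeft 0x7f0388734097b124cb7701ff769f3 51) 1)) (.cons 11 (.ofNat (Nat.shiftLeft 0xfc2ca695412aafec6ed755fe63dd9 50)) .nil)))))),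
    .cons 5 (.ofNat (Nat.shiftLeft 0x3e063c119c5f0e8ef36045ebde0df32b9 34)) (.cons 6 (.negSucc (Nat.sub (Nat.shiftLeft 0x113c95efed7a022642120704c5dc28dfa09 34) 1)) (.cons 7 (.ofNat (Nat.shiftLeft 0x59a0498e7cc86c93d11151b198b25733ab 35)) (.cons 8 (.negSucc (Nat.sub (Nat.shiftLeft 0x10294f02b3a73067187451c196cc67983d 37) 1)) (.cons 9 (.ofNat (Nat.shiftLeft 0x5b1b129db379e6e0f8cb46de8833b3ae7 34)) (.cons 10 (.ofNat (Nat.shiftLeft 0x127e3c21305610314977276d7b28dc105 36)) (.cons 11 (.ofNat (Nat.shiftLeft 0x6c8b12dcf3034797cc17b79d5e856bcf1 35)) .nil)))))),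
    .cons 5 (.ofNat (Nat.shiftLeft 0x2fb382394fb926690d29fc7b890d470f15db 24)) (.cons 6 (.negSucc (Nat.sub (Nat.shiftLeft 0x11cc30bac401ad3057247cfdc75144c5fbacb 24) 1)) (.cons 7 (.ofNat (Nat.shiftLeft 0x1be7dd0d197b2ecb15115ad597429e191bc11 25)) (.cons 8 (.ofNat (Nat.shiftLeft 0x5bf1e7cdf40673d358633fb6d39b4d82e4d9 27)) (.cons 9 (.ofNat (Nat.shiftLeft 0x10b4775aea2e3c0d35672d40b6c77ef7fa105 24)) (.cons 10 (.negSucc (Nat.sub (Nat.shiftLeft 0x24d24425af7f166f78db6d79d1dbc97fed01 26) 1)) (.cons 11 (.ofNat (Nat.shiftLeft 0x5e2736baf557778652ca07c5e91a5c7fc703 25)) .nil)))))),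
    .cons 12 (.negSucc (Nat.sub (Nat.shiftLeft 0x10aabe4b 142) 1)) (.cons 13 (.negSucc (Nat.sub (Nat.shiftLeft 0x51b702d 141) 1)) (.cons 14 (.negSucc (Nat.sub (Nat.shiftLeft 0x15d39d 142) 1)) (.cons 15 (.ofNat (Nat.shiftLeft 0x3d2999 140)) (.cons 16 (.ofNat (Nat.shiftLeft 0xb835 140)) (.cons 17 (.negSucc (Nat.sub (Nat.shiftLeft 0xb835 140) 1)) (.cons 18 (.negSucc (Nat.sub (Nat.shiftLeft 0x3d67 142) 1)) .nil)))))),
    .cons 12 (.ofNat (Nat.shiftLeft 0xc6be1dd82eec3cf 111)) (.cons 13 (.negSucc (Nat.sub (Nat.shiftLeft 0x2791ebc205bd7b7 110) 1)) (.cons 14 (.negSucc (Nat.sub (Nat.shiftLeft 0x2101fc64fc4ab07 111) 1)) (.cons 15 (.negSucc (Nat.sub (Nat.shiftLeft 0xb6a7f3342a7ac5 109) 1)) (.cons 16 (.negSucc (Nat.sub (Nat.shiftLeft 0xa45c4524c140b1 109) 1)) (.cons 17 (.negSucc (Nat.sub (Nat.shiftLeft 0x6cc190db3ebf4f 109) 1)) (.cons 18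 (.negSucc (Nat.sub (Nat.shiftLeft 0x626861e6a3fc5 111) 1)) .nil)))))),
    .cons 12 (.negSucc (Nat.sub (Nat.shiftLeft 0x48a4d0c7cc29ed696559 90) 1)) (.cons 13 (.ofNat (Nat.shiftLeft 0x2313166c8a3da6d429931 89)) (.cons 14 (.negSucc (Nat.sub (Nat.shiftLeft 0x201c6528a615ff89b69f 90) 1)) (.cons 15 (.ofNat (Nat.shiftLeft 0x9a911a62138c5b8a56f3 88)) (.cons 16 (.negSucc (Nat.sub (Nat.shiftLeft 0x5a774545863e8f7cddd9 88) 1)) (.cons 17 (.ofNat (Nat.shiftLeft 0x3785f515adf88f7cddd9 88)) (.cons 18 (.ofNat (Nat.shiftLeft 0x64d795411d3afd449f3 90)) .nil)))))),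
    .cons 12 (.ofNat (Nat.shiftLeft 0x27ba9c8229c532467d3f17d5f 72)) (.cons 13 (.ofNat (Nat.shiftLeft 0x49eb98f98c74ea3390396d139 71)) (.cons 14 (.ofNat (Nat.shiftLeft 0x288c1e0e842c08e0371623ae9 72)) (.cons 15 (.ofNat (Nat.shiftLeft 0x285a74d671b96d067cab74a0b 70)) (.cons 16 (.ofNat (Nat.shiftLeft 0x148350f8364cc61e97adb00df 70)) (.cons 17 (.ofNat (Nat.shiftLeft 0x1ab7e042ed25b1ca08524ff21 70)) (.cons 18 (.negSucc (Nat.sub (Nat.shiftLeft 0x72fae7bbec2cdd2da8f3aaf5 72) 1)) .nil)))))),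
    .cons 12 (.ofNat (Nat.shiftLeft 0x25c0d5e8f2d7dd6561ae204a7c389 53)) (.cons 13 (.ofNat (Nat.shiftLeft 0x5ad3c1a7c6c0bd151309554534c1f 52)) (.cons 14 (.negSucc (Nat.sub (Nat.shiftLeft 0x2e3d1caa267ee98a73ec9dfbae3511 53) 1)) (.cons 15 (.negSucc (Nat.sub (Nat.shiftLeft 0x40410cbce4fdd118ac5fdaf44d903 51) 1)) (.cons 16 (.negSucc (Nat.sub (Nat.shiftLeft 0xe865d4fe1891bda965cac8f9d6bf7 51) 1)) (.cons 17 (.ofNat (Nat.shiftLeft 0x6569a961b689b042bbb128f9d6bf7 51)) (.cons 18 (.ofNat (Nat.shiftLeft 0x44e28c8b87aa45e02ee72afdf23fd 53)) .nil)))))),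
    .cons 12 (.negSucc (Nat.sub (Nat.shiftLeft 0x2176b94f3a9a88c9deb8c9a7d4e346727 34) 1)) (.cons 13 (.negSucc (Nat.sub (Nat.shiftLeft 0x2da59c2a64334745a15a6fcc63cc88fe0b1 33) 1)) (.cons 14 (.ofNat (Nat.shiftLeft 0x404ad4cb9141c1f7aaa59bb89e801a871f 34)) (.cons 15 (.negSucc (Nat.sub (Nat.shiftLeft 0x1f4517fde9b5cf1d9c80996cee4e2c07d73 32) 1)) (.cons 16 (.ofNat (Nat.shiftLeft 0x446730d4ebcf94e22e92de2873bb12d159 32)) (.cons 17 (.ofNat (Nat.shiftLeft 0xc1c054d1b8ce67633c0dcccd244ed2ea7 32)) (.cons 18 (.negSucc (Nat.sub (Nat.shiftLeft 0x79a772478825bca0827bc8dd013b0f073 34) 1)) .nil)))))),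
    .cons 12 (.negSucc (Nat.sub (Nat.shiftLeft 0x2cf375bf8d807da6b4a97d1e326c0ef90ee1 25) 1)) (.cons 13 (.ofNat (Nat.shiftLeft 0x12fb923135df197274845654655f2ec106379 24)) (.cons 14 (.ofNat (Nat.shiftLeft 0xb4309b2a6d0604178d7f6acce80f210ef929 25)) (.cons 15 (.negSucc (Nat.sub (Nat.shiftLeft 0x610eb23387e1788c54a3aaefadff4bc48e735 23) 1)) (.cons 16 (.ofNat (Nat.shiftLeft 0x19b3a79047b6381d0a1aa16843368642f549f 23)) (.cons 17 (.negSucc (Nat.sub (Nat.shiftLeft 0x1568053eea90251d84509d8b12a5e642f549f 23) 1)) (.cons 18 (.negSucc (Nat.sub (Nat.shiftLeft 0x53f76731149e05a2d9612ccedfa2a1651c35 25) 1)) .nil)))))),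
    .cons 19 (.negSucc (Nat.sub (Nat.shiftLeft 0x95c1a89 142) 1)) (.cons 20 (.negSucc (Nat.sub (Nat.shiftLeft 0x53bd1f 144) 1)) (.cons 21 (.negSucc (Nat.sub (Nat.shiftLeft 0x6b3e8f 142) 1)) (.cons 22 (.ofNat (Nat.shiftLeft 0x46845 143)) .nil))),
    .cons 19 (.ofNat (Nat.shiftLeft 0x9964bf3386b 127)) (.cons 20 (.ofNat (Nat.shiftLeft 0x1390b1fe30d 129)) (.cons 21 (.ofNat (Nat.shiftLeft 0x4589e0fa5d 127)) (.cons 22 (.negSucc (Nat.sub (Nat.shiftLeft 0x723ef4345f 128) 1)) .nil))),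
    .cons 19 (.negSucc (Nat.sub (Nat.shiftLeft 0x2356463ed6594e9d 109) 1)) (.cons 20 (.ofNat (Nat.shiftLeft 0x18cdafdcda10ed5 111)) (.cons 21 (.ofNat (Nat.shiftLeft 0x503d3b1fdc9c6a5 109)) (.cons 22 (.ofNat (Nat.shiftLeft 0x10939834c485d89 110)) .nil))),
    .cons 19 (.negSucc (Nat.sub (Nat.shiftLeft 0x3449bbd273e034bd9c5 96) 1)) (.cons 20 (.negSucc (Nat.sub (Nat.shiftLeft 0x721fb8978c6dfb6e43 98) 1)) (.cons 21 (.ofNat (Nat.shiftLeft 0x4e5d18a96248e1ec0d 96)) (.cons 22 (.negSucc (Nat.sub (Nat.shiftLeft 0x2f401290ec3e7980ef 97) 1)) .nil))),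
    .cons 23 (.negSucc (Nat.sub (Nat.shiftLeft 0x1c9 159) 1)) .nil],
   [.nil,
    .cons 0 (.ofNat (Nat.shiftLeft 0x773655 142)) .nil,
    .cons 0 (.ofNat (Nat.shiftLeft 0x13d43030d86b 123)) .nil,
    .cons 0 (.negSucc (Nat.sub (Nat.shiftLeft 0xd392f5ed3b4e9a1 107) 1)) .nil,
    .cons 0 (.ofNat (Nat.shiftLeft 0x2125a47e8697da71053 94)) .nil,
    .cons 1 (.ofNat (Nat.shiftLeft 0x75befe7d 137)) (.cons 2 (.ofNat (Nat.shiftLeft 0x5612113 136)) (.cons 3 (.negSucc (Nat.sub (Nat.shiftLeft 0x12c311 137) 1)) (.cons 4 (.ofNat (Nat.shiftLeft 0xb41d7 136)) .nil))),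
    .cons 1 (.negSucc (Nat.sub (Nat.shiftLeft 0xc196cb7cd4bf77b 109) 1)) (.cons 2 (.ofNat (Nat.shiftLeft 0x2ed126660f74d8b 108)) (.cons 3 (.negSucc (Nat.sub (Nat.shiftLeft 0x336e0d16f1ee39 109) 1)) (.cons 4 (.ofNat (Nat.shiftLeft 0x192aa0240f78eef 108)) .nil))),
    .cons 1 (.ofNat (Nat.shiftLeft 0x1662ddd0500ec298f2d59b 86)) (.cons 2 (.negSucc (Nat.sub (Nat.shiftLeft 0x64a122ed3e3ade89171ab 85) 1)) (.cons 3 (.negSucc (Nat.sub (Nat.shiftLeft 0x1ecddbb96fbe3a2d90c67 86) 1)) (.cons 4 (.ofNat (Nat.shiftLeft 0x732f96200adafb4f0771 85)) .nil))),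
    .cons 1 (.ofNat (Nat.shiftLeft 0xf21313afe9423c008e7cd8401 70)) (.cons 2 (.negSucc (Nat.sub (Nat.shiftLeft 0xb5c3e92da0c723b88c6366131 69) 1)) (.cons 3 (.negSucc (Nat.sub (Nat.shiftLeft 0x1869638c35d1b83c64cd1eb25 70) 1)) (.cons 4 (.negSucc (Nat.sub (Nat.shiftLeft 0x39fed356c19170105051ba61d 69) 1)) .nil))),
    .cons 1 (.ofNat (Nat.shiftLeft 0xda592d172018c6ad8acff5ed6c6ded 50)) (.cons 2 (.ofNat (Nat.shiftLeft 0x3d5591d500ba033ed94e092c4f1ca3 49)) (.cons 3 (.negSucc (Nat.sub (Nat.shiftLeft 0x23b925be1cb54628c71ef8602aee41 50) 1)) (.cons 4 (.negSucc (Nat.sub (Nat.shiftLeft 0x17332b155002859f5de09d5fe63dd9 49) 1)) .nil))),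
    .cons 1 (.negSucc (Nat.sub (Nat.shiftLeft 0x1f6ef3a571d02f8b2d169aa7fd2dea421b 35) 1)) (.cons 2 (.ofNat (Nat.shiftLeft 0x3e611b3906e6e4fd4584eee6e7f937b62b 34)) (.cons 3 (.negSucc (Nat.sub (Nat.shiftLeft 0x4b3e02198b993a3d8cb3858f77cc4c519 35) 1)) (.cons 4 (.ofNat (Nat.shiftLeft 0x319b7ad77f8bb528387d1fe94217a9430f 34)) .nil))),
    .cons 1 (.ofNat (Nat.shiftLeft 0x71bf9915b2ece51772cd6a9d8dfd28d4139f 25)) (.cons 2 (.ofNat (Nat.shiftLeft 0x40c2ba29574a99e7d07a045e0eac7219b3b91 24)) (.cons 3 (.ofNat (Nat.shiftLeft 0xac86e46c00f2d70acdd51c252dd7ef7fa105 25)) (.cons 4 (.negSucc (Nat.sub (Nat.shiftLeft 0x6a7dffc891667720731dba063525c7fc703 24) 1)) .nil))),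
    .cons 5 (.ofNat (Nat.shiftLeft 0x6ba3f71 144)) (.cons 6 (.negSucc (Nat.sub (Nat.shiftLeft 0x6fa2f41 140) 1)) (.cons 7 (.negSucc (Nat.sub (Nat.shiftLeft 0x40853b 140) 1)) (.cons 8 (.ofNat (Nat.shiftLeft 0x50973 143)) (.cons 9 (.negSucc (Nat.sub (Nat.shiftLeft 0x3d67 140) 1)) (.cons 11 (.ofNat (Nat.shiftLeft 0x3d67 141)) .nil))))),
    .cons 5 (.ofNat (Nat.shiftLeft 0x1fb6ff40df19943 113)) (.cons 6 (.negSucc (Nat.sub (Nat.shiftLeft 0xd76572344c50bb3 109) 1)) (.cons 7 (.ofNat (Nat.shiftLeft 0x554baf08a5afdff 109)) (.cons 8 (.negSucc (Nat.sub (Nat.shiftLeft 0x3f5187c148c4d7 112) 1)) (.cons 9 (.ofNat (Nat.shiftLeft 0x94c32c6195c03b 109)) (.cons 10 (.ofNat (Nat.shiftLeft 0x2e7f93 142)) (.cons 11 (.negSucc (Nat.sub (Nat.shiftLeft 0x1ecf06195c03b 110) 1)) .nil)))))),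
    .cons 5 (.ofNat (Nat.shiftLeft 0xa26c06db5312bf7583b 92)) (.cons 6 (.ofNat (Nat.shiftLeft 0x31aef8baa20d758732bd5 88)) (.cons 7 (.negSucc (Nat.sub (Nat.shiftLeft 0x99980650ca2dbdee4ba9 88) 1)) (.cons 8 (.ofNat (Nat.shiftLeft 0xbfb122fdf705395ef11 91)) (.cons 9 (.ofNat (Nat.shiftLeft 0x436b9677772a2fd449f3 88)) (.cons 10 (.negSucc (Nat.sub (Nat.shiftLeft 0x83d5bc0ccf5 121) 1)) (.cons 11 (.negSucc (Nat.sub (Nat.shiftLeft 0x154cae1bad8e2fd449f3 89) 1)) .nil)))))),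
    .cons 5 (.ofNat (Nat.shiftLeft 0x647901743dd12b3789c62993 74)) (.cons 6 (.ofNat (Nat.shiftLeft 0x1192f203a2fff568a5b7bde2fd 70)) (.cons 7 (.negSucc (Nat.sub (Nat.shiftLeft 0x61ba5e4f2fc9fe344080aa371 70) 1)) (.cons 8 (.ofNat (Nat.shiftLeft 0xcdbf10affbdad65a9bfd0619 73)) (.cons 9 (.ofNat (Nat.shiftLeft 0xa9fdcf625e00dd1cd70c550b 70)) (.cons 10 (.negSucc (Nat.sub (Nat.shiftLeft 0xc109db451c15dd1d 103) 1)) (.cons 11 (.negSucc (Nat.sub (Nat.shiftLeft 0x9fbe85f9eff510a0d70c550b 71) 1)) .nil)))))),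
    .cons 5 (.ofNat (Nat.shiftLeft 0x27a487ca87889c7bdd7891a53c35 55)) (.cons 6 (.ofNat (Nat.shiftLeft 0x646049a233c7c335aa93aa941fe4bb 51)) (.cons 7 (.ofNat (Nat.shiftLeft 0x6095b92d974856ccd0d1e84d78d0d9 51)) (.cons 8 (.negSucc (Nat.sub (Nat.shiftLeft 0x39b4272d7df96c2323a6a2d4df3c1 54) 1)) (.cons 9 (.ofNat (Nat.shiftLeft 0x19c5d43410659ed6c4eb242fdf23fd 51)) (.cons 10 (.negSucc (Nat.sub (Nat.shiftLeft 0x300a5f23136be48575d9b 84) 1)) (.cons 11 (.ofNat (Nat.shiftLeft 0xd1eee68e76c255a073ffd020dc03 52)) .nil)))))),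
    .cons 5 (.ofNat (Nat.shiftLeft 0x47357b10896aeb94c638c266957c2545 36)) (.cons 6 (.ofNat (Nat.shiftLeft 0x45461c1e3c8f3476d04380a07ebafdd5eab 32)) (.cons 7 (.ofNat (Nat.shiftLeft 0x13ec8f5759e8bc3f2a30b00338cf135729 32)) (.cons 8 (.ofNat (Nat.shiftLeft 0x27f0fca0f90fa024ecf436eb23dd83b96f 35)) (.cons 9 (.negSucc (Nat.sub (Nat.shiftLeft 0x43ddd0a5d0fdf782fe06e277e693b0f073 32) 1)) (.cons 10 (.negSucc (Nat.sub (Nat.shiftLeft 0x602dd4147ccfd38831cf844d8b 65) 1)) (.cons 11 (.negSucc (Nat.sub (Nat.shiftLeft 0x315d69d11772ad27ae36103b56c4f0f8d 33) 1)) .nil)))))),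
    .cons 5 (.ofNat (Nat.shiftLeft 0x2886597d5d2867ffb7511c7771a8766fa53 27)) (.cons 6 (.ofNat (Nat.shiftLeft 0xcf4781ff7e6b1fde3649cc3c46de8bb8763d 23)) (.cons 7 (.ofNat (Nat.shiftLeft 0x96592f08da8fb298cccd0ac13bf72e8c15c4f 23)) (.cons 8 (.negSucc (Nat.sub (Nat.shiftLeft 0xa0fca841f3f5d306d35f7312781d02b4afa7 26) 1)) (.cons 9 (.negSucc (Nat.sub (Nat.shiftLeft 0xc2b60a48cb5173fab2d0379df8b821651c35 23) 1)) (.cons 10 (.ofNat (Nat.shiftLeft 0x306d40e4c3eca1e89c7ae1dc87a3 56)) (.cons 11 (.ofNat (Nat.shiftLeft 0x10f85bffdef502fc273d61871543421651c35 24)) .nil)))))),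
    .cons 12 (.ofNat (Nat.shiftLeft 0x1d63f3c9 142)) (.cons 13 (.ofNat (Nat.shiftLeft 0x67b9829 142)) (.cons 14 (.negSucc (Nat.sub (Nat.shiftLeft 0x54134ef 142) 1)) (.cons 15 (.ofNat (Nat.shiftLeft 0x36d8b 148)) (.cons 16 (.ofNat (Nat.shiftLeft 0x412151 142)) (.cons 17 (.ofNat (Nat.shiftLeft 0x36d8b 143)) (.cons 18 (.negSucc (Nat.sub (Nat.shiftLeft 0x75873 142) 1)) .nil)))))),
    .cons 12 (.ofNat (Nat.shiftLeft 0x60ac9f7d7d5 127)) (.cons 13 (.negSucc (Nat.sub (Nat.shiftLeft 0x66320fbb34b 127) 1)) (.cons 14 (.ofNat (Nat.shiftLeft 0x6fa36451b7d 127)) (.cons 15 (.negSucc (Nat.sub (Nat.shiftLeft 0xc4a817e11 133) 1)) (.cons 16 (.ofNat (Nat.shiftLeft 0x651103a4bd 127)) (.cons 17 (.negSucc (Nat.sub (Nat.shiftLeft 0x4c1da17e11 128) 1)) (.cons 18 (.negSucc (Nat.sub (Nat.shiftLeft 0x1328913a8b7 127) 1)) .nil)))))),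
    .cons 12 (.negSucc (Nat.sub (Nat.shiftLeft 0x392c745fa72e723 109) 1)) (.cons 13 (.ofNat (Nat.shiftLeft 0x90251c2b2aa78bd 109)) (.cons 14 (.ofNat (Nat.shiftLeft 0x323142062ed4ecc5 109)) (.cons 15 (.negSucc (Nat.sub (Nat.shiftLeft 0x2d1f09ae8b4579 115) 1)) (.cons 16 (.negSucc (Nat.sub (Nat.shiftLeft 0x3f5eb1a0ab627fb 109) 1)) (.cons 17 (.ofNat (Nat.shiftLeft 0x2849b62954ba87 110)) (.cons 18 (.negSucc (Nat.sub (Nat.shiftLeft 0x4c79f61c123468f 109) 1)) .nil)))))),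
    .cons 12 (.ofNat (Nat.shiftLeft 0x2eebad615e4ffd4605 96)) (.cons 13 (.negSucc (Nat.sub (Nat.shiftLeft 0x6b7244b53bb68f1c31b 96) 1)) (.cons 14 (.negSucc (Nat.sub (Nat.shiftLeft 0x13f4fddc4060a3ed4d3 96) 1)) (.cons 15 (.negSucc (Nat.sub (Nat.shiftLeft 0x651d69009ba5af281 102) 1)) (.cons 16 (.negSucc (Nat.sub (Nat.shiftLeft 0x45218efe91561fff93 96) 1)) (.cons 17 (.negSucc (Nat.sub (Nat.shiftLeft 0x517c190ffc8b7af281 97) 1)) (.cons 18 (.ofNat (Nat.shiftLeft 0x158649b504eb752c39 96)) .nil)))))),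
    .cons 19 (.ofNat (Nat.shiftLeft 0xefb 159)) (.cons 20 (.ofNat (Nat.shiftLeft 0x535 159)) (.cons 21 (.ofNat (Nat.shiftLeft 0x6f 160)) (.cons 22 (.negSucc (Nat.sub (Nat.shiftLeft 0xbb 159) 1)) .nil)))]⟩

noncomputable def A10 : Tn :=
  ⟨[.cons 1 (.ofNat (Nat.shiftLeft 0x78b 160)) (.cons 2 (.ofNat (Nat.shiftLeft 0x4ed 159)) (.cons 3 (.negSucc (Nat.sub (Nat.shiftLeft 0xcf 159) 1)) (.cons 4 (.ofNat (Nat.shiftLeft 0xbf 159)) .nil))),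
    .cons 5 (.ofNat (Nat.shiftLeft 0x1d7691 150)) (.cons 6 (.negSucc (Nat.sub (Nat.shiftLeft 0x68b46d 146) 1)) (.cons 7 (.ofNat (Nat.shiftLeft 0x516e25 146)) (.cons 8 (.ofNat (Nat.shiftLeft 0x1ce8d 149)) (.cons 9 (.ofNat (Nat.shiftLeft 0x3c44d 146)) (.cons 10 (.negSucc (Nat.sub (Nat.shiftLeft 0xe35b 146) 1)) (.cons 11 (.ofNat (Nat.shiftLeft 0x468f 147)) .nil)))))),
    .cons 5 (.ofNat (Nat.shiftLeft 0x180d83aa1e1f 125)) (.cons 6 (.ofNat (Nat.shiftLeft 0x1b5bcf156bc7d 121)) (.cons 7 (.negSucc (Nat.sub (Nat.shiftLeft 0x1a19ca3220fb5 121) 1)) (.cons 8 (.negSucc (Nat.sub (Nat.shiftLeft 0x18df7ca3c09d 124) 1)) (.cons 9 (.ofNat (Nat.shiftLeft 0x11eb1dc8fda3 121)) (.cons 10 (.ofNat (Nat.shiftLeft 0x21746706b9cb 121)) (.cons 11 (.ofNat (Nat.shiftLeft 0x2347ccb74ac1 122)) .nil)))))),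
    .cons 5 (.ofNat (Nat.shiftLeft 0x5cf73639052eea9 108)) (.cons 6 (.ofNat (Nat.shiftLeft 0x24f95ec913f2320db 104)) (.cons 7 (.ofNat (Nat.shiftLeft 0x68c9870cbdaf3ce1d 104)) (.cons 8 (.ofNat (Nat.shiftLeft 0x25504e24fe4fbc45 107)) (.cons 9 (.ofNat (Nat.shiftLeft 0x8aaef2af2d4b1c05 104)) (.cons 10 (.ofNat (Nat.shiftLeft 0x2d3312b6c5b6189d 104)) (.cons 11 (.negSucc (Nat.sub (Nat.shiftLeft 0x382448109864a689 105) 1)) .nil)))))),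
    .cons 5 (.ofNat (Nat.shiftLeft 0x1a60ace95a8369ee1 99)) (.cons 6 (.ofNat (Nat.shiftLeft 0xc8c3a7fd85ab065da83 95)) (.cons 7 (.ofNat (Nat.shiftLeft 0x2aca8a2c42c090d0b5 95)) (.cons 8 (.negSucc (Nat.sub (Nat.shiftLeft 0x74d2ed8e7800593663 98) 1)) (.cons 9 (.negSucc (Nat.sub (Nat.shiftLeft 0x8e0fc16e113c6334a3 95) 1)) (.cons 10 (.ofNat (Nat.shiftLeft 0x1517e765a383a348735 95)) (.cons 11 (.ofNat (Nat.shiftLeft 0xd736aee98248e983f 96)) .nil)))))),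
    .cons 12 (.ofNat (Nat.shiftLeft 0x6b149e499 136)) (.cons 13 (.ofNat (Nat.shiftLeft 0x743c3b5f 136)) (.cons 14 (.ofNat (Nat.shiftLeft 0x233769f 137)) (.cons 15 (.ofNat (Nat.shiftLeft 0xb427ab 138)) (.cons 16 (.ofNat (Nat.shiftLeft 0x3d545 137)) (.cons 17 (.ofNat (Nat.shiftLeft 0x3d545 136)) (.cons 18 (.ofNat (Nat.shiftLeft 0x3d545 137)) .nil)))))),
    .cons 12 (.negSucc (Nat.sub (Nat.shiftLeft 0x3ff384b4886efa47 108) 1)) (.cons 13 (.negSucc (Nat.sub (Nat.shiftLeft 0x1c2507b7d5d4d6c1 108) 1)) (.cons 14 (.ofNat (Nat.shiftLeft 0x57bb1e10a434c7f 109)) (.cons 15 (.ofNat (Nat.shiftLeft 0x10a45a7e5ad070b 110)) (.cons 16 (.ofNat (Nat.shiftLeft 0x718b98e434b3e5 109)) (.cons 17 (.ofNat (Nat.shiftLeft 0x1142034e434b3e5 108)) (.cons 18 (.ofNat (Nat.shiftLeft 0xbb008e434b3e5 109)) .nil)))))),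
    .cons 12 (.negSucc (Nat.sub (Nat.shiftLeft 0x2fe191d1798d995f7970b 86) 1)) (.cons 13 (.ofNat (Nat.shiftLeft 0xcaf49c0285dc3d1eb1123 86)) (.cons 14 (.negSucc (Nat.sub (Nat.shiftLeft 0x13815c75d47f6c851309d 87) 1)) (.cons 15 (.negSucc (Nat.sub (Nat.shiftLeft 0x6dd04e44cb6ebd6f4ac1 88) 1)) (.cons 16 (.ofNat (Nat.shiftLeft 0x81d3a11ef0f83d54c7f1 87)) (.cons 17 (.ofNat (Nat.shiftLeft 0x7a0ff153aa43d54c7f1 86)) (.cons 18 (.ofNat (Nat.shiftLeft 0x61d3c768e1a83d54c7f1 87)) .nil)))))),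
    .cons 12 (.ofNat (Nat.shiftLeft 0x194cf58a32ce60a9011985a8d5 68)) (.cons 13 (.negSucc (Nat.sub (Nat.shiftLeft 0x463c5b59dfb9399191a64085bd 68) 1)) (.cons 14 (.ofNat (Nat.shiftLeft 0xc58eb67e6afd08a0cbc379083 69)) (.cons 15 (.ofNat (Nat.shiftLeft 0x6ed7e13a2dc592a4088cdd8df 70)) (.cons 16 (.negSucc (Nat.sub (Nat.shiftLeft 0x1ffd7ad34585e91c97a5da9af 69) 1)) (.cons 17 (.ofNat (Nat.shiftLeft 0x5a1af61b043c9c86285a25651 68)) (.cons 18 (.negSucc (Nat.sub (Nat.shiftLeft 0x2e497841071b89f197a5da9af 69) 1)) .nil)))))),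
    .cons 12 (.negSucc (Nat.sub (Nat.shiftLeft 0x9ffff8c25b69213282635358f7111 49) 1)) (.cons 13 (.ofNat (Nat.shiftLeft 0x20a12d3b8fb53d6941f3c8835f06ad9 49)) (.cons 14 (.ofNat (Nat.shiftLeft 0xd846379f3e659963209e9eda027999 50)) (.cons 15 (.ofNat (Nat.shiftLeft 0x1627e543ed496c5ab96a1b8d1ae9ed 51)) (.cons 16 (.ofNat (Nat.shiftLeft 0x33ad210ec2b5f6616953400872f4a3 50)) (.cons 17 (.negSucc (Nat.sub (Nat.shiftLeft 0x16b4791db9045f447ea7fbf78d0b5d 49) 1)) (.cons 18 (.negSucc (Nat.sub (Nat.shiftLeft 0x99f628636e3913b461baff78d0b5d 50) 1)) .nil)))))),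
    .cons 12 (.ofNat (Nat.shiftLeft 0x52fb1eb2efabb39b8c4d0c8d04c16f593 32)) (.cons 13 (.ofNat (Nat.shiftLeft 0x34cca6e407b1f233bb1370ddf4ad61b9215 32)) (.cons 14 (.negSucc (Nat.sub (Nat.shiftLeft 0x75bf7970a07431e1f430db573e7385222b 33) 1)) (.cons 15 (.negSucc (Nat.sub (Nat.shiftLeft 0x64f346fa20ea3a4009ea51b765c36942a7 34) 1)) (.cons 16 (.negSucc (Nat.sub (Nat.shiftLeft 0x1b5e8f3c1b4c7544beef7a37b186e18f09 33) 1)) (.cons 17 (.negSucc (Nat.sub (Nat.shiftLeft 0xcc93a75b205ea2e0f8f17aff7d86e18f09 32) 1)) (.cons 18 (.ofNat (Nat.shiftLeft 0xc041ed68dd5b3b21ef479ef1e791e70f7 33)) .nil)))))),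
    .cons 12 (.negSucc (Nat.sub (Nat.shiftLeft 0x4274538698664fa823151ad5b5fd2df19c77 23) 1)) (.cons 13 (.ofNat (Nat.shiftLeft 0xbea5371ea8b1b64420807013f5129976d8ef 23)) (.cons 14 (.ofNat (Nat.shiftLeft 0x482fd5b39ab06766f37363ae867ae22c3002f 24)) (.cons 15 (.ofNat (Nat.shiftLeft 0x1398b9d3721a1760c8bb6fae2fd5492f3767b 25)) (.cons 16 (.negSucc (Nat.sub (Nat.shiftLeft 0x62c1a382afe985a8fc239981a0fb43ae908b 24) 1)) (.cons 17 (.ofNat (Nat.shiftLeft 0xebeddc4e4e9efb900a68f171460bc516f75 23)) (.cons 18 (.negSucc (Nat.sub (Nat.shiftLeft 0x13847f7978a60551f5a7d6a75598b43ae908b 24) 1)) .nil)))))),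
    .cons 19 (.ofNat (Nat.shiftLeft 0x1dbb52c5 139)) (.cons 20 (.ofNat (Nat.shiftLeft 0x18258e7 138)) (.cons 21 (.negSucc (Nat.sub (Nat.shiftLeft 0xe19ab 138) 1)) (.cons 22 (.ofNat (Nat.shiftLeft 0x4b339 138)) .nil))),
    .cons 19 (.ofNat (Nat.shiftLeft 0x32a685cbb497b2b 111)) (.cons 20 (.negSucc (Nat.sub (Nat.shiftLeft 0xce01fdce165a97 110) 1)) (.cons 21 (.ofNat (Nat.shiftLeft 0x13e77d77a3629b 110)) (.cons 22 (.negSucc (Nat.sub (Nat.shiftLeft 0x6bfcd9d28bcb89 110) 1)) .nil))),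
    .cons 19 (.negSucc (Nat.sub (Nat.shiftLeft 0xb2d94a01bd6faecb53c61 87) 1)) (.cons 20 (.ofNat (Nat.shiftLeft 0x3a1c9f2898fb39d4abe25 86)) (.cons 21 (.ofNat (Nat.shiftLeft 0x1ff525ee294a26ffb674f 86)) (.cons 22 (.negSucc (Nat.sub (Nat.shiftLeft 0x62efa800a9d0cffe77c5 86) 1)) .nil))),
    .cons 19 (.ofNat (Nat.shiftLeft 0xebe2792fce4ed48d35b27fcbd 70)) (.cons 20 (.negSucc (Nat.sub (Nat.shiftLeft 0xcb5451c36a2cf53a7ef53b6f1 69) 1)) (.cons 21 (.negSucc (Nat.sub (Nat.shiftLeft 0x3866e010c346650d7a6ea4233 69) 1)) (.cons 22 (.negSucc (Nat.sub (Nat.shiftLeft 0x363c4b030271236881db1e9ef 69) 1)) .nil))),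
    .cons 19 (.ofNat (Nat.shiftLeft 0x1c30aefddd86543a90e071ed4b58df5 49)) (.cons 20 (.ofNat (Nat.shiftLeft 0x83d7fcdaa91ef0007db452d991e4f7 48)) (.cons 21 (.negSucc (Nat.sub (Nat.shiftLeft 0x8e0c9cee0aab1052169d66691bbf7b 48) 1)) (.cons 22 (.negSucc (Nat.sub (Nat.shiftLeft 0x2dbc7d45b6e16411818dd887a16ad7 48) 1)) .nil))),
    .cons 19 (.ofNat (Nat.shiftLeft 0xa5a93f7dad3736d823a85885a8e3e6439 36)) (.cons 20 (.negSucc (Nat.sub (Nat.shiftLeft 0x276251186d4b6163df2ca5ce1ac84fbb5d 35) 1)) (.cons 21 (.ofNat (Nat.shiftLeft 0x2ab044bc01714c494fd7190fb7d088409 35)) (.cons 22 (.negSucc (Nat.sub (Nat.shiftLeft 0x184442143f846bda1f7eedf2e3d4582c03 35) 1)) .nil))),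
    .cons 19 (.negSucc (Nat.sub (Nat.shiftLeft 0x1e358dc5a3945f33389899335a6d69c85d59 27) 1)) (.cons 20 (.negSucc (Nat.sub (Nat.shiftLeft 0x10d7ef1cd119baf44b44b70f5d5e806391f03 26) 1)) (.cons 21 (.negSucc (Nat.sub (Nat.shiftLeft 0x60ffcdd259297ce437d5bf26ff1948a61729 26) 1)) (.cons 22 (.ofNat (Nat.shiftLeft 0x11fb01830e1eb9d3de429b0289986d8cb263 26)) .nil))),
    .cons 23 (.ofNat (Nat.shiftLeft 0x101cc9 145)) .nil,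
    .cons 23 (.ofNat (Nat.shiftLeft 0xa68654a7927 124)) .nil,
    .cons 23 (.ofNat (Nat.shiftLeft 0x33480368fe306731 105)) .nil,
    .cons 23 (.negSucc (Nat.sub (Nat.shiftLeft 0x8ac0b89067cb052e05 96) 1)) .nil,
    .nil],
   [.cons 0 (.ofNat (Nat.shiftLeft 0x1b7 159)) .nil,
    .cons 1 (.ofNat (Nat.shiftLeft 0x24bfd 152)) (.cons 2 (.ofNat (Nat.shiftLeft 0x4ee37 148)) (.cons 3 (.negSucc (Nat.sub (Nat.shiftLeft 0x317d3 147) 1)) (.cons 4 (.ofNat (Nat.shiftLeft 0x7d7 150)) .nil))),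
    .cons 1 (.negSucc (Nat.sub (Nat.shiftLeft 0x9cf1688910d 127) 1)) (.cons 2 (.negSucc (Nat.sub (Nat.shiftLeft 0x4811ec867167 123) 1)) (.cons 3 (.ofNat (Nat.shiftLeft 0x8d6c14c63c3 122)) (.cons 4 (.negSucc (Nat.sub (Nat.shiftLeft 0x3c1aa964d07 125) 1)) .nil))),
    .cons 1 (.negSucc (Nat.sub (Nat.shiftLeft 0xdd3e67951716bcb 110) 1)) (.cons 2 (.ofNat (Nat.shiftLeft 0x4c7ec5bfbf305cdf 106)) (.cons 3 (.negSucc (Nat.sub (Nat.shiftLeft 0x3fc6fbbb3724b31b 105) 1)) (.cons 4 (.negSucc (Nat.sub (Nat.shiftLeft 0x5a9b5e19a441281 108) 1)) .nil))),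
    .cons 1 (.ofNat (Nat.shiftLeft 0x21e1cbc7b271244a0d 101)) (.cons 2 (.ofNat (Nat.shiftLeft 0xc378629acf1df6dc67 97)) (.cons 3 (.ofNat (Nat.shiftLeft 0x6c62e5fe1655bfc53d 96)) (.cons 4 (.negSucc (Nat.sub (Nat.shiftLeft 0x9bc0856b08ff027f9 99) 1)) .nil))),
    .cons 5 (.ofNat (Nat.shiftLeft 0x437e58667 136)) (.cons 6 (.negSucc (Nat.sub (Nat.shiftLeft 0xa894b1a7 136) 1)) (.cons 7 (.negSucc (Nat.sub (Nat.shiftLeft 0x2692065 137) 1)) (.cons 8 (.negSucc (Nat.sub (Nat.shiftLeft 0x100d10f 138) 1)) (.cons 9 (.negSucc (Nat.sub (Nat.shiftLeft 0xb7fcf 136) 1)) (.cons 10 (.negSucc (Nat.sub (Nat.shiftLeft 0x3d545 137) 1)) (.cons 11 (.negSucc (Nat.sub (Nat.shiftLeft 0x3d545 138) 1)) .nil)))))),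
    .cons 5 (.ofNat (Nat.shiftLeft 0x633369b88bf5c547 108)) (.cons 6 (.ofNat (Nat.shiftLeft 0xaa5df2f661c2779 108)) (.cons 7 (.ofNat (Nat.shiftLeft 0x81436a27adadcfb 109)) (.cons 8 (.negSucc (Nat.sub (Nat.shiftLeft 0x5444ecb9cb14ef 110) 1)) (.cons 9 (.negSucc (Nat.sub (Nat.shiftLeft 0x121b502ac9e1baf 108) 1)) (.cons 10 (.ofNat (Nat.shiftLeft 0x834e0b1bcb4c1b 109)) (.cons 11 (.ofNat (Nat.shiftLeft 0xad6ad1bcb4c1b 110)) .nil)))))),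
    .cons 5 (.negSucc (Nat.sub (Nat.shiftLeft 0x3ef734914c57d239a69f5 86) 1)) (.cons 6 (.negSucc (Nat.sub (Nat.shiftLeft 0x11c1a65ea549755fb5844b 86) 1)) (.cons 7 (.ofNat (Nat.shiftLeft 0xdabbbf2a75c36dae416f 87)) (.cons 8 (.ofNat (Nat.shiftLeft 0x9e72ce67d2a2f2cfabed 88)) (.cons 9 (.negSucc (Nat.sub (Nat.shiftLeft 0x15b997681cb40b7fe57d3 86) 1)) (.cons 10 (.negSucc (Nat.sub (Nat.shiftLeft 0x5e12983cfd643d54c7f1 87) 1)) (.cons 11 (.negSucc (Nat.sub (Nat.shiftLeft 0x216844cced0a3d54c7f1 88) 1)) .nil)))))),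
    .cons 5 (.negSucc (Nat.sub (Nat.shiftLeft 0x2817a609e79d76092131ac09d5 68) 1)) (.cons 6 (.ofNat (Nat.shiftLeft 0x21866e90480346bad4b555c395 68)) (.cons 7 (.ofNat (Nat.shiftLeft 0x13be90783ef8878e57f4e7b70f 69)) (.cons 8 (.negSucc (Nat.sub (Nat.shiftLeft 0x298e0b17a5ce83e89f97c9733 70) 1)) (.cons 9 (.negSucc (Nat.sub (Nat.shiftLeft 0x2dca200836a3743fb90e702f3 68) 1)) (.cons 10 (.ofNat (Nat.shiftLeft 0x4335a24ef219e6cdd7a5da9af 69)) (.cons 11 (.negSucc (Nat.sub (Nat.shiftLeft 0x19d6ef7e1a4fad90885a25651 70) 1)) .nil)))))),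
    .cons 5 (.ofNat (Nat.shiftLeft 0x1a25dfc4587843f07645605a7f9e11 49)) (.cons 6 (.ofNat (Nat.shiftLeft 0x855c6214794c075d0ef0406832c32f 49)) (.cons 7 (.ofNat (Nat.shiftLeft 0x15041ba9066fa62f32a8400afb4257d 50)) (.cons 8 (.negSucc (Nat.sub (Nat.shiftLeft 0x1974136389d9ae01b32e01361606a9 51) 1)) (.cons 9 (.negSucc (Nat.sub (Nat.shiftLeft 0x24345c20da8ac2d5e442481958dde9 49) 1)) (.cons 10 (.negSucc (Nat.sub (Nat.shiftLeft 0x72f1b1e7dfda548c39c440872f4a3 50) 1)) (.cons 11 (.negSucc (Nat.sub (Nat.shiftLeft 0xabaa9e63a2342121318160872f4a3 51) 1)) .nil)))))),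
    .cons 5 (.negSucc (Nat.sub (Nat.shiftLeft 0x18ea0066e25b79263ff84960371cc45c93 32) 1)) (.cons 6 (.ofNat (Nat.shiftLeft 0x5af9e2c2a1d36f9d07141c6bcdb222dc0d3 32)) (.cons 7 (.negSucc (Nat.sub (Nat.shiftLeft 0x1214a16d3ce3c4cfdf9a250396c2c250b57 33) 1)) (.cons 8 (.negSucc (Nat.sub (Nat.shiftLeft 0x71bdaf67631e6380e3aae2242cb2f790a5 34) 1)) (.cons 9 (.ofNat (Nat.shiftLeft 0x4cec48ed84b9b343085c7493ac94a4ad1b 32)) (.cons 10 (.negSucc (Nat.sub (Nat.shiftLeft 0xa9eb4e2d5f142c0f59e559bc2791e70f7 33) 1)) (.cons 11 (.ofNat (Nat.shiftLeft 0xd999cb68bb7efc1b3b2f4fe7386e18f09 34)) .nil)))))),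
    .cons 5 (.negSucc (Nat.sub (Nat.shiftLeft 0x893e4c64caae4d7b30557ceeca890d2c2889 23) 1)) (.cons 6 (.negSucc (Nat.sub (Nat.shiftLeft 0x235be2516d7a0249c446757f0b71a5190eeb7 23) 1)) (.cons 7 (.negSucc (Nat.sub (Nat.shiftLeft 0x23f5a45b04e781edac266105b29106f371895 24) 1)) (.cons 8 (.negSucc (Nat.sub (Nat.shiftLeft 0x1861160dfa2bc703196927437a6f649502b9f 25) 1)) (.cons 9 (.ofNat (Nat.shiftLeft 0x1942e491934096a43529f34febf39cb0bb1a1 23)) (.cons 10 (.ofNat (Nat.shiftLeft 0x84049fc7fb4b14bc60cbb4b7cddf43ae908b 24)) (.cons 11 (.ofNat (Nat.shiftLeft 0x605a4395bda6e0dceae5c3bef12143ae908b 25)) .nil)))))),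
    .cons 12 (.ofNat (Nat.shiftLeft 0x13d08302f 138)) (.cons 13 (.negSucc (Nat.sub (Nat.shiftLeft 0x18974c6d 139) 1)) (.cons 14 (.ofNat (Nat.shiftLeft 0xedd311 139)) (.cons 15 (.negSucc (Nat.sub (Nat.shiftLeft 0x13362c3 138) 1)) (.cons 16 (.negSucc (Nat.sub (Nat.shiftLeft 0x4b339 139) 1)) (.cons 17 (.ofNat (Nat.shiftLeft 0xf0a5 139)) (.cons 18 (.ofNat (Nat.shiftLeft 0x2d1ef 139)) .nil)))))),
    .cons 12 (.ofNat (Nat.shiftLeft 0x171ad8ea5fb213a1 110)) (.cons 13 (.ofNat (Nat.shiftLeft 0x14aed8cfbcfe6fd 111)) (.cons 14 (.negSucc (Nat.sub (Nat.shiftLeft 0x1ebd5b0373b3ae1 111) 1)) (.cons 15 (.negSucc (Nat.sub (Nat.shiftLeft 0x821138cfe300cd 110) 1)) (.cons 16 (.negSucc (Nat.sub (Nat.shiftLeft 0x451622d743477 111) 1)) (.cons 17 (.ofNat (Nat.shiftLeft 0x2c9bdba2b0d74b 111)) (.cons 18 (.negSucc (Nat.sub (Nat.shiftLeft 0x66ed517ed7a1f 111)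 1)) .nil)))))),
    .cons 12 (.ofNat (Nat.shiftLeft 0x306fccb3945dbea8c107d 86)) (.cons 13 (.ofNat (Nat.shiftLeft 0x8d95c5c74551f6e623ce9 87)) (.cons 14 (.ofNat (Nat.shiftLeft 0xfbc4f63733ee16b3ed43 87)) (.cons 15 (.negSucc (Nat.sub (Nat.shiftLeft 0x289074f5e493fa9fdcd79 86) 1)) (.cons 16 (.ofNat (Nat.shiftLeft 0xe1b2d010ba04cffe77c5 87)) (.cons 17 (.negSucc (Nat.sub (Nat.shiftLeft 0x1aa4d8d3b825c332e4c1 87) 1)) (.cons 18 (.negSucc (Nat.sub (Nat.shiftLeft 0x1f9d5f2760394998ae43 87) 1)) .nil)))))),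
    .cons 12 (.negSucc (Nat.sub (Nat.shiftLeft 0x121d12d62c6ec38ee49880c4e9 69) 1)) (.cons 13 (.ofNat (Nat.shiftLeft 0x5c27399b17dda22e42a4025db 70)) (.cons 14 (.negSucc (Nat.sub (Nat.shiftLeft 0x942d85c842f40b16511c409d7 70) 1)) (.cons 15 (.negSucc (Nat.sub (Nat.shiftLeft 0x5340b3a63bef4dc9b9d26098b 69) 1)) (.cons 16 (.ofNat (Nat.shiftLeft 0x170eaaff3044d5a41db1e9ef 70)) (.cons 17 (.ofNat (Nat.shiftLeft 0x1ff05f8aff4dc0e3d93a9379d 70)) (.cons 18 (.ofNat (Nat.shiftLeft 0x1c949990333d8fa60bafba6d7 70)) .nil)))))),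
    .cons 12 (.negSucc (Nat.sub (Nat.shiftLeft 0x1f8da2b297b400eb806ecaff60cc41 48) 1)) (.cons 13 (.ofNat (Nat.shiftLeft 0x22c3f8ccb0be9eb140036e4d2bd96e3 49)) (.cons 14 (.ofNat (Nat.shiftLeft 0x233ccec39f116c290735abc644b7b81 49)) (.cons 15 (.negSucc (Nat.sub (Nat.shiftLeft 0xc51d32debff8a71ab57b6a26901b13 48) 1)) (.cons 16 (.ofNat (Nat.shiftLeft 0x340bfde31a0872d1bff19487a16ad7 49)) (.cons 17 (.negSucc (Nat.sub (Nat.shiftLeft 0x1923c8b036ddb6484198e5b4b9e22b 49) 1)) (.cons 18 (.negSucc (Nat.sub (Nat.shiftLeft 0x299b948fd523ad2dfbe7491e2da681 49) 1)) .nil)))))),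
    .cons 12 (.ofNat (Nat.shiftLeft 0x3b6df0762f5036558177b09d17898e80b 35)) (.cons 13 (.ofNat (Nat.shiftLeft 0x41f7d4bd815784d588683e812d3151787f 36)) (.cons 14 (.negSucc (Nat.sub (Nat.shiftLeft 0x33b821f18d0df9dbc048c73ab5c56d7fcb 36) 1)) (.cons 15 (.negSucc (Nat.sub (Nat.shiftLeft 0x3c0aaf0b9b5349d195782a5f8d8d798e6f 35) 1)) (.cons 16 (.negSucc (Nat.sub (Nat.shiftLeft 0x2f5ce7cc0a0420e680dd5c1302ba7d3fd 36) 1)) (.cons 17 (.negSucc (Nat.sub (Nat.shiftLeft 0x12f03bc4156410970c267edc4c411a267 36) 1)) (.cons 18 (.ofNat (Nat.shiftLeft 0x4df3e3fdc86b528ff9fe5af39b3cb18cb 36)) .nil)))))),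
    .cons 12 (.ofNat (Nat.shiftLeft 0xdecf3cb02c353580fbbeb765df893bb0095 26)) (.cons 13 (.ofNat (Nat.shiftLeft 0x236b44dfdc90c95cc65226005f6d3bab79a1 27)) (.cons 14 (.negSucc (Nat.sub (Nat.shiftLeft 0x562e894d78afa2fd02cd77c49117f263f0d5 27) 1)) (.cons 15 (.ofNat (Nat.shiftLeft 0xc8136c108e320cf86b473f9cf46a69db3a4f 26)) (.cons 16 (.negSucc (Nat.sub (Nat.shiftLeft 0x2a35e7eea5a7732df9dffe1c2b046d8cb263 27) 1)) (.cons 17 (.ofNat (Nat.shiftLeft 0x5cf65eb111e4196f44d79dee068e2b5bd47 27)) (.cons 18 (.ofNat (Nat.shiftLeft 0x16ce7950df37dc04bb177c7707b2a82137d5 27)) .nil)))))),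
    .cons 19 (.ofNat (Nat.shiftLeft 0x10cc3ed 145)) (.cons 20 (.negSucc (Nat.sub (Nat.shiftLeft 0x11d3ed 146) 1)) (.cons 21 (.ofNat (Nat.shiftLeft 0x9dd0f 145)) (.cons 22 (.ofNat (Nat.shiftLeft 0x66ec7 145)) .nil))),
    .cons 19 (.ofNat (Nat.shiftLeft 0x48cad6e6e9c3 124)) (.cons 20 (.negSucc (Nat.sub (Nat.shiftLeft 0x107f2af8d9c3 125) 1)) (.cons 21 (.negSucc (Nat.sub (Nat.shiftLeft 0x36397d5547f 124) 1)) (.cons 22 (.ofNat (Nat.shiftLeft 0x697d8cdea49 124)) .nil))),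
    .cons 19 (.ofNat (Nat.shiftLeft 0x2e0767acc6a7257f5 105)) (.cons 20 (.negSucc (Nat.sub (Nat.shiftLeft 0x18204c66e671e7f5 106) 1)) (.cons 21 (.negSucc (Nat.sub (Nat.shiftLeft 0x51a7ea1ab4075b99 105) 1)) (.cons 22 (.negSucc (Nat.sub (Nat.shiftLeft 0x1f7b67a7208a5d21 105) 1)) .nil))),
    .cons 19 (.negSucc (Nat.sub (Nat.shiftLeft 0xe717edbe0eb26cca19 96) 1)) (.cons 20 (.ofNat (Nat.shiftLeft 0x10cce72d27b31539a19 97)) (.cons 21 (.negSucc (Nat.sub (Nat.shiftLeft 0x63e9c7d6fafac2ed73 96) 1)) (.cons 22 (.ofNat (Nat.shiftLeft 0x786a1e0ecc9dd9eab5 96)) .nil))),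
    .cons 23 (.ofNat (Nat.shiftLeft 0x1dd 159)) .nil],
   [.nil,
    .cons 0 (.ofNat (Nat.shiftLeft 0x3f357 147)) .nil,
    .cons 0 (.negSucc (Nat.sub (Nat.shiftLeft 0x2ac329bcd087 122) 1)) .nil,
    .cons 0 (.ofNat (Nat.shiftLeft 0xa79acca17b2acff 105)) .nil,
    .cons 0 (.ofNat (Nat.shiftLeft 0x7dbf862e17abfbdb87 96)) .nil,
    .cons 1 (.ofNat (Nat.shiftLeft 0x38503ab5 138)) (.cons 2 (.negSucc (Nat.sub (Nat.shiftLeft 0x2e3c905 137) 1)) (.cons 3 (.ofNat (Nat.shiftLeft 0x132a59 136)) (.cons 4 (.ofNat (Nat.shiftLeft 0x1ad4e3 136)) .nil))),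
    .cons 1 (.ofNat (Nat.shiftLeft 0x85fa57eaa46e755 110)) (.cons 2 (.ofNat (Nat.shiftLeft 0x232059df444605b 109)) (.cons 3 (.ofNat (Nat.shiftLeft 0xdb0f5475078379 108)) (.cons 4 (.negSucc (Nat.sub (Nat.shiftLeft 0x1283c35c28f14bd 108) 1)) .nil))),
    .cons 1 (.ofNat (Nat.shiftLeft 0x58211657b25d30a8d6ba1 88)) (.cons 2 (.ofNat (Nat.shiftLeft 0x1c42aa7f55b73c315434f 87)) (.cons 3 (.ofNat (Nat.shiftLeft 0x1301c0b21a7d132a7e7b5 86)) (.cons 4 (.ofNat (Nat.shiftLeft 0x15b8793358675ad517797 86)) .nil))),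
    .cons 1 (.ofNat (Nat.shiftLeft 0xf6dfae9c720bcee1745f61c01 70)) (.cons 2 (.ofNat (Nat.shiftLeft 0xf5051cf6ba494f13f409cecef 69)) (.cons 3 (.ofNat (Nat.shiftLeft 0x92e97ec38658697089c2baf95 68)) (.cons 4 (.negSucc (Nat.sub (Nat.shiftLeft 0x1212e4a585f10bc56588fa3c9 68) 1)) .nil))),
    .cons 1 (.negSucc (Nat.sub (Nat.shiftLeft 0x34b9cc6f88e75b01cdd7e1df23f14d 51) 1)) (.cons 2 (.ofNat (Nat.shiftLeft 0x60d3252a3b4b09ce4ff7a7a155911d 50)) (.cons 3 (.negSucc (Nat.sub (Nat.shiftLeft 0x66a9f91bf5591b149e557d5c138d1 49) 1)) (.cons 4 (.negSucc (Nat.sub (Nat.shiftLeft 0x35e6ebd8485f330475e27bc4db4f8b 49) 1)) .nil))),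
    .cons 1 (.ofNat (Nat.shiftLeft 0xb4bd4e79cd411a410be530e2fb68399cc7 34)) (.cons 2 (.ofNat (Nat.shiftLeft 0x625982bc25044ac611b9f6accb00cd5c9 33)) (.cons 3 (.ofNat (Nat.shiftLeft 0x8c537c14181827306c19fe33505d9834d3 32)) (.cons 4 (.negSucc (Nat.sub (Nat.shiftLeft 0x3c51d8be35c49e5685051183a6b02ae93f 32) 1)) .nil))),
    .cons 1 (.ofNat (Nat.shiftLeft 0x76f78f78f77f5f5e1c1e6cd6e940a86675e5 25)) (.cons 2 (.negSucc (Nat.sub (Nat.shiftLeft 0x40cf22df02f90124f203527f6400ff9650735 24) 1)) (.cons 3 (.negSucc (Nat.sub (Nat.shiftLeft 0x17d76c2787d199ca470ade85444105268d2b7 23) 1)) (.cons 4 (.negSucc (Nat.sub (Nat.shiftLeft 0x1f012fa5c44116be6b8581f82f382d9c5f3cd 23) 1)) .nil))),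
    .cons 5 (.ofNat (Nat.shiftLeft 0x6235ca59 140)) (.cons 6 (.ofNat (Nat.shiftLeft 0x24a923 146)) (.cons 7 (.negSucc (Nat.sub (Nat.shiftLeft 0x2113adf 138) 1)) (.cons 8 (.ofNat (Nat.shiftLeft 0xebf1c7 138)) (.cons 9 (.ofNat (Nat.shiftLeft 0xf0a5 140)) (.cons 10 (.ofNat (Nat.shiftLeft 0x2d1ef 138)) (.cons 11 (.negSucc (Nat.sub (Nat.shiftLeft 0xf0a5 140) 1)) .nil)))))),
    .cons 5 (.negSucc (Nat.sub (Nat.shiftLeft 0x49d013e5a2eeca9 112) 1)) (.cons 6 (.negSucc (Nat.sub (Nat.shiftLeft 0x8d6ec370f3393 118) 1)) (.cons 7 (.negSucc (Nat.sub (Nat.shiftLeft 0x2b95eaacae979f1 110) 1)) (.cons 8 (.ofNat (Nat.shiftLeft 0x11f7a1c83631689 110)) (.cons 9 (.ofNat (Nat.shiftLeft 0x78a3a2b0d74b 112)) (.cons 10 (.ofNat (Nat.shiftLeft 0x469006e81285e1 110)) (.cons 11 (.negSucc (Nat.sub (Nat.shiftLeft 0x39dda2b0d74b 112) 1)) .nil)))))),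
    .cons 5 (.ofNat (Nat.shiftLeft 0x10f48e094b82579bd9f9b 88)) (.cons 6 (.negSucc (Nat.sub (Nat.shiftLeft 0xc101b35105abcc0d967 94) 1)) (.cons 7 (.negSucc (Nat.sub (Nat.shiftLeft 0x1c55e1c71ce87b712eb8d 86) 1)) (.cons 8 (.ofNat (Nat.shiftLeft 0x19bf5d6a69b2d9d19b6c5 86)) (.cons 9 (.negSucc (Nat.sub (Nat.shiftLeft 0x3dfe8a68cb7dc332e4c1 88) 1)) (.cons 10 (.negSucc (Nat.sub (Nat.shiftLeft 0xb7534ee1e64d4998ae43 86) 1)) (.cons 11 (.ofNat (Nat.shiftLeft 0x2415dce8336bc332e4c1 88)) .nil)))))),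
    .cons 5 (.ofNat (Nat.shiftLeft 0x3cf37b796ab313e12d0340831 71)) (.cons 6 (.negSucc (Nat.sub (Nat.shiftLeft 0x26db9b42254b63ac81388715 77) 1)) (.cons 7 (.negSucc (Nat.sub (Nat.shiftLeft 0xd136ae853438f08a7bd254e47 69) 1)) (.cons 8 (.ofNat (Nat.shiftLeft 0xfbdf3d5514d2bdd7bc6e986ef 69)) (.cons 9 (.negSucc (Nat.sub (Nat.shiftLeft 0xfae3c4db58ec46ca6c56c863 71) 1)) (.cons 10 (.ofNat (Nat.shiftLeft 0x4f0658560c6c7da4bafba6d7 69)) (.cons 11 (.ofNat (Nat.shiftLeft 0x911e7c2f0c7758546c56c863 71)) .nil)))))),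
    .cons 5 (.ofNat (Nat.shiftLeft 0x526d5c16d516781237d584028ea49 50)) (.cons 6 (.ofNat (Nat.shiftLeft 0x412b7678b958730f0fa377ae8b73 56)) (.cons 7 (.ofNat (Nat.shiftLeft 0x2eacfa3a7c8ca850bbad25074cc6491 48)) (.cons 8 (.negSucc (Nat.sub (Nat.shiftLeft 0x1aaab8df223d4d19e207d7c3240c029 48) 1)) (.cons 9 (.negSucc (Nat.sub (Nat.shiftLeft 0xdd87dc1131707951612adb4b9e22b 50) 1)) (.cons 10 (.negSucc (Nat.sub (Nat.shiftLeft 0x95471f60b2fb1bd87ddfa51e2da681 48) 1)) (.cons 11 (.negSucc (Nat.sub (Nat.shiftLeft 0xaaecf2e60481055f41fd84b461dd5 50) 1)) .nil)))))),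
    .cons 5 (.negSucc (Nat.sub (Nat.shiftLeft 0xe8905dda0b675f48e036bfbee79e3c63 37) 1)) (.cons 6 (.ofNat (Nat.shiftLeft 0x96401b1ef37a89a9c7caf7902150424f 43)) (.cons 7 (.negSucc (Nat.sub (Nat.shiftLeft 0x58c4c32be103bafe26a86601d0cd37d77b 35) 1)) (.cons 8 (.negSucc (Nat.sub (Nat.shiftLeft 0x526ea01c6b7271ad45b1a2c003d4a3afd 35) 1)) (.cons 9 (.ofNat (Nat.shiftLeft 0x598ef7cefd323ac7e7c2407d33bee5d99 37)) (.cons 10 (.negSucc (Nat.sub (Nat.shiftLeft 0x79ba6cb212a94d16767b371d24c34e735 35) 1)) (.cons 11 (.ofNat (Nat.shiftLeft 0x1ad79c63adb07c37e52002b6ec411a267 37)) .nil)))))),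
    .cons 5 (.ofNat (Nat.shiftLeft 0x33a2d8a4c9ea0a4c9024ad83bc080958ec3 28)) (.cons 6 (.negSucc (Nat.sub (Nat.shiftLeft 0x15bcea67d5dbccfeb4cdb525cf76502a2f 34) 1)) (.cons 7 (.ofNat (Nat.shiftLeft 0xfcdcc4d3281280675c65333aac616a50bcdb 26)) (.cons 8 (.negSucc (Nat.sub (Nat.shiftLeft 0x9195d977fe1c430ea4d78c684295b7cf6b63 26) 1)) (.cons 9 (.ofNat (Nat.shiftLeft 0x983bf2fb29fed436880b3b107d0e2b5bd47 28)) (.cons 10 (.ofNat (Nat.shiftLeft 0x1ee5d0570f21117473716dd2623ea82137d5 26)) (.cons 11 (.negSucc (Nat.sub (Nat.shiftLeft 0xf2144890a0dd7f034233e3c2752e2b5bd47 28) 1)) .nil)))))),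
    .cons 12 (.ofNat (Nat.shiftLeft 0x75f9a1 148)) (.cons 13 (.negSucc (Nat.sub (Nat.shiftLeft 0xf86cf9 145) 1)) (.cons 14 (.negSucc (Nat.sub (Nat.shiftLeft 0x927b79 145) 1)) (.cons 15 (.ofNat (Nat.shiftLeft 0x1a4843 145)) (.cons 16 (.ofNat (Nat.shiftLeft 0xac85 148)) (.cons 17 (.negSucc (Nat.sub (Nat.shiftLeft 0x224ed 146) 1)) (.cons 18 (.negSucc (Nat.sub (Nat.shiftLeft 0xeb41 145) 1)) .nil)))))),
    .cons 12 (.negSucc (Nat.sub (Nat.shiftLeft 0x5f8356ef531 127) 1)) (.cons 13 (.negSucc (Nat.sub (Nat.shiftLeft 0x41f690f7ddf7 124) 1)) (.cons 14 (.negSucc (Nat.sub (Nat.shiftLeft 0x306a150f2777 124) 1)) (.cons 15 (.ofNat (Nat.shiftLeft 0x1b425641ff0d 124)) (.cons 16 (.negSucc (Nat.sub (Nat.shiftLeft 0xdfc356ec55 127) 1)) (.cons 17 (.negSucc (Nat.sub (Nat.shiftLeft 0x9f7599f8c3 125) 1)) (.cons 18 (.ofNat (Nat.shiftLeft 0x802499970d1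 124)) .nil)))))),
    .cons 12 (.negSucc (Nat.sub (Nat.shiftLeft 0x3358c117b863237 108) 1)) (.cons 13 (.ofNat (Nat.shiftLeft 0x164a68b2d204d311f 105)) (.cons 14 (.ofNat (Nat.shiftLeft 0x21fff3a5d0e5d5e9f 105)) (.cons 15 (.negSucc (Nat.sub (Nat.shiftLeft 0xfc322f0d5a6fd445 105) 1)) (.cons 16 (.negSucc (Nat.sub (Nat.shiftLeft 0x311fbe1f29d1fb3 108) 1)) (.cons 17 (.ofNat (Nat.shiftLeft 0x1c233423782e1f0b 106)) (.cons 18 (.negSucc (Nat.sub (Nat.shiftLeft 0x312a381d56356069 105) 1)) .nil)))))),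
    .cons 12 (.negSucc (Nat.sub (Nat.shiftLeft 0x9e3fc37b05c11c07d 99) 1)) (.cons 13 (.negSucc (Nat.sub (Nat.shiftLeft 0x581ce6f0bbb6010808b 96) 1)) (.cons 14 (.ofNat (Nat.shiftLeft 0x530adbe5cf72a4d43f5 96)) (.cons 15 (.ofNat (Nat.shiftLeft 0x64fbee2e36a1bc2ca9 96)) (.cons 16 (.negSucc (Nat.sub (Nat.shiftLeft 0xadd9f412a69c36151 99) 1)) (.cons 17 (.negSucc (Nat.sub (Nat.shiftLeft 0x391c79bc432c9df8e7 97) 1)) (.cons 18 (.negSucc (Nat.sub (Nat.shiftLeft 0x86aab0cc7aa28cd863 96) 1)) .nil)))))),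
    .cons 19 (.ofNat (Nat.shiftLeft 0xf0b 159)) (.cons 20 (.negSucc (Nat.sub (Nat.shiftLeft 0x283 160) 1)) (.cons 21 (.ofNat (Nat.shiftLeft 0x29 159)) (.cons 22 (.ofNat (Nat.shiftLeft 0xfd 159)) .nil)))]⟩

noncomputable def A11 : Tn :=
  ⟨[.cons 1 (.ofNat (Nat.shiftLeft 0x78d 160)) (.cons 2 (.negSucc (Nat.sub (Nat.shiftLeft 0x26d 160) 1)) (.cons 3 (.ofNat (Nat.shiftLeft 0x7 161)) (.cons 4 (.ofNat (Nat.shiftLeft 0x85 160)) .nil))),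
    .cons 5 (.ofNat (Nat.shiftLeft 0x7619 156)) (.cons 6 (.ofNat (Nat.shiftLeft 0x3cf91 151)) (.cons 7 (.ofNat (Nat.shiftLeft 0x4998b 150)) (.cons 8 (.ofNat (Nat.shiftLeft 0x6ecb 151)) (.cons 9 (.negSucc (Nat.sub (Nat.shiftLeft 0xeb5 151) 1)) (.cons 10 (.ofNat (Nat.shiftLeft 0x5939 149)) (.cons 11 (.ofNat (Nat.shiftLeft 0x10ab 149)) .nil)))))),
    .cons 5 (.negSucc (Nat.sub (Nat.shiftLeft 0x2fa9a5aa69d 128) 1)) (.cons 6 (.ofNat (Nat.shiftLeft 0x84315ebb530b 123)) (.cons 7 (.ofNat (Nat.shiftLeft 0xbce22d1e4fe9 122)) (.cons 8 (.ofNat (Nat.shiftLeft 0x35bb4d403da9 123)) (.cons 9 (.ofNat (Nat.shiftLeft 0xcd152e9e129 123)) (.cons 10 (.ofNat (Nat.shiftLeft 0x28804b965c3 121)) (.cons 11 (.negSucc (Nat.sub (Nat.shiftLeft 0x404d868087b7 121) 1)) .nil)))))),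
    .cons 5 (.ofNat (Nat.shiftLeft 0x5a323ece314a9 115)) (.cons 6 (.ofNat (Nat.shiftLeft 0xb4bd7ba0540dda1 110)) (.cons 7 (.ofNat (Nat.shiftLeft 0x223332d30aaaa93b 109)) (.cons 8 (.ofNat (Nat.shiftLeft 0x821985b3c5e127b 110)) (.cons 9 (.negSucc (Nat.sub (Nat.shiftLeft 0x5939b3127dc305 110) 1)) (.cons 10 (.ofNat (Nat.shiftLeft 0x81fcecb525049c9 108)) (.cons 11 (.negSucc (Nat.sub (Nat.shiftLeft 0x541cddf86c6cda5 108) 1)) .nil)))))),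
    .cons 5 (.ofNat (Nat.shiftLeft 0x813525576972fdd 107)) (.cons 6 (.negSucc (Nat.sub (Nat.shiftLeft 0x15ed1367ae3d13c3cb 102) 1)) (.cons 7 (.ofNat (Nat.shiftLeft 0x29dd7b6d524450dbd7 101)) (.cons 8 (.negSucc (Nat.sub (Nat.shiftLeft 0x18ce8511a862601e9 102) 1)) (.cons 9 (.negSucc (Nat.sub (Nat.shiftLeft 0x2235606a081bb8569 102) 1)) (.cons 10 (.negSucc (Nat.sub (Nat.shiftLeft 0x50b4165ef1be3b483 100) 1)) (.cons 11 (.negSucc (Nat.sub (Nat.shiftLeft 0x7260aca1faad62489 100) 1)) .nil)))))),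
    .cons 12 (.ofNat (Nat.shiftLeft 0x18c623999 138)) (.cons 13 (.negSucc (Nat.sub (Nat.shiftLeft 0x246e430d 138) 1)) (.cons 14 (.ofNat (Nat.shiftLeft 0x41ee11 141)) (.cons 15 (.ofNat (Nat.shiftLeft 0xf2ffbb 138)) (.cons 16 (.ofNat (Nat.shiftLeft 0x1e23b 139)) (.cons 17 (.negSucc (Nat.sub (Nat.shiftLeft 0x1e23b 139) 1)) (.cons 18 (.ofNat (Nat.shiftLeft 0x96b27 137)) .nil)))))),
    .cons 12 (.ofNat (Nat.shiftLeft 0x122df9851aa76c09 110)) (.cons 13 (.negSucc (Nat.sub (Nat.shiftLeft 0x8cfe32ae384ce3d 110) 1)) (.cons 14 (.negSucc (Nat.sub (Nat.shiftLeft 0x5935b4006386ff 113) 1)) (.cons 15 (.negSucc (Nat.sub (Nat.shiftLeft 0x12834d189a957f5 110) 1)) (.cons 16 (.ofNat (Nat.shiftLeft 0x1437823a5628b 111)) (.cons 17 (.ofNat (Nat.shiftLeft 0x247e22dc5a9d75 111)) (.cons 18 (.negSucc (Nat.sub (Nat.shiftLeft 0x7a82ecdc51349 109) 1)) .nil)))))),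
    .cons 12 (.negSucc (Nat.sub (Nat.shiftLeft 0x2307ce1b34f9d026956db 87) 1)) (.cons 13 (.negSucc (Nat.sub (Nat.shiftLeft 0x629a7c506a79f3709eb89 87) 1)) (.cons 14 (.negSucc (Nat.sub (Nat.shiftLeft 0x1dfd9f66d0550268d7c3 90) 1)) (.cons 15 (.negSucc (Nat.sub (Nat.shiftLeft 0xdfb07bb391ec270d6461 87) 1)) (.cons 16 (.ofNat (Nat.shiftLeft 0x394d058ae26002ac8c1f 88)) (.cons 17 (.negSucc (Nat.sub (Nat.shiftLeft 0x2bf73b457f7102ac8c1f 88) 1)) (.cons 18 (.ofNat (Nat.shiftLeft 0xa9ec82ec88168d5ebc9b 86)) .nil)))))),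
    .cons 12 (.ofNat (Nat.shiftLeft 0x7787b6efbb2bd5be48131306d 70)) (.cons 13 (.ofNat (Nat.shiftLeft 0x1302446e257fb28ac1e66aef8f 70)) (.cons 14 (.ofNat (Nat.shiftLeft 0xd4556e512f29bb64d0cf9f45 73)) (.cons 15 (.ofNat (Nat.shiftLeft 0x8159983f070717b78254660f7 70)) (.cons 16 (.negSucc (Nat.sub (Nat.shiftLeft 0xf421c5b015b9c6d4148c5a89 71) 1)) (.cons 17 (.negSucc (Nat.sub (Nat.shiftLeft 0x1a9cc02fa56ad464eb73a577 71) 1)) (.cons 18 (.negSucc (Nat.sub (Nat.shiftLeft 0x2ab0d5ee41687b2a9e6bdc4ad 69) 1)) .nil)))))),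
    .cons 12 (.ofNat (Nat.shiftLeft 0x1eddc953f3199579dfde1bd3af3f7 52)) (.cons 13 (.ofNat (Nat.shiftLeft 0x4a0feb612939e142788e408e2ee3d 52)) (.cons 14 (.negSucc (Nat.sub (Nat.shiftLeft 0x6c7ea1d28c9a027955c5499151901 55) 1)) (.cons 15 (.negSucc (Nat.sub (Nat.shiftLeft 0x1bbe62ae843488e0a935c32fa5880b 52) 1)) (.cons 16 (.negSucc (Nat.sub (Nat.shiftLeft 0x1e79a59b7715c129e8627ed84428b 53) 1)) (.cons 17 (.ofNat (Nat.shiftLeft 0x49525b37555f667afe48ced84428b 53)) (.cons 18 (.ofNat (Nat.shiftLeft 0x873ca2580c1b3f6be0abfdc6ab349 51)) .nil)))))),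
    .cons 12 (.ofNat (Nat.shiftLeft 0x6c4d806059998a44603a175ab3731309 38)) (.cons 13 (.ofNat (Nat.shiftLeft 0x12fc702a7ae15aa1fd7efb46fb666ffec3 38)) (.cons 14 (.negSucc (Nat.sub (Nat.shiftLeft 0x1426fedee19fe587bf6c02a9d8a6657ff 41) 1)) (.cons 15 (.ofNat (Nat.shiftLeft 0x152758101595f73e322eac759eeb2ad0b 38)) (.cons 16 (.negSucc (Nat.sub (Nat.shiftLeft 0x15db941f6d9dd2731b7f8deb230c11875 39) 1)) (.cons 17 (.negSucc (Nat.sub (Nat.shiftLeft 0x8902c43cda1742071473eab2cf3ee78b 39) 1)) (.cons 18 (.ofNat (Nat.shiftLeft 0x179647bdc965cee0682f8cc7d8c3a85b7 37)) .nil)))))),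
    .cons 12 (.negSucc (Nat.sub (Nat.shiftLeft 0x6e126b994725d0da0d4ae113133deb3482f 27) 1)) (.cons 13 (.negSucc (Nat.sub (Nat.shiftLeft 0x92b67dc3e43d54573a15aa633ef4c8ad1a5 27) 1)) (.cons 14 (.ofNat (Nat.shiftLeft 0xfa5792dfea88eb99a2b9f11196e85303089 30)) (.cons 15 (.ofNat (Nat.shiftLeft 0x47554c0bb62397cae11b100a5c6dc910b2e3 27)) (.cons 16 (.negSucc (Nat.sub (Nat.shiftLeft 0x831bb554c8490c2dda87f96b47b3eeffe9d 28) 1)) (.cons 17 (.ofNat (Nat.shiftLeft 0x6ca1eeb5ad813ee54aaee51856e3eeffe9d 28)) (.cons 18 (.negSucc (Nat.sub (Nat.shiftLeft 0x44f6514c8fd3c11faaaabb7fd06bbaaff911 26) 1)) .nil)))))),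
    .cons 19 (.ofNat (Nat.shiftLeft 0xe3dac4a3 136)) (.cons 20 (.negSucc (Nat.sub (Nat.shiftLeft 0x634b759 136) 1)) (.cons 21 (.negSucc (Nat.sub (Nat.shiftLeft 0x1acc31 136) 1)) (.cons 22 (.negSucc (Nat.sub (Nat.shiftLeft 0x22743f 136) 1)) .nil))),
    .cons 19 (.negSucc (Nat.sub (Nat.shiftLeft 0x422fb6c02aef8b95 107) 1)) (.cons 20 (.negSucc (Nat.sub (Nat.shiftLeft 0x90299cd84af9131 107) 1)) (.cons 21 (.ofNat (Nat.shiftLeft 0x186b741e967c1b7 107)) (.cons 22 (.negSucc (Nat.sub (Nat.shiftLeft 0x2a2cdb4663174a7 107) 1)) .nil))),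
    .cons 19 (.negSucc (Nat.sub (Nat.shiftLeft 0x2c13b579049b4e955b6b3d 85) 1)) (.cons 20 (.negSucc (Nat.sub (Nat.shiftLeft 0x79d56dfb15ff40ffe21b9 85) 1)) (.cons 21 (.ofNat (Nat.shiftLeft 0x2b9a2ae55a349be57a06f 85)) (.cons 22 (.ofNat (Nat.shiftLeft 0x2a1b58824329ed0278521 85)) .nil))),
    .cons 19 (.ofNat (Nat.shiftLeft 0xefaa28d4bbec77a00480848d05 66)) (.cons 20 (.ofNat (Nat.shiftLeft 0x7f9b0f1cbc8bb8c199929e51e1 66)) (.cons 21 (.negSucc (Nat.sub (Nat.shiftLeft 0x2651ca7966d00adf847bfc1887 66) 1)) (.cons 22 (.ofNat (Nat.shiftLeft 0x69a80c7e5caa26715a9bbe077 66)) .nil))),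
    .cons 19 (.ofNat (Nat.shiftLeft 0x1213845bcf9d6dbb2ba03c5e17af58f 49)) (.cons 20 (.negSucc (Nat.sub (Nat.shiftLeft 0xc9d5ab083bc1aa7e568710cdca3ddd 49) 1)) (.cons 21 (.negSucc (Nat.sub (Nat.shiftLeft 0x12ce1a99f477ba5f49cbb280141115 49) 1)) (.cons 22 (.negSucc (Nat.sub (Nat.shiftLeft 0x2c9262445d46c32fe58037c93e5f1b 49) 1)) .nil))),
    .cons 19 (.negSucc (Nat.sub (Nat.shiftLeft 0xa13adb23290d86fbe2b0a5def5b97c2ce9 34) 1)) (.cons 20 (.negSucc (Nat.sub (Nat.shiftLeft 0x19ab653adf7b5007fc41f5ee3680f00cf5 34) 1)) (.cons 21 (.ofNat (Nat.shiftLeft 0x2143fee09f80831832dcfffe4325ebe993 34)) (.cons 22 (.negSucc (Nat.sub (Nat.shiftLeft 0x171b08625e72067436c0e4bc451862f843 34) 1)) .nil))),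
    .cons 19 (.negSucc (Nat.sub (Nat.shiftLeft 0x3cdc41a42b698295f0634b841c09289e3e84f 22) 1)) (.cons 20 (.ofNat (Nat.shiftLeft 0x1061caea05b981ab3d33b99c1fc9d8c499921d 22)) (.cons 21 (.negSucc (Nat.sub (Nat.shiftLeft 0x3933b9d2fe12d0582f6eed02b6e504ba494ab 22) 1)) (.cons 22 (.negSucc (Nat.sub (Nat.shiftLeft 0x3fcb0e1ced1db2dc3627627ea9a5e181cbf25 22) 1)) .nil))),
    .cons 23 (.ofNat (Nat.shiftLeft 0x20cfdd 144)) .nil,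
    .cons 23 (.negSucc (Nat.sub (Nat.shiftLeft 0x15ae82847227 123) 1)) .nil,
    .cons 23 (.negSucc (Nat.sub (Nat.shiftLeft 0x2f087a05e78cead 104) 1)) .nil,
    .cons 23 (.negSucc (Nat.sub (Nat.shiftLeft 0x21a51b57cb5324b469d 94) 1)) .nil,
    .nil],
   [.cons 0 (.negSucc (Nat.sub (Nat.shiftLeft 0xe9 160) 1)) .nil,
    .cons 1 (.negSucc (Nat.sub (Nat.shiftLeft 0x10d13d 149) 1)) (.cons 2 (.ofNat (Nat.shiftLeft 0x8c35 151)) (.cons 3 (.ofNat (Nat.shiftLeft 0x1e65 151)) (.cons 4 (.negSucc (Nat.sub (Nat.shiftLeft 0x10ab 152) 1)) .nil))),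
    .cons 1 (.negSucc (Nat.sub (Nat.shiftLeft 0x25139217e992f 121) 1)) (.cons 2 (.ofNat (Nat.shiftLeft 0x3ffbdf6c7b57 123)) (.cons 3 (.negSucc (Nat.sub (Nat.shiftLeft 0x9d8ff9f1599 123) 1)) (.cons 4 (.negSucc (Nat.sub (Nat.shiftLeft 0x61e397f7849 124) 1)) .nil))),
    .cons 1 (.ofNat (Nat.shiftLeft 0x5b3a18f8c386a9f3 108)) (.cons 2 (.negSucc (Nat.sub (Nat.shiftLeft 0x13984a0f6a6677b 110) 1)) (.cons 3 (.ofNat (Nat.shiftLeft 0x24150d418593db5 110)) (.cons 4 (.negSucc (Nat.sub (Nat.shiftLeft 0xc07003b939325b 111) 1)) .nil))),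
    .cons 1 (.negSucc (Nat.sub (Nat.shiftLeft 0xf61da35f834c30511 100) 1)) (.cons 2 (.ofNat (Nat.shiftLeft 0x837616545455108e9 102)) (.cons 3 (.ofNat (Nat.shiftLeft 0x1e57033e92d2e35d9 102)) (.cons 4 (.ofNat (Nat.shiftLeft 0xbe7ab8fb6ad62489 103)) .nil))),
    .cons 5 (.negSucc (Nat.sub (Nat.shiftLeft 0x2717d00ff 137) 1)) (.cons 6 (.negSucc (Nat.sub (Nat.shiftLeft 0x1882a5b1 139) 1)) (.cons 7 (.ofNat (Nat.shiftLeft 0x34a0505 137)) (.cons 8 (.ofNat (Nat.shiftLeft 0x26bbdd3 137)) (.cons 9 (.negSucc (Nat.sub (Nat.shiftLeft 0xd2f9d 137) 1)) (.cons 10 (.ofNat (Nat.shiftLeft 0x5a6b1 137)) (.cons 11 (.ofNat (Nat.shiftLeft 0x96b27 137)) .nil)))))),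
    .cons 5 (.ofNat (Nat.shiftLeft 0x2e95a0b134cdbaf1 109)) (.cons 6 (.negSucc (Nat.sub (Nat.shiftLeft 0x15b359f50f136a1 111) 1)) (.cons 7 (.ofNat (Nat.shiftLeft 0x7bb3265bdc710b5 109)) (.cons 8 (.negSucc (Nat.sub (Nat.shiftLeft 0xefa1e5b0745b5d 109) 1)) (.cons 9 (.negSucc (Nat.sub (Nat.shiftLeft 0x219b6a7985b1cd 109) 1)) (.cons 10 (.negSucc (Nat.sub (Nat.shiftLeft 0xb4551c150fd85f 109) 1)) (.cons 11 (.ofNat (Nat.shiftLeft 0x16be83323aecb7 109)) .nil)))))),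
    .cons 5 (.ofNat (Nat.shiftLeft 0x2ce39d2a1b3779784ae6d 86)) (.cons 6 (.negSucc (Nat.sub (Nat.shiftLeft 0x471af0187fb6c4b23375d 88) 1)) (.cons 7 (.negSucc (Nat.sub (Nat.shiftLeft 0x1c2c459d5c6d9d4b755df 86) 1)) (.cons 8 (.negSucc (Nat.sub (Nat.shiftLeft 0x2874e3512da1a103fec29 86) 1)) (.cons 9 (.negSucc (Nat.sub (Nat.shiftLeft 0x19a9b9df30c1b92b7d4d9 86) 1)) (.cons 10 (.ofNat (Nat.shiftLeft 0x91ef7033af0d8805a45d 86)) (.cons 11 (.ofNat (Nat.shiftLeft 0x58ed12acb6808d5ebc9b 86)) .nil)))))),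
    .cons 5 (.ofNat (Nat.shiftLeft 0x1276dc40a2c983fbe6908a44f5 69)) (.cons 6 (.ofNat (Nat.shiftLeft 0x2c5d727d0706bd9a1de3e049b 71)) (.cons 7 (.negSucc (Nat.sub (Nat.shiftLeft 0x12f5239fcb689a935261121537 69) 1)) (.cons 8 (.ofNat (Nat.shiftLeft 0x548305cf9823adb18179fa5ef 69)) (.cons 9 (.ofNat (Nat.shiftLeft 0x1d9b16527c83814c50fd679bf 69)) (.cons 10 (.ofNat (Nat.shiftLeft 0x3ba45ba8069d6a3cd425af065 69)) (.cons 11 (.ofNat (Nat.shiftLeft 0x38253b70a71895f5019423b53 69)) .nil)))))),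
    .cons 5 (.ofNat (Nat.shiftLeft 0x47bd04c20e73f043b4c091603a50f 51)) (.cons 6 (.ofNat (Nat.shiftLeft 0x1f9775acf34cccd54a9aeeffedd6a1 53)) (.cons 7 (.ofNat (Nat.shiftLeft 0x91d607d82ce4ea2555aca8c60fcf4b 51)) (.cons 8 (.ofNat (Nat.shiftLeft 0xfe79c748ca95574981dfb41067b5d 51)) (.cons 9 (.ofNat (Nat.shiftLeft 0x86bd1e3ed3853d0275e38fe9dd1cd 51)) (.cons 10 (.negSucc (Nat.sub (Nat.shiftLeft 0x7a84e7c5ca2e79d24a2f3488cc7a1 51) 1)) (.cons 11 (.negSucc (Nat.sub (Nat.shiftLeft 0x90cbd014d9fc689bf9bf223954cb7 51) 1)) .nil)))))),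
    .cons 5 (.ofNat (Nat.shiftLeft 0xc35f30041ca2a4b9d5be44cc6585f9f1 37)) (.cons 6 (.negSucc (Nat.sub (Nat.shiftLeft 0x90644942f1581ccace62fa9571f7ec5a1 39) 1)) (.cons 7 (.ofNat (Nat.shiftLeft 0x158315a80de13127fa9120d2fc5ed64bb5 37)) (.cons 8 (.negSucc (Nat.sub (Nat.shiftLeft 0xfe2527a4d94d5f1a9705166cc28286e5d 37) 1)) (.cons 9 (.ofNat (Nat.shiftLeft 0xdb203a7a64b9a94bb8792d3dd547ab33 37)) (.cons 10 (.ofNat (Nat.shiftLeft 0xc3dfc8f2dca62736c298f0e4edbcb6a1 37)) (.cons 11 (.negSucc (Nat.sub (Nat.shiftLeft 0x1b46e9369f69d247dc0621ed073c57a49 37) 1)) .nil)))))),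
    .cons 5 (.ofNat (Nat.shiftLeft 0xbb1812caa455233ad641e4a2152f06389f9 26)) (.cons 6 (.negSucc (Nat.sub (Nat.shiftLeft 0x101644334d21ddad03caf825113f93420b29 28) 1)) (.cons 7 (.ofNat (Nat.shiftLeft 0xcb18e63a42b7329443fbc07a55a89af26bdd 26)) (.cons 8 (.ofNat (Nat.shiftLeft 0xc49f2cf9945d96cc0d72b9f099b49d91c83b 26)) (.cons 9 (.ofNat (Nat.shiftLeft 0x45c2d76a23248b8f9f0256c8fbf1388ff64b 26)) (.cons 10 (.negSucc (Nat.sub (Nat.shiftLeft 0x1d3ce76816f6a57982e8f3e56eda3ccffbd7 26) 1)) (.cons 11 (.negSucc (Nat.sub (Nat.shiftLeft 0x3080c298f02c89d3db406b7bad29baaff911 26) 1)) .nil)))))),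
    .cons 12 (.negSucc (Nat.sub (Nat.shiftLeft 0x44564d34b 136) 1)) (.cons 13 (.negSucc (Nat.sub (Nat.shiftLeft 0xacc38fe7 136) 1)) (.cons 14 (.negSucc (Nat.sub (Nat.shiftLeft 0x530657d 136) 1)) (.cons 15 (.ofNat (Nat.shiftLeft 0x4430bcb 136)) (.cons 16 (.ofNat (Nat.shiftLeft 0x3d407 138)) (.cons 17 (.negSucc (Nat.sub (Nat.shiftLeft 0x3d407 138) 1)) (.cons 18 (.negSucc (Nat.sub (Nat.shiftLeft 0x3d407 138) 1)) .nil)))))),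
    .cons 12 (.ofNat (Nat.shiftLeft 0xc52f3c31cec1812d 107)) (.cons 13 (.negSucc (Nat.sub (Nat.shiftLeft 0x157d4a5f18a7440f 107) 1)) (.cons 14 (.negSucc (Nat.sub (Nat.shiftLeft 0x2115dbd6f25658b5 107) 1)) (.cons 15 (.negSucc (Nat.sub (Nat.shiftLeft 0x2e1e434b1373cad 107) 1)) (.cons 16 (.negSucc (Nat.sub (Nat.shiftLeft 0x9a90b8d83364d1 109) 1)) (.cons 17 (.negSucc (Nat.sub (Nat.shiftLeft 0x8064ad27cc9b2f 109) 1)) (.cons 18 (.negSucc (Nat.sub (Nat.shiftLeft 0x16a6a527cc9b2f 109) 1)) .nil)))))),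
    .cons 12 (.negSucc (Nat.sub (Nat.shiftLeft 0x7cf607004f4b7d0f34a6b 85) 1)) (.cons 13 (.ofNat (Nat.shiftLeft 0x2376e9950a908c6b7fe279 85)) (.cons 14 (.negSucc (Nat.sub (Nat.shiftLeft 0x3bc53773dea006d9a815d 85) 1)) (.cons 15 (.ofNat (Nat.shiftLeft 0x536eaa039655595c732eb 85)) (.cons 16 (.negSucc (Nat.sub (Nat.shiftLeft 0xb51ca92b607e88e7f259 87) 1)) (.cons 17 (.ofNat (Nat.shiftLeft 0x6cc9699cd5e888e7f259 87)) (.cons 18 (.ofNat (Nat.shiftLeft 0x3b6d106c3c3088e7f259 87)) .nil)))))),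
    .cons 12 (.ofNat (Nat.shiftLeft 0xa012204753ddf169bb79033ce3 66)) (.cons 13 (.ofNat (Nat.shiftLeft 0x842ab76951cca263c019bddf5f 66)) (.cons 14 (.ofNat (Nat.shiftLeft 0xa3486e9ea4e4faefe0902f4025 66)) (.cons 15 (.ofNat (Nat.shiftLeft 0x2ae811181b4bd451820117e69d 66)) (.cons 16 (.ofNat (Nat.shiftLeft 0x405111e84322d2fa6ed240381 68)) (.cons 17 (.ofNat (Nat.shiftLeft 0x758d64d1aba91d5df12dbfc7f 68)) (.cons 18 (.negSucc (Nat.sub (Nat.shiftLeft 0x74939be996cbd85a8ed240381 68) 1)) .nil)))))),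
    .cons 12 (.ofNat (Nat.shiftLeft 0x239a74237c4437cc16304f0418bc29 49)) (.cons 13 (.negSucc (Nat.sub (Nat.shiftLeft 0x86743f5b0f758d733a056f158e63 49) 1)) (.cons 14 (.negSucc (Nat.sub (Nat.shiftLeft 0x2ca6d334af15209a903811d162be111 49) 1)) (.cons 15 (.negSucc (Nat.sub (Nat.shiftLeft 0x3123818f870cefacf7c0dec5f391a9 49) 1)) (.cons 16 (.negSucc (Nat.sub (Nat.shiftLeft 0xbcef4b4211f0a5d2982e15b6ad8fd 51) 1)) (.cons 17 (.ofNat (Nat.shiftLeft 0x4d6b3430a346926c37e735b6ad8fd 51)) (.cons 18 (.ofNat (Nat.shiftLeft 0x104a3117e72f1da79ac7db5b6ad8fd 51)) .nil)))))),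
    .cons 12 (.negSucc (Nat.sub (Nat.shiftLeft 0x2f2c2dd1c4674f270c929c04e03e5df1f 34) 1)) (.cons 13 (.negSucc (Nat.sub (Nat.shiftLeft 0x1722e738a7dc4f42b9c26775bc1f2eedd4b 34) 1)) (.cons 14 (.ofNat (Nat.shiftLeft 0x50019da76d7176196813650221c589f177 34)) (.cons 15 (.negSucc (Nat.sub (Nat.shiftLeft 0x787301e5e605b1337cff0f5fb951174a61 34) 1)) (.cons 16 (.ofNat (Nat.shiftLeft 0x45fa6511144d3f3b2c8e5d1401f2770eb 36)) (.cons 17 (.ofNat (Nat.shiftLeft 0x13ced1bc941a75ec12f6a59c1e0d88f15 36)) (.cons 18 (.negSucc (Nat.sub (Nat.shiftLeft 0x25080aff6c254cd809493b8161f2770eb 36) 1)) .nil)))))),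
    .cons 12 (.negSucc (Nat.sub (Nat.shiftLeft 0x11f76ca7c8c90a094e5d22e916ef4167def69 22) 1)) (.cons 13 (.ofNat (Nat.shiftLeft 0x460ddcf76f24d01994eb93b537323c2858a23 22)) (.cons 14 (.ofNat (Nat.shiftLeft 0x7b13e4e507f0486ad46eea20f476dec8f3651 22)) (.cons 15 (.negSucc (Nat.sub (Nat.shiftLeft 0xca247e60caf59fea2c4ca1f25e941af1c5b17 22) 1)) (.cons 16 (.ofNat (Nat.shiftLeft 0xd369e9725c8328f1d2ff4173602ae63c153d 24)) (.cons 17 (.negSucc (Nat.sub (Nat.shiftLeft 0x9d0216a7940ebf9d94f56afbd23ce63c153d 24) 1)) (.cons 18 (.negSucc (Nat.sub (Nat.shiftLeft 0xb99a1e3efd2dbf65ed0481fedda4e63c153d 24) 1)) .nil)))))),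
    .cons 19 (.negSucc (Nat.sub (Nat.shiftLeft 0x499cd7b 143) 1)) (.cons 20 (.negSucc (Nat.sub (Nat.shiftLeft 0x147a143 142) 1)) (.cons 21 (.negSucc (Nat.sub (Nat.shiftLeft 0x68500b 142) 1)) (.cons 22 (.ofNat (Nat.shiftLeft 0x75891 143)) .nil))),
    .cons 19 (.ofNat (Nat.shiftLeft 0x13084aa010561 122)) (.cons 20 (.ofNat (Nat.shiftLeft 0x12ce1fff12b39 121)) (.cons 21 (.ofNat (Nat.shiftLeft 0xbf80e54d211 121)) (.cons 22 (.negSucc (Nat.sub (Nat.shiftLeft 0x1f9f8a795a83 122) 1)) .nil))),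
    .cons 19 (.negSucc (Nat.sub (Nat.shiftLeft 0x7a96a523180c323d5 103) 1)) (.cons 20 (.ofNat (Nat.shiftLeft 0x4323f460fdd0a5473 102)) (.cons 21 (.ofNat (Nat.shiftLeft 0x255ec5f87cf8f57bb 102)) (.cons 22 (.ofNat (Nat.shiftLeft 0xa92ef726e8d1d95f 103)) .nil))),
    .cons 19 (.ofNat (Nat.shiftLeft 0x20242f7eba54e08e10bb 93)) (.cons 20 (.ofNat (Nat.shiftLeft 0x1b0501a214c838efa283 92)) (.cons 21 (.negSucc (Nat.sub (Nat.shiftLeft 0x5f2982835293910b0b5 92) 1)) (.cons 22 (.ofNat (Nat.shiftLeft 0x2fca3d27c872def25af 93)) .nil))),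
    .cons 23 (.negSucc (Nat.sub (Nat.shiftLeft 0x1c7 159) 1)) .nil],
   [.nil,
    .cons 0 (.ofNat (Nat.shiftLeft 0xfa05 149)) .nil,
    .cons 0 (.ofNat (Nat.shiftLeft 0x50efde780c47 121)) .nil,
    .cons 0 (.negSucc (Nat.sub (Nat.shiftLeft 0x633c288a5a60cab 108) 1)) .nil,
    .cons 0 (.ofNat (Nat.shiftLeft 0x82ff6387a3d73dbf9 100)) .nil,
    .cons 1 (.ofNat (Nat.shiftLeft 0x75df31e1 137)) (.cons 2 (.ofNat (Nat.shiftLeft 0x5c4d4b 140)) (.cons 3 (.ofNat (Nat.shiftLeft 0x5a6b1 139)) (.cons 4 (.ofNat (Nat.shiftLeft 0x1e23b 138)) .nil))),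
    .cons 1 (.negSucc (Nat.sub (Nat.shiftLeft 0xcbfe95dfa2ac02f 109) 1)) (.cons 2 (.ofNat (Nat.shiftLeft 0x33fc1112a7dc9b 112)) (.cons 3 (.ofNat (Nat.shiftLeft 0x143792eaf027a1 111)) (.cons 4 (.ofNat (Nat.shiftLeft 0x650c48a3a5628b 110)) .nil))),
    .cons 1 (.ofNat (Nat.shiftLeft 0x1634f14f59211cd303f7cd 86)) (.cons 2 (.negSucc (Nat.sub (Nat.shiftLeft 0x6a6c95d1b2863cf92e11 89) 1)) (.cons 3 (.ofNat (Nat.shiftLeft 0x80a4f796f1c08805a45d 88)) (.cons 4 (.ofNat (Nat.shiftLeft 0x873fe66d58e82ac8c1f 87)) .nil))),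
    .cons 1 (.ofNat (Nat.shiftLeft 0x1e36a77b1789533f2fb57ad555 69)) (.cons 2 (.negSucc (Nat.sub (Nat.shiftLeft 0x18a5bb6866439cb2caedd5439 72) 1)) (.cons 3 (.ofNat (Nat.shiftLeft 0xa9a204d20cfcecf8425af065 71)) (.cons 4 (.negSucc (Nat.sub (Nat.shiftLeft 0x1f65bde4bc69a85a1948c5a89 70) 1)) .nil))),
    .cons 1 (.ofNat (Nat.shiftLeft 0x6c96da2b9b168441d5db8914f0202f 51)) (.cons 2 (.ofNat (Nat.shiftLeft 0x1e78de51e6f93a5c0d84949af4365 54)) (.cons 3 (.ofNat (Nat.shiftLeft 0x479a971d90df8eb7d705db773385f 53)) (.cons 4 (.negSucc (Nat.sub (Nat.shiftLeft 0x3b1b2f328112f8af09ef86d84428b 52) 1)) .nil))),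
    .cons 1 (.negSucc (Nat.sub (Nat.shiftLeft 0x80571f5784e1b37fb14b2239d42cd612f 37) 1)) (.cons 2 (.ofNat (Nat.shiftLeft 0x118a0998a273e8c102c024bb6eb0a519b 40)) (.cons 3 (.ofNat (Nat.shiftLeft 0x69e3e978e595392e5f8f9e93edbcb6a1 39)) (.cons 4 (.ofNat (Nat.shiftLeft 0x307f4b15a028f4ea5ce0c319e4f3ee78b 38)) .nil))),
    .cons 1 (.ofNat (Nat.shiftLeft 0x3ebc4828aba384602c5b4bbd4a5c3c86c5d9 26)) (.cons 2 (.ofNat (Nat.shiftLeft 0x20a852a8353a687dede02de409ed341043f3 29)) (.cons 3 (.negSucc (Nat.sub (Nat.shiftLeft 0x15bf5f3df5a0763d10893c4e44333ccffbd7 28) 1)) (.cons 4 (.ofNat (Nat.shiftLeft 0x1381d21f6662227e4ae59a02a9941100163 27)) .nil))),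
    .cons 5 (.ofNat (Nat.shiftLeft 0x6a7c59831 136)) (.cons 6 (.negSucc (Nat.sub (Nat.shiftLeft 0x76a15ceb 136) 1)) (.cons 7 (.negSucc (Nat.sub (Nat.shiftLeft 0x506493 140) 1)) (.cons 8 (.ofNat (Nat.shiftLeft 0xb7c15 142)) (.cons 9 (.negSucc (Nat.sub (Nat.shiftLeft 0x3d407 137) 1)) (.cons 10 (.ofNat (Nat.shiftLeft 0x3d407 136)) (.cons 11 (.negSucc (Nat.sub (Nat.shiftLeft 0xb7c15 136) 1)) .nil)))))),
    .cons 5 (.ofNat (Nat.shiftLeft 0x8121607958a82a49 107)) (.cons 6 (.negSucc (Nat.sub (Nat.shiftLeft 0x39fe99004f64df73 107) 1)) (.cons 7 (.ofNat (Nat.shiftLeft 0x16356503c374525 111)) (.cons 8 (.negSucc (Nat.sub (Nat.shiftLeft 0x2142d8c89a2e73 113) 1)) (.cons 9 (.ofNat (Nat.shiftLeft 0x12598ccd83364d1 108)) (.cons 10 (.ofNat (Nat.shiftLeft 0x1ab047327cc9b2f 107)) (.cons 11 (.ofNat (Nat.shiftLeft 0x1eef8e889a2e73 107)) .nil)))))),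
    .cons 5 (.ofNat (Nat.shiftLeft 0x6272a4688e6fe55ebab91 85)) (.cons 6 (.ofNat (Nat.shiftLeft 0x191385ea7bc3f47ba0eff5 85)) (.cons 7 (.negSucc (Nat.sub (Nat.shiftLeft 0x4e7794ef5fc444f91eb3 89) 1)) (.cons 8 (.ofNat (Nat.shiftLeft 0xd9a59e138a4254828f5 91)) (.cons 9 (.ofNat (Nat.shiftLeft 0x115629774f53288e7f259 86)) (.cons 10 (.negSucc (Nat.sub (Nat.shiftLeft 0x82ef13b6adf288e7f259 85) 1)) (.cons 11 (.ofNat (Nat.shiftLeft 0x169edda4dc5ff9ab7d70b 85)) .nil)))))),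
    .cons 5 (.ofNat (Nat.shiftLeft 0x67d7a36d1990c63df25965ec87 66)) (.cons 6 (.ofNat (Nat.shiftLeft 0x116c6c64e21d20950016aff6b83 66)) (.cons 7 (.negSucc (Nat.sub (Nat.shiftLeft 0x682d7550cda40f3cff3f44995 70) 1)) (.cons 8 (.ofNat (Nat.shiftLeft 0x1c2dfbc806b67312f076c0a83 72)) (.cons 9 (.ofNat (Nat.shiftLeft 0x620ee14cbe13fce8512dbfc7f 67)) (.cons 10 (.negSucc (Nat.sub (Nat.shiftLeft 0x19e41bafe0260747c512dbfc7f 66) 1)) (.cons 11 (.ofNat (Nat.shiftLeft 0x15990a572aede7e2e73893f57d 66)) .nil)))))),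
    .cons 5 (.ofNat (Nat.shiftLeft 0xdd32516e499979312f99d796b8d15 49)) (.cons 6 (.ofNat (Nat.shiftLeft 0x1be2e7e00f54acc510bfab9de061809 49)) (.cons 7 (.ofNat (Nat.shiftLeft 0x1a72b37a5ddf64e5b695e0ffc3ccc1 53)) (.cons 8 (.negSucc (Nat.sub (Nat.shiftLeft 0x1ac83cd1900fd5bc455d552408af7 55) 1)) (.cons 9 (.ofNat (Nat.shiftLeft 0x31850ba6af46ba60a363655b6ad8fd 50)) (.cons 10 (.negSucc (Nat.sub (Nat.shiftLeft 0x1e2219945be2fa18896f255b6ad8fd 49) 1)) (.cons 11 (.negSucc (Nat.sub (Nat.shiftLeft 0x1369be46e30c9b0ac523c7edbf7509 49) 1)) .nil)))))),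
    .cons 5 (.negSucc (Nat.sub (Nat.shiftLeft 0x37fa72e3c4c8db8a320662029a84d93 34) 1)) (.cons 6 (.ofNat (Nat.shiftLeft 0xfd0bfce6d0343bcfea6531a6e696c9ddc1 34)) (.cons 7 (.negSucc (Nat.sub (Nat.shiftLeft 0x15be37a2650b007afecf999020e3c4347 38) 1)) (.cons 8 (.ofNat (Nat.shiftLeft 0x16b938d39fed639fea12ea4991d7652c1 40)) (.cons 9 (.negSucc (Nat.sub (Nat.shiftLeft 0x94a1c0d51ffb0866588389cdc1f2770eb 35) 1)) (.cons 10 (.negSucc (Nat.sub (Nat.shiftLeft 0x3092725e53d15cbb036d0f90e3e0d88f15 34) 1)) (.cons 11 (.ofNat (Nat.shiftLeft 0x318c0f0b280305c53e89bfb33a289ad3f 34)) .nil)))))),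
    .cons 5 (.ofNat (Nat.shiftLeft 0x9001d0e983df68f305f678e7efce4cf218ab 22)) (.cons 6 (.ofNat (Nat.shiftLeft 0x21d7b45ac2d01e41e334d278616536c21dcb7 22)) (.cons 7 (.ofNat (Nat.shiftLeft 0x11f3cd68ea977ee9b5fea2ccd85769d1241ff 26)) (.cons 8 (.negSucc (Nat.sub (Nat.shiftLeft 0x274d77b27c5efb9f5e92271914be0d4bc049 28) 1)) (.cons 9 (.negSucc (Nat.sub (Nat.shiftLeft 0xfd618387dc918c22e669edede5aee63c153d 23) 1)) (.cons 10 (.ofNat (Nat.shiftLeft 0xad5f5bcc7e9333639a1cc2e2a16ee63c153d 22)) (.cons 11 (.negSucc (Nat.sub (Nat.shiftLeft 0x476b8d6d5d45a99d6a2c2ad48ed14b2b43fb7 22) 1)) .nil)))))),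
    .cons 12 (.ofNat (Nat.shiftLeft 0x1d65e941 142)) (.cons 13 (.ofNat (Nat.shiftLeft 0x6b4045 146)) (.cons 14 (.negSucc (Nat.sub (Nat.shiftLeft 0x536843b 142) 1)) (.cons 15 (.ofNat (Nat.shiftLeft 0xea94c1 142)) (.cons 16 (.ofNat (Nat.shiftLeft 0x40279d 142)) (.cons 17 (.ofNat (Nat.shiftLeft 0xa48cb 142)) (.cons 18 (.negSucc (Nat.sub (Nat.shiftLeft 0x94e0d 142) 1)) .nil)))))),
    .cons 12 (.ofNat (Nat.shiftLeft 0x183437fb7d46d 121)) (.cons 13 (.negSucc (Nat.sub (Nat.shiftLeft 0x1b2c87b88fdf 125) 1)) (.cons 14 (.ofNat (Nat.shiftLeft 0x1ae8d641de5a1 121)) (.cons 15 (.negSucc (Nat.sub (Nat.shiftLeft 0xcfc345f00613 121) 1)) (.cons 16 (.ofNat (Nat.shiftLeft 0x159266a8fa99 121)) (.cons 17 (.negSucc (Nat.sub (Nat.shiftLeft 0x27baa1dd1851 121) 1)) (.cons 18 (.negSucc (Nat.sub (Nat.shiftLeft 0x4c8f30997c49 121) 1)) .nil)))))),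
    .cons 12 (.negSucc (Nat.sub (Nat.shiftLeft 0x1a962645973663251 102) 1)) (.cons 13 (.ofNat (Nat.shiftLeft 0x7f5fed42845e326b 106)) (.cons 14 (.ofNat (Nat.shiftLeft 0x19c41ff68c286abeeb 102)) (.cons 15 (.negSucc (Nat.sub (Nat.shiftLeft 0x4f1302f4ac21715d1 102) 1)) (.cons 16 (.negSucc (Nat.sub (Nat.shiftLeft 0x208e5320de1e8626d 102) 1)) (.cons 17 (.ofNat (Nat.shiftLeft 0xaca62bea72bf6385 102)) (.cons 18 (.negSucc (Nat.sub (Nat.shiftLeft 0x24eca4491fa1ae023 102) 1)) .nil)))))),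
    .cons 12 (.negSucc (Nat.sub (Nat.shiftLeft 0x161e821165f1edb5f01 92) 1)) (.cons 13 (.ofNat (Nat.shiftLeft 0x65d078956b8ef09f2fb 96)) (.cons 14 (.ofNat (Nat.shiftLeft 0x80ae4f6d2c271f5977b 92)) (.cons 15 (.ofNat (Nat.shiftLeft 0x1c75afe7875ccbe5d57f 92)) (.cons 16 (.ofNat (Nat.shiftLeft 0x4c9f2910d02356cd1a3 92)) (.cons 17 (.ofNat (Nat.shiftLeft 0xaafb1da597339e867f5 92)) (.cons 18 (.negSucc (Nat.sub (Nat.shiftLeft 0x2c2c60c59495eaa733 92) 1)) .nil)))))),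
    .cons 19 (.ofNat (Nat.shiftLeft 0xf01 159)) (.cons 20 (.ofNat (Nat.shiftLeft 0x521 159)) (.cons 21 (.ofNat (Nat.shiftLeft 0x69 160)) (.cons 22 (.negSucc (Nat.sub (Nat.shiftLeft 0xdd 159) 1)) .nil)))]⟩

noncomputable def A12 : Tn :=
  ⟨[.cons 1 (.ofNat (Nat.shiftLeft 0xf0b 159)) (.cons 2 (.ofNat (Nat.shiftLeft 0x505 159)) (.cons 3 (.negSucc (Nat.sub (Nat.shiftLeft 0x65 160) 1)) (.cons 4 (.ofNat (Nat.shiftLeft 0xdb 159)) .nil))),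
    .cons 5 (.ofNat (Nat.shiftLeft 0x1d6dbf71 142)) (.cons 6 (.negSucc (Nat.sub (Nat.shiftLeft 0x6c2a67b 142) 1)) (.cons 7 (.ofNat (Nat.shiftLeft 0x523414b 142)) (.cons 8 (.ofNat (Nat.shiftLeft 0xf0848d 142)) (.cons 9 (.ofNat (Nat.shiftLeft 0x3d3b4b 142)) (.cons 10 (.negSucc (Nat.sub (Nat.shiftLeft 0x853d7 143) 1)) (.cons 11 (.ofNat (Nat.shiftLeft 0xa4973 142)) .nil)))))),
    .cons 5 (.ofNat (Nat.shiftLeft 0x1829ba8ca4b07 121)) (.cons 6 (.ofNat (Nat.shiftLeft 0x1c367180dd853 121)) (.cons 7 (.negSucc (Nat.sub (Nat.shiftLeft 0x1a021ad9469a3 121) 1)) (.cons 8 (.negSucc (Nat.sub (Nat.shiftLeft 0xd1ada6a17af5 121) 1)) (.cons 9 (.ofNat (Nat.shiftLeft 0x12c9fe1dcc5d 121)) (.cons 10 (.ofNat (Nat.shiftLeft 0x1271870a488f 122)) (.cons 11 (.ofNat (Nat.shiftLeft 0x4ad87de43cf5 121)) .nil)))))),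
    .cons 5 (.ofNat (Nat.shiftLeft 0x17696cf6638e678a5 102)) (.cons 6 (.ofNat (Nat.shiftLeft 0xb079f56c17607ebc9 102)) (.cons 7 (.ofNat (Nat.shiftLeft 0x1a25158ccf0d7ff547 102)) (.cons 8 (.ofNat (Nat.shiftLeft 0x4175107f81d6d6671 102)) (.cons 9 (.ofNat (Nat.shiftLeft 0x2184ced7378c33747 102)) (.cons 10 (.ofNat (Nat.shiftLeft 0x72229e38fab658bd 103)) (.cons 11 (.negSucc (Nat.sub (Nat.shiftLeft 0x1e2bbad1112e14071 102) 1)) .nil)))))),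
    .cons 5 (.ofNat (Nat.shiftLeft 0x131f4eb1571c082ccb 93)) (.cons 6 (.ofNat (Nat.shiftLeft 0x2fd67bb04eb65a10f267 93)) (.cons 7 (.negSucc (Nat.sub (Nat.shiftLeft 0x27163ecb5539d5fd877 93) 1)) (.cons 8 (.negSucc (Nat.sub (Nat.shiftLeft 0xf86f4eb7679f46c94c1 93) 1)) (.cons 9 (.negSucc (Nat.sub (Nat.shiftLeft 0x262be56edff201dba77 93) 1)) (.cons 10 (.ofNat (Nat.shiftLeft 0x2b94d7553ea5fa1bd33 94)) (.cons 11 (.ofNat (Nat.shiftLeft 0x8f38b79653ee928ec1 93)) .nil)))))),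
    .cons 12 (.ofNat (Nat.shiftLeft 0x1a828249 142)) (.cons 13 (.ofNat (Nat.shiftLeft 0xf3214bb 139)) (.cons 14 (.ofNat (Nat.shiftLeft 0x158367 142)) (.cons 15 (.ofNat (Nat.shiftLeft 0x620147 139)) (.cons 16 (.ofNat (Nat.shiftLeft 0x7a63 141)) (.cons 18 (.ofNat (Nat.shiftLeft 0x7a63 141)) .nil))))),
    .cons 12 (.negSucc (Nat.sub (Nat.shiftLeft 0x81f8e383440627f 111) 1)) (.cons 13 (.negSucc (Nat.sub (Nat.shiftLeft 0x1dca248dc20e389d 108) 1)) (.cons 14 (.ofNat (Nat.shiftLeft 0x1690f5b62b4c2af 111)) (.cons 15 (.ofNat (Nat.shiftLeft 0x446efcccfe2218f 108)) (.cons 16 (.ofNat (Nat.shiftLeft 0x3f9634217b7bcb 110)) (.cons 17 (.ofNat (Nat.shiftLeft 0x20ce4b 143)) (.cons 18 (.ofNat (Nat.shiftLeft 0x64c87217b7bcb 110)) .nil)))))),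
    .cons 12 (.negSucc (Nat.sub (Nat.shiftLeft 0xd5c34880a3dc0c6a2e89 88) 1)) (.cons 13 (.ofNat (Nat.shiftLeft 0x1959846671fe101530ae85 85)) (.cons 14 (.negSucc (Nat.sub (Nat.shiftLeft 0x9d8bbef4580a03742327 88) 1)) (.cons 15 (.negSucc (Nat.sub (Nat.shiftLeft 0x3a529e9844d770182d907 85) 1)) (.cons 16 (.ofNat (Nat.shiftLeft 0x8af535c28ca61f364edd 87)) (.cons 17 (.negSucc (Nat.sub (Nat.shiftLeft 0x63b728617a3 120) 1)) (.cons 18 (.ofNat (Nat.shiftLeft 0x5fdc4c8e24bb1f364edd 87)) .nil)))))),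
    .cons 12 (.ofNat (Nat.shiftLeft 0xd10402b0925547be20e4d45f5 69)) (.cons 13 (.negSucc (Nat.sub (Nat.shiftLeft 0x116aedd5cb8a04ab1f781a441c1 66) 1)) (.cons 14 (.ofNat (Nat.shiftLeft 0xd36724492a307498b22408ffb 69)) (.cons 15 (.ofNat (Nat.shiftLeft 0x75940cab23788584421c09ac5b 66)) (.cons 16 (.negSucc (Nat.sub (Nat.shiftLeft 0x3f146831d21f46e5018d6be39 68) 1)) (.cons 17 (.ofNat (Nat.shiftLeft 0x307284764d210f647 101)) (.cons 18 (.negSucc (Nat.sub (Nat.shiftLeft 0x5ed1ad923ce661c6118d6be39 68) 1)) .nil)))))),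
    .cons 12 (.negSucc (Nat.sub (Nat.shiftLeft 0xee4003026f16729fd820ad49ee77 53) 1)) (.cons 13 (.ofNat (Nat.shiftLeft 0xfdb89ef4d974f0cd62902360b39a7b 50)) (.cons 14 (.ofNat (Nat.shiftLeft 0x1baa44dd1bc1aad0759b9f98ead027 53)) (.cons 15 (.ofNat (Nat.shiftLeft 0x2f0e876698d448f8586fbce34a2607 50)) (.cons 16 (.ofNat (Nat.shiftLeft 0xbe3be86dffc9d9016051bc7aa3223 52)) (.cons 17 (.negSucc (Nat.sub (Nat.shiftLeft 0x1b3665a0a8c891031e75d 85) 1)) (.cons 18 (.negSucc (Nat.sub (Nat.shiftLeft 0x361814938c0c4099a79f93855cddd 52) 1)) .nil)))))),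
    .cons 12 (.negSucc (Nat.sub (Nat.shiftLeft 0x3c52a9142f3e91006fd1b782b0d29199f 33) 1)) (.cons 13 (.negSucc (Nat.sub (Nat.shiftLeft 0xd962da95a2854b2ea4c24ba166b3c5e59fd 30) 1)) (.cons 14 (.ofNat (Nat.shiftLeft 0x6faec09872408af1b07ea7f8db133823cf 33)) (.cons 15 (.ofNat (Nat.shiftLeft 0x65723b69b983c8c19880ea4d6e6107186af 30)) (.cons 16 (.ofNat (Nat.shiftLeft 0x3d77a5a99ce368ace27630a1ceca61f56b 32)) (.cons 17 (.ofNat (Nat.shiftLeft 0x62577ad43f16d0864176db77eb 65)) (.cons 18 (.negSucc (Nat.sub (Nat.shiftLeft 0x184c6ab6a17040276ff497373e359e0a95 32) 1)) .nil)))))),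
    .cons 12 (.ofNat (Nat.shiftLeft 0x2ae727fdbaf8ce7af57eeee3cc66c6be050b 24)) (.cons 13 (.negSucc (Nat.sub (Nat.shiftLeft 0x40f098b874da2146aaec283db6a44e68e3d3f 21) 1)) (.cons 14 (.negSucc (Nat.sub (Nat.shiftLeft 0x457e9f5c3d361842d28cd727ce7cf07e5cafb 24) 1)) (.cons 15 (.negSucc (Nat.sub (Nat.shiftLeft 0x133e3230005b87b698a5e0ca54b6693233475b 21) 1)) (.cons 16 (.ofNat (Nat.shiftLeft 0x107bb791532249ec6fd71349e14077a22b739 23)) (.cons 17 (.negSucc (Nat.sub (Nat.shiftLeft 0x16199e2de693131a986119597d47 56) 1)) (.cons 18 (.ofNat (Nat.shiftLeft 0x2708e19dd774c160cace0a9f593187a22b739 23)) .nil)))))),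
    .cons 19 (.ofNat (Nat.shiftLeft 0x3b1c619b 138)) (.cons 20 (.ofNat (Nat.shiftLeft 0x616222d 136)) (.cons 21 (.negSucc (Nat.sub (Nat.shiftLeft 0x38973f 136) 1)) (.cons 22 (.negSucc (Nat.sub (Nat.shiftLeft 0xb5173 136) 1)) .nil))),
    .cons 19 (.ofNat (Nat.shiftLeft 0x68c769bfd71cbbd 110)) (.cons 20 (.negSucc (Nat.sub (Nat.shiftLeft 0x36bc62388874545 108) 1)) (.cons 21 (.ofNat (Nat.shiftLeft 0x8e4752b460a6c7 108)) (.cons 22 (.ofNat (Nat.shiftLeft 0x1a7b4f6f0e0215b 108)) .nil))),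
    .cons 19 (.negSucc (Nat.sub (Nat.shiftLeft 0xb14f21a001a5f2f71c09 91) 1)) (.cons 20 (.ofNat (Nat.shiftLeft 0x71b584b6715fbe539171 89)) (.cons 21 (.ofNat (Nat.shiftLeft 0x41af96b9d9a700869295 89)) (.cons 22 (.ofNat (Nat.shiftLeft 0x5d93d520c6e334e1d51 89)) .nil))),
    .cons 19 (.ofNat (Nat.shiftLeft 0x775743f7af7e44a488831f57 75)) (.cons 20 (.negSucc (Nat.sub (Nat.shiftLeft 0xd1a3f8c238565f538fa770ef 73) 1)) (.cons 21 (.negSucc (Nat.sub (Nat.shiftLeft 0x2e3d704fbac4cc91174bbd4b 73) 1)) (.cons 22 (.ofNat (Nat.shiftLeft 0x3d7325e11e6b94c961bda6f1 73)) .nil))),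
    .cons 19 (.ofNat (Nat.shiftLeft 0x6ea11f8b3eb94ec9e926df53de2f3 55)) (.cons 20 (.ofNat (Nat.shiftLeft 0x450b2abfde8e5f28a087b90fc8b15 53)) (.cons 21 (.negSucc (Nat.sub (Nat.shiftLeft 0x48a3da198ee1a18736e9927fa4bb7 53) 1)) (.cons 22 (.ofNat (Nat.shiftLeft 0x18eb3f960800040eefe615e678a75 53)) .nil))),
    .cons 19 (.ofNat (Nat.shiftLeft 0x1c4c072dd658771a6aa2477c9c1f5fb51 39)) (.cons 20 (.negSucc (Nat.sub (Nat.shiftLeft 0x9707611b3b7eefed4e323693796b1f3f9 37) 1)) (.cons 21 (.ofNat (Nat.shiftLeft 0x158a5c3dbded55106505b7d2ddab405c3 37)) (.cons 22 (.ofNat (Nat.shiftLeft 0x5f530e76114b3c1b59b91b0ef92240127 37)) .nil))),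
    .cons 19 (.negSucc (Nat.sub (Nat.shiftLeft 0x2016aa75f3c7e8ac4d49736284b328df63 35) 1)) (.cons 20 (.negSucc (Nat.sub (Nat.shiftLeft 0x210a2798e5a82b2ab0c543a163970b75d25 33) 1)) (.cons 21 (.negSucc (Nat.sub (Nat.shiftLeft 0xb6fc7cac3da389072c0383fc9f7b98a499 33) 1)) (.cons 22 (.negSucc (Nat.sub (Nat.shiftLeft 0xb803424e0e070a305efaed56cb251ba85 33) 1)) .nil))),
    .cons 23 (.ofNat (Nat.shiftLeft 0x80df17 142)) .nil,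
    .cons 23 (.ofNat (Nat.shiftLeft 0x527bd205133 125)) .nil,
    .cons 23 (.ofNat (Nat.shiftLeft 0x2e6e1bc20cc443 113)) .nil,
    .cons 23 (.ofNat (Nat.shiftLeft 0x2258f7eed218b855ad 98)) .nil,
    .nil],
   [.cons 0 (.ofNat (Nat.shiftLeft 0x1c7 159)) .nil,
    .cons 1 (.ofNat (Nat.shiftLeft 0x1237665 145)) (.cons 2 (.ofNat (Nat.shiftLeft 0x27ad97 145)) (.cons 3 (.negSucc (Nat.sub (Nat.shiftLeft 0x646b7b 142) 1)) (.cons 4 (.ofNat (Nat.shiftLeft 0x75909 143)) .nil))),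
    .cons 1 (.negSucc (Nat.sub (Nat.shiftLeft 0x4cac6a67eb8d 124) 1)) (.cons 2 (.negSucc (Nat.sub (Nat.shiftLeft 0x23fad421f04f 124) 1)) (.cons 3 (.ofNat (Nat.shiftLeft 0xcfedf3fc553 121)) (.cons 4 (.negSucc (Nat.sub (Nat.shiftLeft 0x209141818b51 122) 1)) .nil))),
    .cons 1 (.negSucc (Nat.sub (Nat.shiftLeft 0x191b7332fe2ee21d7 105) 1)) (.cons 2 (.ofNat (Nat.shiftLeft 0xa4bb9f426e9b2c03 105)) (.cons 3 (.negSucc (Nat.sub (Nat.shiftLeft 0x209134af1d5691d37 102) 1)) (.cons 4 (.negSucc (Nat.sub (Nat.shiftLeft 0xd3e1cbd196a0e4e3 103) 1)) .nil))),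
    .cons 1 (.ofNat (Nat.shiftLeft 0x4949396f28f48e32207 96)) (.cons 2 (.ofNat (Nat.shiftLeft 0x1820d77f20fd7a3020d 96)) (.cons 3 (.ofNat (Nat.shiftLeft 0x396c7db9c554407cb67 93)) (.cons 4 (.negSucc (Nat.sub (Nat.shiftLeft 0x14555a812d85ebbe32d 94) 1)) .nil))),
    .cons 5 (.ofNat (Nat.shiftLeft 0x89f3bd4d 139)) (.cons 6 (.negSucc (Nat.sub (Nat.shiftLeft 0x57fece3 141) 1)) (.cons 7 (.negSucc (Nat.sub (Nat.shiftLeft 0x9d493b 139) 1)) (.cons 8 (.negSucc (Nat.sub (Nat.shiftLeft 0x8d0815 139) 1)) (.cons 9 (.negSucc (Nat.sub (Nat.shiftLeft 0x16f29 140) 1)) (.cons 10 (.negSucc (Nat.sub (Nat.shiftLeft 0x7a63 140) 1)) (.cons 11 (.negSucc (Nat.sub (Nat.shiftLeft 0x7a63 141) 1)) .nil)))))),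
    .cons 5 (.ofNat (Nat.shiftLeft 0x62590b9f9f3e8665 108)) (.cons 6 (.ofNat (Nat.shiftLeft 0x2c9824ed274e5b5 110)) (.cons 7 (.ofNat (Nat.shiftLeft 0x10677076f84de81d 108)) (.cons 8 (.negSucc (Nat.sub (Nat.shiftLeft 0x1666bd8954ba6ed 108) 1)) (.cons 9 (.negSucc (Nat.sub (Nat.shiftLeft 0x8adbc264727361 109) 1)) (.cons 10 (.ofNat (Nat.shiftLeft 0x92f549de848435 109)) (.cons 11 (.ofNat (Nat.shiftLeft 0xa594ade848435 110)) .nil)))))),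
    .cons 5 (.negSucc (Nat.sub (Nat.shiftLeft 0x728daa3aeef9d77f1528d 85) 1)) (.cons 6 (.negSucc (Nat.sub (Nat.shiftLeft 0x8e823437887310fc13c5d 87) 1)) (.cons 7 (.ofNat (Nat.shiftLeft 0x371517d73eb5be334a5fb 85)) (.cons 8 (.ofNat (Nat.shiftLeft 0x54a084f548e88086b1f55 85)) (.cons 9 (.negSucc (Nat.sub (Nat.shiftLeft 0x16e4710bc459c5da2ec97 86) 1)) (.cons 10 (.negSucc (Nat.sub (Nat.shiftLeft 0xbbb7da7eaa141f364edd 86) 1)) (.cons 11 (.negSucc (Nat.sub (Nat.shiftLeft 0x40d3c90f531d1f364edd 87) 1)) .nil)))))),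
    .cons 5 (.negSucc (Nat.sub (Nat.shiftLeft 0xa079fb365e36f0e6e175f461d7 66) 1)) (.cons 6 (.ofNat (Nat.shiftLeft 0x1ed9d1968563316141be624db9 68)) (.cons 7 (.ofNat (Nat.shiftLeft 0xa18d3c09de742263ddebfa7741 66)) (.cons 8 (.negSucc (Nat.sub (Nat.shiftLeft 0x2b81699f393a595131608acc51 66) 1)) (.cons 9 (.negSucc (Nat.sub (Nat.shiftLeft 0x4f46c0a4f19412f6db57bc555 67) 1)) (.cons 10 (.ofNat (Nat.shiftLeft 0x104b98f066b19a9ae618d6be39 67)) (.cons 11 (.negSucc (Nat.sub (Nat.shiftLeft 0x7029b017fe23966a4e72941c7 68) 1)) .nil)))))),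
    .cons 5 (.ofNat (Nat.shiftLeft 0xf84488e8d5defe17140aa0079618d 50)) (.cons 6 (.ofNat (Nat.shiftLeft 0xb5ce4cb5926caa5f14b9013153b5d 52)) (.cons 7 (.ofNat (Nat.shiftLeft 0x153370416d2b48f80d3647266459105 50)) (.cons 8 (.negSucc (Nat.sub (Nat.shiftLeft 0x2f8c351aa376f62da216f9151fc655 50) 1)) (.cons 9 (.negSucc (Nat.sub (Nat.shiftLeft 0x838acf751592ced3921a956fe9669 51) 1)) (.cons 10 (.negSucc (Nat.sub (Nat.shiftLeft 0x253520fedd1c354ae2dadc7aa3223 51) 1)) (.cons 11 (.negSucc (Nat.sub (Nat.shiftLeft 0x69c0bb824b3ab8a8e21a4c7aa3223 52) 1)) .nil)))))),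
    .cons 5 (.ofNat (Nat.shiftLeft 0x567e7bd29eedb8268bcdb5d04740d076c5 30)) (.cons 6 (.negSucc (Nat.sub (Nat.shiftLeft 0x5c981a64124e8e9678a72e5186230e843eb 32) 1)) (.cons 7 (.ofNat (Nat.shiftLeft 0x75e60a21eecaf825fb15e9f1df3e81b997d 30)) (.cons 8 (.ofNat (Nat.shiftLeft 0x70af3e66d5491bf29bec8ff57aec91e31b3 30)) (.cons 9 (.negSucc (Nat.sub (Nat.shiftLeft 0x7e37e8d5b7bbfd1fa47d73cfd25f25e041 31) 1)) (.cons 10 (.ofNat (Nat.shiftLeft 0x338a67436a07485d50db8d07ef359e0a95 31)) (.cons 11 (.negSucc (Nat.sub (Nat.shiftLeft 0x2bae2cbb2071689a7a258a9b2fca61f56b 32) 1)) .nil)))))),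
    .cons 5 (.ofNat (Nat.shiftLeft 0x1e93004bb63a8705a004a757a77c6478478d7 21)) (.cons 6 (.ofNat (Nat.shiftLeft 0x20e48974c88ec94199222049e6827f6a23947 23)) (.cons 7 (.ofNat (Nat.shiftLeft 0x12e4b140018ca6adca883078ac3576096287bf 21)) (.cons 8 (.ofNat (Nat.shiftLeft 0x195d30533949cc51d35718cd7358e041fedd51 21)) (.cons 9 (.negSucc (Nat.sub (Nat.shiftLeft 0x364f1415bbfddba64a896fe50e3b86e6825ab 22) 1)) (.cons 10 (.negSucc (Nat.sub (Nat.shiftLeft 0x2057b1b75efeb9aea0b331ef3569d7a22b739 22) 1)) (.cons 11 (.negSucc (Nat.sub (Nat.shiftLeft 0x1852bc1cb3c9872c221bc84ac8a127a22b739 23) 1)) .nil)))))),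
    .cons 12 (.ofNat (Nat.shiftLeft 0x1357ee659 138)) (.cons 13 (.negSucc (Nat.sub (Nat.shiftLeft 0x31004b8d 138) 1)) (.cons 14 (.ofNat (Nat.shiftLeft 0x6a57f33 136)) (.cons 15 (.negSucc (Nat.sub (Nat.shiftLeft 0x4f76821 136) 1)) (.cons 16 (.negSucc (Nat.sub (Nat.shiftLeft 0x297ffb 136) 1)) (.cons 17 (.ofNat (Nat.shiftLeft 0x3c5d1 137)) (.cons 18 (.ofNat (Nat.shiftLeft 0x12dd15 136)) .nil)))))),
    .cons 12 (.ofNat (Nat.shiftLeft 0x1763d4c73f2539ef 110)) (.cons 13 (.ofNat (Nat.shiftLeft 0x2bb9e40da5b13a5 110)) (.cons 14 (.negSucc (Nat.sub (Nat.shiftLeft 0xfc70bbb739e411b 108) 1)) (.cons 15 (.negSucc (Nat.sub (Nat.shiftLeft 0x1e69a6c4da6b267 108) 1)) (.cons 16 (.negSucc (Nat.sub (Nat.shiftLeft 0x50fee8cca305d 108) 1)) (.cons 17 (.ofNat (Nat.shiftLeft 0xbd1ee1afb54a37 109)) (.cons 18 (.negSucc (Nat.sub (Nat.shiftLeft 0x2d773391758ced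 108) 1)) .nil)))))),
    .cons 12 (.ofNat (Nat.shiftLeft 0x17176b5dc711b99f020d 91)) (.cons 13 (.ofNat (Nat.shiftLeft 0x8e0541516231748641af 91)) (.cons 14 (.ofNat (Nat.shiftLeft 0x3bb3d701e27689cb736f 89)) (.cons 15 (.negSucc (Nat.sub (Nat.shiftLeft 0x5516bb9fb7522763cd75 89) 1)) (.cons 16 (.ofNat (Nat.shiftLeft 0x376b57ceea8166c91629 89)) (.cons 17 (.negSucc (Nat.sub (Nat.shiftLeft 0x4f17682aa33666f5f1b 90) 1)) (.cons 18 (.negSucc (Nat.sub (Nat.shiftLeft 0xb1daa5760d5002cdb87 89) 1)) .nil)))))),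
    .cons 12 (.negSucc (Nat.sub (Nat.shiftLeft 0x4acdfccee8c6b41fba615ad3 75) 1)) (.cons 13 (.ofNat (Nat.shiftLeft 0x2d8030362b63b1ca296b180f 75)) (.cons 14 (.negSucc (Nat.sub (Nat.shiftLeft 0x132b185824f8a216a65b45e31 73) 1)) (.cons 15 (.negSucc (Nat.sub (Nat.shiftLeft 0x551741393cc340fa1c726995 73) 1)) (.cons 16 (.ofNat (Nat.shiftLeft 0xfbd3e6e0877c57a66620ec9 73)) (.cons 17 (.ofNat (Nat.shiftLeft 0x20371ffcc56d4dd8df6b7305 74)) (.cons 18 (.ofNat (Nat.shiftLeft 0x39e25746ec6f06e85d193f19 73)) .nil)))))),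
    .cons 12 (.negSucc (Nat.sub (Nat.shiftLeft 0x5592d175a11f718ca631d3ff1d5f 55) 1)) (.cons 13 (.ofNat (Nat.shiftLeft 0x7f5f89e3c29b0a82b32290cf0708b 55)) (.cons 14 (.ofNat (Nat.shiftLeft 0x24b9259a93a20d76acff0a3a87b14b 53)) (.cons 15 (.negSucc (Nat.sub (Nat.shiftLeft 0x4c9dd6aaac4059d501ffe3de63ea9 53) 1)) (.cons 16 (.ofNat (Nat.shiftLeft 0x2a3450eab52d14813925d04d0fbad 53)) (.cons 17 (.negSucc (Nat.sub (Nat.shiftLeft 0xe5a59da7b6123f48ee9474cd2e27 54) 1)) (.cons 18 (.negSucc (Nat.sub (Nat.shiftLeft 0x2ef725f6a2bdc3f80db8a4801e6c3 53) 1)) .nil)))))),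
    .cons 12 (.ofNat (Nat.shiftLeft 0x39501df6714212f2c0f39b0ac6c9d28b 39)) (.cons 13 (.ofNat (Nat.shiftLeft 0x8ea39ea20d355bea1345ba4bdb48ba7d9 39)) (.cons 14 (.negSucc (Nat.sub (Nat.shiftLeft 0x16d60c4ab7c58c015cce77229cd1cf57e7 37) 1)) (.cons 15 (.negSucc (Nat.sub (Nat.shiftLeft 0xf9b354bca3179ac8df871c072df88d3e3 37) 1)) (.cons 16 (.negSucc (Nat.sub (Nat.shiftLeft 0xc8699361153f39b59840ee3ee826a671 37) 1)) (.cons 17 (.negSucc (Nat.sub (Nat.shiftLeft 0x6e1dac9c8afe51fbd5cd532130b6ab0d 38) 1)) (.cons 18 (.ofNat (Nat.shiftLeft 0x21483e1315c10bb4038d3a8ce0c6ea8bf 37)) .nil)))))),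
    .cons 12 (.ofNat (Nat.shiftLeft 0x63b88623d407a408b32819f897b8a0d8f 35)) (.cons 13 (.ofNat (Nat.shiftLeft 0x20bb385a5f669158bea8be93b6a57ecf85 35)) (.cons 14 (.negSucc (Nat.sub (Nat.shiftLeft 0x169efd3cb1a8974949ca403f18df356cd3b 33) 1)) (.cons 15 (.ofNat (Nat.shiftLeft 0x1971afa9c8568218f76aa6a46306b787cf9 33)) (.cons 16 (.negSucc (Nat.sub (Nat.shiftLeft 0x9b9f3bfece45807e541f49fdb13881013d 33) 1)) (.cons 17 (.ofNat (Nat.shiftLeft 0xfaaa641ad53a994ab6cc9632d90c5e8d7 34)) (.cons 18 (.ofNat (Nat.shiftLeft 0x61b69dc756e7c6c2ac49419bc7d3dd8c33 33)) .nil)))))),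
    .cons 19 (.ofNat (Nat.shiftLeft 0x4433e03 143)) (.cons 20 (.negSucc (Nat.sub (Nat.shiftLeft 0x1238da3 142) 1)) (.cons 21 (.ofNat (Nat.shiftLeft 0x46121f 142)) (.cons 22 (.negSucc (Nat.sub (Nat.shiftLeft 0x422697 142) 1)) .nil))),
    .cons 19 (.ofNat (Nat.shiftLeft 0x12552211a6cf 126)) (.cons 20 (.negSucc (Nat.sub (Nat.shiftLeft 0x109ff1491cef 125) 1)) (.cons 21 (.negSucc (Nat.sub (Nat.shiftLeft 0x23f66ee6da5 125) 1)) (.cons 22 (.negSucc (Nat.sub (Nat.shiftLeft 0x3390d1096b3 125) 1)) .nil))),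
    .cons 19 (.ofNat (Nat.shiftLeft 0x1684e42fbf1751f 114)) (.cons 20 (.negSucc (Nat.sub (Nat.shiftLeft 0x1c6616cfa6213f 113) 1)) (.cons 21 (.negSucc (Nat.sub (Nat.shiftLeft 0x5289d056622f15 113) 1)) (.cons 22 (.ofNat (Nat.shiftLeft 0x28b64e48032e3d 113)) .nil))),
    .cons 19 (.ofNat (Nat.shiftLeft 0x29f90fdf836969ad91 99)) (.cons 20 (.negSucc (Nat.sub (Nat.shiftLeft 0x860369da73f189ab71 98) 1)) (.cons 21 (.ofNat (Nat.shiftLeft 0x1a9fa37f0b30605585 98)) (.cons 22 (.ofNat (Nat.shiftLeft 0x1b300f2d4fef1cffd3 98)) .nil))),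
    .cons 23 (.ofNat (Nat.shiftLeft 0x1db 159)) .nil],
   [.nil,
    .cons 0 (.ofNat (Nat.shiftLeft 0x80d4d1 142)) .nil,
    .cons 0 (.negSucc (Nat.sub (Nat.shiftLeft 0x55faefbd3559 121) 1)) .nil,
    .cons 0 (.ofNat (Nat.shiftLeft 0x71303041eefafd85 102)) .nil,
    .cons 0 (.ofNat (Nat.shiftLeft 0x425abe45dc731ee81eb 93)) .nil,
    .cons 1 (.ofNat (Nat.shiftLeft 0x71ee48f 141)) (.cons 2 (.negSucc (Nat.sub (Nat.shiftLeft 0xc0a9d9 139) 1)) (.cons 3 (.ofNat (Nat.shiftLeft 0x358b5 139)) (.cons 4 (.ofNat (Nat.shiftLeft 0x44d7b 139)) .nil))),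
    .cons 1 (.ofNat (Nat.shiftLeft 0x80a8105b43ad697 110)) (.cons 2 (.ofNat (Nat.shiftLeft 0x451e9e14a9c1f6f 108)) (.cons 3 (.ofNat (Nat.shiftLeft 0xbf7956ea60628d 108)) (.cons 4 (.negSucc (Nat.sub (Nat.shiftLeft 0x1594dacd2a8a5dd 108) 1)) .nil))),
    .cons 1 (.ofNat (Nat.shiftLeft 0xaf98f0bb79c47e3e4a1b1 87)) (.cons 2 (.ofNat (Nat.shiftLeft 0x7221f8d2e4efadd81da19 85)) (.cons 3 (.ofNat (Nat.shiftLeft 0x2a34ad7c5b950da7c280b 85)) (.cons 4 (.ofNat (Nat.shiftLeft 0x2bd651d88fd6918e8c5c5 85)) .nil))),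
    .cons 1 (.ofNat (Nat.shiftLeft 0x3d376eef25f5975a590980b903 68)) (.cons 2 (.ofNat (Nat.shiftLeft 0x79f9970d656c398bb11a0d73bb 66)) (.cons 3 (.ofNat (Nat.shiftLeft 0x24e779891ca6298bc15220cc71 66)) (.cons 4 (.negSucc (Nat.sub (Nat.shiftLeft 0x6a8f668eb5212c93adf8cb001 66) 1)) .nil))),
    .cons 1 (.negSucc (Nat.sub (Nat.shiftLeft 0x1d3e2f703898d7bc62523416033cb1 52) 1)) (.cons 2 (.ofNat (Nat.shiftLeft 0x5d2cff88efc0a0a7ced2c6af1312e7 50)) (.cons 3 (.negSucc (Nat.sub (Nat.shiftLeft 0x917ee3e1be990800a3f038a58a10b 50) 1)) (.cons 4 (.negSucc (Nat.sub (Nat.shiftLeft 0x1c8ce90db388111a032397fb043cc5 50) 1)) .nil))),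
    .cons 1 (.negSucc (Nat.sub (Nat.shiftLeft 0x2d266c9f6b096f6123155c863449af39d49 32) 1)) (.cons 2 (.negSucc (Nat.sub (Nat.shiftLeft 0xf38abb37037d6352264f85b6d698355771 30) 1)) (.cons 3 (.negSucc (Nat.sub (Nat.shiftLeft 0x24416372963ee6973f0c3b758ae77524a13 30) 1)) (.cons 4 (.ofNat (Nat.shiftLeft 0x14202d653521b863e83117659031d71a0c3 30)) .nil))),
    .cons 1 (.negSucc (Nat.sub (Nat.shiftLeft 0x1f9dd4c1fd0c69521c8c72c6cb0fcd8ecfc03 23) 1)) (.cons 2 (.ofNat (Nat.shiftLeft 0x206885610333e681f93d392c217aa0bb599145 21)) (.cons 3 (.ofNat (Nat.shiftLeft 0x6b677fb36113d1766601f81ae8a4256f3028f 21)) (.cons 4 (.ofNat (Nat.shiftLeft 0x7a730c8343bb5df3f0b32272f86ad4b387101 21)) .nil))),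
    .cons 5 (.ofNat (Nat.shiftLeft 0x63bc154a1 136)) (.cons 6 (.ofNat (Nat.shiftLeft 0x90121d3 140)) (.cons 7 (.negSucc (Nat.sub (Nat.shiftLeft 0x840b93 140) 1)) (.cons 8 (.ofNat (Nat.shiftLeft 0x3c20b2f 136)) (.cons 9 (.ofNat (Nat.shiftLeft 0x12dd15 136)) (.cons 10 (.ofNat (Nat.shiftLeft 0xb5173 136)) (.cons 11 (.negSucc (Nat.sub (Nat.shiftLeft 0x12dd15 136) 1)) .nil)))))),
    .cons 5 (.negSucc (Nat.sub (Nat.shiftLeft 0x47f39a9d2c3d1619 108) 1)) (.cons 6 (.negSucc (Nat.sub (Nat.shiftLeft 0x231260da24fdebb 112) 1)) (.cons 7 (.negSucc (Nat.sub (Nat.shiftLeft 0xb37b0a05c92585 112) 1)) (.cons 8 (.ofNat (Nat.shiftLeft 0x496fdaa0594ecc9 108)) (.cons 9 (.ofNat (Nat.shiftLeft 0x1b13546e8a7313 108)) (.cons 10 (.ofNat (Nat.shiftLeft 0x12faa410f1fdea5 108)) (.cons 11 (.negSucc (Nat.sub (Nat.shiftLeft 0xb64146e8a7313 108) 1)) .nil)))))),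
    .cons 5 (.ofNat (Nat.shiftLeft 0x895b9844f34b8d9293f5 89)) (.cons 6 (.negSucc (Nat.sub (Nat.shiftLeft 0x189a4f28dbc97bcffd71 93) 1)) (.cons 7 (.negSucc (Nat.sub (Nat.shiftLeft 0x3eef964c5c5fec5ff4f 93) 1)) (.cons 8 (.ofNat (Nat.shiftLeft 0x395c8f96b060f710441b 89)) (.cons 9 (.negSucc (Nat.sub (Nat.shiftLeft 0x204fb0aee33d002cdb87 89) 1)) (.cons 10 (.negSucc (Nat.sub (Nat.shiftLeft 0x14905f813cc6334e1d51 89) 1)) (.cons 11 (.ofNat (Nat.shiftLeft 0x13d9da8e20fd002cdb87 89)) .nil)))))),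
    .cons 5 (.ofNat (Nat.shiftLeft 0xee3248282998b3226f4ac015 73)) (.cons 6 (.negSucc (Nat.sub (Nat.shiftLeft 0x25a2d26cec878bfec28c7b11 77) 1)) (.cons 7 (.negSucc (Nat.sub (Nat.shiftLeft 0xda6fb834e560a938bb0b9af 77) 1)) (.cons 8 (.ofNat (Nat.shiftLeft 0x101dbc39d0a55cd1a8c0791fb 73)) (.cons 9 (.negSucc (Nat.sub (Nat.shiftLeft 0x3dfbdac391aad47fa2e6c0e7 73) 1)) (.cons 10 (.ofNat (Nat.shiftLeft 0xd9a929538149bde9e42590f 73)) (.cons 11 (.ofNat (Nat.shiftLeft 0x274678e6edc0ea3fa2e6c0e7 73)) .nil)))))),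
    .cons 5 (.ofNat (Nat.shiftLeft 0x102612e9faf82103fa1f735844f29 53)) (.cons 6 (.negSucc (Nat.sub (Nat.shiftLeft 0x1f844d7b626e635a705ec5b52715 57) 1)) (.cons 7 (.ofNat (Nat.shiftLeft 0x19acd88d770375f9827eaf80d4f55 57)) (.cons 8 (.negSucc (Nat.sub (Nat.shiftLeft 0xdc09077c2b7ffed7a907c5860f8d9 53) 1)) (.cons 9 (.negSucc (Nat.sub (Nat.shiftLeft 0x28478ce631509455aea924801e6c3 53) 1)) (.cons 10 (.negSucc (Nat.sub (Nat.shiftLeft 0x4931eb7bfab8e2dc595195e678a75 53) 1)) (.cons 11 (.negSucc (Nat.sub (Nat.shiftLeft 0x1ad04842fead60d3518adb7fe193d 53) 1)) .nil)))))),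
    .cons 5 (.negSucc (Nat.sub (Nat.shiftLeft 0xd57921a735889534f841a23d57e9a69d 37) 1)) (.cons 6 (.ofNat (Nat.shiftLeft 0x265bc3705da54903c994317c4bc05bff9 41)) (.cons 7 (.negSucc (Nat.sub (Nat.shiftLeft 0x12f1bca575c96d78f9ceee64157069d39 41) 1)) (.cons 8 (.negSucc (Nat.sub (Nat.shiftLeft 0x32c294d837c26f5282833e04385f461f3 37) 1)) (.cons 9 (.ofNat (Nat.shiftLeft 0x50b410999bd9389244e7e16760c6ea8bf 37)) (.cons 10 (.negSucc (Nat.sub (Nat.shiftLeft 0x2bee6a8f75621406caf4c95d792240127 37) 1)) (.cons 11 (.ofNat (Nat.shiftLeft 0x18cd75390f1c1fa710e687dc9f3915741 37)) .nil)))))),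
    .cons 5 (.ofNat (Nat.shiftLeft 0x1cbdc39ce04cf90aeaffda633938458a87 33)) (.cons 6 (.negSucc (Nat.sub (Nat.shiftLeft 0x36e2f025629713001eb66607377a546db 37) 1)) (.cons 7 (.ofNat (Nat.shiftLeft 0x1f6ae6befa4a16e1556ec5c2f634f12a9b 37)) (.cons 8 (.negSucc (Nat.sub (Nat.shiftLeft 0x126cb24fa5b9178ab2f217bc040cadd11d7 33) 1)) (.cons 9 (.ofNat (Nat.shiftLeft 0x4ef8ea9785f1eedc14b461494fd3dd8c33 33)) (.cons 10 (.ofNat (Nat.shiftLeft 0x34f9cb59f89f679e85270139a4b251ba85 33)) (.cons 11 (.negSucc (Nat.sub (Nat.shiftLeft 0x839441778559dacf0eb3b4620fd3dd8c33 33) 1)) .nil)))))),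
    .cons 12 (.ofNat (Nat.shiftLeft 0x1d778be1 142)) (.cons 13 (.negSucc (Nat.sub (Nat.shiftLeft 0x1e78e33 144) 1)) (.cons 14 (.negSucc (Nat.sub (Nat.shiftLeft 0x12f503b 144) 1)) (.cons 15 (.ofNat (Nat.shiftLeft 0xe1e47d 142)) (.cons 16 (.ofNat (Nat.shiftLeft 0x27b0c1 142)) (.cons 17 (.negSucc (Nat.sub (Nat.shiftLeft 0x141719 143) 1)) (.cons 18 (.negSucc (Nat.sub (Nat.shiftLeft 0x85481 142) 1)) .nil)))))),
    .cons 12 (.negSucc (Nat.sub (Nat.shiftLeft 0x18029195fc5b 125) 1)) (.cons 13 (.negSucc (Nat.sub (Nat.shiftLeft 0x8162e7a43bf 127) 1)) (.cons 14 (.negSucc (Nat.sub (Nat.shiftLeft 0x612754c0fe7 127) 1)) (.cons 15 (.ofNat (Nat.shiftLeft 0xdcba738a5b1 125)) (.cons 16 (.negSucc (Nat.sub (Nat.shiftLeft 0x3458cf60bfb 125) 1)) (.cons 17 (.negSucc (Nat.sub (Nat.shiftLeft 0x64510509bd 126) 1)) (.cons 18 (.ofNat (Nat.shiftLeft 0x459bcfde93b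 125)) .nil)))))),
    .cons 12 (.negSucc (Nat.sub (Nat.shiftLeft 0x1bfc0689eb1aeb 113) 1)) (.cons 13 (.ofNat (Nat.shiftLeft 0x4ad115a9e808f1 115)) (.cons 14 (.ofNat (Nat.shiftLeft 0x9503697b76e149 115)) (.cons 15 (.negSucc (Nat.sub (Nat.shiftLeft 0xfe648750a2909f 113) 1)) (.cons 16 (.negSucc (Nat.sub (Nat.shiftLeft 0x1c10f04001e88b 113) 1)) (.cons 17 (.ofNat (Nat.shiftLeft 0x1ed79c7e26e453 114)) (.cons 18 (.negSucc (Nat.sub (Nat.shiftLeft 0x3623e962f61e35 113) 1)) .nil)))))),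
    .cons 12 (.ofNat (Nat.shiftLeft 0x10c0ec5af6cd9fd47b 98)) (.cons 13 (.ofNat (Nat.shiftLeft 0x5c04691bdcacfba95f 100)) (.cons 14 (.negSucc (Nat.sub (Nat.shiftLeft 0x4cfad53f757001ab79 100) 1)) (.cons 15 (.negSucc (Nat.sub (Nat.shiftLeft 0x26219681961ce9aa11 98) 1)) (.cons 16 (.ofNat (Nat.shiftLeft 0x1b6a832ae60555001b 98)) (.cons 17 (.ofNat (Nat.shiftLeft 0xe484b8d3ef21daa9d 99)) (.cons 18 (.ofNat (Nat.shiftLeft 0x1e4ea5628d2695aaa5 98)) .nil)))))),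
    .cons 19 (.ofNat (Nat.shiftLeft 0xf0b 159)) (.cons 20 (.negSucc (Nat.sub (Nat.shiftLeft 0x281 160) 1)) (.cons 21 (.negSucc (Nat.sub (Nat.shiftLeft 0x5 159) 1)) (.cons 22 (.negSucc (Nat.sub (Nat.shiftLeft 0x117 159) 1)) .nil)))]⟩

noncomputable def A13 : Tn :=
  ⟨[.cons 1 (.ofNat (Nat.shiftLeft 0x789 160)) (.cons 2 (.negSucc (Nat.sub (Nat.shiftLeft 0x4ef 159) 1)) (.cons 3 (.ofNat (Nat.shiftLeft 0x33 159)) (.cons 4 (.ofNat (Nat.shiftLeft 0x10f 159)) .nil))),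
    .cons 5 (.ofNat (Nat.shiftLeft 0x1d7b7779 142)) (.cons 6 (.ofNat (Nat.shiftLeft 0x3c2fb11 143)) (.cons 7 (.ofNat (Nat.shiftLeft 0x2612717 143)) (.cons 8 (.ofNat (Nat.shiftLeft 0x3a5163 144)) (.cons 9 (.negSucc (Nat.sub (Nat.shiftLeft 0x854c5 144) 1)) (.cons 10 (.negSucc (Nat.sub (Nat.shiftLeft 0x2d9381 142) 1)) (.cons 11 (.negSucc (Nat.sub (Nat.shiftLeft 0x27349 144) 1)) .nil)))))),
    .cons 5 (.negSucc (Nat.sub (Nat.shiftLeft 0x17fa766afb3f7 121) 1)) (.cons 6 (.ofNat (Nat.shiftLeft 0x10235ee620121 122)) (.cons 7 (.ofNat (Nat.shiftLeft 0xc05a07ef0b87 122)) (.cons 8 (.ofNat (Nat.shiftLeft 0x373b2f8e5693 123)) (.cons 9 (.ofNat (Nat.shiftLeft 0xc2a64a285eb 123)) (.cons 10 (.negSucc (Nat.sub (Nat.shiftLeft 0x703b9f05091 121) 1)) (.cons 11 (.ofNat (Nat.shiftLeft 0x11aa3a4deb27 123)) .nil)))))),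
    .cons 5 (.ofNat (Nat.shiftLeft 0x6ff3f729b3d0a54d 103)) (.cons 6 (.ofNat (Nat.shiftLeft 0x2221a4baf112191c5 104)) (.cons 7 (.ofNat (Nat.shiftLeft 0x4d72b526109098283 104)) (.cons 8 (.ofNat (Nat.shiftLeft 0x101c072caeaa43b3f 105)) (.cons 9 (.negSucc (Nat.sub (Nat.shiftLeft 0x184f86b151852d09 105) 1)) (.cons 10 (.negSucc (Nat.sub (Nat.shiftLeft 0x101d176faa7d88cf5 103) 1)) (.cons 11 (.ofNat (Nat.shiftLeft 0x34c4e6abc2d8d4a3 105)) .nil)))))),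
    .cons 5 (.ofNat (Nat.shiftLeft 0x7488dd5481355f42d7 95)) (.cons 6 (.negSucc (Nat.sub (Nat.shiftLeft 0x5d571d4ad4c182b9541 96) 1)) (.cons 7 (.ofNat (Nat.shiftLeft 0x4a4658222670df77399 96)) (.cons 8 (.negSucc (Nat.sub (Nat.shiftLeft 0x5572520356af6a78f3 97) 1)) (.cons 9 (.negSucc (Nat.sub (Nat.shiftLeft 0x43adce4d819b83134b 97) 1)) (.cons 10 (.ofNat (Nat.shiftLeft 0xceb5a9aedee814d2b1 95)) (.cons 11 (.ofNat (Nat.shiftLeft 0x34e7f0aa5e2e069ff9 97)) .nil)))))),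
    .cons 12 (.ofNat (Nat.shiftLeft 0x6451336a9 136)) (.cons 13 (.negSucc (Nat.sub (Nat.shiftLeft 0x8f00291f 136) 1)) (.cons 14 (.ofNat (Nat.shiftLeft 0x828fb15 136)) (.cons 15 (.ofNat (Nat.shiftLeft 0x3c70d 144)) (.cons 16 (.ofNat (Nat.shiftLeft 0x12e341 136)) (.cons 17 (.negSucc (Nat.sub (Nat.shiftLeft 0x3c70d 138) 1)) (.cons 18 (.ofNat (Nat.shiftLeft 0x12e341 136)) .nil)))))),
    .cons 12 (.ofNat (Nat.shiftLeft 0x239e95f906dee331 109)) (.cons 13 (.negSucc (Nat.sub (Nat.shiftLeft 0x1175b745b19e54d7 109) 1)) (.cons 14 (.negSucc (Nat.sub (Nat.shiftLeft 0x5adcc1cadb1fe03 109) 1)) (.cons 15 (.negSucc (Nat.sub (Nat.shiftLeft 0x25259fb29fc4b 117) 1)) (.cons 16 (.negSucc (Nat.sub (Nat.shiftLeft 0xb93ea87d1ed77 109) 1)) (.cons 17 (.ofNat (Nat.shiftLeft 0x272b721b29fc4b 111)) (.cons 18 (.negSucc (Nat.sub (Nat.shiftLeft 0x99e1287d1ed77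 109) 1)) .nil)))))),
    .cons 12 (.negSucc (Nat.sub (Nat.shiftLeft 0x22b8f34879bfb034d6aa3 87) 1)) (.cons 13 (.negSucc (Nat.sub (Nat.shiftLeft 0x6360e877b77c57412d20b 87) 1)) (.cons 14 (.negSucc (Nat.sub (Nat.shiftLeft 0x1062374be1091c3325bc7 87) 1)) (.cons 15 (.negSucc (Nat.sub (Nat.shiftLeft 0xee4e0868d6804b8c6f 95) 1)) (.cons 16 (.ofNat (Nat.shiftLeft 0x7d77599003935e8641d5 87)) (.cons 17 (.negSucc (Nat.sub (Nat.shiftLeft 0x14180a9f81b3dfb47391 89) 1)) (.cons 18 (.ofNat (Nat.shiftLeft 0x56b4f013f48b5e8641d5 87)) .nil)))))),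
    .cons 12 (.ofNat (Nat.shiftLeft 0x1d69ab0bab5b0764dfcea70289 68)) (.cons 13 (.ofNat (Nat.shiftLeft 0x4a714b6b30354c26ee24b413c1 68)) (.cons 14 (.ofNat (Nat.shiftLeft 0x1b55665556822ac51b48f44575 68)) (.cons 15 (.ofNat (Nat.shiftLeft 0x2088c7878d8a0e02db27ca6d 76)) (.cons 16 (.negSucc (Nat.sub (Nat.shiftLeft 0x784cc750b19ee252158390bdf 68) 1)) (.cons 17 (.negSucc (Nat.sub (Nat.shiftLeft 0x6bd566dbf661becfbb27ca6d 70) 1)) (.cons 18 (.negSucc (Nat.sub (Nat.shiftLeft 0x54c89f4267a08f10958390bdf 68) 1)) .nil)))))),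
    .cons 12 (.ofNat (Nat.shiftLeft 0x4b2a0453d62d5eb1b153bc8bfe55 55)) (.cons 13 (.ofNat (Nat.shiftLeft 0x17299775b62622282c06e7f6c032d 55)) (.cons 14 (.negSucc (Nat.sub (Nat.shiftLeft 0x7066892dd3c11491ac9f3129a8b2f 55) 1)) (.cons 15 (.negSucc (Nat.sub (Nat.shiftLeft 0x36ebff9033a697437b0c319bd97 63) 1)) (.cons 16 (.negSucc (Nat.sub (Nat.shiftLeft 0xad497fa7d55d207e4ffaef80b3f3 55) 1)) (.cons 17 (.ofNat (Nat.shiftLeft 0x4645ab8a4bfe498ae1b56319bd97 57)) (.cons 18 (.ofNat (Nat.shiftLeft 0x9124035dda1df9334e3d107f4c0d 55)) .nil)))))),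
    .cons 12 (.ofNat (Nat.shiftLeft 0x1666bcc9067aefc2bc6ed3693fa8070f8b 32)) (.cons 13 (.ofNat (Nat.shiftLeft 0x4c70873e99b66f0e5b69fcfa2fdc5606bb3 32)) (.cons 14 (.negSucc (Nat.sub (Nat.shiftLeft 0x20c89bf48a2ed12ec6fc8c5671f3442d071 32) 1)) (.cons 15 (.ofNat (Nat.shiftLeft 0x8f48052b69247a78fe325e1682298af7 40)) (.cons 16 (.negSucc (Nat.sub (Nat.shiftLeft 0xa4645cf6e1123f235c34e11b745530492d 32) 1)) (.cons 17 (.negSucc (Nat.sub (Nat.shiftLeft 0x189e0d3fde723d8dc3ed77149f22298af7 34) 1)) (.cons 18 (.ofNat (Nat.shiftLeft 0x2c63a6dcda022af6506be26b53aacfb6d3 32)) .nil)))))),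
    .cons 12 (.negSucc (Nat.sub (Nat.shiftLeft 0x758b1054f68cd7e1f54c366d170ca2f70253 23) 1)) (.cons 13 (.negSucc (Nat.sub (Nat.shiftLeft 0xd8a46807376537cabbaec59aede322e3b43b 23) 1)) (.cons 14 (.ofNat (Nat.shiftLeft 0x7d210a24f76c4f51ea83173ee609a83ab1849 23)) (.cons 15 (.ofNat (Nat.shiftLeft 0x4930063d017da9facb36944d1cbb5886921 31)) (.cons 16 (.negSucc (Nat.sub (Nat.shiftLeft 0x1363d5a5537a3524b643c9adb5f939455f25b 23) 1)) (.cons 17 (.ofNat (Nat.shiftLeft 0x3329168deb01f423fb9bc9dbaa53ea7796df 25)) (.cons 18 (.negSucc (Nat.sub (Nat.shiftLeft 0x23086f685a5910f2d84d2bfb9831b9455f25b 23) 1)) .nil)))))),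
    .cons 19 (.ofNat (Nat.shiftLeft 0x729debcf 137)) (.cons 20 (.negSucc (Nat.sub (Nat.shiftLeft 0x63961d1 136) 1)) (.cons 21 (.negSucc (Nat.sub (Nat.shiftLeft 0x3d231 139) 1)) (.cons 22 (.ofNat (Nat.shiftLeft 0x3d231 139)) .nil))),
    .cons 19 (.negSucc (Nat.sub (Nat.shiftLeft 0x7f1ef99f1693f95 110) 1)) (.cons 20 (.negSucc (Nat.sub (Nat.shiftLeft 0x22b6b3885d7c7b5 109) 1)) (.cons 21 (.ofNat (Nat.shiftLeft 0xa3f69594f4a6b 112)) (.cons 22 (.ofNat (Nat.shiftLeft 0x1749d526b0b595 112)) .nil))),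
    .cons 19 (.negSucc (Nat.sub (Nat.shiftLeft 0x57c81c7516c32cad2e141 88) 1)) (.cons 20 (.negSucc (Nat.sub (Nat.shiftLeft 0x1d8626676ae80b40b48e1 87) 1)) (.cons 21 (.ofNat (Nat.shiftLeft 0x17154689c9b51e4380bf 90)) (.cons 22 (.negSucc (Nat.sub (Nat.shiftLeft 0x14e30fc895709e4380bf 90) 1)) .nil))),
    .cons 19 (.ofNat (Nat.shiftLeft 0x79190e6f4d6958a28fb295d3f 71)) (.cons 20 (.ofNat (Nat.shiftLeft 0x7abf783399fc1ba9f3c09859f 70)) (.cons 21 (.negSucc (Nat.sub (Nat.shiftLeft 0x4a0ed183156ba223d26d40c1 73) 1)) (.cons 22 (.negSucc (Nat.sub (Nat.shiftLeft 0x1287b9827ff852d7ad92bf3f 73) 1)) .nil))),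
    .cons 19 (.ofNat (Nat.shiftLeft 0x22413ff8fb9741584491f1bcd9f77f 52)) (.cons 20 (.negSucc (Nat.sub (Nat.shiftLeft 0x2dadca8a98fdc980f324264887b821 51) 1)) (.cons 21 (.negSucc (Nat.sub (Nat.shiftLeft 0xcee59d97d81757f5213c15a92681 54) 1)) (.cons 22 (.ofNat (Nat.shiftLeft 0x19cc67fc89816f79c8e2095a92681 54)) .nil))),
    .cons 19 (.negSucc (Nat.sub (Nat.shiftLeft 0xa94ffecf64b5fc86f789ddcbd0f413b59 38) 1)) (.cons 20 (.negSucc (Nat.sub (Nat.shiftLeft 0x3993e29b973cb580d91d2804cdaccd9f9 37) 1)) (.cons 21 (.ofNat (Nat.shiftLeft 0x8bb17ca46ad9bc5563da9a3deee656a7 40)) (.cons 22 (.ofNat (Nat.shiftLeft 0x686b33b10e068d43356a8e729119a959 40)) .nil))),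
    .cons 19 (.negSucc (Nat.sub (Nat.shiftLeft 0x400e17e4642c5353fe5aff10ef656714b9b5 26) 1)) (.cons 20 (.ofNat (Nat.shiftLeft 0x2091d5b9f7d944229fa6c4d0f4a030b6e8a2b 25)) (.cons 21 (.negSucc (Nat.sub (Nat.shiftLeft 0xf12fe3c86e1b660003f9aa0dde48d2befb5 28) 1)) (.cons 22 (.ofNat (Nat.shiftLeft 0xee048e5a5c251f84e840cad20b30d2befb5 28)) .nil))),
    .cons 23 (.ofNat (Nat.shiftLeft 0x41def 147)) .nil,
    .cons 23 (.negSucc (Nat.sub (Nat.shiftLeft 0x569db57e35bb 121) 1)) .nil,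
    .cons 23 (.negSucc (Nat.sub (Nat.shiftLeft 0x44a9426528101989 102) 1)) .nil,
    .cons 23 (.negSucc (Nat.sub (Nat.shiftLeft 0x89e46ecdfc9d6ae561d 92) 1)) .nil,
    .nil],
   [.cons 0 (.negSucc (Nat.sub (Nat.shiftLeft 0x1d7 159) 1)) .nil,
    .cons 1 (.negSucc (Nat.sub (Nat.shiftLeft 0x88b2abb 142) 1)) (.cons 2 (.ofNat (Nat.shiftLeft 0x1229c05 142)) (.cons 3 (.ofNat (Nat.shiftLeft 0xe3641 144)) (.cons 4 (.negSucc (Nat.sub (Nat.shiftLeft 0x25bc31 143) 1)) .nil))),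
    .cons 1 (.negSucc (Nat.sub (Nat.shiftLeft 0x250060beb7d6b 121) 1)) (.cons 2 (.ofNat (Nat.shiftLeft 0x106dcf3807555 121)) (.cons 3 (.negSucc (Nat.sub (Nat.shiftLeft 0xaf466f720af 123) 1)) (.cons 4 (.negSucc (Nat.sub (Nat.shiftLeft 0x17e877b67441 122) 1)) .nil))),
    .cons 1 (.ofNat (Nat.shiftLeft 0xb1aa0e1ddb06d6789 103)) (.cons 2 (.negSucc (Nat.sub (Nat.shiftLeft 0x3504996574da82b7 103) 1)) (.cons 3 (.ofNat (Nat.shiftLeft 0x4cb125a22de32eb5 105)) (.cons 4 (.negSucc (Nat.sub (Nat.shiftLeft 0x6500465b275b3565 104) 1)) .nil))),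
    .cons 1 (.negSucc (Nat.sub (Nat.shiftLeft 0x311312413be954d0535 95) 1)) (.cons 2 (.ofNat (Nat.shiftLeft 0x428520492ff1d54b00b 95)) (.cons 3 (.ofNat (Nat.shiftLeft 0x37b379e9663d0cc68f 97)) (.cons 4 (.ofNat (Nat.shiftLeft 0x636c31232924cc6c61 96)) .nil))),
    .cons 5 (.negSucc (Nat.sub (Nat.shiftLeft 0x26528351d 137) 1)) (.cons 6 (.negSucc (Nat.sub (Nat.shiftLeft 0x186bd50b 139) 1)) (.cons 7 (.ofNat (Nat.shiftLeft 0x62eca47 136)) (.cons 8 (.ofNat (Nat.shiftLeft 0x27e6795 137)) (.cons 9 (.negSucc (Nat.sub (Nat.shiftLeft 0x3c70d 139) 1)) (.cons 10 (.negSucc (Nat.sub (Nat.shiftLeft 0x3c70d 137) 1)) (.cons 11 (.negSucc (Nat.sub (Nat.shiftLeft 0x12e341 136) 1)) .nil)))))),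
    .cons 5 (.ofNat (Nat.shiftLeft 0x1781ebcf29f049bb 110)) (.cons 6 (.negSucc (Nat.sub (Nat.shiftLeft 0xb38efe6391f723 112) 1)) (.cons 7 (.ofNat (Nat.shiftLeft 0x7ecb0658a48113f 109)) (.cons 8 (.negSucc (Nat.sub (Nat.shiftLeft 0x744bafeeb78d83 110) 1)) (.cons 9 (.negSucc (Nat.sub (Nat.shiftLeft 0x2fa31e4d603b5 112) 1)) (.cons 10 (.ofNat (Nat.shiftLeft 0x5f09fe1b29fc4b 110)) (.cons 11 (.negSucc (Nat.sub (Nat.shiftLeft 0x15bf6d782e1289 109) 1)) .nil)))))),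
    .cons 5 (.ofNat (Nat.shiftLeft 0xb2575a1f0bba06c5ad1f 88)) (.cons 6 (.negSucc (Nat.sub (Nat.shiftLeft 0x11cb3c6f6761737971e67 90) 1)) (.cons 7 (.negSucc (Nat.sub (Nat.shiftLeft 0xe085e29b0d90dba6d9ad 87) 1)) (.cons 8 (.negSucc (Nat.sub (Nat.shiftLeft 0xaae425e02a6d51dfb547 88) 1)) (.cons 9 (.negSucc (Nat.sub (Nat.shiftLeft 0x1a1752b43e87dfb47391 90) 1)) (.cons 10 (.negSucc (Nat.sub (Nat.shiftLeft 0x1fcac8ef2e17dfb47391 88) 1)) (.cons 11 (.negSucc (Nat.sub (Nat.shiftLeft 0x31f3d853040b5e8641d5 87) 1)) .nil)))))),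
    .cons 5 (.ofNat (Nat.shiftLeft 0x12eb26cddaf61b32ba9a4ff983 69)) (.cons 6 (.ofNat (Nat.shiftLeft 0x2d09764388121104111c25955 71)) (.cons 7 (.negSucc (Nat.sub (Nat.shiftLeft 0x26a2d785f8d6af7418addfaf99 68) 1)) (.cons 8 (.ofNat (Nat.shiftLeft 0x56777fd614b458c268d44a1f5 69)) (.cons 9 (.ofNat (Nat.shiftLeft 0x6d64c81987de612c44d83593 71)) (.cons 10 (.negSucc (Nat.sub (Nat.shiftLeft 0x3c8af67fe295d7223bb27ca6d 69) 1)) (.cons 11 (.negSucc (Nat.sub (Nat.shiftLeft 0x748c06123044a5076a7c6f421 68) 1)) .nil)))))),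
    .cons 5 (.ofNat (Nat.shiftLeft 0x2db76c4d084209dc4a2ea51e8ac7 56)) (.cons 6 (.ofNat (Nat.shiftLeft 0xe3e0b2c38a4040ea16c7ab68ab31 58)) (.cons 7 (.ofNat (Nat.shiftLeft 0x98cd120d8f0a2a7757fe6ccdeb1db 55)) (.cons 8 (.ofNat (Nat.shiftLeft 0x62b13a3799293a90d9f59401d751 56)) (.cons 9 (.ofNat (Nat.shiftLeft 0xfdcdf524a8c1d2018016319bd97 58)) (.cons 10 (.ofNat (Nat.shiftLeft 0x3b966a518754a5d0fef16319bd97 56)) (.cons 11 (.ofNat (Nat.shiftLeft 0xc42339980066ebb2ce42ef80b3f3 55)) .nil)))))),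
    .cons 5 (.ofNat (Nat.shiftLeft 0xb725bc425b65e6bd3dfdd8e73e6eab9d9 33)) (.cons 6 (.negSucc (Nat.sub (Nat.shiftLeft 0x999942a1833a38579170027669da9162d1 35) 1)) (.cons 7 (.ofNat (Nat.shiftLeft 0x261e2202e43de6fc5e93abc6face9fe7245 32)) (.cons 8 (.negSucc (Nat.sub (Nat.shiftLeft 0xff8847b2c386731e1b36904226729342f1 33) 1)) (.cons 9 (.ofNat (Nat.shiftLeft 0x21da87b9979bf0bae961d1994ddd67509 35)) (.cons 10 (.negSucc (Nat.sub (Nat.shiftLeft 0xd8fa8471644476b6e07b2935b22298af7 33) 1)) (.cons 11 (.ofNat (Nat.shiftLeft 0x352fcd69e44490d01f07e5282c5530492d 32)) .nil)))))),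
    .cons 5 (.ofNat (Nat.shiftLeft 0x2e03051550ca72b86dfdd244a560dd4fda8f 24)) (.cons 6 (.negSucc (Nat.sub (Nat.shiftLeft 0x3d7ae4793889c966d26b088c617b34dfa457 26) 1)) (.cons 7 (.ofNat (Nat.shiftLeft 0x608e787e8423b164607f0bebc962f3e441103 23)) (.cons 8 (.ofNat (Nat.shiftLeft 0x328befd2756dc5972d9a4c94b1bae370d66c9 24)) (.cons 9 (.ofNat (Nat.shiftLeft 0x454267490acf9ac1b8d07e83a63fea7796df 26)) (.cons 10 (.ofNat (Nat.shiftLeft 0x6035bbe4dd37e6ba8ff6af20b5afea7796df 24)) (.cons 11 (.ofNat (Nat.shiftLeft 0x1984f4b8280bda13c3fb78d9bbb9b9455f25b 23)) .nil)))))),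
    .cons 12 (.negSucc (Nat.sub (Nat.shiftLeft 0x8b27be7b 139) 1)) (.cons 13 (.negSucc (Nat.sub (Nat.shiftLeft 0xb2a644f1 136) 1)) (.cons 14 (.negSucc (Nat.sub (Nat.shiftLeft 0x28d66bb 137) 1)) (.cons 15 (.ofNat (Nat.shiftLeft 0x48d6c61 136)) (.cons 16 (.ofNat (Nat.shiftLeft 0xb7693 137)) (.cons 17 (.negSucc (Nat.sub (Nat.shiftLeft 0xb7693 136) 1)) (.cons 18 (.negSucc (Nat.sub (Nat.shiftLeft 0x3d231 138) 1)) .nil)))))),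
    .cons 12 (.ofNat (Nat.shiftLeft 0x61f4012ba9b26b9 112)) (.cons 13 (.negSucc (Nat.sub (Nat.shiftLeft 0x59d317e6bd9ab55 109) 1)) (.cons 14 (.negSucc (Nat.sub (Nat.shiftLeft 0x423c7d158094a87 110) 1)) (.cons 15 (.negSucc (Nat.sub (Nat.shiftLeft 0xbb96fe6777a97b 109) 1)) (.cons 16 (.negSucc (Nat.sub (Nat.shiftLeft 0x4760cb0beddf41 110) 1)) (.cons 17 (.negSucc (Nat.sub (Nat.shiftLeft 0x92f94af41220bf 109) 1)) (.cons 18 (.negSucc (Nat.sub (Nat.shiftLeft 0x56b36a6b0b595 111) 1)) .nil)))))),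
    .cons 12 (.negSucc (Nat.sub (Nat.shiftLeft 0x385bdc309c7c9bae542b 90) 1)) (.cons 13 (.ofNat (Nat.shiftLeft 0x8e78979a086e0f20661ff 87)) (.cons 14 (.negSucc (Nat.sub (Nat.shiftLeft 0x729ca0a7da74c8e9006b 88) 1)) (.cons 15 (.ofNat (Nat.shiftLeft 0x15caa74756ea7f1939c71 87)) (.cons 16 (.negSucc (Nat.sub (Nat.shiftLeft 0x5cf2948955725aca823d 88) 1)) (.cons 17 (.ofNat (Nat.shiftLeft 0x6440390da3b45aca823d 87)) (.cons 18 (.ofNat (Nat.shiftLeft 0xf4840e4c9951e4380bf 89)) .nil)))))),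
    .cons 12 (.ofNat (Nat.shiftLeft 0x140794e2be7ac5b5def3acb55 73)) (.cons 13 (.ofNat (Nat.shiftLeft 0x7942b489ad7dd7493b9ff807f 70)) (.cons 14 (.ofNat (Nat.shiftLeft 0x5172edfeb477573a27105bf15 71)) (.cons 15 (.ofNat (Nat.shiftLeft 0x2c1b7669e40c5f59eb42a25f1 70)) (.cons 16 (.ofNat (Nat.shiftLeft 0x5e0f35f4c43ed1987747c243 71)) (.cons 17 (.ofNat (Nat.shiftLeft 0x205ce208ab2269fa988b83dbd 70)) (.cons 18 (.negSucc (Nat.sub (Nat.shiftLeft 0x78b732231dccd243d26d40c1 72) 1)) .nil)))))),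
    .cons 12 (.ofNat (Nat.shiftLeft 0x112f3016e287fd28cb0b568e2c415 54)) (.cons 13 (.negSucc (Nat.sub (Nat.shiftLeft 0x44574c4623a94c171e40bb9713541 51) 1)) (.cons 14 (.negSucc (Nat.sub (Nat.shiftLeft 0x57abf6bc4f36c06578759277fcb82b 52) 1)) (.cons 15 (.negSucc (Nat.sub (Nat.shiftLeft 0x115e5fa33aadc53c73a4b93179204f 51) 1)) (.cons 16 (.negSucc (Nat.sub (Nat.shiftLeft 0x4d0e59d78986a20541e5ebf048c7d 52) 1)) (.cons 17 (.ofNat (Nat.shiftLeft 0x32bbca56df25adc2feb20bf048c7d 51)) (.cons 18 (.ofNat (Nat.shiftLeft 0x3c290bf1b546aea62f6a3ea56d97f 53)) .nil)))))),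
    .cons 12 (.negSucc (Nat.sub (Nat.shiftLeft 0xcfd101b6ddd90acbd2ab1a0818a4c33 40) 1)) (.cons 13 (.negSucc (Nat.sub (Nat.shiftLeft 0x2e9583470fd64f08a693fc130480c6aa19 37) 1)) (.cons 14 (.ofNat (Nat.shiftLeft 0x51c64c015c0481cc5174b166e93dbe18d 38)) (.cons 15 (.negSucc (Nat.sub (Nat.shiftLeft 0xeef91d24d3aa156cc5b9495c0a06d3cf7 37) 1)) (.cons 16 (.ofNat (Nat.shiftLeft 0xfc68a18dc98e0f0046b77d2b334cfc0b 38)) (.cons 17 (.ofNat (Nat.shiftLeft 0xe35155be82dd3c5744c79f46ccb303f5 37)) (.cons 18 (.negSucc (Nat.sub (Nat.shiftLeft 0x381b6283f1f40dcca109e8e21119a959 39) 1)) .nil)))))),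
    .cons 12 (.negSucc (Nat.sub (Nat.shiftLeft 0x3c7f7294ed59fd76eeed9f2b19def12a4a7 28) 1)) (.cons 13 (.ofNat (Nat.shiftLeft 0x82c0955e7bfc0658b66535c0cdfcaccdc28b 25)) (.cons 14 (.ofNat (Nat.shiftLeft 0x8fd55b6a7ffe8e9607718974f725b3a6e219 26)) (.cons 15 (.negSucc (Nat.sub (Nat.shiftLeft 0x19e84fc73f8c30a55cd0a0ff30d0ecea7695b 25) 1)) (.cons 16 (.ofNat (Nat.shiftLeft 0x38978c32aa61c0f64c5b306ed6bea783cf1f 26)) (.cons 17 (.negSucc (Nat.sub (Nat.shiftLeft 0x450a3740572b8211e0bd2f7d4494a783cf1f 25) 1)) (.cons 18 (.negSucc (Nat.sub (Nat.shiftLeft 0x189c80b492dca4fc5c6c0b6acc848d2befb5 27) 1)) .nil)))))),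
    .cons 19 (.negSucc (Nat.sub (Nat.shiftLeft 0x48c5f1 147) 1)) (.cons 20 (.negSucc (Nat.sub (Nat.shiftLeft 0x50903 148) 1)) (.cons 21 (.negSucc (Nat.sub (Nat.shiftLeft 0x32ef 151) 1)) (.cons 22 (.negSucc (Nat.sub (Nat.shiftLeft 0xa879 147) 1)) .nil))),
    .cons 19 (.ofNat (Nat.shiftLeft 0x25e088869dfa5 121)) (.cons 20 (.ofNat (Nat.shiftLeft 0x92b56353efdf 122)) (.cons 21 (.ofNat (Nat.shiftLeft 0x690dee4ebb 125)) (.cons 22 (.ofNat (Nat.shiftLeft 0x42a6d8d92bcd 121)) .nil))),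
    .cons 19 (.negSucc (Nat.sub (Nat.shiftLeft 0xd6837a881113cde69 102) 1)) (.cons 20 (.ofNat (Nat.shiftLeft 0x262fd0aee6f36e715 103)) (.cons 21 (.ofNat (Nat.shiftLeft 0x24479dec3d8cac89 106)) (.cons 22 (.negSucc (Nat.sub (Nat.shiftLeft 0x1663f7a43a2dfecb1 102) 1)) .nil))),
    .cons 19 (.ofNat (Nat.shiftLeft 0x477679a3c55e3a51ff83 92)) (.cons 20 (.ofNat (Nat.shiftLeft 0xcac92e2e23a1f309519 93)) (.cons 21 (.negSucc (Nat.sub (Nat.shiftLeft 0x65afe680d10116fae3 96) 1)) (.cons 22 (.negSucc (Nat.sub (Nat.shiftLeft 0x5c249f35af330d5db65 92) 1)) .nil))),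
    .cons 23 (.negSucc (Nat.sub (Nat.shiftLeft 0x1cb 159) 1)) .nil],
   [.nil,
    .cons 0 (.ofNat (Nat.shiftLeft 0x1fdab5 144)) .nil,
    .cons 0 (.ofNat (Nat.shiftLeft 0x1470aa0b0f05 123)) .nil,
    .cons 0 (.negSucc (Nat.sub (Nat.shiftLeft 0x29c10898c502cc47 105) 1)) .nil,
    .cons 0 (.ofNat (Nat.shiftLeft 0x45514f466e09a9e05b 97)) .nil,
    .cons 1 (.ofNat (Nat.shiftLeft 0x75ade5fb 137)) (.cons 2 (.ofNat (Nat.shiftLeft 0x17d8821 138)) (.cons 3 (.ofNat (Nat.shiftLeft 0x311ba9 136)) .nil)),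
    .cons 1 (.negSucc (Nat.sub (Nat.shiftLeft 0x69b165838f2846d 110) 1)) (.cons 2 (.ofNat (Nat.shiftLeft 0x6e8ed7486f7669 111)) (.cons 3 (.ofNat (Nat.shiftLeft 0x627ec49ede3031 109)) (.cons 4 (.ofNat (Nat.shiftLeft 0x193d3d 144)) .nil))),
    .cons 1 (.ofNat (Nat.shiftLeft 0x5859927c5d141ee7c2a17 88)) (.cons 2 (.negSucc (Nat.sub (Nat.shiftLeft 0x6d7f5ae1a25cbdce67cb 89) 1)) (.cons 3 (.ofNat (Nat.shiftLeft 0x104d04ddf62725c29de5d 87)) (.cons 4 (.negSucc (Nat.sub (Nat.shiftLeft 0x104761d4187 122) 1)) .nil))),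
    .cons 1 (.ofNat (Nat.shiftLeft 0x1e39dd9ba6a17f89835493099b 69)) (.cons 2 (.negSucc (Nat.sub (Nat.shiftLeft 0x6761d6216d495138f294d22ff 70) 1)) (.cons 3 (.ofNat (Nat.shiftLeft 0x4e6426beaa283c59c81054789 68)) (.cons 4 (.negSucc (Nat.sub (Nat.shiftLeft 0x106a8b26d3d59014b 103) 1)) .nil))),
    .cons 1 (.ofNat (Nat.shiftLeft 0x3536a6fc082fb2fe21481c91ed4ff 56)) (.cons 2 (.ofNat (Nat.shiftLeft 0x499c001ef2fef209943be6d8336d 57)) (.cons 3 (.ofNat (Nat.shiftLeft 0x121db8d9bacdee1082199f7b15f55 55)) (.cons 4 (.negSucc (Nat.sub (Nat.shiftLeft 0xce80f5e96d03d312aef 90) 1)) .nil))),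
    .cons 1 (.negSucc (Nat.sub (Nat.shiftLeft 0x9974955a46ccd5e1b2be841f42c3d7eb5f 33) 1)) (.cons 2 (.ofNat (Nat.shiftLeft 0x46faa427786434cc43306ed67c7a63d373 34)) (.cons 3 (.ofNat (Nat.shiftLeft 0x3dcaefdcb9e22b3a163bd14244bc1c0e8b 32)) (.cons 4 (.ofNat (Nat.shiftLeft 0x183a4fddf4a9f9bbd0bdd5674f 67)) .nil))),
    .cons 1 (.ofNat (Nat.shiftLeft 0x1074320b359a65e8fe6c1039ac8d6cc830307 24)) (.cons 2 (.ofNat (Nat.shiftLeft 0x20a3eb318467625e3026bda3adf507ed17a05 25)) (.cons 3 (.negSucc (Nat.sub (Nat.shiftLeft 0x2b3652789861ae28be5be6526acf2e812a953 23) 1)) (.cons 4 (.ofNat (Nat.shiftLeft 0x4b63486979516971acafd53f689 58)) .nil))),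
    .cons 5 (.ofNat (Nat.shiftLeft 0x699ba6d61 136)) (.cons 6 (.negSucc (Nat.sub (Nat.shiftLeft 0x3db07115 137) 1)) (.cons 7 (.negSucc (Nat.sub (Nat.shiftLeft 0x172a491 138) 1)) (.cons 8 (.ofNat (Nat.shiftLeft 0x31ac7d 140)) (.cons 9 (.negSucc (Nat.sub (Nat.shiftLeft 0x131af5 136) 1)) (.cons 10 (.negSucc (Nat.sub (Nat.shiftLeft 0x3d231 136) 1)) (.cons 11 (.ofNat (Nat.shiftLeft 0xb7693 136)) .nil)))))),
    .cons 5 (.ofNat (Nat.shiftLeft 0x20b66e4dfd85fb85 109)) (.cons 6 (.negSucc (Nat.sub (Nat.shiftLeft 0x798450b22e38e89 110) 1)) (.cons 7 (.ofNat (Nat.shiftLeft 0x16b7342d70b328b 111)) (.cons 8 (.negSucc (Nat.sub (Nat.shiftLeft 0x2253478906c76f 113) 1)) (.cons 9 (.ofNat (Nat.shiftLeft 0x90bf79be8c7417 109)) (.cons 10 (.negSucc (Nat.sub (Nat.shiftLeft 0x70a2eda6b0b595 109) 1)) (.cons 11 (.negSucc (Nat.sub (Nat.shiftLeft 0xaab9f0beddf41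 109) 1)) .nil)))))),
    .cons 5 (.ofNat (Nat.shiftLeft 0x1b606b7e47cbc533aad71 87)) (.cons 6 (.ofNat (Nat.shiftLeft 0x326cb2590479f97cd8b9b 88)) (.cons 7 (.negSucc (Nat.sub (Nat.shiftLeft 0x4eab9ebbd767886c37a1 89) 1)) (.cons 8 (.ofNat (Nat.shiftLeft 0xeaeef9252977692764d 91)) (.cons 9 (.ofNat (Nat.shiftLeft 0x8d92fec9c948975183bb 87)) (.cons 10 (.ofNat (Nat.shiftLeft 0x1f9ad43b90ba1e4380bf 87)) (.cons 11 (.negSucc (Nat.sub (Nat.shiftLeft 0x5d1af109f4f65aca823d 87) 1)) .nil)))))),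
    .cons 5 (.ofNat (Nat.shiftLeft 0x6a127aef398eb5045a84ab6f1 70)) (.cons 6 (.ofNat (Nat.shiftLeft 0x8b0e9b11596aa3739c229941b 71)) (.cons 7 (.negSucc (Nat.sub (Nat.shiftLeft 0x1b1d4852c44d0409abb658921 72) 1)) (.cons 8 (.ofNat (Nat.shiftLeft 0x775dc15b044cbb9baf8c49cd 74)) (.cons 9 (.ofNat (Nat.shiftLeft 0xd0c85a1e4751ec8be3ddbc3b 70)) (.cons 10 (.ofNat (Nat.shiftLeft 0x1ad4879c74ed20c612d92bf3f 70)) (.cons 11 (.negSucc (Nat.sub (Nat.shiftLeft 0x166fde1b17da893eb88b83dbd 70) 1)) .nil)))))),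
    .cons 5 (.ofNat (Nat.shiftLeft 0x428f9725eb6a5981ee1855a7930b1 51)) (.cons 6 (.ofNat (Nat.shiftLeft 0x39fa3e5a4dd7ace2efa5044c255f5b 52)) (.cons 7 (.ofNat (Nat.shiftLeft 0x1bad0436f050c1b4b82933cae8691f 53)) (.cons 8 (.negSucc (Nat.sub (Nat.shiftLeft 0x1af8db5e87a87ae6966a8e6690b73 55) 1)) (.cons 9 (.ofNat (Nat.shiftLeft 0x170d4f5089366922a08b5293b23f7b 51)) (.cons 10 (.ofNat (Nat.shiftLeft 0x7cd9d189fa835d865da08ea56d97f 51)) (.cons 11 (.ofNat (Nat.shiftLeft 0x67468cd4713df1436851d40fb7383 51)) .nil)))))),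
    .cons 5 (.negSucc (Nat.sub (Nat.shiftLeft 0x1d32a62ff7c6fc31878e5e09b12093f7 37) 1)) (.cons 6 (.ofNat (Nat.shiftLeft 0xefa55f08bc8d7862c9cd79dbfecb4f623 38)) (.cons 7 (.negSucc (Nat.sub (Nat.shiftLeft 0x1263cdad0af672643aed92c507ab92ab9 39) 1)) (.cons 8 (.ofNat (Nat.shiftLeft 0xbf3ecc318b68b0bdd438a694de4d9985 41)) (.cons 9 (.negSucc (Nat.sub (Nat.shiftLeft 0x210a2c63309b21633515f0e2355804ebd 37) 1)) (.cons 10 (.ofNat (Nat.shiftLeft 0x608102a80d664385f0eb235baeee656a7 37)) (.cons 11 (.negSucc (Nat.sub (Nat.shiftLeft 0x69efa7ef70dd01f0f1b306b8ccb303f5 37) 1)) .nil)))))),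
    .cons 5 (.ofNat (Nat.shiftLeft 0x171b07b8a7f7cd979fe9ae437f59df2a5ba5 25)) (.cons 6 (.ofNat (Nat.shiftLeft 0x25b95ddeffa9860b8fb4f311ee0ad9ab0ad7 26)) (.cons 7 (.ofNat (Nat.shiftLeft 0x896d5aa7cba97a3689cddc8c27be825a2c6b 27)) (.cons 8 (.negSucc (Nat.sub (Nat.shiftLeft 0x13513c26b259fc8e7978102a0912d4c4d3cf 29) 1)) (.cons 9 (.negSucc (Nat.sub (Nat.shiftLeft 0x4a7418f7e0ee0e17897d88670d2bc1dbae89 25) 1)) (.cons 10 (.negSucc (Nat.sub (Nat.shiftLeft 0x15159fc602b9827d97ac10f8c59b8d2befb5 25) 1)) (.cons 11 (.ofNat (Nat.shiftLeft 0x94b7586a8e01568ba87c9f9d536aa783cf1f 25)) .nil)))))),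
    .cons 12 (.ofNat (Nat.shiftLeft 0x759b9 152)) (.cons 13 (.ofNat (Nat.shiftLeft 0x1b6915 148)) (.cons 14 (.negSucc (Nat.sub (Nat.shiftLeft 0xa5c77 149) 1)) (.cons 15 (.ofNat (Nat.shiftLeft 0x7975 151)) (.cons 16 (.ofNat (Nat.shiftLeft 0xfeab 148)) (.cons 17 (.ofNat (Nat.shiftLeft 0x719f 147)) (.cons 18 (.negSucc (Nat.sub (Nat.shiftLeft 0x1397 149) 1)) .nil)))))),
    .cons 12 (.ofNat (Nat.shiftLeft 0xc1c09cb31f3 126)) (.cons 13 (.negSucc (Nat.sub (Nat.shiftLeft 0xe146702bc119 122) 1)) (.cons 14 (.ofNat (Nat.shiftLeft 0x68d63d2b8de3 123)) (.cons 15 (.negSucc (Nat.sub (Nat.shiftLeft 0xd77e7ae6cf9 125) 1)) (.cons 16 (.ofNat (Nat.shiftLeft 0xa50d6587659 122)) (.cons 17 (.negSucc (Nat.sub (Nat.shiftLeft 0x26ae7e274d2b 121) 1)) (.cons 18 (.negSucc (Nat.sub (Nat.shiftLeft 0x131f542e307d 123) 1)) .nil)))))),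
    .cons 12 (.negSucc (Nat.sub (Nat.shiftLeft 0xc34c8898f8cec0f 107) 1)) (.cons 13 (.ofNat (Nat.shiftLeft 0x5119147b27286886d 103)) (.cons 14 (.ofNat (Nat.shiftLeft 0x687e9b2e548b18f41 104)) (.cons 15 (.negSucc (Nat.sub (Nat.shiftLeft 0x41f736c4a3b1ea33 106) 1)) (.cons 16 (.negSucc (Nat.sub (Nat.shiftLeft 0x107e6f37fffbf5ead 103) 1)) (.cons 17 (.ofNat (Nat.shiftLeft 0xce000eb5748b1ca7 102)) (.cons 18 (.negSucc (Nat.sub (Nat.shiftLeft 0x8d1986fc37676edf 104) 1)) .nil)))))),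
    .cons 12 (.negSucc (Nat.sub (Nat.shiftLeft 0x3e03a3ce1174e145b 97) 1)) (.cons 13 (.ofNat (Nat.shiftLeft 0x30755c0e84b89d368e51 93)) (.cons 14 (.negSucc (Nat.sub (Nat.shiftLeft 0x1e607f50c2d90f30cb 94) 1)) (.cons 15 (.ofNat (Nat.shiftLeft 0x1edf8f1f78de4231b31 96)) (.cons 16 (.ofNat (Nat.shiftLeft 0x26485338effc972e66f 93)) (.cons 17 (.ofNat (Nat.shiftLeft 0xad1202e63eacb5aa5d3 92)) (.cons 18 (.ofNat (Nat.shiftLeft 0x23192692703e0ada95 94)) .nil)))))),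
    .cons 19 (.ofNat (Nat.shiftLeft 0x781 160)) (.cons 20 (.ofNat (Nat.shiftLeft 0x51d 159)) (.cons 21 (.ofNat (Nat.shiftLeft 0xbb 159)) (.cons 22 (.ofNat (Nat.shiftLeft 0xef 159)) .nil)))]⟩

theorem iso7 : isoChk 24 24 (4 ^ 171) A7 = true := by decide +kernel

theorem iso8 : isoChk 24 24 (4 ^ 171) A8 = true := by decide +kernel

theorem iso9 : isoChk 24 24 (4 ^ 171) A9 = true := by decide +kernel

theorem iso10 : isoChk 24 24 (4 ^ 171) A10 = true := by decide +kernel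

theorem iso11 : isoChk 24 24 (4 ^ 171) A11 = true := by decide +kernel

theorem iso12 : isoChk 24 24 (4 ^ 171) A12 = true := by decide +kernel

theorem iso13 : isoChk 24 24 (4 ^ 171) A13 = true := by decide +kernel


end Crest.Agent.R347.Dat
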