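import Crest.Agent.R347.CDefs

/-! Isometric tensors. -/

set_option autoImplicit false
set_option maxRecDepth 100000
set_option Elab.async false

namespace Crest.Agent.R347.Dat

open Crest.Agent.R347 Crest.Agent.R347.K

noncomputable def A14 : Tn :=
  ⟨[.cons 1 (.ofNat (Nat.shiftLeft 0xf09 159)) (.cons 2 (.ofNat (Nat.shiftLeft 0x50b 159)) (.cons 3 (.negSucc (Nat.sub (Nat.shiftLeft 0xa7 159) 1)) (.cons 4 (.ofNat (Nat.shiftLeft 0xf1 159)) .nil))),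
    .cons 5 (.ofNat (Nat.shiftLeft 0x1d6acf1 146)) (.cons 6 (.negSucc (Nat.sub (Nat.shiftLeft 0x1b9704d 144) 1)) (.cons 7 (.ofNat (Nat.shiftLeft 0xa473e7 145)) (.cons 8 (.ofNat (Nat.shiftLeft 0x3dd691 144)) (.cons 9 (.ofNat (Nat.shiftLeft 0xf0fc3 144)) (.cons 10 (.negSucc (Nat.sub (Nat.shiftLeft 0x9cbd 147) 1)) (.cons 11 (.ofNat (Nat.shiftLeft 0x9cbd 146)) .nil)))))),
    .cons 5 (.ofNat (Nat.shiftLeft 0x60c4c228b201 123)) (.cons 6 (.ofNat (Nat.shiftLeft 0x1cc4fad586ce3 121)) (.cons 7 (.negSucc (Nat.sub (Nat.shiftLeft 0xce321a8cf3a9 122) 1)) (.cons 8 (.negSucc (Nat.sub (Nat.shiftLeft 0xd9355759ca5f 121) 1)) (.cons 9 (.ofNat (Nat.shiftLeft 0x1573f1d24df3 121)) (.cons 10 (.ofNat (Nat.shiftLeft 0x4977cb4d973 124)) (.cons 11 (.ofNat (Nat.shiftLeft 0x1359674b268d 123)) .nil)))))),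
    .cons 5 (.ofNat (Nat.shiftLeft 0xb8d5d93ff0eba35 107)) (.cons 6 (.ofNat (Nat.shiftLeft 0x17b47058d70182aff 105)) (.cons 7 (.ofNat (Nat.shiftLeft 0x1a1d4dd209614ae03 106)) (.cons 8 (.ofNat (Nat.shiftLeft 0x79f2e75bf9d6fa55 105)) (.cons 9 (.ofNat (Nat.shiftLeft 0x4348ee52f151c34f 105)) (.cons 10 (.ofNat (Nat.shiftLeft 0x3bd695a87c8a4cf 108)) (.cons 11 (.negSucc (Nat.sub (Nat.shiftLeft 0x109e98fb53c8a4cf 107) 1)) .nil)))))),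
    .cons 5 (.negSucc (Nat.sub (Nat.shiftLeft 0x50c576889216678f 99) 1)) (.cons 6 (.ofNat (Nat.shiftLeft 0x2e75752b137900a6233 97)) (.cons 7 (.negSucc (Nat.sub (Nat.shiftLeft 0x1f9355cba76d4c8399 98) 1)) (.cons 8 (.negSucc (Nat.sub (Nat.shiftLeft 0x10008434d0032398def 97) 1)) (.cons 9 (.negSucc (Nat.sub (Nat.shiftLeft 0x235e6c8adff772e5bd 97) 1)) (.cons 10 (.ofNat (Nat.shiftLeft 0xb433cdd4c9651adc3 100)) (.cons 11 (.ofNat (Nat.shiftLeft 0x1ef6585600dae523d 99)) .nil)))))),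
    .cons 12 (.ofNat (Nat.shiftLeft 0x6943ccb31 136)) (.cons 13 (.ofNat (Nat.shiftLeft 0x1f56260d 138)) (.cons 14 (.ofNat (Nat.shiftLeft 0x60a646d 136)) (.cons 15 (.ofNat (Nat.shiftLeft 0x334ec9f 136)) (.cons 16 (.ofNat (Nat.shiftLeft 0x3d179 138)) (.cons 18 (.ofNat (Nat.shiftLeft 0x3d179 138)) .nil))))),
    .cons 12 (.negSucc (Nat.sub (Nat.shiftLeft 0x8381a01db83ea8d3 107) 1)) (.cons 13 (.negSucc (Nat.sub (Nat.shiftLeft 0xf74afc7f43b6467 109) 1)) (.cons 14 (.ofNat (Nat.shiftLeft 0x16e7e7392d862879 107)) (.cons 15 (.ofNat (Nat.shiftLeft 0x8bb0683c9279d63 107)) (.cons 16 (.ofNat (Nat.shiftLeft 0x8509fef9ca9a55 109)) (.cons 17 (.ofNat (Nat.shiftLeft 0x3f28d7 142)) (.cons 18 (.ofNat (Nat.shiftLeft 0xd9312f9ca9a55 109)) .nil)))))),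
    .cons 12 (.negSucc (Nat.sub (Nat.shiftLeft 0x393a9b0a5a1291aa1264d 86) 1)) (.cons 13 (.ofNat (Nat.shiftLeft 0x32ad8d003109727473dc7 88)) (.cons 14 (.negSucc (Nat.sub (Nat.shiftLeft 0x2728f732ae21afc157b19 86) 1)) (.cons 15 (.negSucc (Nat.sub (Nat.shiftLeft 0x1e383550a1ef22d541843 86) 1)) (.cons 16 (.ofNat (Nat.shiftLeft 0x4666ed839d2a2f6ac58b 88)) (.cons 17 (.negSucc (Nat.sub (Nat.shiftLeft 0x4e771f95837 121) 1)) (.cons 18 (.ofNat (Nat.shiftLeft 0x2ef932bc7b962f6ac58b 88)) .nil)))))),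
    .cons 12 (.ofNat (Nat.shiftLeft 0x1ab13c24f8f22db6bd3ba76fcf 68)) (.cons 13 (.negSucc (Nat.sub (Nat.shiftLeft 0x1168dc9affba8a2e040f5af70d 70) 1)) (.cons 14 (.ofNat (Nat.shiftLeft 0x1b56604860e021ec2c5d8aea93 68)) (.cons 15 (.ofNat (Nat.shiftLeft 0x1e783ca171baf940e51536c861 68)) (.cons 16 (.negSucc (Nat.sub (Nat.shiftLeft 0xed98f0030ae3454b49b97e79 70) 1)) (.cons 17 (.ofNat (Nat.shiftLeft 0xcafa2b2d3d6e11dd 103)) (.cons 18 (.negSucc (Nat.sub (Nat.shiftLeft 0x166c881359071f9ef49b97e79 70) 1)) .nil)))))),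
    .cons 12 (.negSucc (Nat.sub (Nat.shiftLeft 0x11b1a40727b5cb757c4783ed647f8d 49) 1)) (.cons 13 (.ofNat (Nat.shiftLeft 0x7a658583af5f76232239942d924187 51)) (.cons 14 (.ofNat (Nat.shiftLeft 0x1c6f0a2f3fa3016ef40aba62d9510a7 49)) (.cons 15 (.ofNat (Nat.shiftLeft 0x63f7a34ada5a141e654944f56ebcfd 49)) (.cons 16 (.ofNat (Nat.shiftLeft 0x177ba7b55a529aa3bf855a11cfb24b 51)) (.cons 17 (.negSucc (Nat.sub (Nat.shiftLeft 0x36cdd92f5338a884817f7 84) 1)) (.cons 18 (.negSucc (Nat.sub (Nat.shiftLeft 0x79b6b3d0408580a9a5939ee304db5 51) 1)) .nil)))))),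
    .cons 12 (.negSucc (Nat.sub (Nat.shiftLeft 0x1ffae20f0e9cebaa44f174730e8c44b5 38) 1)) (.cons 13 (.negSucc (Nat.sub (Nat.shiftLeft 0x37b5b5987c0c9074d386bfdd27c189001 40) 1)) (.cons 14 (.ofNat (Nat.shiftLeft 0x341bbff2ab4acddf4f9fe4683acdc701f 38)) (.cons 15 (.ofNat (Nat.shiftLeft 0x655f5551e4cbb44e40aa39113d3dd51a5 38)) (.cons 16 (.ofNat (Nat.shiftLeft 0x3d120feeaa0ab98a3ce3d2df32fea5e3 40)) (.cons 17 (.ofNat (Nat.shiftLeft 0x61d95a8bb07bd1ea75a96211 73)) (.cons 18 (.negSucc (Nat.sub (Nat.shiftLeft 0x15b8a12541e5690d875e8b54cd015a1d 40) 1)) .nil)))))),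
    .cons 12 (.negSucc (Nat.sub (Nat.shiftLeft 0xc578e5ba2dc550ecbf9053a106f7a8f24e3 26) 1)) (.cons 13 (.ofNat (Nat.shiftLeft 0x8fb0d3552fe55767b6ba3426ebd612ef5c9 28)) (.cons 14 (.ofNat (Nat.shiftLeft 0x10d76bd6de832c98b8be0878d4ed5ed153ca9 26)) (.cons 15 (.ofNat (Nat.shiftLeft 0x9911985db1b7b8d4b8742ed46d3a8da94c73 26)) (.cons 16 (.negSucc (Nat.sub (Nat.shiftLeft 0x94ab5a2b0b4cf74ec704cc4b7fdcaf34e3b 28) 1)) (.cons 17 (.ofNat (Nat.shiftLeft 0xcae1ddaf3fb5d0ff6b54e3cba7 61)) (.cons 18 (.negSucc (Nat.sub (Nat.shiftLeft 0x132a98d421e2ddf3e1dfc8203d29caf34e3b 28) 1)) .nil)))))),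
    .cons 19 (.ofNat (Nat.shiftLeft 0x3adc386f 138)) (.cons 20 (.ofNat (Nat.shiftLeft 0x6213661 136)) (.cons 21 (.negSucc (Nat.sub (Nat.shiftLeft 0x1a77f9 137) 1)) (.cons 22 (.negSucc (Nat.sub (Nat.shiftLeft 0x3c7ff 136) 1)) .nil))),
    .cons 19 (.ofNat (Nat.shiftLeft 0xd716fe0556aff3 113)) (.cons 20 (.negSucc (Nat.sub (Nat.shiftLeft 0x72850d8966c063 111) 1)) (.cons 21 (.ofNat (Nat.shiftLeft 0xb93f54941e32b 112)) (.cons 22 (.ofNat (Nat.shiftLeft 0x337474539bb2bd 111)) .nil))),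
    .cons 19 (.negSucc (Nat.sub (Nat.shiftLeft 0xb0688169c2e13ba0825 95) 1)) (.cons 20 (.ofNat (Nat.shiftLeft 0x711c06b248327dce335 93)) (.cons 21 (.ofNat (Nat.shiftLeft 0x210dbe1a86fb411dd53 94)) (.cons 22 (.ofNat (Nat.shiftLeft 0x4ae8cbdc4ac028d55 93)) .nil))),
    .cons 19 (.ofNat (Nat.shiftLeft 0x3c304f77aefea3e182ccd7dd 76)) (.cons 20 (.negSucc (Nat.sub (Nat.shiftLeft 0x6a66c29aa98cfdffa198706d 74) 1)) (.cons 21 (.negSucc (Nat.sub (Nat.shiftLeft 0xa4c7c77cfffc08bb20436db 75) 1)) (.cons 22 (.ofNat (Nat.shiftLeft 0x206415b1a41da0cf54488a73 74)) .nil))),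
    .cons 19 (.ofNat (Nat.shiftLeft 0x6a941e9178d44def53bb2650ecf 63)) (.cons 20 (.ofNat (Nat.shiftLeft 0x4b4172e738e4bd7aae6c92ed201 61)) (.cons 21 (.negSucc (Nat.sub (Nat.shiftLeft 0x24a32d30e1f9c68cc752adf7a99 62) 1)) (.cons 22 (.ofNat (Nat.shiftLeft 0x19a987b9e5db0cb218c8c2937a1 61)) .nil))),
    .cons 19 (.ofNat (Nat.shiftLeft 0x4b7ecd6bed0da4e17b0079e718d40a5 46)) (.cons 20 (.negSucc (Nat.sub (Nat.shiftLeft 0x1249c6a653f53acf8f19596846e283b5 44) 1)) (.cons 21 (.ofNat (Nat.shiftLeft 0x19c1854d9eac1eb68a2fc3263470f2d 45)) (.cons 22 (.ofNat (Nat.shiftLeft 0xbd371e2bbd7d5d2954bf44032c1022b 44)) .nil))),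
    .cons 19 (.negSucc (Nat.sub (Nat.shiftLeft 0x4335a2124e3bf01eed54b6ad4979bcd7d 38) 1)) (.cons 20 (.negSucc (Nat.sub (Nat.shiftLeft 0x419eb67783224496e3a865f44b2b4067f3 36) 1)) (.cons 21 (.negSucc (Nat.sub (Nat.shiftLeft 0xb2637af380938c332082e65ce1ba577c5 37) 1)) (.cons 22 (.ofNat (Nat.shiftLeft 0x6089be98695598c0edff7fdf4531812d 36)) .nil))),
    .cons 23 (.ofNat (Nat.shiftLeft 0x102b0d 145)) .nil,
    .cons 23 (.ofNat (Nat.shiftLeft 0xa51c6caf7 132)) .nil,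
    .cons 23 (.ofNat (Nat.shiftLeft 0x4737a48a4baa39 112)) .nil,
    .cons 23 (.ofNat (Nat.shiftLeft 0x23e37d3795a1b465d 102)) .nil,
    .nil],
   [.cons 0 (.ofNat (Nat.shiftLeft 0xe5 160)) .nil,
    .cons 1 (.ofNat (Nat.shiftLeft 0x909d95 146)) (.cons 2 (.ofNat (Nat.shiftLeft 0x4f39ef 144)) (.cons 3 (.negSucc (Nat.sub (Nat.shiftLeft 0xc5e1d 145) 1)) (.cons 4 (.ofNat (Nat.shiftLeft 0x19785 146)) .nil))),
    .cons 1 (.negSucc (Nat.sub (Nat.shiftLeft 0x979e98763b1b 123) 1)) (.cons 2 (.negSucc (Nat.sub (Nat.shiftLeft 0x11e4c3e9d1d21 121) 1)) (.cons 3 (.ofNat (Nat.shiftLeft 0x18157dec213 122)) (.cons 4 (.negSucc (Nat.sub (Nat.shiftLeft 0x1116fea3022b 123) 1)) .nil))),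
    .cons 1 (.negSucc (Nat.sub (Nat.shiftLeft 0x5e51e50600ecdc97 107) 1)) (.cons 2 (.ofNat (Nat.shiftLeft 0xac82bb4577fb182b 105)) (.cons 3 (.negSucc (Nat.sub (Nat.shiftLeft 0x22b78c1a385e3211 106) 1)) (.cons 4 (.negSucc (Nat.sub (Nat.shiftLeft 0xc3743a32b7012e7 107) 1)) .nil))),
    .cons 1 (.ofNat (Nat.shiftLeft 0x985364e7cc1f704715 99)) (.cons 2 (.ofNat (Nat.shiftLeft 0xbdefe10136c2505e6f 97)) (.cons 3 (.ofNat (Nat.shiftLeft 0x1b8afba7d583a51c63 98)) (.cons 4 (.negSucc (Nat.sub (Nat.shiftLeft 0xb524a16a4346df6fb 99) 1)) .nil))),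
    .cons 5 (.ofNat (Nat.shiftLeft 0x460f0c57b 136)) (.cons 6 (.negSucc (Nat.sub (Nat.shiftLeft 0x2d2d7cad 138) 1)) (.cons 7 (.negSucc (Nat.sub (Nat.shiftLeft 0x27da5ef 137) 1)) (.cons 8 (.negSucc (Nat.sub (Nat.shiftLeft 0x24fd443 137) 1)) (.cons 9 (.negSucc (Nat.sub (Nat.shiftLeft 0x1aba4f 136) 1)) (.cons 10 (.negSucc (Nat.sub (Nat.shiftLeft 0xb746b 136) 1)) (.cons 11 (.negSucc (Nat.sub (Nat.shiftLeft 0x3d179 138) 1)) .nil)))))),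
    .cons 5 (.ofNat (Nat.shiftLeft 0xc371798651f9e7cf 107)) (.cons 6 (.ofNat (Nat.shiftLeft 0x5b71c0275cbf047 109)) (.cons 7 (.ofNat (Nat.shiftLeft 0x10833a4f0cd5528d 108)) (.cons 8 (.negSucc (Nat.sub (Nat.shiftLeft 0x176c0293dab7177 108) 1)) (.cons 9 (.negSucc (Nat.sub (Nat.shiftLeft 0x1fc4058d48a3853 107) 1)) (.cons 10 (.ofNat (Nat.shiftLeft 0x27eda7b12a03101 107)) (.cons 11 (.ofNat (Nat.shiftLeft 0x13b809063565ab 109)) .nil)))))),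
    .cons 5 (.negSucc (Nat.sub (Nat.shiftLeft 0x35896b9bc4bb991987a2f 86) 1)) (.cons 6 (.negSucc (Nat.sub (Nat.shiftLeft 0x47624a52e40870a5355a7 88) 1)) (.cons 7 (.ofNat (Nat.shiftLeft 0xdb1fa2c5975711592253 87)) (.cons 8 (.ofNat (Nat.shiftLeft 0x15f0d170a7f3d4a5a64d7 87)) (.cons 9 (.negSucc (Nat.sub (Nat.shiftLeft 0x17d523dae35c74beb66cd 86) 1)) (.cons 10 (.negSucc (Nat.sub (Nat.shiftLeft 0xa8f80307a2f68e4050a1 86) 1)) (.cons 11 (.negSucc (Nat.sub (Nat.shiftLeft 0x205ea3679c322f6ac58b 88) 1)) .nil)))))),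
    .cons 5 (.negSucc (Nat.sub (Nat.shiftLeft 0x281552f50e2b65e634a3441c7b 68) 1)) (.cons 6 (.ofNat (Nat.shiftLeft 0x73bfe404bbf8dce1b4fc56dad 70)) (.cons 7 (.ofNat (Nat.shiftLeft 0x1455c2493803364da9180180ef 69)) (.cons 8 (.negSucc (Nat.sub (Nat.shiftLeft 0x59ce86a2435d2c5025cb06cbd 69) 1)) (.cons 9 (.negSucc (Nat.sub (Nat.shiftLeft 0x2180c97ca67f9c110fbed8ab1 68) 1)) (.cons 10 (.ofNat (Nat.shiftLeft 0x8393112a6acc0aa09dd2c7b6b 68)) (.cons 11 (.negSucc (Nat.sub (Nat.shiftLeft 0x1e5a1f865a383a15cb6468187 70) 1)) .nil)))))),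
    .cons 5 (.ofNat (Nat.shiftLeft 0x208c7023ffec17c5c177e2f1533811 49)) (.cons 6 (.ofNat (Nat.shiftLeft 0xd8b25d307e3ad0cb9afe741876e99 51)) (.cons 7 (.ofNat (Nat.shiftLeft 0x155d5e020126820aac15f1a6182b113 50)) (.cons 8 (.negSucc (Nat.sub (Nat.shiftLeft 0x2f2a51a347edbd1059b3c0c8c0f369 50) 1)) (.cons 9 (.negSucc (Nat.sub (Nat.shiftLeft 0x1f926e1651d6776984b7167cade00d 49) 1)) (.cons 10 (.negSucc (Nat.sub (Nat.shiftLeft 0x6ec55da02ea190b684986356f16e1 49) 1)) (.cons 11 (.negSucc (Nat.sub (Nat.shiftLeft 0xde0b9be2fba15b944366211cfb24b 51) 1)) .nil)))))),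
    .cons 5 (.ofNat (Nat.shiftLeft 0x484d41939e745c1f44b5fe8fbc161059 38)) (.cons 6 (.negSucc (Nat.sub (Nat.shiftLeft 0x5d372e8dca8bd69c724700a6a5f00c6df 40) 1)) (.cons 7 (.ofNat (Nat.shiftLeft 0x30080f3f4b7db9e629c818d21bbe1c8eb 39)) (.cons 8 (.ofNat (Nat.shiftLeft 0x3b0e4fdb3d3d9e14d67d518e41fd18f8f 39)) (.cons 9 (.negSucc (Nat.sub (Nat.shiftLeft 0xcb1ab7ecc93ab8dc71b47aba64f68935 38) 1)) (.cons 10 (.ofNat (Nat.shiftLeft 0x658d7c537037e456a02c402a67040e57 38)) (.cons 11 (.negSucc (Nat.sub (Nat.shiftLeft 0x2b33e2ba607be9250408aa2732fea5e3 40) 1)) .nil)))))),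
    .cons 5 (.negSucc (Nat.sub (Nat.shiftLeft 0xde3096d728e5a620881edcd994c023f72e1 26) 1)) (.cons 6 (.negSucc (Nat.sub (Nat.shiftLeft 0xfbb30785664300df892e4244f79af335fe9 28) 1)) (.cons 7 (.negSucc (Nat.sub (Nat.shiftLeft 0x4f757d7815a1f0bc50e2f302b50c9b47f783 27) 1)) (.cons 8 (.negSucc (Nat.sub (Nat.shiftLeft 0x67855017084349ecbfb2bdfa3d9e1eafa247 27) 1)) (.cons 9 (.ofNat (Nat.shiftLeft 0x3a32ebb4fabe15c1658e336e8b908ca7239d 26)) (.cons 10 (.ofNat (Nat.shiftLeft 0x1d12089040f032deb3968e3b2af160d9eab1 26)) (.cons 11 (.ofNat (Nat.shiftLeft 0xc98367e98cdffc985bace2d2785caf34e3b 28)) .nil)))))),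
    .cons 12 (.ofNat (Nat.shiftLeft 0x4c119861f 136)) (.cons 13 (.negSucc (Nat.sub (Nat.shiftLeft 0xc2fc146f 136) 1)) (.cons 14 (.ofNat (Nat.shiftLeft 0x628c65f 136)) (.cons 15 (.negSucc (Nat.sub (Nat.shiftLeft 0x14167ab 138) 1)) (.cons 16 (.negSucc (Nat.sub (Nat.shiftLeft 0x2997f5 136) 1)) (.cons 17 (.ofNat (Nat.shiftLeft 0x3c7ff 137)) (.cons 18 (.ofNat (Nat.shiftLeft 0x12e7fb 136)) .nil)))))),
    .cons 12 (.ofNat (Nat.shiftLeft 0xbca00ec4908eae3 111)) (.cons 13 (.ofNat (Nat.shiftLeft 0x16a12635fcbe40d 111)) (.cons 14 (.negSucc (Nat.sub (Nat.shiftLeft 0x2015d7e309e25dd 111) 1)) (.cons 15 (.negSucc (Nat.sub (Nat.shiftLeft 0xe8903bd4da73f 113) 1)) (.cons 16 (.ofNat (Nat.shiftLeft 0x972397b0ae1f 111)) (.cons 17 (.ofNat (Nat.shiftLeft 0x187d25ac644d43 112)) (.cons 18 (.negSucc (Nat.sub (Nat.shiftLeft 0x56f69a20a7db1 111) 1)) .nil)))))),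
    .cons 12 (.ofNat (Nat.shiftLeft 0x5a71b6512759e8a334b 93)) (.cons 13 (.ofNat (Nat.shiftLeft 0x23977624f7c1ef99fc25 93)) (.cons 14 (.ofNat (Nat.shiftLeft 0x394ffc2a1b1cfd7c88b 93)) (.cons 15 (.negSucc (Nat.sub (Nat.shiftLeft 0x15efca0d0fa632712c7 95) 1)) (.cons 16 (.ofNat (Nat.shiftLeft 0x3671e7e4677641c12a7 93)) (.cons 17 (.negSucc (Nat.sub (Nat.shiftLeft 0x5659ea27faac028d55 94) 1)) (.cons 18 (.negSucc (Nat.sub (Nat.shiftLeft 0xc7c8764edb5c0cc2a9 93) 1)) .nil)))))),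
    .cons 12 (.negSucc (Nat.sub (Nat.shiftLeft 0x98a6acbc07f306e8095be213 74) 1)) (.cons 13 (.ofNat (Nat.shiftLeft 0x5c92b16c31cbede130ab5423 74)) (.cons 14 (.negSucc (Nat.sub (Nat.shiftLeft 0x9d002cc3df43bf964a298553 74) 1)) (.cons 15 (.negSucc (Nat.sub (Nat.shiftLeft 0xaee7b522e6bb2cd83ea07d1 76) 1)) (.cons 16 (.ofNat (Nat.shiftLeft 0xaa108014f5404849f1df2f1 74)) (.cons 17 (.ofNat (Nat.shiftLeft 0xfa46f97c6f5c5f6abb7758d 75)) (.cons 18 (.ofNat (Nat.shiftLeft 0x1e02f8f4928983575a954bc1 74)) .nil)))))),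
    .cons 12 (.negSucc (Nat.sub (Nat.shiftLeft 0x18c4eba49322ad52046defac581 61) 1)) (.cons 13 (.ofNat (Nat.shiftLeft 0x1bdc80d3ef60c9eed43f996d9531 61)) (.cons 14 (.ofNat (Nat.shiftLeft 0x26f368a8cb8c307b4ca5b0dc62bf 61)) (.cons 15 (.negSucc (Nat.sub (Nat.shiftLeft 0xd5ac623ef0844de2eef650878b 63) 1)) (.cons 16 (.ofNat (Nat.shiftLeft 0x228c3a6df681b90787e05c563eb 61)) (.cons 17 (.negSucc (Nat.sub (Nat.shiftLeft 0xb9b004208f9fba9faa8c2937a1 62) 1)) (.cons 18 (.negSucc (Nat.sub (Nat.shiftLeft 0x30c7217cc5c9c2a9e32bcce1625 61) 1)) .nil)))))),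
    .cons 12 (.ofNat (Nat.shiftLeft 0x1ac59d5af11b5dbaaa25bef60a52d35 44)) (.cons 13 (.ofNat (Nat.shiftLeft 0x4d70a4a96ce7289cafb1f96132c0cb5b 44)) (.cons 14 (.negSucc (Nat.sub (Nat.shiftLeft 0x25d43e6b2717ee1affbba6a0ac64880b 44) 1)) (.cons 15 (.negSucc (Nat.sub (Nat.shiftLeft 0x7df25c55518c5e4671ed6a7a5ea47b9 46) 1)) (.cons 16 (.negSucc (Nat.sub (Nat.shiftLeft 0xf8852c1678c9f5818ada41d1b4e827 44) 1)) (.cons 17 (.negSucc (Nat.sub (Nat.shiftLeft 0xb651825e54faf08894bb0a32c1022b 45) 1)) (.cons 18 (.ofNat (Nat.shiftLeft 0x3f1f8074b8141e86a6e8ec3023af529 44)) .nil)))))),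
    .cons 12 (.ofNat (Nat.shiftLeft 0x2f5ced8147bfd3fbc6e655f011c840a73 36)) (.cons 13 (.ofNat (Nat.shiftLeft 0xf21ec8fa155afee3e7afdb8970dc6217d 36)) (.cons 14 (.negSucc (Nat.sub (Nat.shiftLeft 0x2d6077fda4e50bbae88c038511b5a36a4d 36) 1)) (.cons 15 (.ofNat (Nat.shiftLeft 0xce14fe176ebcff2964f8f6a56796fe3f1 38)) (.cons 16 (.negSucc (Nat.sub (Nat.shiftLeft 0x128d7d1c6633bcc85180d1488406df7311 36) 1)) (.cons 17 (.ofNat (Nat.shiftLeft 0x2155ae262ce64fab0ac9b349abace7ed3 37)) (.cons 18 (.ofNat (Nat.shiftLeft 0xcb980215b3bd0301e8ae424bfa6087a1f 36)) .nil)))))),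
    .cons 19 (.ofNat (Nat.shiftLeft 0x2273001 144)) (.cons 20 (.negSucc (Nat.sub (Nat.shiftLeft 0x1286a99 142) 1)) (.cons 21 (.ofNat (Nat.shiftLeft 0x3d3e39 142)) (.cons 22 (.negSucc (Nat.sub (Nat.shiftLeft 0x4af625 142) 1)) .nil))),
    .cons 19 (.ofNat (Nat.shiftLeft 0x9362f04d13 131)) (.cons 20 (.negSucc (Nat.sub (Nat.shiftLeft 0x10bf4f1de5b 129) 1)) (.cons 21 (.negSucc (Nat.sub (Nat.shiftLeft 0x2a1ae54cc5 129) 1)) (.cons 22 (.negSucc (Nat.sub (Nat.shiftLeft 0x31991c95bf 129) 1)) .nil))),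
    .cons 19 (.ofNat (Nat.shiftLeft 0xad53ecbe984f0dd 111)) (.cons 20 (.ofNat (Nat.shiftLeft 0x1d6771299f79eb 109)) (.cons 21 (.negSucc (Nat.sub (Nat.shiftLeft 0x51fe5d47ad4c8cb 109) 1)) (.cons 22 (.ofNat (Nat.shiftLeft 0x2999a3a56c7020f 109)) .nil))),
    .cons 19 (.ofNat (Nat.shiftLeft 0xf7fdf3ab46b07a491 101)) (.cons 20 (.negSucc (Nat.sub (Nat.shiftLeft 0x42ce77fa33a6beb4a9 99) 1)) (.cons 21 (.ofNat (Nat.shiftLeft 0xc24211d17478f1249 99)) (.cons 22 (.ofNat (Nat.shiftLeft 0xd9b1ff54950f8d10b 99)) .nil))),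
    .cons 23 (.ofNat (Nat.shiftLeft 0xef 160)) .nil],
   [.nil,
    .cons 0 (.ofNat (Nat.shiftLeft 0x10493d 145)) .nil,
    .cons 0 (.negSucc (Nat.sub (Nat.shiftLeft 0x2adfcf9764f3 122) 1)) .nil,
    .cons 0 (.ofNat (Nat.shiftLeft 0x7a9da0079c079b1 106)) .nil,
    .cons 0 (.ofNat (Nat.shiftLeft 0x220c6fae9a93e9bebd 98)) .nil,
    .cons 1 (.ofNat (Nat.shiftLeft 0xe5702ddf 136)) (.cons 2 (.negSucc (Nat.sub (Nat.shiftLeft 0x6214d43 136) 1)) (.cons 3 (.ofNat (Nat.shiftLeft 0x3d179 139)) (.cons 4 (.ofNat (Nat.shiftLeft 0x3d179 139)) .nil))),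
    .cons 1 (.ofNat (Nat.shiftLeft 0x3e6f451bed5fc9a3 107)) (.cons 2 (.ofNat (Nat.shiftLeft 0x87e524cf7ba3989 107)) (.cons 3 (.ofNat (Nat.shiftLeft 0x2418b4f9ca9a55 110)) (.cons 4 (.negSucc (Nat.sub (Nat.shiftLeft 0x609664063565ab 110) 1)) .nil))),
    .cons 1 (.ofNat (Nat.shiftLeft 0x15e6ece9bc243f48e4537d 86)) (.cons 2 (.ofNat (Nat.shiftLeft 0x3920fc37ccd9ddf94d9d7 86)) (.cons 3 (.ofNat (Nat.shiftLeft 0x2fcaa4a312b42f6ac58b 89)) (.cons 4 (.ofNat (Nat.shiftLeft 0x2906d2d4986d2f6ac58b 89)) .nil))),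
    .cons 1 (.ofNat (Nat.shiftLeft 0x3d08f5feddc0f99b2ce6b14721 68)) (.cons 2 (.ofNat (Nat.shiftLeft 0x1deada44a4428ed0175cce0c43 68)) (.cons 3 (.ofNat (Nat.shiftLeft 0x11c7a24136c67e0c6b6468187 71)) (.cons 4 (.negSucc (Nat.sub (Nat.shiftLeft 0x593a34ea04854eac49b97e79 71) 1)) .nil))),
    .cons 1 (.negSucc (Nat.sub (Nat.shiftLeft 0xf9ba410f35cf2c22bde063b88d6743 49) 1)) (.cons 2 (.ofNat (Nat.shiftLeft 0xadad3135533aaebb0b6ebd678cc197 49)) (.cons 3 (.negSucc (Nat.sub (Nat.shiftLeft 0x35c120112925e94bff69bee304db5 52) 1)) (.cons 4 (.negSucc (Nat.sub (Nat.shiftLeft 0x75218c1f4fa28c09f94a2ee304db5 52) 1)) .nil))),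
    .cons 1 (.negSucc (Nat.sub (Nat.shiftLeft 0xb25ada881e15722d85599e8e6bc3de49b 38) 1)) (.cons 2 (.negSucc (Nat.sub (Nat.shiftLeft 0x19c2a112de2e6687fa70ac93eded45371 38) 1)) (.cons 3 (.negSucc (Nat.sub (Nat.shiftLeft 0x4501a31ba3fc5c1dd4baf346cd015a1d 41) 1)) (.cons 4 (.ofNat (Nat.shiftLeft 0x321566cab2caf243c03e7c3a32fea5e3 41)) .nil))),
    .cons 1 (.ofNat (Nat.shiftLeft 0x419b89a5131f756dcb8cf6ad34c9bdce24b3 26)) (.cons 2 (.negSucc (Nat.sub (Nat.shiftLeft 0x1035b50e2794986f80d67daba41632b616747 26) 1)) (.cons 3 (.negSucc (Nat.sub (Nat.shiftLeft 0x7933e07ffab17c9991d18bd2627caf34e3b 29) 1)) (.cons 4 (.negSucc (Nat.sub (Nat.shiftLeft 0x6ee6e8d8932855fa5b3ffe91770caf34e3b 29) 1)) .nil))),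
    .cons 5 (.ofNat (Nat.shiftLeft 0x64c387001 136)) (.cons 6 (.ofNat (Nat.shiftLeft 0x8db8f285 136)) (.cons 7 (.negSucc (Nat.sub (Nat.shiftLeft 0x40fd6ed 137) 1)) (.cons 8 (.ofNat (Nat.shiftLeft 0x3bca703 136)) (.cons 9 (.ofNat (Nat.shiftLeft 0x1a77f9 136)) (.cons 10 (.ofNat (Nat.shiftLeft 0x3c7ff 138)) (.cons 11 (.negSucc (Nat.sub (Nat.shiftLeft 0x12e7fb 136) 1)) .nil)))))),
    .cons 5 (.negSucc (Nat.sub (Nat.shiftLeft 0x8d669ce683ef543 111) 1)) (.cons 6 (.negSucc (Nat.sub (Nat.shiftLeft 0x4581b09aca431cf 111) 1)) (.cons 7 (.negSucc (Nat.sub (Nat.shiftLeft 0xb672f92fbefef9 112) 1)) (.cons 8 (.ofNat (Nat.shiftLeft 0x939e2b5f205b37 111)) (.cons 9 (.ofNat (Nat.shiftLeft 0x74915b6be1cd5 111)) (.cons 10 (.ofNat (Nat.shiftLeft 0xa08f8ac644d43 113)) (.cons 11 (.negSucc (Nat.sub (Nat.shiftLeft 0x267765df5824f 111) 1)) .nil)))))),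
    .cons 5 (.ofNat (Nat.shiftLeft 0x892fbb9c72d05992555 93)) (.cons 6 (.negSucc (Nat.sub (Nat.shiftLeft 0x18d5a43d60eb03a730d7 93) 1)) (.cons 7 (.negSucc (Nat.sub (Nat.shiftLeft 0x21bc9cd2fb239422db1 94) 1)) (.cons 8 (.ofNat (Nat.shiftLeft 0x3c84b3745b4017a52ff 93)) (.cons 9 (.negSucc (Nat.sub (Nat.shiftLeft 0x2219894f03cb411dd53 93) 1)) (.cons 10 (.negSucc (Nat.sub (Nat.shiftLeft 0x435dc9833fac028d55 95) 1)) (.cons 11 (.ofNat (Nat.shiftLeft 0x14bf57afefb5c0cc2a9 93)) .nil)))))),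
    .cons 5 (.ofNat (Nat.shiftLeft 0x7525f8cd5e62681b08c5b273 74)) (.cons 6 (.negSucc (Nat.sub (Nat.shiftLeft 0x126422545a3e742bbfadd2441 74) 1)) (.cons 7 (.negSucc (Nat.sub (Nat.shiftLeft 0x37c54fa382e1096976134677 75) 1)) (.cons 8 (.ofNat (Nat.shiftLeft 0x81ba27b4e0b3e5d7b44f2c59 74)) (.cons 9 (.negSucc (Nat.sub (Nat.shiftLeft 0x1db5a0cd3f16ae2f4dfbc925 74) 1)) (.cons 10 (.ofNat (Nat.shiftLeft 0x24170a8b06263f3abb7758d 76)) (.cons 11 (.ofNat (Nat.shiftLeft 0x145a7ca3f2a46188a56ab43f 74)) .nil)))))),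
    .cons 5 (.ofNat (Nat.shiftLeft 0x13269eea82d45a6a05ab1d06fa1 61)) (.cons 6 (.negSucc (Nat.sub (Nat.shiftLeft 0x6549e5394c812d57d194cd7ff5b 61) 1)) (.cons 7 (.ofNat (Nat.shiftLeft 0xdd7575d4c11a61e51ff9046c1f3 62)) (.cons 8 (.negSucc (Nat.sub (Nat.shiftLeft 0xd438c9ad7468de6a6dc84bbfa1d 61) 1)) (.cons 9 (.negSucc (Nat.sub (Nat.shiftLeft 0x32792a9ae1c5b1d02c3d5208567 61) 1)) (.cons 10 (.negSucc (Nat.sub (Nat.shiftLeft 0x11ad62f73f6654f1b7b8c2937a1 63) 1)) (.cons 11 (.negSucc (Nat.sub (Nat.shiftLeft 0x208af631d13c2514e2d4331e9db 61) 1)) .nil)))))),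
    .cons 5 (.negSucc (Nat.sub (Nat.shiftLeft 0x1733f43bc6a8934cb92247b9d7195d5 44) 1)) (.cons 6 (.ofNat (Nat.shiftLeft 0x4d2cded0cf67b48b389e4c61b7f3be57 44)) (.cons 7 (.negSucc (Nat.sub (Nat.shiftLeft 0xf00ace2a17f8aa2f3deb7927aaaabcf 45) 1)) (.cons 8 (.negSucc (Nat.sub (Nat.shiftLeft 0x9d4e648935660c80d5df98428bf247f 44) 1)) (.cons 9 (.ofNat (Nat.shiftLeft 0x994f237438be9ab9cf7881a9cb8f0d3 44)) (.cons 10 (.negSucc (Nat.sub (Nat.shiftLeft 0x1bb579d14f816d5e1f8d74532c1022b 46) 1)) (.cons 11 (.ofNat (Nat.shiftLeft 0x2bb324505ed62558cbef11cfdc50ad7 44)) .nil)))))),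
    .cons 5 (.ofNat (Nat.shiftLeft 0x3bf7fb4652f48483c0d75487e14bf592d 36)) (.cons 6 (.negSucc (Nat.sub (Nat.shiftLeft 0x831dd9f2cd03e4785eb33cf566674919f 36) 1)) (.cons 7 (.ofNat (Nat.shiftLeft 0x1f73e7d10b0c2c9c179fedab18542dc357 37)) (.cons 8 (.negSucc (Nat.sub (Nat.shiftLeft 0x24c76043b0f05f2578bb2a862561eca979 36) 1)) (.cons 9 (.ofNat (Nat.shiftLeft 0xa9288a0418d36550a6829e1e91ba577c5 36)) (.cons 10 (.ofNat (Nat.shiftLeft 0x17480819040862f7a55329cfdbace7ed3 38)) (.cons 11 (.negSucc (Nat.sub (Nat.shiftLeft 0x10f131a79912fe5beab1b0659fa6087a1f 36) 1)) .nil)))))),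
    .cons 12 (.ofNat (Nat.shiftLeft 0x1d73a069 142)) (.cons 13 (.negSucc (Nat.sub (Nat.shiftLeft 0x3c0c7f5 143) 1)) (.cons 14 (.negSucc (Nat.sub (Nat.shiftLeft 0x26bc79d 143) 1)) (.cons 15 (.ofNat (Nat.shiftLeft 0xeba9cd 142)) (.cons 16 (.ofNat (Nat.shiftLeft 0x27af7d 142)) (.cons 17 (.negSucc (Nat.sub (Nat.shiftLeft 0x2b9ae5 142) 1)) (.cons 18 (.negSucc (Nat.sub (Nat.shiftLeft 0x94f17 142) 1)) .nil)))))),
    .cons 12 (.negSucc (Nat.sub (Nat.shiftLeft 0x181340e9335 129) 1)) (.cons 13 (.negSucc (Nat.sub (Nat.shiftLeft 0xfe6571b82f 130) 1)) (.cons 14 (.negSucc (Nat.sub (Nat.shiftLeft 0xc38579b9a7 130) 1)) (.cons 15 (.ofNat (Nat.shiftLeft 0xe053c4f337 129)) (.cons 16 (.negSucc (Nat.sub (Nat.shiftLeft 0x30cbc3b0b9 129) 1)) (.cons 17 (.negSucc (Nat.sub (Nat.shiftLeft 0xd5eaa8fff 129) 1)) (.cons 18 (.ofNat (Nat.shiftLeft 0x47835a264b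 129)) .nil)))))),
    .cons 12 (.negSucc (Nat.sub (Nat.shiftLeft 0x1fc5e70cbca055b 109) 1)) (.cons 13 (.ofNat (Nat.shiftLeft 0x672e7d3ef28e17f 110)) (.cons 14 (.ofNat (Nat.shiftLeft 0x14d3e98978b62d77 110)) (.cons 15 (.negSucc (Nat.sub (Nat.shiftLeft 0xf9940d660b7ea07 109) 1)) (.cons 16 (.negSucc (Nat.sub (Nat.shiftLeft 0x235b7f8220f0117 109) 1)) (.cons 17 (.ofNat (Nat.shiftLeft 0x3aecfc64c78c84f 109)) (.cons 18 (.negSucc (Nat.sub (Nat.shiftLeft 0x39ee0c5f964c6db 109) 1)) .nil)))))),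
    .cons 12 (.ofNat (Nat.shiftLeft 0x7109e0f661eca6f79 99)) (.cons 13 (.ofNat (Nat.shiftLeft 0x6087f8ec09331aba3b 100)) (.cons 14 (.negSucc (Nat.sub (Nat.shiftLeft 0x42e200cc2edfe033ed 100) 1)) (.cons 15 (.negSucc (Nat.sub (Nat.shiftLeft 0x1b27538df761c2eee3 99) 1)) (.cons 16 (.ofNat (Nat.shiftLeft 0xe7b8f6d9a454009cd 99)) (.cons 17 (.ofNat (Nat.shiftLeft 0xfda5e658c8954804b 99)) (.cons 18 (.ofNat (Nat.shiftLeft 0xca65b0f4eec00c7f9 99)) .nil)))))),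
    .cons 19 (.ofNat (Nat.shiftLeft 0xf0b 159)) (.cons 20 (.negSucc (Nat.sub (Nat.shiftLeft 0x501 159) 1)) (.cons 21 (.negSucc (Nat.sub (Nat.shiftLeft 0x1d 159) 1)) (.cons 22 (.negSucc (Nat.sub (Nat.shiftLeft 0x115 159) 1)) .nil)))]⟩

noncomputable def A15 : Tn :=
  ⟨[.cons 1 (.ofNat (Nat.shiftLeft 0xf0d 159)) (.cons 2 (.negSucc (Nat.sub (Nat.shiftLeft 0x4fd 159) 1)) (.cons 3 (.ofNat (Nat.shiftLeft 0x39 159)) (.cons 4 (.ofNat (Nat.shiftLeft 0x115 159)) .nil))),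
    .cons 5 (.ofNat (Nat.shiftLeft 0x75d26d1 144)) (.cons 6 (.ofNat (Nat.shiftLeft 0xee5d8b 145)) (.cons 7 (.ofNat (Nat.shiftLeft 0x1375e91 144)) (.cons 8 (.ofNat (Nat.shiftLeft 0x3c0523 144)) (.cons 9 (.negSucc (Nat.sub (Nat.shiftLeft 0x11e22f 143) 1)) (.cons 10 (.negSucc (Nat.sub (Nat.shiftLeft 0xbc25 148) 1)) (.cons 11 (.ofNat (Nat.shiftLeft 0x52503 143)) .nil)))))),
    .cons 5 (.negSucc (Nat.sub (Nat.shiftLeft 0x604f753c5067 123) 1)) (.cons 6 (.ofNat (Nat.shiftLeft 0x3f614ebf56a3 124)) (.cons 7 (.ofNat (Nat.shiftLeft 0x6129243e1559 123)) (.cons 8 (.ofNat (Nat.shiftLeft 0x37e421b2f0fb 123)) (.cons 9 (.ofNat (Nat.shiftLeft 0x1778faec1e99 122)) (.cons 10 (.negSucc (Nat.sub (Nat.shiftLeft 0x3534979c8d 127) 1)) (.cons 11 (.negSucc (Nat.sub (Nat.shiftLeft 0x24423fdab825 122) 1)) .nil)))))),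
    .cons 5 (.ofNat (Nat.shiftLeft 0x419d7c9ad201a0bd 104)) (.cons 6 (.ofNat (Nat.shiftLeft 0x8f0dbf2b22d42b6f 105)) (.cons 7 (.ofNat (Nat.shiftLeft 0x58949ea290c51ed7d 104)) (.cons 8 (.ofNat (Nat.shiftLeft 0x1e66548a9a85df127 104)) (.cons 9 (.negSucc (Nat.sub (Nat.shiftLeft 0x9788166c8e60f443 103) 1)) (.cons 10 (.negSucc (Nat.sub (Nat.shiftLeft 0x77828017bfcf881 108) 1)) (.cons 11 (.negSucc (Nat.sub (Nat.shiftLeft 0xf590d58b0c153479 103) 1)) .nil)))))),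
    .cons 5 (.ofNat (Nat.shiftLeft 0x17d553c320ca631e4db 93)) (.cons 6 (.negSucc (Nat.sub (Nat.shiftLeft 0x189e21ff7ee041eb9067 94) 1)) (.cons 7 (.ofNat (Nat.shiftLeft 0x1df033ffd5d6c536521b 93)) (.cons 8 (.negSucc (Nat.sub (Nat.shiftLeft 0x816c9218ca7e7e86fdf 93) 1)) (.cons 9 (.negSucc (Nat.sub (Nat.shiftLeft 0x79a73a486e752265e25 92) 1)) (.cons 10 (.ofNat (Nat.shiftLeft 0x3f79e37575e4bbcb09 97)) (.cons 11 (.negSucc (Nat.sub (Nat.shiftLeft 0x584c0e7812051228d3f 92) 1)) .nil)))))),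
    .cons 12 (.ofNat (Nat.shiftLeft 0x65283ef9 140)) (.cons 13 (.negSucc (Nat.sub (Nat.shiftLeft 0x119a6017 139) 1)) (.cons 14 (.ofNat (Nat.shiftLeft 0x203a2d5 138)) (.cons 15 (.ofNat (Nat.shiftLeft 0x78284b 139)) (.cons 16 (.ofNat (Nat.shiftLeft 0x2d69f 139)) (.cons 17 (.negSucc (Nat.sub (Nat.shiftLeft 0x2d69f 138) 1)) (.cons 18 (.ofNat (Nat.shiftLeft 0x2d69f 139)) .nil)))))),
    .cons 12 (.ofNat (Nat.shiftLeft 0x463a7858b325247 112)) (.cons 13 (.negSucc (Nat.sub (Nat.shiftLeft 0x4534bb4535a82a9 111) 1)) (.cons 14 (.negSucc (Nat.sub (Nat.shiftLeft 0x2decaee7ba62695 110) 1)) (.cons 15 (.negSucc (Nat.sub (Nat.shiftLeft 0x9458d7d1e47c8b 111) 1)) (.cons 16 (.negSucc (Nat.sub (Nat.shiftLeft 0x78a0f920f79df 111) 1)) (.cons 17 (.ofNat (Nat.shiftLeft 0x514577120f79df 110)) (.cons 18 (.negSucc (Nat.sub (Nat.shiftLeft 0x2a3e1920f79df 111)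 1)) .nil)))))),
    .cons 12 (.negSucc (Nat.sub (Nat.shiftLeft 0x44c6ccb6e612ef041f1f 90) 1)) (.cons 13 (.negSucc (Nat.sub (Nat.shiftLeft 0x1903af1a601d8eceac8af 89) 1)) (.cons 14 (.negSucc (Nat.sub (Nat.shiftLeft 0x898f3f88686f9fe10ce3 88) 1)) (.cons 15 (.negSucc (Nat.sub (Nat.shiftLeft 0x3dda72bc8e44dace0afd 89) 1)) (.cons 16 (.ofNat (Nat.shiftLeft 0x219eeab388badc985c77 89)) (.cons 17 (.negSucc (Nat.sub (Nat.shiftLeft 0x21ac2cbc162e5c985c77 88) 1)) (.cons 18 (.ofNat (Nat.shiftLeft 0x1532316c5fdcdc985c77 89)) .nil)))))),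
    .cons 12 (.ofNat (Nat.shiftLeft 0x1d043ff7386a9dd4b7545bec7 72)) (.cons 13 (.ofNat (Nat.shiftLeft 0x91d10264be63dbe2048e261d7 71)) (.cons 14 (.ofNat (Nat.shiftLeft 0x6ffc8e2d445329657767373eb 70)) (.cons 15 (.ofNat (Nat.shiftLeft 0x4193ef4a78c5055c583a578f5 71)) (.cons 16 (.negSucc (Nat.sub (Nat.shiftLeft 0xedb9744cc4b7b0d369bd9a5f 71) 1)) (.cons 17 (.negSucc (Nat.sub (Nat.shiftLeft 0xae25025073463f85164265a1 70) 1)) (.cons 18 (.negSucc (Nat.sub (Nat.shiftLeft 0xb0e77bbdef66c1a569bd9a5f 71) 1)) .nil)))))),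
    .cons 12 (.ofNat (Nat.shiftLeft 0x158f0cf21b666d56b863882a2eb91 53)) (.cons 13 (.ofNat (Nat.shiftLeft 0x132bf14f440b50301bb37cbf58af01 52)) (.cons 14 (.negSucc (Nat.sub (Nat.shiftLeft 0x74e249f6cd4fc03a7346b2d10b38f3 51) 1)) (.cons 15 (.negSucc (Nat.sub (Nat.shiftLeft 0x1a177dc894809445442bdca13648ed 52) 1)) (.cons 16 (.negSucc (Nat.sub (Nat.shiftLeft 0x71949b3a81d48083d9e31cb5e01b9 52) 1)) (.cons 17 (.ofNat (Nat.shiftLeft 0xfc3f567f638acfd5649564b5e01b9 51)) (.cons 18 (.ofNat (Nat.shiftLeft 0x4c5d159b545f583a2005034a1fe47 52)) .nil)))))),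
    .cons 12 (.ofNat (Nat.shiftLeft 0x4c84f844889096653cab09088b24caa5 38)) (.cons 13 (.ofNat (Nat.shiftLeft 0x260e758e181370b05eb9a1c02dbf5536d5 37)) (.cons 14 (.negSucc (Nat.sub (Nat.shiftLeft 0x198a9dd54ce256299ad1e63a142233832f 36) 1)) (.cons 15 (.ofNat (Nat.shiftLeft 0x613290be7c838e2e4d7c6d0780ecfd3cf 37)) (.cons 16 (.negSucc (Nat.sub (Nat.shiftLeft 0x47d9550c128aa1164154204b280a871ed 37) 1)) (.cons 17 (.negSucc (Nat.sub (Nat.shiftLeft 0x80723d3a785299a2127357c6eff578e13 36) 1)) (.cons 18 (.ofNat (Nat.shiftLeft 0x151d128b75d4db7d22cf193777f578e13 37)) .nil)))))),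
    .cons 12 (.negSucc (Nat.sub (Nat.shiftLeft 0x3d5d555c8992e3738748780d689833743a3 28) 1)) (.cons 13 (.negSucc (Nat.sub (Nat.shiftLeft 0xffe349d2e65258a8c74d8c8af860d0db6f3 27) 1)) (.cons 14 (.ofNat (Nat.shiftLeft 0xf99cf8968b3b0c72994e8368ece2900849a9 26)) (.cons 15 (.ofNat (Nat.shiftLeft 0x49a24e26550b65646f3b4ecba19c31c4ddf7 27)) (.cons 16 (.negSucc (Nat.sub (Nat.shiftLeft 0x1551b60aeabc589e9813928e27866fb4cc65 27) 1)) (.cons 17 (.ofNat (Nat.shiftLeft 0x16d951aae6ee8d6af7b9c616e360efb4cc65 26)) (.cons 18 (.negSucc (Nat.sub (Nat.shiftLeft 0x22f377b41b0102ab7c74781d4eec6fb4cc65 27) 1)) .nil)))))),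
    .cons 19 (.ofNat (Nat.shiftLeft 0x1cc810f 143)) (.cons 20 (.negSucc (Nat.sub (Nat.shiftLeft 0x31d79d 141) 1)) (.cons 21 (.negSucc (Nat.sub (Nat.shiftLeft 0x22575 140) 1)) (.cons 22 (.ofNat (Nat.shiftLeft 0x1ab5b 140)) .nil))),
    .cons 19 (.negSucc (Nat.sub (Nat.shiftLeft 0x3dc5790f751d2d3 111) 1)) (.cons 20 (.negSucc (Nat.sub (Nat.shiftLeft 0x21cf0c92af724d7 109) 1)) (.cons 21 (.ofNat (Nat.shiftLeft 0x70fa14ed0061a1 108)) (.cons 22 (.ofNat (Nat.shiftLeft 0x195db609cffb411 108)) .nil))),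
    .cons 19 (.negSucc (Nat.sub (Nat.shiftLeft 0x15e5a799581379eb0fd6a9 86) 1)) (.cons 20 (.negSucc (Nat.sub (Nat.shiftLeft 0xe7d4b19c0758b2cb098f5 84) 1)) (.cons 21 (.ofNat (Nat.shiftLeft 0xcd230c5d49ffede3a89f3 83)) (.cons 22 (.negSucc (Nat.sub (Nat.shiftLeft 0x964624f957910022d87bd 83) 1)) .nil))),
    .cons 19 (.ofNat (Nat.shiftLeft 0x798b0698fcd1b5d40baf0fa639 67)) (.cons 20 (.ofNat (Nat.shiftLeft 0xf07d41c80ff2707c7d69462945 65)) (.cons 21 (.negSucc (Nat.sub (Nat.shiftLeft 0x8cd00736132367c0f50c9d7023 64) 1)) (.cons 22 (.negSucc (Nat.sub (Nat.shiftLeft 0x39a707985699de0ee967f75373 64) 1)) .nil))),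
    .cons 19 (.ofNat (Nat.shiftLeft 0x887c184408fe50d1c2ef512c16aa81 50)) (.cons 20 (.negSucc (Nat.sub (Nat.shiftLeft 0x151a158cb23c2ec9f987625ac366c13 48) 1)) (.cons 21 (.negSucc (Nat.sub (Nat.shiftLeft 0x98eb7a19def3069b9399913382f4bb 47) 1)) (.cons 22 (.ofNat (Nat.shiftLeft 0xd6a7baf26dffead86cca1728108575 47)) .nil))),
    .cons 19 (.negSucc (Nat.sub (Nat.shiftLeft 0x55d81c4edc02d227d0daecbcc9c1a22bf 39) 1)) (.cons 20 (.negSucc (Nat.sub (Nat.shiftLeft 0x3e3d7ba418a864bb313e95000145b9053 37) 1)) (.cons 21 (.ofNat (Nat.shiftLeft 0x828970573093604c09f256a669e5b9905 36)) (.cons 22 (.ofNat (Nat.shiftLeft 0x7608d8ce9c328f63e9b2ec901130e1735 36)) .nil))),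
    .cons 19 (.negSucc (Nat.sub (Nat.shiftLeft 0x84aa0ea6da1a13f1af624f25f0d08e4c873 29) 1)) (.cons 20 (.ofNat (Nat.shiftLeft 0x81fea7bbf35fd194e96799b0141f28126609 27)) (.cons 21 (.negSucc (Nat.sub (Nat.shiftLeft 0x419ea3bd253e1b5f15af3366dbc758ea627f 26) 1)) (.cons 22 (.ofNat (Nat.shiftLeft 0x3393bbd625b0a7e5d95ec6e528ef7e0ba1f1 26)) .nil))),
    .cons 23 (.ofNat (Nat.shiftLeft 0x41def 147)) .nil,
    .cons 23 (.negSucc (Nat.sub (Nat.shiftLeft 0x54b3ba15fb41 121) 1)) .nil,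
    .cons 23 (.negSucc (Nat.sub (Nat.shiftLeft 0x3be5e52db3cda02b 103) 1)) .nil,
    .cons 23 (.negSucc (Nat.sub (Nat.shiftLeft 0x22f43ca6e95657c2b2b 94) 1)) .nil,
    .nil],
   [.cons 0 (.negSucc (Nat.sub (Nat.shiftLeft 0xeb 160) 1)) .nil,
    .cons 1 (.negSucc (Nat.sub (Nat.shiftLeft 0x4511aa9 143) 1)) (.cons 2 (.ofNat (Nat.shiftLeft 0x94b3e9 143)) (.cons 3 (.ofNat (Nat.shiftLeft 0xd7951 144)) (.cons 4 (.negSucc (Nat.sub (Nat.shiftLeft 0xa0b4f 145) 1)) .nil))),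
    .cons 1 (.negSucc (Nat.sub (Nat.shiftLeft 0x12882c3da8831 122) 1)) (.cons 2 (.ofNat (Nat.shiftLeft 0x85a9d67ebb71 122)) (.cons 3 (.negSucc (Nat.sub (Nat.shiftLeft 0xb9f1679c9e7 123) 1)) (.cons 4 (.negSucc (Nat.sub (Nat.shiftLeft 0x5f6e16d5b87 124) 1)) .nil))),
    .cons 1 (.ofNat (Nat.shiftLeft 0xa713482512075b24b 103)) (.cons 2 (.ofNat (Nat.shiftLeft 0x6b19bb5a0445bdf5 103)) (.cons 3 (.ofNat (Nat.shiftLeft 0xa3b32ab94673213d 104)) (.cons 4 (.negSucc (Nat.sub (Nat.shiftLeft 0x2da380d6512beee3 105) 1)) .nil))),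
    .cons 1 (.negSucc (Nat.sub (Nat.shiftLeft 0x260e69467d410cf5c423 92) 1)) (.cons 2 (.ofNat (Nat.shiftLeft 0x20bb21943bbf079331e3 92)) (.cons 3 (.ofNat (Nat.shiftLeft 0x2d628b12f180e8d205b 93)) (.cons 4 (.ofNat (Nat.shiftLeft 0x1b09ff12f917e06817b 94)) .nil))),
    .cons 5 (.negSucc (Nat.sub (Nat.shiftLeft 0x12e42860d 138) 1)) (.cons 6 (.negSucc (Nat.sub (Nat.shiftLeft 0x309a70ab 138) 1)) (.cons 7 (.ofNat (Nat.shiftLeft 0x179809b 138)) (.cons 8 (.ofNat (Nat.shiftLeft 0xa1c967 139)) (.cons 9 (.negSucc (Nat.sub (Nat.shiftLeft 0xf235 141) 1)) (.cons 10 (.negSucc (Nat.sub (Nat.shiftLeft 0xf235 139) 1)) (.cons 11 (.ofNat (Nat.shiftLeft 0x4bb09 138)) .nil)))))),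
    .cons 5 (.ofNat (Nat.shiftLeft 0x17a78f35f0b9d3cd 110)) (.cons 6 (.negSucc (Nat.sub (Nat.shiftLeft 0x2dca54212537315 110) 1)) (.cons 7 (.ofNat (Nat.shiftLeft 0x406a9309df5af25 110)) (.cons 8 (.negSucc (Nat.sub (Nat.shiftLeft 0x386cf9857222a7 111) 1)) (.cons 9 (.negSucc (Nat.sub (Nat.shiftLeft 0xe01ee4a5820b 113) 1)) (.cons 10 (.ofNat (Nat.shiftLeft 0x3137dddb5a7df5 111)) (.cons 11 (.ofNat (Nat.shiftLeft 0xa60f9373b8a37 110)) .nil)))))),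
    .cons 5 (.ofNat (Nat.shiftLeft 0xb20e05792f3bcaec00eb 88)) (.cons 6 (.negSucc (Nat.sub (Nat.shiftLeft 0x47430709fc7553cfcac63 88) 1)) (.cons 7 (.negSucc (Nat.sub (Nat.shiftLeft 0x6efa51f25f3ee4d7f62d 88) 1)) (.cons 8 (.negSucc (Nat.sub (Nat.shiftLeft 0x58250a9b5212e2136981 89) 1)) (.cons 9 (.negSucc (Nat.sub (Nat.shiftLeft 0xd433b487e1c3432c97d 91) 1)) (.cons 10 (.negSucc (Nat.sub (Nat.shiftLeft 0xd198af34cc6f432c97d 89) 1)) (.cons 11 (.ofNat (Nat.shiftLeft 0x1bb8f44017b044fdef71 88)) .nil)))))),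
    .cons 5 (.ofNat (Nat.shiftLeft 0x99b6790491247dfe6e9fe1d4d 70)) (.cons 6 (.ofNat (Nat.shiftLeft 0x5b9cfecf1e8d8660a2bb4676b 70)) (.cons 7 (.negSucc (Nat.sub (Nat.shiftLeft 0x9e6a256c29cf7164e6f81335b 70) 1)) (.cons 8 (.ofNat (Nat.shiftLeft 0x163debe43d830d26b74c8a0d9 71)) (.cons 9 (.ofNat (Nat.shiftLeft 0x1afc4cefcb3a9582633f3375 73)) (.cons 10 (.negSucc (Nat.sub (Nat.shiftLeft 0xf550802ef669dce0dcc0cc8b 71) 1)) (.cons 11 (.ofNat (Nat.shiftLeft 0x1e31d2623ee5e3972cfc3feb7 70)) .nil)))))),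
    .cons 5 (.ofNat (Nat.shiftLeft 0x6c63bd3e383f7e4c6f5564131727b 51)) (.cons 6 (.ofNat (Nat.shiftLeft 0x6377d715d9e98a8daa942ae6137f8d 51)) (.cons 7 (.ofNat (Nat.shiftLeft 0x9f255206cec59fba7d2665d8291ae3 51)) (.cons 8 (.ofNat (Nat.shiftLeft 0x392523846f5430ca45b9bb8119dcf 52)) (.cons 9 (.ofNat (Nat.shiftLeft 0x10debfa811e863d559a4c03ca0093 54)) (.cons 10 (.ofNat (Nat.shiftLeft 0x324fd6c897b649d8a823d43ca0093 52)) (.cons 11 (.negSucc (Nat.sub (Nat.shiftLeft 0xda9cd3732e255a553ae1cd2f202df 51) 1)) .nil)))))),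
    .cons 5 (.ofNat (Nat.shiftLeft 0x159cdcd0167dbe5577963e95cbc86b957 36)) (.cons 6 (.negSucc (Nat.sub (Nat.shiftLeft 0x5163917c096864a3829018520410ee80af 36) 1)) (.cons 7 (.ofNat (Nat.shiftLeft 0x1f6bc06a5802338959a8d9cfc1a87ccfdf 36)) (.cons 8 (.negSucc (Nat.sub (Nat.shiftLeft 0x1033fd61a114bed6e6fa578da4a5815dc5 37) 1)) (.cons 9 (.ofNat (Nat.shiftLeft 0x1f6df39d223bc16cb307a740958d7b4f 39)) (.cons 10 (.negSucc (Nat.sub (Nat.shiftLeft 0x11f79538c7cbc7b030fa8cb452a7284b1 37) 1)) (.cons 11 (.negSucc (Nat.sub (Nat.shiftLeft 0x3089275649e1436e29da71042abc3688b 36) 1)) .nil)))))),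
    .cons 5 (.ofNat (Nat.shiftLeft 0xb1363f9546c0870fb014065dd2cdd0cd23f 26)) (.cons 6 (.negSucc (Nat.sub (Nat.shiftLeft 0x3b815bc9daf23371b8876490de69026557d7 26) 1)) (.cons 7 (.ofNat (Nat.shiftLeft 0xbd4d7da4b1c8aa5a3766e000a3a27711cf87 26)) (.cons 8 (.ofNat (Nat.shiftLeft 0x670f3df167392f0eef72e389ac1b20be7d83 27)) (.cons 9 (.ofNat (Nat.shiftLeft 0x8c1b2f9af50a16142187518ccb13a919977 29)) (.cons 10 (.ofNat (Nat.shiftLeft 0x9da4049b2311feabb9eb8a773717a919977 27)) (.cons 11 (.negSucc (Nat.sub (Nat.shiftLeft 0x336357b3007aa2405469bbe4f61fe4d7ff53 26) 1)) .nil)))))),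
    .cons 12 (.negSucc (Nat.sub (Nat.shiftLeft 0x8cfc757 143) 1)) (.cons 13 (.negSucc (Nat.sub (Nat.shiftLeft 0xb664669 140) 1)) (.cons 14 (.negSucc (Nat.sub (Nat.shiftLeft 0x28c7af 141) 1)) (.cons 15 (.ofNat (Nat.shiftLeft 0x4c1333 140)) (.cons 16 (.ofNat (Nat.shiftLeft 0x3d0d 143)) (.cons 17 (.negSucc (Nat.sub (Nat.shiftLeft 0x3d0d 142) 1)) (.cons 18 (.negSucc (Nat.sub (Nat.shiftLeft 0x3d0d 142) 1)) .nil)))))),
    .cons 12 (.ofNat (Nat.shiftLeft 0xc2eb00b0090cffb 111)) (.cons 13 (.negSucc (Nat.sub (Nat.shiftLeft 0xb7cddc93cf9793b 108) 1)) (.cons 14 (.negSucc (Nat.sub (Nat.shiftLeft 0x849b72668f8c10d 109) 1)) (.cons 15 (.negSucc (Nat.sub (Nat.shiftLeft 0x17fcdef7b0d8467 108) 1)) (.cons 16 (.negSucc (Nat.sub (Nat.shiftLeft 0x1f82d9c5000ad9 111) 1)) (.cons 17 (.negSucc (Nat.sub (Nat.shiftLeft 0x50d9bf3afff527 110) 1)) (.cons 18 (.negSucc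 (Nat.sub (Nat.shiftLeft 0x9dc093afff527 110) 1)) .nil)))))),
    .cons 12 (.negSucc (Nat.sub (Nat.shiftLeft 0x34a4b41b3381fa5aba75f 86) 1)) (.cons 13 (.ofNat (Nat.shiftLeft 0x8ebe37df8d010a4ce9579f 83)) (.cons 14 (.negSucc (Nat.sub (Nat.shiftLeft 0x6fbb0b6129b7181a7c2f7 84) 1)) (.cons 15 (.ofNat (Nat.shiftLeft 0x1648abee722151e5e51f5b 83)) (.cons 16 (.negSucc (Nat.sub (Nat.shiftLeft 0x184bfcaa552c46e06811b 86) 1)) (.cons 17 (.ofNat (Nat.shiftLeft 0x1591d285d80696e06811b 85)) (.cons 18 (.ofNat (Nat.shiftLeft 0xfb848fbb66eb6e06811b 85)) .nil)))))),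
    .cons 12 (.ofNat (Nat.shiftLeft 0x4fffe12adae5256f0f35a4a04f 67)) (.cons 13 (.ofNat (Nat.shiftLeft 0x1ca212ab43de42ea546aa7b6b71 64)) (.cons 14 (.ofNat (Nat.shiftLeft 0x1471804b55872834aec1050ad67 65)) (.cons 15 (.ofNat (Nat.shiftLeft 0xb2cebd82ed9965d9b5a2afdbf5 64)) (.cons 16 (.ofNat (Nat.shiftLeft 0x402c17993a926950c3a4a61cb 67)) (.cons 17 (.ofNat (Nat.shiftLeft 0x20ce709d14eebe71fec5b59e35 66)) (.cons 18 (.negSucc (Nat.sub (Nat.shiftLeft 0x1eb7dc2ad45f1916a33a4a61cb 66) 1)) .nil)))))),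
    .cons 12 (.ofNat (Nat.shiftLeft 0x11438ecee8949e4f36f7cb855d4447 50)) (.cons 13 (.negSucc (Nat.sub (Nat.shiftLeft 0x257188a64c023f7a14907e96887a87 47) 1)) (.cons 14 (.negSucc (Nat.sub (Nat.shiftLeft 0x56b1c7d6836e1711b1129cad2b829e1 48) 1)) (.cons 15 (.negSucc (Nat.sub (Nat.shiftLeft 0x14132061b10c85e1cb6b9f9de33abe3 47) 1)) (.cons 16 (.negSucc (Nat.sub (Nat.shiftLeft 0x117c011ae760ca7c8f65bdfa46c85d 50) 1)) (.cons 17 (.ofNat (Nat.shiftLeft 0x799a63955b3769ae28ca0fa46c85d 49)) (.cons 18 (.ofNat (Nat.shiftLeft 0x3d84b1be9f03732fe1e1eefa46c85d 49)) .nil)))))),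
    .cons 12 (.negSucc (Nat.sub (Nat.shiftLeft 0x18c3b5408adcf92d69279a49ddf2c879 39) 1)) (.cons 13 (.negSucc (Nat.sub (Nat.shiftLeft 0x5da01ac70cfedece66514a274643819dc7 36) 1)) (.cons 14 (.ofNat (Nat.shiftLeft 0x94c50802591a8e80f0f85d699c0cc5b5f 37)) (.cons 15 (.negSucc (Nat.sub (Nat.shiftLeft 0x1dd3bceb92b904b8ef81e8309f09594c23 36) 1)) (.cons 16 (.ofNat (Nat.shiftLeft 0x621218ebde5a192715c19691274b27e3 39)) (.cons 17 (.ofNat (Nat.shiftLeft 0x6bac738b4ea5f99766b97091d8b4d81d 38)) (.cons 18 (.negSucc (Nat.sub (Nat.shiftLeft 0x8a1f2cab490ffa0fd03843a0274b27e3 38) 1)) .nil)))))),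
    .cons 12 (.negSucc (Nat.sub (Nat.shiftLeft 0x1b84ea61cf31d8b181b87a6f3880a425f65 29) 1)) (.cons 13 (.ofNat (Nat.shiftLeft 0x3f0852e62e79480ddde1de13a4f76b22de25 26)) (.cons 14 (.ofNat (Nat.shiftLeft 0x4e94b0e76574ef7170628d8f8000669ab093 27)) (.cons 15 (.negSucc (Nat.sub (Nat.shiftLeft 0xd0c21da1fbe063a95f34cb97bb3722370787 26) 1)) (.cons 16 (.ofNat (Nat.shiftLeft 0x78a8e92113820220dbb9445352ced6f6047 29)) (.cons 17 (.negSucc (Nat.sub (Nat.shiftLeft 0x7482a6b14aa71d98ac72b3feea5ed6f6047 28) 1)) (.cons 18 (.negSucc (Nat.sub (Nat.shiftLeft 0xc78ad4bc092ee66f68f050707afed6f6047 28) 1)) .nil)))))),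
    .cons 19 (.negSucc (Nat.sub (Nat.shiftLeft 0x4838e5 147) 1)) (.cons 20 (.negSucc (Nat.sub (Nat.shiftLeft 0x9f699 147) 1)) (.cons 21 (.negSucc (Nat.sub (Nat.shiftLeft 0x61f3 150) 1)) (.cons 22 (.negSucc (Nat.sub (Nat.shiftLeft 0x814b 148) 1)) .nil))),
    .cons 19 (.ofNat (Nat.shiftLeft 0x25ac5928a2e2b 121)) (.cons 20 (.ofNat (Nat.shiftLeft 0x11ed228e266b7 121)) (.cons 21 (.negSucc (Nat.sub (Nat.shiftLeft 0x4d5c446183 124) 1)) (.cons 22 (.ofNat (Nat.shiftLeft 0x220ea25e0ea5 122)) .nil))),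
    .cons 19 (.negSucc (Nat.sub (Nat.shiftLeft 0x61159f14594c68007 103) 1)) (.cons 20 (.ofNat (Nat.shiftLeft 0x29a805f17c1a6727d 103)) (.cons 21 (.ofNat (Nat.shiftLeft 0x25542f938df96a3f 106)) (.cons 22 (.negSucc (Nat.sub (Nat.shiftLeft 0x56f3de5c7f795509 104) 1)) .nil))),
    .cons 19 (.ofNat (Nat.shiftLeft 0x12e7e630db0de27b98f9 94)) (.cons 20 (.ofNat (Nat.shiftLeft 0x61a1d6e5bf1a2178f7d 94)) (.cons 21 (.negSucc (Nat.sub (Nat.shiftLeft 0x32cca8a13d192f76c1 97) 1)) (.cons 22 (.negSucc (Nat.sub (Nat.shiftLeft 0xc97691819651e27e09 95) 1)) .nil))),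
    .cons 23 (.negSucc (Nat.sub (Nat.shiftLeft 0x1d3 159) 1)) .nil],
   [.nil,
    .cons 0 (.ofNat (Nat.shiftLeft 0x2017a5 144)) .nil,
    .cons 0 (.ofNat (Nat.shiftLeft 0x14ab0331b40d 123)) .nil,
    .cons 0 (.negSucc (Nat.sub (Nat.shiftLeft 0x390506ab4f2ef1ff 104) 1)) .nil,
    .cons 0 (.ofNat (Nat.shiftLeft 0x48e0de575011bf7b377 93)) .nil,
    .cons 1 (.ofNat (Nat.shiftLeft 0x3ab33e47 138)) (.cons 2 (.ofNat (Nat.shiftLeft 0x184db17 138)) (.cons 3 (.ofNat (Nat.shiftLeft 0x2d69f 140)) .nil)),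
    .cons 1 (.negSucc (Nat.sub (Nat.shiftLeft 0x6c705e2d764bf87 110) 1)) (.cons 2 (.ofNat (Nat.shiftLeft 0xe756bc55b7c7a9 110)) (.cons 3 (.ofNat (Nat.shiftLeft 0xd86e96df08621 112)) (.cons 4 (.ofNat (Nat.shiftLeft 0x6373d9 142)) .nil))),
    .cons 1 (.ofNat (Nat.shiftLeft 0x57fd6d045a7af4afaee5f 88)) (.cons 2 (.negSucc (Nat.sub (Nat.shiftLeft 0xdd8096802c2d72768451 88) 1)) (.cons 3 (.ofNat (Nat.shiftLeft 0x20d0bc67f299dc985c77 90)) (.cons 4 (.negSucc (Nat.sub (Nat.shiftLeft 0x7bfc2be2401 120) 1)) .nil))),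
    .cons 1 (.ofNat (Nat.shiftLeft 0xf206c683528dd5425add273f9 70)) (.cons 2 (.negSucc (Nat.sub (Nat.shiftLeft 0x6a0a621d5727888d216779cd7 70) 1)) (.cons 3 (.ofNat (Nat.shiftLeft 0x43c69b5a222453a5964265a1 72)) (.cons 4 (.negSucc (Nat.sub (Nat.shiftLeft 0x21f260835c41508a7 102) 1)) .nil))),
    .cons 1 (.ofNat (Nat.shiftLeft 0x673daa69d74b0ff84153e9aa2e5faf 51)) (.cons 2 (.ofNat (Nat.shiftLeft 0x14cf900048e85e416277e4aab113ff 51)) (.cons 3 (.ofNat (Nat.shiftLeft 0x4c3d2aeed2e09d93724fd34a1fe47 53)) (.cons 4 (.negSucc (Nat.sub (Nat.shiftLeft 0x650fe00b07b1b609154b1 83) 1)) .nil))),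
    .cons 1 (.negSucc (Nat.sub (Nat.shiftLeft 0x16e0962b2bce7d010bf87d0d26f0f16e65 36) 1)) (.cons 2 (.ofNat (Nat.shiftLeft 0x1111dcf423cbd0d750ea2d6b35a5db082b 36)) (.cons 3 (.ofNat (Nat.shiftLeft 0xc70a4755ee79a6b1e29bd6687f578e13 38)) (.cons 4 (.ofNat (Nat.shiftLeft 0xb9690ce1508ccad3c1b175dbb 68)) .nil))),
    .cons 1 (.ofNat (Nat.shiftLeft 0x43a5f6966c5a87ebd86ce8792bf4f89395e3 26)) (.cons 2 (.ofNat (Nat.shiftLeft 0x104152307bae138ef9d240e932f16b83e9df3 26)) (.cons 3 (.negSucc (Nat.sub (Nat.shiftLeft 0x15977d02c0df7923adb29f4284236fb4cc65 28) 1)) (.cons 4 (.ofNat (Nat.shiftLeft 0x81710a7cb81827f0ac49a592d03 58)) .nil))),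
    .cons 5 (.ofNat (Nat.shiftLeft 0x68f32a9 144)) (.cons 6 (.negSucc (Nat.sub (Nat.shiftLeft 0x3f54cc5 141) 1)) (.cons 7 (.negSucc (Nat.sub (Nat.shiftLeft 0x64e07b 140) 1)) (.cons 8 (.ofNat (Nat.shiftLeft 0x19fe89 141)) (.cons 9 (.negSucc (Nat.sub (Nat.shiftLeft 0x13141 140) 1)) (.cons 10 (.negSucc (Nat.sub (Nat.shiftLeft 0x3d0d 140) 1)) (.cons 11 (.negSucc (Nat.sub (Nat.shiftLeft 0x13141 140) 1)) .nil)))))),
    .cons 5 (.ofNat (Nat.shiftLeft 0x4213c2efc69bdfb 112)) (.cons 6 (.negSucc (Nat.sub (Nat.shiftLeft 0xfa75bb0424bf44f 109) 1)) (.cons 7 (.ofNat (Nat.shiftLeft 0xb7e3d3f8311ec8f 108)) (.cons 8 (.negSucc (Nat.sub (Nat.shiftLeft 0x2308e19e1049e65 109) 1)) (.cons 9 (.ofNat (Nat.shiftLeft 0x117b591d900363d 108)) (.cons 10 (.negSucc (Nat.sub (Nat.shiftLeft 0xed07e93afff527 108) 1)) (.cons 11 (.ofNat (Nat.shiftLeft 0x191ee1d900363d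 108)) .nil)))))),
    .cons 5 (.ofNat (Nat.shiftLeft 0x1d284993e454bdce802a1 87)) (.cons 6 (.ofNat (Nat.shiftLeft 0x328b11de622a6129f4d923 84)) (.cons 7 (.negSucc (Nat.sub (Nat.shiftLeft 0x138d50cfcbf77d3340ac63 83) 1)) (.cons 8 (.ofNat (Nat.shiftLeft 0x7aa00b0c23b2a273b0781 84)) (.cons 9 (.ofNat (Nat.shiftLeft 0x9074fe38f63d926208587 83)) (.cons 10 (.ofNat (Nat.shiftLeft 0x1da4b7828854b6e06811b 83)) (.cons 11 (.ofNat (Nat.shiftLeft 0x5d060aa3ea4c926208587 83)) .nil)))))),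
    .cons 5 (.ofNat (Nat.shiftLeft 0x1aeb90b603976d5335af14564f 68)) (.cons 6 (.ofNat (Nat.shiftLeft 0x22b4ff34d0f05872b41836eddad 65)) (.cons 7 (.negSucc (Nat.sub (Nat.shiftLeft 0x1bc9bfc232571f4793550e7966d 64) 1)) (.cons 8 (.ofNat (Nat.shiftLeft 0xf62ca0e81d4559f797d1aba36f 65)) (.cons 9 (.ofNat (Nat.shiftLeft 0x39399e9abaf521d98fdc8c1709 64)) (.cons 10 (.ofNat (Nat.shiftLeft 0x69a5e9f5e799ff04fcc5b59e35 64)) (.cons 11 (.ofNat (Nat.shiftLeft 0x59d374d3963cd7599fdc8c1709 64)) .nil)))))),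
    .cons 5 (.ofNat (Nat.shiftLeft 0x4cc5ae06895569a3d51826ca9aa47 51)) (.cons 6 (.ofNat (Nat.shiftLeft 0x3a089bc59fa4435c003838c00d38f95 48)) (.cons 7 (.ofNat (Nat.shiftLeft 0x723fa339265222441b9f45f8af511ab 47)) (.cons 8 (.negSucc (Nat.sub (Nat.shiftLeft 0xddf9379ced6f90ac5ba1e890234f99 48) 1)) (.cons 9 (.ofNat (Nat.shiftLeft 0x1732e934b1778d0e970ea6ae361e9d1 47)) (.cons 10 (.ofNat (Nat.shiftLeft 0x6cd95021db0427864a6a8efa46c85d 47)) (.cons 11 (.negSucc (Nat.sub (Nat.shiftLeft 0x7d7ae4bc6242bf1fa72d051c9e162f 47) 1)) .nil)))))),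
    .cons 5 (.negSucc (Nat.sub (Nat.shiftLeft 0x51c7fee9dad89f7804f653918ade279 40) 1)) (.cons 6 (.ofNat (Nat.shiftLeft 0x1d8a68b2b48e393e20563995e7d196f955 37)) (.cons 7 (.negSucc (Nat.sub (Nat.shiftLeft 0x9d53319b3b4eb4a34d0333b20ed2ee815 36) 1)) (.cons 8 (.ofNat (Nat.shiftLeft 0xc36c1adc276911e484e882e08bafffba7 37)) (.cons 9 (.negSucc (Nat.sub (Nat.shiftLeft 0x3787b6eb0215d61a3c4b3c160c477c76f 36) 1)) (.cons 10 (.ofNat (Nat.shiftLeft 0xc079e98e14a9cd423df99fcffd8b4d81d 36)) (.cons 11 (.ofNat (Nat.shiftLeft 0xcd5f76d7118056bc04c0b32f3b883891 36)) .nil)))))),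
    .cons 5 (.ofNat (Nat.shiftLeft 0xcdd3df853c2ed7c31ce9c9172a9898ce9b 30)) (.cons 6 (.ofNat (Nat.shiftLeft 0x12e7bf53720baafd79dc126db208226b0591 27)) (.cons 7 (.ofNat (Nat.shiftLeft 0x10bb655e4543ba91e0a1564c90cceacf7eaaf 26)) (.cons 8 (.negSucc (Nat.sub (Nat.shiftLeft 0x4c392925f554933140989778b71fe79401c5 27) 1)) (.cons 9 (.negSucc (Nat.sub (Nat.shiftLeft 0x27e2876db23668c99bf01cf65cafa32ce163 26) 1)) (.cons 10 (.negSucc (Nat.sub (Nat.shiftLeft 0xa46ae785f117c1741a87f56b78fed6f6047 26) 1)) (.cons 11 (.negSucc (Nat.sub (Nat.shiftLeft 0x4a962013a9436943b717a19f1d5fa32ce163 26) 1)) .nil)))))),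
    .cons 12 (.ofNat (Nat.shiftLeft 0x759b9 152)) (.cons 13 (.ofNat (Nat.shiftLeft 0x37b17d 147)) (.cons 14 (.negSucc (Nat.sub (Nat.shiftLeft 0x293eed 147) 1)) (.cons 15 (.ofNat (Nat.shiftLeft 0x3df3f 148)) (.cons 16 (.ofNat (Nat.shiftLeft 0x1e9bf 147)) (.cons 17 (.ofNat (Nat.shiftLeft 0xa0a3 147)) (.cons 18 (.negSucc (Nat.sub (Nat.shiftLeft 0x5247 147) 1)) .nil)))))),
    .cons 12 (.ofNat (Nat.shiftLeft 0xc1fb3325269 126)) (.cons 13 (.negSucc (Nat.sub (Nat.shiftLeft 0x1cee14ae10913 121) 1)) (.cons 14 (.ofNat (Nat.shiftLeft 0x19ca1ec0156a3 121)) (.cons 15 (.negSucc (Nat.sub (Nat.shiftLeft 0x6dd4acd11af1 122) 1)) (.cons 16 (.ofNat (Nat.shiftLeft 0x1745cd55e78f 121)) (.cons 17 (.negSucc (Nat.sub (Nat.shiftLeft 0x24ae41007ecd 121) 1)) (.cons 18 (.negSucc (Nat.sub (Nat.shiftLeft 0x4d539b959997 121) 1)) .nil)))))),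
    .cons 12 (.negSucc (Nat.sub (Nat.shiftLeft 0x5d3e56791ed921d 108) 1)) (.cons 13 (.ofNat (Nat.shiftLeft 0x5b8886b397d43a10f 103)) (.cons 14 (.ofNat (Nat.shiftLeft 0xd1179fe24b5a08a21 103)) (.cons 15 (.negSucc (Nat.sub (Nat.shiftLeft 0xfbab4cfa1eb31ebb 104) 1)) (.cons 16 (.negSucc (Nat.sub (Nat.shiftLeft 0x1177c0160c5df133b 103) 1)) (.cons 17 (.ofNat (Nat.shiftLeft 0x691dba88acec1451 103)) (.cons 18 (.negSucc (Nat.sub (Nat.shiftLeft 0x11f9d93d72b4d361d 103) 1)) .nil)))))),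
    .cons 12 (.ofNat (Nat.shiftLeft 0x21cb11b1fcadb0e3 99)) (.cons 13 (.ofNat (Nat.shiftLeft 0x175ba49c9470371b900f 94)) (.cons 14 (.negSucc (Nat.sub (Nat.shiftLeft 0x16d137d7698149634df 94) 1)) (.cons 15 (.ofNat (Nat.shiftLeft 0x3f62fb09e7bd91dc645 95)) (.cons 16 (.ofNat (Nat.shiftLeft 0x11cbd0bb3b27ded51c5 94)) (.cons 17 (.ofNat (Nat.shiftLeft 0x2ce5c99504baa958551 94)) (.cons 18 (.ofNat (Nat.shiftLeft 0x35eed509ccc32a0ce3 94)) .nil)))))),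
    .cons 19 (.ofNat (Nat.shiftLeft 0xf03 159)) (.cons 20 (.ofNat (Nat.shiftLeft 0x517 159)) (.cons 21 (.ofNat (Nat.shiftLeft 0x9b 159)) (.cons 22 (.ofNat (Nat.shiftLeft 0x83 160)) .nil)))]⟩

noncomputable def A16 : Tn :=
  ⟨[.cons 1 (.ofNat (Nat.shiftLeft 0xf07 159)) (.cons 2 (.ofNat (Nat.shiftLeft 0x287 160)) (.cons 3 (.negSucc (Nat.sub (Nat.shiftLeft 0x81 159) 1)) (.cons 4 (.ofNat (Nat.shiftLeft 0x10d 159)) .nil))),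
    .cons 5 (.ofNat (Nat.shiftLeft 0x1d69d449 142)) (.cons 6 (.negSucc (Nat.sub (Nat.shiftLeft 0x6fe3075 142) 1)) (.cons 7 (.ofNat (Nat.shiftLeft 0x5202705 142)) (.cons 8 (.ofNat (Nat.shiftLeft 0xfa489d 142)) (.cons 9 (.ofNat (Nat.shiftLeft 0x3a4905 142)) (.cons 10 (.negSucc (Nat.sub (Nat.shiftLeft 0xc3eab 143) 1)) (.cons 11 (.ofNat (Nat.shiftLeft 0xb43e5 142)) .nil)))))),
    .cons 5 (.ofNat (Nat.shiftLeft 0x306e173a5a53 124)) (.cons 6 (.ofNat (Nat.shiftLeft 0x3a8619ea2589 124)) (.cons 7 (.negSucc (Nat.sub (Nat.shiftLeft 0x330ad7a47a59 124) 1)) (.cons 8 (.negSucc (Nat.sub (Nat.shiftLeft 0x1b9088ec5851 124) 1)) (.cons 9 (.ofNat (Nat.shiftLeft 0x3205e945ba7 124)) (.cons 10 (.ofNat (Nat.shiftLeft 0x23aa8078e17 125)) (.cons 11 (.ofNat (Nat.shiftLeft 0x9c83a367d47 124)) .nil)))))),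
    .cons 5 (.ofNat (Nat.shiftLeft 0x2c71dcdbaa822c5 109)) (.cons 6 (.ofNat (Nat.shiftLeft 0x17ff40a0cc767e3f 109)) (.cons 7 (.ofNat (Nat.shiftLeft 0x3473e4392490d811 109)) (.cons 8 (.ofNat (Nat.shiftLeft 0x72c7b4e9faba249 109)) (.cons 9 (.ofNat (Nat.shiftLeft 0x43f17b1ee9bb211 109)) (.cons 10 (.ofNat (Nat.shiftLeft 0xdc0cad51f91b21 110)) (.cons 11 (.negSucc (Nat.sub (Nat.shiftLeft 0x44bd15f79d0b28f 109) 1)) .nil)))))),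
    .cons 5 (.negSucc (Nat.sub (Nat.shiftLeft 0x4c40addc3f1acf29 100) 1)) (.cons 6 (.ofNat (Nat.shiftLeft 0x5ba592ffce8b58d5d5 100)) (.cons 7 (.negSucc (Nat.sub (Nat.shiftLeft 0x876458e6adb7c3a65 100) 1)) (.cons 8 (.negSucc (Nat.sub (Nat.shiftLeft 0x205a334061fc5988fd 100) 1)) (.cons 9 (.negSucc (Nat.sub (Nat.shiftLeft 0x3c14da684969a1c65 100) 1)) (.cons 10 (.ofNat (Nat.shiftLeft 0x5b58c4d364bac354b 101)) (.cons 11 (.ofNat (Nat.shiftLeft 0x12bfe7e7a5594c4bb 100)) .nil)))))),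
    .cons 12 (.ofNat (Nat.shiftLeft 0x68b0e3299 136)) (.cons 13 (.ofNat (Nat.shiftLeft 0x7ffa3b8b 136)) (.cons 14 (.ofNat (Nat.shiftLeft 0x67ae53f 136)) (.cons 15 (.ofNat (Nat.shiftLeft 0x3526c1b 136)) (.cons 16 (.ofNat (Nat.shiftLeft 0xb70cf 137)) (.cons 18 (.ofNat (Nat.shiftLeft 0x131159 136)) .nil))))),
    .cons 12 (.negSucc (Nat.sub (Nat.shiftLeft 0x84aa4fcd0507ad63 107) 1)) (.cons 13 (.negSucc (Nat.sub (Nat.shiftLeft 0x3f50365d2eb3fd69 107) 1)) (.cons 14 (.ofNat (Nat.shiftLeft 0x171632a9bdd61b9b 107)) (.cons 15 (.ofNat (Nat.shiftLeft 0x8d510c79648af67 107)) (.cons 16 (.ofNat (Nat.shiftLeft 0x109f082efa76f6b 108)) (.cons 17 (.ofNat (Nat.shiftLeft 0x7d57 149)) (.cons 18 (.ofNat (Nat.shiftLeft 0x36281f8f6c645d 107)) .nil)))))),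
    .cons 12 (.negSucc (Nat.sub (Nat.shiftLeft 0x1deb50f1121db5a2b6b7 91) 1)) (.cons 13 (.ofNat (Nat.shiftLeft 0x654d238b0f03dc93b39b 91)) (.cons 14 (.negSucc (Nat.sub (Nat.shiftLeft 0x13ba881f57abfa2a48f1 91) 1)) (.cons 15 (.negSucc (Nat.sub (Nat.shiftLeft 0xf894c866f970a8b60d5 91) 1)) (.cons 16 (.ofNat (Nat.shiftLeft 0x4844514ca9b0fee0d9f 92)) (.cons 17 (.negSucc (Nat.sub (Nat.shiftLeft 0x5caec4a5 133) 1)) (.cons 18 (.ofNat (Nat.shiftLeft 0x5de844fbc87c5376c09 91)) .nil)))))),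
    .cons 12 (.ofNat (Nat.shiftLeft 0x1b0a44b04db82b1bd2e1d1bbcf 68)) (.cons 13 (.negSucc (Nat.sub (Nat.shiftLeft 0x4577bac30940985b0c1e617a53 68) 1)) (.cons 14 (.ofNat (Nat.shiftLeft 0x1bfbe7beb0e157ddc88d9d4219 68)) (.cons 15 (.ofNat (Nat.shiftLeft 0x1f5204af63dec6181b3e97d39d 68)) (.cons 16 (.negSucc (Nat.sub (Nat.shiftLeft 0x212757cbbd79af9c378d812f7 69) 1)) (.cons 17 (.ofNat (Nat.shiftLeft 0x193d08deadaa7ed 110)) (.cons 18 (.negSucc (Nat.sub (Nat.shiftLeft 0x59bbc3a3460c0e54b1ebd74f1 68) 1)) .nil)))))),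
    .cons 12 (.negSucc (Nat.sub (Nat.shiftLeft 0x13f3212d6592c4928d0a59228433db 49) 1)) (.cons 13 (.ofNat (Nat.shiftLeft 0x1d9708e1b5623ce8e537041a825dd2f 49)) (.cons 14 (.ofNat (Nat.shiftLeft 0x1cc38ac0246bb6c66ec43285a5ef2d3 49)) (.cons 15 (.ofNat (Nat.shiftLeft 0x6dfd64afad29e0676abc051c159a7f 49)) (.cons 16 (.ofNat (Nat.shiftLeft 0x2f3b83967259a8d99fee47c8206f23 50)) (.cons 17 (.negSucc (Nat.sub (Nat.shiftLeft 0x5c50156e34c546cba11 91) 1)) (.cons 18 (.negSucc (Nat.sub (Nat.shiftLeft 0x24b04d60d6a2079bc9336db2749c1b 49) 1)) .nil)))))),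
    .cons 12 (.ofNat (Nat.shiftLeft 0xf35c69e68f6c5b6da861757c7b01166b 35)) (.cons 13 (.ofNat (Nat.shiftLeft 0x72bbb1d224679c4c259ff143b15566c681 35)) (.cons 14 (.negSucc (Nat.sub (Nat.shiftLeft 0x16e60e13cc3e95e31556d6de6ff6577fe3 35) 1)) (.cons 15 (.negSucc (Nat.sub (Nat.shiftLeft 0x31cd5fd2ddae85a15f4451be14ed835dcf 35) 1)) (.cons 16 (.negSucc (Nat.sub (Nat.shiftLeft 0x36aa73e635b0139bee3a18ef70fd2b333 36) 1)) (.cons 17 (.negSucc (Nat.sub (Nat.shiftLeft 0x62e90af3579bbc31f35a63f 77) 1)) (.cons 18 (.ofNat (Nat.shiftLeft 0x2a05af99b9826a4efa87c1ff43af62aab 35)) .nil)))))),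
    .cons 12 (.negSucc (Nat.sub (Nat.shiftLeft 0x35a438abbabfc7dcebfeceffca1a99a246b1 24) 1)) (.cons 13 (.ofNat (Nat.shiftLeft 0x9922ad7508729572cca3a9b984677b221e2d 24)) (.cons 14 (.ofNat (Nat.shiftLeft 0x42248aceb7cec861d1b7ba3b9c79472bb4899 24)) (.cons 15 (.ofNat (Nat.shiftLeft 0x25d83e52592977d153ebedfae9da25f4dc41d 24)) (.cons 16 (.negSucc (Nat.sub (Nat.shiftLeft 0x524e5ad130d2a0c9829efe3e816b8e373477 25) 1)) (.cons 17 (.ofNat (Nat.shiftLeft 0x7fc5284fa95d17af755c5e06d 66)) (.cons 18 (.negSucc (Nat.sub (Nat.shiftLeft 0x12ff538642d325ef485dedb50d4b897b15771 24) 1)) .nil)))))),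
    .cons 19 (.ofNat (Nat.shiftLeft 0x3aac6167 138)) (.cons 20 (.ofNat (Nat.shiftLeft 0x188e801 138)) (.cons 21 (.negSucc (Nat.sub (Nat.shiftLeft 0xc4ed3 138) 1)) .nil)),
    .cons 19 (.ofNat (Nat.shiftLeft 0x36cb8381e45bc081 107)) (.cons 20 (.negSucc (Nat.sub (Nat.shiftLeft 0x75dfbce77299229 107) 1)) (.cons 21 (.ofNat (Nat.shiftLeft 0x1a144d61edffdcb 107)) (.cons 22 (.ofNat (Nat.shiftLeft 0x646b7b 142)) .nil))),
    .cons 19 (.negSucc (Nat.sub (Nat.shiftLeft 0xaff0cd791e498e51ca243 87) 1)) (.cons 20 (.ofNat (Nat.shiftLeft 0x1c065b301011baa4b553b 87)) (.cons 21 (.ofNat (Nat.shiftLeft 0x1085d7449dda661aeae5f 87)) (.cons 22 (.negSucc (Nat.sub (Nat.shiftLeft 0x1783a60deb1 122) 1)) .nil))),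
    .cons 19 (.ofNat (Nat.shiftLeft 0x78959a60aecd11635d4007c427 67)) (.cons 20 (.negSucc (Nat.sub (Nat.shiftLeft 0x35f5a1869c2b9e9d758a6308bf 67) 1)) (.cons 21 (.negSucc (Nat.sub (Nat.shiftLeft 0x8f27f754e28e4550b82246093 67) 1)) (.cons 22 (.ofNat (Nat.shiftLeft 0x20d36086f27402d3d 102)) .nil))),
    .cons 19 (.ofNat (Nat.shiftLeft 0xcd7e741c3f252bd28b9f990a4bf295 50)) (.cons 20 (.ofNat (Nat.shiftLeft 0x2c61605f3695a95388d59ca0e79aa3 50)) (.cons 21 (.negSucc (Nat.sub (Nat.shiftLeft 0x24a1064b881b3068a31142841d7659 50) 1)) (.cons 22 (.ofNat (Nat.shiftLeft 0x15c0dfa20dc6cbb930917 85)) .nil))),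
    .cons 19 (.ofNat (Nat.shiftLeft 0x2f48a32e4c927af0fe35c80357163d7de85 31)) (.cons 20 (.negSucc (Nat.sub (Nat.shiftLeft 0x2320eef5ed329c926653a9f31150f2356cd 31) 1)) (.cons 21 (.ofNat (Nat.shiftLeft 0x6009f22a35bccbb1ffeb20d88698d728f7 31)) (.cons 22 (.ofNat (Nat.shiftLeft 0x2f1dd975cc14c2959a66bc8d67 66)) .nil))),
    .cons 19 (.negSucc (Nat.sub (Nat.shiftLeft 0x43ee2c4b54f5a2652ecfd71369c35a944a5b3 22) 1)) (.cons 20 (.negSucc (Nat.sub (Nat.shiftLeft 0x1052a45ff4cd6432f209b33d06c17a6d64b5d5 22) 1)) (.cons 21 (.negSucc (Nat.sub (Nat.shiftLeft 0x562151af5c4d3e2f0ed575129c3f0fbf4d371 22) 1)) (.cons 22 (.ofNat (Nat.shiftLeft 0xa9c9f6041024fefb2a0af49127f 57)) .nil))),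
    .cons 23 (.ofNat (Nat.shiftLeft 0x81555 146)) .nil,
    .cons 23 (.ofNat (Nat.shiftLeft 0x29bfbd9875f 126)) .nil,
    .cons 23 (.ofNat (Nat.shiftLeft 0x198d789147231d5 109)) .nil,
    .cons 23 (.ofNat (Nat.shiftLeft 0x127368c1d2f2448793 99)) .nil,
    .nil],
   [.cons 0 (.ofNat (Nat.shiftLeft 0x1cf 159)) .nil,
    .cons 1 (.ofNat (Nat.shiftLeft 0x11f8201 145)) (.cons 2 (.ofNat (Nat.shiftLeft 0x4edb43 144)) (.cons 3 (.negSucc (Nat.sub (Nat.shiftLeft 0x5d8cdd 142) 1)) (.cons 4 (.ofNat (Nat.shiftLeft 0x1414db 143)) .nil))),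
    .cons 1 (.negSucc (Nat.sub (Nat.shiftLeft 0x96c86a20845 127) 1)) (.cons 2 (.negSucc (Nat.sub (Nat.shiftLeft 0x8da5182930f 126) 1)) (.cons 3 (.negSucc (Nat.sub (Nat.shiftLeft 0xf7dddac26f 124) 1)) (.cons 4 (.negSucc (Nat.sub (Nat.shiftLeft 0x43ec1f7e907 125) 1)) .nil))),
    .cons 1 (.negSucc (Nat.sub (Nat.shiftLeft 0x2dc155e11d3e363 112) 1)) (.cons 2 (.ofNat (Nat.shiftLeft 0x2b43bd0cc4b1e17 111)) (.cons 3 (.negSucc (Nat.sub (Nat.shiftLeft 0x4bc2d92b8ecfd89 109) 1)) (.cons 4 (.negSucc (Nat.sub (Nat.shiftLeft 0x14464f34b3c5fb1 110) 1)) .nil))),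
    .cons 1 (.ofNat (Nat.shiftLeft 0x9afbaf60c55815a1f 103)) (.cons 2 (.ofNat (Nat.shiftLeft 0x5eb223cd3a211611d 102)) (.cons 3 (.ofNat (Nat.shiftLeft 0x637c880de33bd453d 100)) (.cons 4 (.negSucc (Nat.sub (Nat.shiftLeft 0x33a2af05bbdb4057b 101) 1)) .nil))),
    .cons 5 (.ofNat (Nat.shiftLeft 0x46d9f8f0f 136)) (.cons 6 (.negSucc (Nat.sub (Nat.shiftLeft 0x5bde2e33 137) 1)) (.cons 7 (.negSucc (Nat.sub (Nat.shiftLeft 0x50ccb5f 136) 1)) (.cons 8 (.negSucc (Nat.sub (Nat.shiftLeft 0x4c82685 136) 1)) (.cons 9 (.negSucc (Nat.sub (Nat.shiftLeft 0x3d045 139) 1)) (.cons 10 (.negSucc (Nat.sub (Nat.shiftLeft 0xb70cf 136) 1)) (.cons 11 (.negSucc (Nat.sub (Nat.shiftLeft 0x3d045 138) 1)) .nil)))))),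
    .cons 5 (.ofNat (Nat.shiftLeft 0xc28b846ca85c6eab 107)) (.cons 6 (.ofNat (Nat.shiftLeft 0xb98cfa1972ba721 108)) (.cons 7 (.ofNat (Nat.shiftLeft 0x2117411c3717d1c5 107)) (.cons 8 (.negSucc (Nat.sub (Nat.shiftLeft 0x2ff2be22afb91b9 107) 1)) (.cons 9 (.negSucc (Nat.sub (Nat.shiftLeft 0x37adf44fe27a79 110) 1)) (.cons 10 (.ofNat (Nat.shiftLeft 0x2b5b19510589095 107)) (.cons 11 (.ofNat (Nat.shiftLeft 0x13b861b01d8587 109)) .nil)))))),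
    .cons 5 (.negSucc (Nat.sub (Nat.shiftLeft 0x197e397f389d37a1a821 91) 1)) (.cons 6 (.negSucc (Nat.sub (Nat.shiftLeft 0x47721be689999538b5c3 92) 1)) (.cons 7 (.ofNat (Nat.shiftLeft 0xdb13bed19d5f7ebfcd1 91)) (.cons 8 (.ofNat (Nat.shiftLeft 0x167fe4ef4fa857804e8b 91)) (.cons 9 (.negSucc (Nat.sub (Nat.shiftLeft 0x1900b53fc445aa4af35 94) 1)) (.cons 10 (.negSucc (Nat.sub (Nat.shiftLeft 0x4780b2659e30fee0d9f 91) 1)) (.cons 11 (.negSucc (Nat.sub (Nat.shiftLeft 0x102bf7647865aa4af35 93) 1)) .nil)))))),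
    .cons 5 (.negSucc (Nat.sub (Nat.shiftLeft 0x27f7c65ebe251c67bbc4d9d737 68) 1)) (.cons 6 (.ofNat (Nat.shiftLeft 0xddcf929c3bd9b1e16b4659ebb 69)) (.cons 7 (.ofNat (Nat.shiftLeft 0x28dd2da09511f32fc057605f07 68)) (.cons 8 (.negSucc (Nat.sub (Nat.shiftLeft 0xb240d243b37c1c0847db012c3 68) 1)) (.cons 9 (.negSucc (Nat.sub (Nat.shiftLeft 0x28c88070cc4981be2d0d4f03 71) 1)) (.cons 10 (.ofNat (Nat.shiftLeft 0x8539627a8fdb0a84b78d812f7 68)) (.cons 11 (.negSucc (Nat.sub (Nat.shiftLeft 0x1e587db7619c07d2c2d0d4f03 70) 1)) .nil)))))),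
    .cons 5 (.ofNat (Nat.shiftLeft 0x21dfa8aff20f87c2b961e500799063 49)) (.cons 6 (.ofNat (Nat.shiftLeft 0xaf32083bf48f1cd457e4dfe38e949 50)) (.cons 7 (.ofNat (Nat.shiftLeft 0x2b0ed29f4a3bcd103e57978a9aef18d 49)) (.cons 8 (.negSucc (Nat.sub (Nat.shiftLeft 0x56effcb05d0d75c447d368a58e73a1 49) 1)) (.cons 9 (.negSucc (Nat.sub (Nat.shiftLeft 0x3e8ae6a0d39bbc223953b42b57a61 52) 1)) (.cons 10 (.negSucc (Nat.sub (Nat.shiftLeft 0x4cdcd2f879864b610806fc8206f23 49) 1)) (.cons 11 (.negSucc (Nat.sub (Nat.shiftLeft 0xdf5ee2fd74fadb28b837542b57a61 51) 1)) .nil)))))),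
    .cons 5 (.negSucc (Nat.sub (Nat.shiftLeft 0x1e386cba31c1779a02281b4143203b073 35) 1)) (.cons 6 (.ofNat (Nat.shiftLeft 0x5dc8a50f6c0221b608d40b6484b993a087 36)) (.cons 7 (.negSucc (Nat.sub (Nat.shiftLeft 0x2662e4c82860c7ba57527e979a03fee67d 35) 1)) (.cons 8 (.negSucc (Nat.sub (Nat.shiftLeft 0x3b9177f053103ceeed22f60bd462ef19af 35) 1)) (.cons 9 (.ofNat (Nat.shiftLeft 0xb3e21bc190f9d9eb761975c05a9b9111 38)) (.cons 10 (.negSucc (Nat.sub (Nat.shiftLeft 0x50fff1ba92baa76dd531f4360f02d4ccd 35) 1)) (.cons 11 (.ofNat (Nat.shiftLeft 0x106dc9c0d86b62528a6d373da5a9b9111 37)) .nil)))))),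
    .cons 5 (.negSucc (Nat.sub (Nat.shiftLeft 0x343e75a42180062a518ba6aa5c5416c598b7 24) 1)) (.cons 6 (.negSucc (Nat.sub (Nat.shiftLeft 0x7ae6fd6dcc43c62f153b6688ebe0595fb5c5 25) 1)) (.cons 7 (.negSucc (Nat.sub (Nat.shiftLeft 0x28c66d9a1da13b06c1c300a41030e39a1d779 24) 1)) (.cons 8 (.negSucc (Nat.sub (Nat.shiftLeft 0x3448de7cdcc4b380f353107aed9438eed1243 24) 1)) (.cons 9 (.ofNat (Nat.shiftLeft 0x1eee9fb1a082679e85278a75dd2484bd117d 27)) (.cons 10 (.ofNat (Nat.shiftLeft 0x640767be9b271fbeaaa4bd3cc3f38e373477 24)) (.cons 11 (.ofNat (Nat.shiftLeft 0x33a35ab82973964e45700e7edeb684bd117d 26)) .nil)))))),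
    .cons 12 (.ofNat (Nat.shiftLeft 0x4b290bbd 140)) (.cons 13 (.negSucc (Nat.sub (Nat.shiftLeft 0x60fbe39 141) 1)) (.cons 14 (.ofNat (Nat.shiftLeft 0x5dbabd 140)) (.cons 15 (.negSucc (Nat.sub (Nat.shiftLeft 0x144bd49 138) 1)) (.cons 16 (.negSucc (Nat.sub (Nat.shiftLeft 0x4bbdb 139) 1)) (.cons 17 (.ofNat (Nat.shiftLeft 0xf25f 139)) (.cons 18 (.ofNat (Nat.shiftLeft 0x4bbdb 138)) .nil)))))),
    .cons 12 (.ofNat (Nat.shiftLeft 0x2f6a700deb14dcbb 109)) (.cons 13 (.ofNat (Nat.shiftLeft 0x2e05c7397151121 110)) (.cons 14 (.negSucc (Nat.sub (Nat.shiftLeft 0x8199c29fed12a45 109) 1)) (.cons 15 (.negSucc (Nat.sub (Nat.shiftLeft 0x382eb95e511754f 107) 1)) (.cons 16 (.ofNat (Nat.shiftLeft 0xb87af82ec413 108)) (.cons 17 (.ofNat (Nat.shiftLeft 0x18f936a9b29d8c9 108)) (.cons 18 (.negSucc (Nat.sub (Nat.shiftLeft 0x4f18daf82ec413 107) 1)) .nil)))))),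
    .cons 12 (.ofNat (Nat.shiftLeft 0x59e6cb2be27419f8dd8f 89)) (.cons 13 (.ofNat (Nat.shiftLeft 0x11ce57c8e253af41af3dd 90)) (.cons 14 (.ofNat (Nat.shiftLeft 0x37d3087e84205330328f 89)) (.cons 15 (.negSucc (Nat.sub (Nat.shiftLeft 0x1644e3be1cb32b39ca4d3 87) 1)) (.cons 16 (.ofNat (Nat.shiftLeft 0x6afbb026707760a5a587 88)) (.cons 17 (.negSucc (Nat.sub (Nat.shiftLeft 0x13b6f2511507e021211b 88) 1)) (.cons 18 (.negSucc (Nat.sub (Nat.shiftLeft 0x35994f13075760a5a587 87) 1)) .nil)))))),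
    .cons 12 (.negSucc (Nat.sub (Nat.shiftLeft 0x134df43587118701873029f203 69) 1)) (.cons 13 (.ofNat (Nat.shiftLeft 0x5c9207c5f46138b0d23295c87 70)) (.cons 14 (.negSucc (Nat.sub (Nat.shiftLeft 0x13e42aec9d88466e7cf9888303 69) 1)) (.cons 15 (.negSucc (Nat.sub (Nat.shiftLeft 0x162891fd7c4ff68e88425d5689 67) 1)) (.cons 16 (.ofNat (Nat.shiftLeft 0x2ad0ec315a3c6a352f5547865 68)) (.cons 17 (.ofNat (Nat.shiftLeft 0x7c3f72142e0521b85ceef1b1f 68)) (.cons 18 (.ofNat (Nat.shiftLeft 0xf82742a00bf267e0d0aab879b 67)) .nil)))))),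
    .cons 12 (.negSucc (Nat.sub (Nat.shiftLeft 0x39dc997ed167f2a2650f9d501aca9 52) 1)) (.cons 13 (.ofNat (Nat.shiftLeft 0x17e24ac7885f1a695e74c616b88fb5 53)) (.cons 14 (.ofNat (Nat.shiftLeft 0x510467a362f636c5eb76fcb307c057 52)) (.cons 15 (.negSucc (Nat.sub (Nat.shiftLeft 0xcfa19743e7004ba60b4e4d8e1f77b 50) 1)) (.cons 16 (.ofNat (Nat.shiftLeft 0x945c81584632ddc08d1ec921c0d8f 51)) (.cons 17 (.negSucc (Nat.sub (Nat.shiftLeft 0x566b75665034975818b6c1d38cf83 51) 1)) (.cons 18 (.negSucc (Nat.sub (Nat.shiftLeft 0x1b222c7c72ccfa53e5b9cc921c0d8f 50) 1)) .nil)))))),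
    .cons 12 (.ofNat (Nat.shiftLeft 0xa7e61df04db7d8445fcf2fb3aa751c3a7 33)) (.cons 13 (.ofNat (Nat.shiftLeft 0x14a7851d50138a83cf2d3abb28445a7f1a5 34)) (.cons 14 (.negSucc (Nat.sub (Nat.shiftLeft 0xef08b08275def8b88fa635a6d28bf05f59 33) 1)) (.cons 15 (.negSucc (Nat.sub (Nat.shiftLeft 0x3f98faf8d0d8e1f4fed7ccf383e3f5cee8b 31) 1)) (.cons 16 (.negSucc (Nat.sub (Nat.shiftLeft 0xd493798ef64155f06a0cb4cd9c53717a1 32) 1)) (.cons 17 (.negSucc (Nat.sub (Nat.shiftLeft 0x1fce1d367459fefbd9469663de0bc1c813 32) 1)) (.cons 18 (.ofNat (Nat.shiftLeft 0x5cf1401ea9d579065e9d18eaf9c53717a1 31)) .nil)))))),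
    .cons 12 (.ofNat (Nat.shiftLeft 0x2c7fc45e00a35e81b04ecd6543c3ffc382bf 24)) (.cons 13 (.ofNat (Nat.shiftLeft 0x74934ef11eb41bdcdddf367272691180ca6d 25)) (.cons 14 (.negSucc (Nat.sub (Nat.shiftLeft 0x2d842cf4e6ce89396abe5461530edbc551841 24) 1)) (.cons 15 (.ofNat (Nat.shiftLeft 0xd09a58736ba48bd3f8f7c2cdb2de4cd26d2bd 22)) (.cons 16 (.negSucc (Nat.sub (Nat.shiftLeft 0x239e17d44d8041ec280edb72ce8119bfbb3c9 23) 1)) (.cons 17 (.ofNat (Nat.shiftLeft 0x74ee0af27ee864353fc4c0b2b679ebff23f5 23)) (.cons 18 (.ofNat (Nat.shiftLeft 0x331ff1c46d20187fe989acc069b319bfbb3c9 22)) .nil)))))),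
    .cons 19 (.ofNat (Nat.shiftLeft 0x22b4cd7 144)) (.cons 20 (.negSucc (Nat.sub (Nat.shiftLeft 0x257a2d 145) 1)) (.cons 21 (.ofNat (Nat.shiftLeft 0xdf64d 144)) (.cons 22 (.negSucc (Nat.sub (Nat.shiftLeft 0xa0afd 145) 1)) .nil))),
    .cons 19 (.ofNat (Nat.shiftLeft 0x49da775f91a5 124)) (.cons 20 (.negSucc (Nat.sub (Nat.shiftLeft 0x10eb6ef08ae7 125) 1)) (.cons 21 (.negSucc (Nat.sub (Nat.shiftLeft 0x5b37f8844b9 124) 1)) (.cons 22 (.negSucc (Nat.sub (Nat.shiftLeft 0x317d60e4357 125) 1)) .nil))),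
    .cons 19 (.ofNat (Nat.shiftLeft 0xa095e73e714f7e57 107)) (.cons 20 (.ofNat (Nat.shiftLeft 0x5c6c02cf1ee8d53 108)) (.cons 21 (.negSucc (Nat.sub (Nat.shiftLeft 0x14d2c980373ac133 107) 1)) (.cons 22 (.ofNat (Nat.shiftLeft 0x50d16cc0ac77483 108)) .nil))),
    .cons 19 (.ofNat (Nat.shiftLeft 0x163e13a1c9e3044bea1 97)) (.cons 20 (.negSucc (Nat.sub (Nat.shiftLeft 0x8280bf96565cb2177b 98) 1)) (.cons 21 (.ofNat (Nat.shiftLeft 0x26d5882a30cb8da45b 97)) (.cons 22 (.ofNat (Nat.shiftLeft 0x1cf0e3363519f86ed5 98)) .nil))),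
    .cons 23 (.ofNat (Nat.shiftLeft 0xeb 160)) .nil],
   [.nil,
    .cons 0 (.ofNat (Nat.shiftLeft 0x82c641 142)) .nil,
    .cons 0 (.negSucc (Nat.sub (Nat.shiftLeft 0xa97635aed85 124) 1)) .nil,
    .cons 0 (.ofNat (Nat.shiftLeft 0x1019f1eeeed77dd 109)) .nil,
    .cons 0 (.ofNat (Nat.shiftLeft 0x8a7ec3635a09d9ddf 100)) .nil,
    .cons 1 (.ofNat (Nat.shiftLeft 0xe67779eb 136)) (.cons 2 (.negSucc (Nat.sub (Nat.shiftLeft 0x31567cb 137) 1)) (.cons 3 (.ofNat (Nat.shiftLeft 0x29f2f7 136)) (.cons 4 (.ofNat (Nat.shiftLeft 0x1ab1e3 136)) .nil))),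
    .cons 1 (.ofNat (Nat.shiftLeft 0x3d0d510db7e77677 107)) (.cons 2 (.ofNat (Nat.shiftLeft 0x42c0ee967def829 108)) (.cons 3 (.ofNat (Nat.shiftLeft 0x9b2e156ebb4333 107)) (.cons 4 (.negSucc (Nat.sub (Nat.shiftLeft 0x3433e9bd0cea6b1 107) 1)) .nil))),
    .cons 1 (.ofNat (Nat.shiftLeft 0xaef62624046fe67863fb 91)) (.cons 2 (.ofNat (Nat.shiftLeft 0xe3c63fcda18b4d65425 92)) (.cons 3 (.ofNat (Nat.shiftLeft 0xd75ef3d48ede5138747 91)) (.cons 4 (.ofNat (Nat.shiftLeft 0x8852061ca7c7a80ca73 91)) .nil))),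
    .cons 1 (.ofNat (Nat.shiftLeft 0x3cf64ba961ab673746a749f64d 68)) (.cons 2 (.ofNat (Nat.shiftLeft 0xed59f9707215cb22b923d1c93 69)) (.cons 3 (.ofNat (Nat.shiftLeft 0x87826b9651867e87def926521 68)) (.cons 4 (.negSucc (Nat.sub (Nat.shiftLeft 0x4300f8ccfc402aa1ac4a2d6eb 68) 1)) .nil))),
    .cons 1 (.negSucc (Nat.sub (Nat.shiftLeft 0x107e9bc2ed41512fe3f90558aa133f1 49) 1)) (.cons 2 (.ofNat (Nat.shiftLeft 0x51e7f0cd6de55959bb04fb0f420b91 50)) (.cons 3 (.negSucc (Nat.sub (Nat.shiftLeft 0x2b1addeb37fb048ac9bc6e2233bdd5 49) 1)) (.cons 4 (.negSucc (Nat.sub (Nat.shiftLeft 0x37570109c13c358964693b2d09a759 49) 1)) .nil))),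
    .cons 1 (.ofNat (Nat.shiftLeft 0x57e4e16166b20d3f24446901e6408c1da1 35)) (.cons 2 (.ofNat (Nat.shiftLeft 0x786abb6b4137104767114608343ca4cbf 36)) (.cons 3 (.ofNat (Nat.shiftLeft 0xef48ca4f54e05ce5281a47a961b50c445 35)) (.cons 4 (.negSucc (Nat.sub (Nat.shiftLeft 0xfa728d973f267a4fe6d5b6c887a40f777 35) 1)) .nil))),
    .cons 1 (.ofNat (Nat.shiftLeft 0x10c9f55ad17d8dde4d1349c12265021ec1ecd 24)) (.cons 2 (.negSucc (Nat.sub (Nat.shiftLeft 0x2064143b5328e5199367e63baa786ab1edbed 25) 1)) (.cons 3 (.negSucc (Nat.sub (Nat.shiftLeft 0x116c0cad7011cb9151f7f38014e3fb41fc05f 24) 1)) (.cons 4 (.negSucc (Nat.sub (Nat.shiftLeft 0xb8c219310b7d622a2e799a28754da12b7a6b 24) 1)) .nil))),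
    .cons 5 (.ofNat (Nat.shiftLeft 0x6577bf41 140)) (.cons 6 (.ofNat (Nat.shiftLeft 0x117b5829 139)) (.cons 7 (.negSucc (Nat.sub (Nat.shiftLeft 0x20032c3 138) 1)) (.cons 8 (.ofNat (Nat.shiftLeft 0x3ba561 140)) (.cons 9 (.ofNat (Nat.shiftLeft 0x2d71d 139)) (.cons 10 (.ofNat (Nat.shiftLeft 0x2d71d 138)) (.cons 11 (.negSucc (Nat.sub (Nat.shiftLeft 0x4bbdb 138) 1)) .nil)))))),
    .cons 5 (.negSucc (Nat.sub (Nat.shiftLeft 0x22ee8a72dc8a8b69 109) 1)) (.cons 6 (.negSucc (Nat.sub (Nat.shiftLeft 0x2272b774ee4e1891 108) 1)) (.cons 7 (.negSucc (Nat.sub (Nat.shiftLeft 0x170a3bd1e76f20c5 107) 1)) (.cons 8 (.ofNat (Nat.shiftLeft 0x24e80042f4c5977 109)) (.cons 9 (.ofNat (Nat.shiftLeft 0x5ba8f3d17d8a5b 108)) (.cons 10 (.ofNat (Nat.shiftLeft 0x282412fd17d8a5b 107)) (.cons 11 (.negSucc (Nat.sub (Nat.shiftLeft 0x2a62ed07d13bed 107) 1)) .nil)))))),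
    .cons 5 (.ofNat (Nat.shiftLeft 0x884e28af1544826930fb 89)) (.cons 6 (.negSucc (Nat.sub (Nat.shiftLeft 0x3201760a86ca783ba498d 88) 1)) (.cons 7 (.negSucc (Nat.sub (Nat.shiftLeft 0x118f665b8cdc359fd09f1 87) 1)) (.cons 8 (.ofNat (Nat.shiftLeft 0x3eccaaad92b7d7d8da5b 89)) (.cons 9 (.negSucc (Nat.sub (Nat.shiftLeft 0x46e203c11233a0636351 88) 1)) (.cons 10 (.negSucc (Nat.sub (Nat.shiftLeft 0x3841528307e7a0636351 87) 1)) (.cons 11 (.ofNat (Nat.shiftLeft 0x56a10f2450af60a5a587 87)) .nil)))))),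
    .cons 5 (.ofNat (Nat.shiftLeft 0xe71eeca66fd60fe75d25e5e81 69)) (.cons 6 (.negSucc (Nat.sub (Nat.shiftLeft 0x488466939db1244a33fef23697 68) 1)) (.cons 7 (.negSucc (Nat.sub (Nat.shiftLeft 0x38bdca0c4b3383c77e4f4c5083 67) 1)) (.cons 8 (.ofNat (Nat.shiftLeft 0x107a97a5e77ed65065ecd7aca1 69)) (.cons 9 (.negSucc (Nat.sub (Nat.shiftLeft 0x7251e994d01b436029332aea3 68) 1)) (.cons 10 (.ofNat (Nat.shiftLeft 0x6a20bd903d8f059216ccd515d 67)) (.cons 11 (.ofNat (Nat.shiftLeft 0xa8be927a456fc427af5547865 67)) .nil)))))),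
    .cons 5 (.ofNat (Nat.shiftLeft 0x2c8ba387da019b3a817d173c12863 52)) (.cons 6 (.negSucc (Nat.sub (Nat.shiftLeft 0x2a60a884e1036cb956c8ab93ffabe5 51) 1)) (.cons 7 (.ofNat (Nat.shiftLeft 0xe7ae6e3e8f55f82294a951c10e87d7 50)) (.cons 8 (.negSucc (Nat.sub (Nat.shiftLeft 0x196b7d958473189c48673330fb113d 52) 1)) (.cons 9 (.negSucc (Nat.sub (Nat.shiftLeft 0xf2a662622ab570594ed8057aa6e89 51) 1)) (.cons 10 (.negSucc (Nat.sub (Nat.shiftLeft 0x1bd51a4a508475ad25109457aa6e89 50) 1)) (.cons 11 (.negSucc (Nat.sub (Nat.shiftLeft 0x13223805e43464a2b0ad9b6de3f271 50) 1)) .nil)))))),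
    .cons 5 (.negSucc (Nat.sub (Nat.shiftLeft 0x895363b25bb205c98edfb52f38c0b350d 33) 1)) (.cons 6 (.ofNat (Nat.shiftLeft 0x4bfaf3267ff2546ed20608f7658e8daa92b 32)) (.cons 7 (.negSucc (Nat.sub (Nat.shiftLeft 0x2e3b1b22b6626c166b339685569277c2fd9 31) 1)) (.cons 8 (.negSucc (Nat.sub (Nat.shiftLeft 0x6858b094166179109b89b697bce4b03cad 33) 1)) (.cons 9 (.ofNat (Nat.shiftLeft 0x7ffb941c7ef8f08c22f0052de9dcbaa7c7 32)) (.cons 10 (.negSucc (Nat.sub (Nat.shiftLeft 0x118f2e16a9eff1aa1611acf48ea23455839 31) 1)) (.cons 11 (.ofNat (Nat.shiftLeft 0x45bf91a852ec21903f86c5ca1e3ac8e85f 31)) .nil)))))),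
    .cons 5 (.ofNat (Nat.shiftLeft 0x3e175a2e24fba0cea8b4fc355a65c3abf1eb 24)) (.cons 6 (.negSucc (Nat.sub (Nat.shiftLeft 0x122bd41f8adc1df18e49a2391e7b75bdf0f1d 23) 1)) (.cons 7 (.ofNat (Nat.shiftLeft 0xfb027982a7194b35872c660a9847045d1033f 22)) (.cons 8 (.negSucc (Nat.sub (Nat.shiftLeft 0x2504b79196cf7873e83beeb7ec7d6ec3626b5 24) 1)) (.cons 9 (.ofNat (Nat.shiftLeft 0x16890c57f981bf1896375c09b2591c3fd6bdf 23)) (.cons 10 (.ofNat (Nat.shiftLeft 0x1221feaac3fba5d2e64c62955019dc3fd6bdf 22)) (.cons 11 (.negSucc (Nat.sub (Nat.shiftLeft 0x4641fcac0bda674ef1fe2421b92599bfbb3c9 22) 1)) .nil)))))),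
    .cons 12 (.ofNat (Nat.shiftLeft 0x75c2bf9 144)) (.cons 13 (.negSucc (Nat.sub (Nat.shiftLeft 0x1db7259 144) 1)) (.cons 14 (.negSucc (Nat.sub (Nat.shiftLeft 0x9d0335 145) 1)) (.cons 15 (.ofNat (Nat.shiftLeft 0x797eb 147)) (.cons 16 (.ofNat (Nat.shiftLeft 0x13989 147)) (.cons 17 (.negSucc (Nat.sub (Nat.shiftLeft 0x5a243 145) 1)) (.cons 18 (.negSucc (Nat.sub (Nat.shiftLeft 0x13989 145) 1)) .nil)))))),
    .cons 12 (.negSucc (Nat.sub (Nat.shiftLeft 0x303faba62135 124) 1)) (.cons 13 (.negSucc (Nat.sub (Nat.shiftLeft 0x3f01d0faa5eb 124) 1)) (.cons 14 (.negSucc (Nat.sub (Nat.shiftLeft 0x187b338154ff 125) 1)) (.cons 15 (.ofNat (Nat.shiftLeft 0x381094c5861 127)) (.cons 16 (.negSucc (Nat.sub (Nat.shiftLeft 0xb869df0a85 127) 1)) (.cons 17 (.negSucc (Nat.sub (Nat.shiftLeft 0x10f35979c69 125) 1)) (.cons 18 (.ofNat (Nat.shiftLeft 0x4a45cdf0a85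 125)) .nil)))))),
    .cons 12 (.negSucc (Nat.sub (Nat.shiftLeft 0x905309223017d87 107) 1)) (.cons 13 (.ofNat (Nat.shiftLeft 0x128da2e349c34727 107)) (.cons 14 (.ofNat (Nat.shiftLeft 0x5d1886ed60ab304b 108)) (.cons 15 (.negSucc (Nat.sub (Nat.shiftLeft 0x73ccc5877bf6495 110) 1)) (.cons 16 (.negSucc (Nat.sub (Nat.shiftLeft 0x175c00d8c4407f7 110) 1)) (.cons 17 (.ofNat (Nat.shiftLeft 0x66af57df105be3d 108)) (.cons 18 (.negSucc (Nat.sub (Nat.shiftLeft 0x88ab8fd42bbf809 108) 1)) .nil)))))),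
    .cons 12 (.ofNat (Nat.shiftLeft 0x150a446ccbb667130f 97)) (.cons 13 (.ofNat (Nat.shiftLeft 0x31e503c30b225870851 97)) (.cons 14 (.negSucc (Nat.sub (Nat.shiftLeft 0xcfee25e963002b60b3 98) 1)) (.cons 15 (.negSucc (Nat.sub (Nat.shiftLeft 0x13028d7535d6ac3ad3 100) 1)) (.cons 16 (.ofNat (Nat.shiftLeft 0x6ad2a960ebb19e5ff 100)) (.cons 17 (.ofNat (Nat.shiftLeft 0x2428b1ab71d5ef446b 98)) (.cons 18 (.ofNat (Nat.shiftLeft 0x13fd432e795be61a01 98)) .nil)))))),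
    .cons 19 (.ofNat (Nat.shiftLeft 0x785 160)) (.cons 20 (.negSucc (Nat.sub (Nat.shiftLeft 0x141 161) 1)) (.cons 21 (.negSucc (Nat.sub (Nat.shiftLeft 0x1d 160) 1)) (.cons 22 (.negSucc (Nat.sub (Nat.shiftLeft 0x8f 160) 1)) .nil)))]⟩

noncomputable def A17 : Tn :=
  ⟨[.cons 1 (.ofNat (Nat.shiftLeft 0x785 160)) (.cons 2 (.negSucc (Nat.sub (Nat.shiftLeft 0x141 161) 1)) (.cons 3 (.ofNat (Nat.shiftLeft 0x1d 160)) (.cons 4 (.ofNat (Nat.shiftLeft 0x8f 160)) .nil))),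
    .cons 5 (.ofNat (Nat.shiftLeft 0x1d6fb511 142)) (.cons 6 (.ofNat (Nat.shiftLeft 0x3b2f1d5 143)) (.cons 7 (.ofNat (Nat.shiftLeft 0x2767adf 143)) (.cons 8 (.ofNat (Nat.shiftLeft 0xf56e7d 142)) (.cons 9 (.negSucc (Nat.sub (Nat.shiftLeft 0x94ecb 144) 1)) (.cons 10 (.ofNat (Nat.shiftLeft 0x1783b 147)) (.cons 11 (.ofNat (Nat.shiftLeft 0x56383 143)) .nil)))))),
    .cons 5 (.negSucc (Nat.sub (Nat.shiftLeft 0x608ff9b0dea9 123) 1)) (.cons 6 (.ofNat (Nat.shiftLeft 0x3e0224857233 124)) (.cons 7 (.ofNat (Nat.shiftLeft 0x3124bb893039 124)) (.cons 8 (.ofNat (Nat.shiftLeft 0x38245e5fc5cb 123)) (.cons 9 (.ofNat (Nat.shiftLeft 0x2c52125c1d3 125)) (.cons 10 (.ofNat (Nat.shiftLeft 0x200da9323d 128)) (.cons 11 (.negSucc (Nat.sub (Nat.shiftLeft 0x94d583e47cb 124) 1)) .nil)))))),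
    .cons 5 (.ofNat (Nat.shiftLeft 0xa5d8782f40564021 103)) (.cons 6 (.negSucc (Nat.sub (Nat.shiftLeft 0x271223f861f28cedb 104) 1)) (.cons 7 (.ofNat (Nat.shiftLeft 0x6ab4645ff45d94ecf 104)) (.cons 8 (.ofNat (Nat.shiftLeft 0x206d71cf2e716884d 103)) (.cons 9 (.negSucc (Nat.sub (Nat.shiftLeft 0x4583f22986e9597b 105) 1)) (.cons 10 (.ofNat (Nat.shiftLeft 0x1b5329237e179eb 108)) (.cons 11 (.negSucc (Nat.sub (Nat.shiftLeft 0x94dbfc46e61a964d 104) 1)) .nil)))))),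
    .cons 5 (.negSucc (Nat.sub (Nat.shiftLeft 0x7594481bdff5e8ffbf 92) 1)) (.cons 6 (.ofNat (Nat.shiftLeft 0x2e6e52938a40eb7701c5 93)) (.cons 7 (.negSucc (Nat.sub (Nat.shiftLeft 0xb47a23b59fb6855351 93) 1)) (.cons 8 (.ofNat (Nat.shiftLeft 0x1ec667f180c8c1b69ded 92)) (.cons 9 (.ofNat (Nat.shiftLeft 0xcefb6fa3541e87a325 94)) (.cons 10 (.ofNat (Nat.shiftLeft 0x5900e03095047ecb4b 97)) (.cons 11 (.ofNat (Nat.shiftLeft 0x2590728798fd7b9413 93)) .nil)))))),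
    .cons 12 (.ofNat (Nat.shiftLeft 0x65f81a779 136)) (.cons 13 (.negSucc (Nat.sub (Nat.shiftLeft 0x234e2e7 142) 1)) (.cons 14 (.ofNat (Nat.shiftLeft 0x73de383 136)) (.cons 15 (.ofNat (Nat.shiftLeft 0x1b3fc71 137)) (.cons 16 (.ofNat (Nat.shiftLeft 0x1a89cd 136)) (.cons 17 (.ofNat (Nat.shiftLeft 0x3ca8b 136)) (.cons 18 (.ofNat (Nat.shiftLeft 0xb5fa1 137)) .nil)))))),
    .cons 12 (.ofNat (Nat.shiftLeft 0x114fd7e8a8e55205 110)) (.cons 13 (.negSucc (Nat.sub (Nat.shiftLeft 0x2224a7281668db 116) 1)) (.cons 14 (.negSucc (Nat.sub (Nat.shiftLeft 0x2e1be5d75c7a2b9 110) 1)) (.cons 15 (.negSucc (Nat.sub (Nat.shiftLeft 0x93570284ecfc63 111) 1)) (.cons 16 (.negSucc (Nat.sub (Nat.shiftLeft 0x19585917ac7a37 110) 1)) (.cons 17 (.ofNat (Nat.shiftLeft 0x515368fc9e37af 110)) (.cons 18 (.negSucc (Nat.sub (Nat.shiftLeft 0x360090a2558f3 111) 1)) .nil)))))),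
    .cons 12 (.negSucc (Nat.sub (Nat.shiftLeft 0x86775df846c4bb8d4d1 93) 1)) (.cons 13 (.negSucc (Nat.sub (Nat.shiftLeft 0x6484a14ca00df59171 99) 1)) (.cons 14 (.negSucc (Nat.sub (Nat.shiftLeft 0x482b62ded566bbe95cb 93) 1)) (.cons 15 (.negSucc (Nat.sub (Nat.shiftLeft 0x1fddf0091fbb5ded109 94) 1)) (.cons 16 (.ofNat (Nat.shiftLeft 0x23dee94d629c1bac8fb 93)) (.cons 17 (.negSucc (Nat.sub (Nat.shiftLeft 0xca7e9bda069b2e7593 93) 1)) (.cons 18 (.ofNat (Nat.shiftLeft 0xb0ce0450a02e749f47 94)) .nil)))))),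
    .cons 12 (.ofNat (Nat.shiftLeft 0x1cbd1f3ba8d86984afcc47272f 68)) (.cons 13 (.ofNat (Nat.shiftLeft 0x11da759a7cd536d5abf9fea8f 74)) (.cons 14 (.ofNat (Nat.shiftLeft 0x1c6e845afdc1106a76c4e1fe35 68)) (.cons 15 (.ofNat (Nat.shiftLeft 0x104b96e41fecdfab0249864af7 69)) (.cons 16 (.negSucc (Nat.sub (Nat.shiftLeft 0x71aa06c74a2a27976a4b50b05 68) 1)) (.cons 17 (.negSucc (Nat.sub (Nat.shiftLeft 0x342902b9609eb17afce630193 68) 1)) (.cons 18 (.negSucc (Nat.sub (Nat.shiftLeft 0x2bc6c60fbc227985b6b2904b9 69) 1)) .nil)))))),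
    .cons 12 (.ofNat (Nat.shiftLeft 0x625a1f610cdc8bf9985d34b1d3be7 51)) (.cons 13 (.ofNat (Nat.shiftLeft 0x16f8116c4f0b22758eccf81a9a247 57)) (.cons 14 (.negSucc (Nat.sub (Nat.shiftLeft 0x7c0daceebe67afa976190b717bc063 51) 1)) (.cons 15 (.negSucc (Nat.sub (Nat.shiftLeft 0x13454fc564cb744d4698b06ce16c11 52) 1)) (.cons 16 (.negSucc (Nat.sub (Nat.shiftLeft 0x137906c86b8140bf9fd1c1ccbfceed 51) 1)) (.cons 17 (.ofNat (Nat.shiftLeft 0x74e2ff048fcf88bca3b0575092b95 51)) (.cons 18 (.ofNat (Nat.shiftLeft 0x58144388b3d16e1c67c645f1b82bf 52)) .nil)))))),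
    .cons 12 (.ofNat (Nat.shiftLeft 0x4d6e986bcc7b8a44344b312478f3af0ed 32)) (.cons 13 (.ofNat (Nat.shiftLeft 0x104dc37f7179af83dfe9952149a1aa170d 38)) (.cons 14 (.negSucc (Nat.sub (Nat.shiftLeft 0x130a862041dd9ddb5ed8570a6b8b0bda41 32) 1)) (.cons 15 (.ofNat (Nat.shiftLeft 0xacbba565557210eebe546cd04752794945 33)) (.cons 16 (.negSucc (Nat.sub (Nat.shiftLeft 0x507290895a7d6f4624ce115c968bacee2f 32) 1)) (.cons 17 (.negSucc (Nat.sub (Nat.shiftLeft 0xad765ba6dcf5b38cd5ceeb7816a63d4699 32) 1)) (.cons 18 (.ofNat (Nat.shiftLeft 0x356051f5c4d36e1069f94bc580d482c35 33)) .nil)))))),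
    .cons 12 (.ofNat (Nat.shiftLeft 0x7d2a24aef7452787301fbb4c07c9b9495285 23)) (.cons 13 (.ofNat (Nat.shiftLeft 0x4da154d73ebe37e51a46d6075ac581ae7a5 29)) (.cons 14 (.negSucc (Nat.sub (Nat.shiftLeft 0x7dbd17ec13e7cb9ae017f20c76070094fb539 23) 1)) (.cons 15 (.negSucc (Nat.sub (Nat.shiftLeft 0x252378ea3404a41aeb22a0b5872dae9959fe3 24) 1)) (.cons 16 (.ofNat (Nat.shiftLeft 0x16df3aedfa9c7ec0081eedd5271358fd58049 23)) (.cons 17 (.negSucc (Nat.sub (Nat.shiftLeft 0x8d931e904446a5fee1e26651c982a24f36d1 23) 1)) (.cons 18 (.ofNat (Nat.shiftLeft 0x11f63df7adf9a2f736ecb008b0f3419125b8d 24)) .nil)))))),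
    .cons 19 (.ofNat (Nat.shiftLeft 0x3a0afd9 142)) (.cons 20 (.negSucc (Nat.sub (Nat.shiftLeft 0x183aad1 138) 1)) (.cons 21 (.negSucc (Nat.sub (Nat.shiftLeft 0x8928f 138) 1)) (.cons 22 (.negSucc (Nat.sub (Nat.shiftLeft 0xf3d7 138) 1)) .nil))),
    .cons 19 (.negSucc (Nat.sub (Nat.shiftLeft 0x3ba58b1ca01f09 115) 1)) (.cons 20 (.negSucc (Nat.sub (Nat.shiftLeft 0x824c5463e72b7f 111) 1)) (.cons 21 (.ofNat (Nat.shiftLeft 0x3d704c2095adf 111)) (.cons 22 (.ofNat (Nat.shiftLeft 0x3656f6c039eda7 111)) .nil))),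
    .cons 19 (.negSucc (Nat.sub (Nat.shiftLeft 0x577a606fde188fc9a96f 92) 1)) (.cons 20 (.negSucc (Nat.sub (Nat.shiftLeft 0xe40721407ae9f406edc9 88) 1)) (.cons 21 (.ofNat (Nat.shiftLeft 0x714b49661914c0bc8b69 88)) (.cons 22 (.negSucc (Nat.sub (Nat.shiftLeft 0x3bc8ad5c2c33ea95b79f 88) 1)) .nil))),
    .cons 19 (.ofNat (Nat.shiftLeft 0xf2d8d85b8debfeb21f349a69 74)) (.cons 20 (.ofNat (Nat.shiftLeft 0x74e90bc2c4c00d1bf480b631f 70)) (.cons 21 (.negSucc (Nat.sub (Nat.shiftLeft 0x1fa3da0ce7682f29f0370567f 70) 1)) (.cons 22 (.negSucc (Nat.sub (Nat.shiftLeft 0x14283ec67b2496bb28e9ab447 70) 1)) .nil))),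
    .cons 19 (.ofNat (Nat.shiftLeft 0x2894eed81ee08029126df5d62cb3 60)) (.cons 20 (.negSucc (Nat.sub (Nat.shiftLeft 0x107f3f9c8b4e1f881605e8a546a5b 56) 1)) (.cons 21 (.negSucc (Nat.sub (Nat.shiftLeft 0x791b0037238fd5d961b3aec61cc5 56) 1)) (.cons 22 (.ofNat (Nat.shiftLeft 0x4acce67de5174809aad7973f5223 56)) .nil))),
    .cons 19 (.ofNat (Nat.shiftLeft 0x25605dc145a7882068de3bf9f153902cd 40)) (.cons 20 (.ofNat (Nat.shiftLeft 0xc9f917554e6e737afdb29b6afdf8296db 36)) (.cons 21 (.negSucc (Nat.sub (Nat.shiftLeft 0x5e8d459ed8284f9661936f3bb1bc3dfbb 36) 1)) (.cons 22 (.negSucc (Nat.sub (Nat.shiftLeft 0x96aae0bf4f9849a3ccc2967721f878aa3 36) 1)) .nil))),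
    .cons 19 (.negSucc (Nat.sub (Nat.shiftLeft 0x1226c6a5c70eb3dc6d00a3edcf6a48e7f83 32) 1)) (.cons 20 (.ofNat (Nat.shiftLeft 0x416b88d5897deac02fee72a5b0d053a872ab 28)) (.cons 21 (.negSucc (Nat.sub (Nat.shiftLeft 0x122334760ec6e7cdd775e8bc16524ae31d8b 28) 1)) (.cons 22 (.ofNat (Nat.shiftLeft 0x9fd34a383f6e3f22789a975fda7beca520d 28)) .nil))),
    .cons 23 (.ofNat (Nat.shiftLeft 0x41246f 143)) .nil,
    .cons 23 (.negSucc (Nat.sub (Nat.shiftLeft 0xa7643af0c3b 124) 1)) .nil,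
    .cons 23 (.negSucc (Nat.sub (Nat.shiftLeft 0x552e3350c32c80f 106) 1)) .nil,
    .cons 23 (.negSucc (Nat.sub (Nat.shiftLeft 0x910923719cb9289c05 96) 1)) .nil,
    .nil],
   [.cons 0 (.negSucc (Nat.sub (Nat.shiftLeft 0xeb 160) 1)) .nil,
    .cons 1 (.negSucc (Nat.sub (Nat.shiftLeft 0x22cff59 144) 1)) (.cons 2 (.ofNat (Nat.shiftLeft 0x12d473f 142)) (.cons 3 (.ofNat (Nat.shiftLeft 0x19f6bd 143)) (.cons 4 (.negSucc (Nat.sub (Nat.shiftLeft 0x29a3dd 143) 1)) .nil))),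
    .cons 1 (.negSucc (Nat.sub (Nat.shiftLeft 0x2540aa7d604f 125) 1)) (.cons 2 (.ofNat (Nat.shiftLeft 0x43c7f77d3ad9 123)) (.cons 3 (.negSucc (Nat.sub (Nat.shiftLeft 0x6267efd8875 124) 1)) (.cons 4 (.negSucc (Nat.sub (Nat.shiftLeft 0x6130d648f6b 124) 1)) .nil))),
    .cons 1 (.ofNat (Nat.shiftLeft 0x18e2b5e5cee308117 105)) (.cons 2 (.ofNat (Nat.shiftLeft 0x2861594f4b08ea12f 103)) (.cons 3 (.ofNat (Nat.shiftLeft 0xb4963b7f5e3a148d 104)) (.cons 4 (.negSucc (Nat.sub (Nat.shiftLeft 0x172928e9e249d3ad 104) 1)) .nil))),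
    .cons 1 (.ofNat (Nat.shiftLeft 0x131f61f2f789214907f7 94)) (.cons 2 (.negSucc (Nat.sub (Nat.shiftLeft 0x19853feb8193557734f1 92) 1)) (.cons 3 (.ofNat (Nat.shiftLeft 0x3344f0e315326ab22d 93)) (.cons 4 (.negSucc (Nat.sub (Nat.shiftLeft 0x483585f40e3925dd54d 93) 1)) .nil))),
    .cons 5 (.negSucc (Nat.sub (Nat.shiftLeft 0x4a7bfe853 136) 1)) (.cons 6 (.negSucc (Nat.sub (Nat.shiftLeft 0xc25f4877 136) 1)) (.cons 7 (.ofNat (Nat.shiftLeft 0x1a4d245 138)) (.cons 8 (.ofNat (Nat.shiftLeft 0x4ee76cf 136)) (.cons 9 (.negSucc (Nat.sub (Nat.shiftLeft 0xb5fa1 138) 1)) (.cons 10 (.negSucc (Nat.sub (Nat.shiftLeft 0xb5fa1 136) 1)) (.cons 11 (.ofNat (Nat.shiftLeft 0x12f4b7 136)) .nil)))))),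
    .cons 5 (.ofNat (Nat.shiftLeft 0x17cf62ce1cb1fe29 110)) (.cons 6 (.negSucc (Nat.sub (Nat.shiftLeft 0x2d2f13f9bbcdf2b 110) 1)) (.cons 7 (.ofNat (Nat.shiftLeft 0x1045a6b889a24e1 112)) (.cons 8 (.negSucc (Nat.sub (Nat.shiftLeft 0x6bb2076631915d 110) 1)) (.cons 9 (.negSucc (Nat.sub (Nat.shiftLeft 0xdb2f5daa70d 112) 1)) (.cons 10 (.negSucc (Nat.sub (Nat.shiftLeft 0x63f962f5daa70d 110) 1)) (.cons 11 (.ofNat (Nat.shiftLeft 0x9e2a4ef17166b 110)) .nil)))))),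
    .cons 5 (.ofNat (Nat.shiftLeft 0x5c10d70081aef5d2e1b 93)) (.cons 6 (.negSucc (Nat.sub (Nat.shiftLeft 0x23b09b0f122deb0e0661 93) 1)) (.cons 7 (.negSucc (Nat.sub (Nat.shiftLeft 0xd8d49e8d6b4924fabd 95) 1)) (.cons 8 (.negSucc (Nat.sub (Nat.shiftLeft 0x597de5b1e5fdb6ef037 93) 1)) (.cons 9 (.negSucc (Nat.sub (Nat.shiftLeft 0xd5d95987542e749f47 95) 1)) (.cons 10 (.ofNat (Nat.shiftLeft 0xac17ce879bd18b60b9 93)) (.cons 11 (.ofNat (Nat.shiftLeft 0xddb0b971a6f817b421 93)) .nil)))))),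
    .cons 5 (.ofNat (Nat.shiftLeft 0x26cebe4fec32bde0bc3059da1b 68)) (.cons 6 (.ofNat (Nat.shiftLeft 0x17f9c1e5372ed1c1a059ffb59f 68)) (.cons 7 (.negSucc (Nat.sub (Nat.shiftLeft 0xa161746b1445701c87cedaebd 70) 1)) (.cons 8 (.ofNat (Nat.shiftLeft 0xb79d44f260a2c8c888936f3c9 68)) (.cons 9 (.ofNat (Nat.shiftLeft 0xc71921e72db091a76b2904b9 70)) (.cons 10 (.ofNat (Nat.shiftLeft 0x7c976075b394860976b2904b9 68)) (.cons 11 (.ofNat (Nat.shiftLeft 0x7c3183b308e525d58f810f821 68)) .nil)))))),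
    .cons 5 (.ofNat (Nat.shiftLeft 0x8008c137b35a606e6b0c5105b1733 51)) (.cons 6 (.ofNat (Nat.shiftLeft 0x225f702cee77ac70a6fb56a0d891d7 51)) (.cons 7 (.ofNat (Nat.shiftLeft 0x2b37cbfbd4ecb8ed6c1bdfbef9e59b 53)) (.cons 8 (.negSucc (Nat.sub (Nat.shiftLeft 0xe7328160732741acd11eec3124f2f 51) 1)) (.cons 9 (.ofNat (Nat.shiftLeft 0x2219e33381f8d5f47a047a0e47d41 53)) (.cons 10 (.negSucc (Nat.sub (Nat.shiftLeft 0x41b9cda53f44d8faf65485f1b82bf 51) 1)) (.cons 11 (.negSucc (Nat.sub (Nat.shiftLeft 0xd89a6c8ba8ed96f8750dcb6d22617 51) 1)) .nil)))))),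
    .cons 5 (.ofNat (Nat.shiftLeft 0x5f01e952016db609a3320672ef3e53531 32)) (.cons 6 (.negSucc (Nat.sub (Nat.shiftLeft 0x5d9410f59f4e08445433c311f66fc6b7dc3 32) 1)) (.cons 7 (.ofNat (Nat.shiftLeft 0x37022f55ac6654077004183c3eb6e63a9 34)) (.cons 8 (.negSucc (Nat.sub (Nat.shiftLeft 0x1eb7ec6e0d844fae94039ed0dce3db4d505 32) 1)) (.cons 9 (.negSucc (Nat.sub (Nat.shiftLeft 0x2118e22eb31dd3840a48ae8f40d482c35 34) 1)) (.cons 10 (.ofNat (Nat.shiftLeft 0x2fd47639182a2574a87d25b9dbf2b7d3cb 32)) (.cons 11 (.negSucc (Nat.sub (Nat.shiftLeft 0x58d6900b213b2718b6d4cf0193f3260fd 32) 1)) .nil)))))),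
    .cons 5 (.negSucc (Nat.sub (Nat.shiftLeft 0x571c1796d6e17a1a70ea1d868a5869399757 23) 1)) (.cons 6 (.ofNat (Nat.shiftLeft 0x1c1196f2477ed74b35a68aedf3aeb87456955 23)) (.cons 7 (.negSucc (Nat.sub (Nat.shiftLeft 0x16c4a98e9c9c5e5d7f4ae86b198be6058c49f 25) 1)) (.cons 8 (.negSucc (Nat.sub (Nat.shiftLeft 0x692cedaea39273d969e442e4bac85210a4ddd 23) 1)) (.cons 9 (.negSucc (Nat.sub (Nat.shiftLeft 0x8c41212ad4bacc195c41c61a42f019125b8d 25) 1)) (.cons 10 (.ofNat (Nat.shiftLeft 0x7bcd6534e6abdbc479f3dc73d95fe6eda473 23)) (.cons 11 (.ofNat (Nat.shiftLeft 0x19c4823cdb58d72e0e877b3f5ae0ad473edeb 23)) .nil)))))),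
    .cons 12 (.negSucc (Nat.sub (Nat.shiftLeft 0x11de14a65 138) 1)) (.cons 13 (.negSucc (Nat.sub (Nat.shiftLeft 0x2dfdd84f 138) 1)) (.cons 14 (.negSucc (Nat.sub (Nat.shiftLeft 0x1115e09 138) 1)) (.cons 15 (.ofNat (Nat.shiftLeft 0x13f1659 138)) (.cons 16 (.ofNat (Nat.shiftLeft 0x4c333 139)) (.cons 17 (.ofNat (Nat.shiftLeft 0x2db85 138)) (.cons 18 (.negSucc (Nat.sub (Nat.shiftLeft 0xf3d7 140) 1)) .nil)))))),
    .cons 12 (.ofNat (Nat.shiftLeft 0xc1d83a82a6b31d5 111)) (.cons 13 (.negSucc (Nat.sub (Nat.shiftLeft 0x180749852ebeb61 111) 1)) (.cons 14 (.negSucc (Nat.sub (Nat.shiftLeft 0x2114b167f0e91c7 111) 1)) (.cons 15 (.negSucc (Nat.sub (Nat.shiftLeft 0x3280058bcdfd89 111) 1)) (.cons 16 (.negSucc (Nat.sub (Nat.shiftLeft 0xceea5c121a443 112) 1)) (.cons 17 (.negSucc (Nat.sub (Nat.shiftLeft 0x2c0a5c40adc8f5 111) 1)) (.cons 18 (.negSucc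 (Nat.sub (Nat.shiftLeft 0x15ae33fc61259 113) 1)) .nil)))))),
    .cons 12 (.negSucc (Nat.sub (Nat.shiftLeft 0xbfe013b07fe885a66ebd 88) 1)) (.cons 13 (.ofNat (Nat.shiftLeft 0x476e90631963608e0d3a9 88)) (.cons 14 (.negSucc (Nat.sub (Nat.shiftLeft 0x6caba041f0bbfdd8db41 88) 1)) (.cons 15 (.ofNat (Nat.shiftLeft 0xb5c1d3808c0ff9eb4911 88)) (.cons 16 (.negSucc (Nat.sub (Nat.shiftLeft 0x327e7c39af886b1369e5 89) 1)) (.cons 17 (.ofNat (Nat.shiftLeft 0x22c0331bebd3bfc126dd 88)) (.cons 18 (.ofNat (Nat.shiftLeft 0x7da474decf6156a4861 90)) .nil)))))),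
    .cons 12 (.ofNat (Nat.shiftLeft 0x9fcd797b2e06e51d13596264b 70)) (.cons 13 (.ofNat (Nat.shiftLeft 0x68b45ce79f7b63458541547c1 70)) (.cons 14 (.ofNat (Nat.shiftLeft 0xa45c5703ba361f18a208fe467 70)) (.cons 15 (.ofNat (Nat.shiftLeft 0x2c7fe6cd34478cdc89c71e8e9 70)) (.cons 16 (.ofNat (Nat.shiftLeft 0x21f4523e2b7ea5d0c9058563 71)) (.cons 17 (.ofNat (Nat.shiftLeft 0x21696e9ff5d4a958fabd01cd5 70)) (.cons 18 (.negSucc (Nat.sub (Nat.shiftLeft 0x7cec61d8044298188e9ab447 72) 1)) .nil)))))),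
    .cons 12 (.ofNat (Nat.shiftLeft 0x4661b935961d2da67effe1e93ec9 56)) (.cons 13 (.ofNat (Nat.shiftLeft 0xff3f5a28542ed93aead60074fbfb 56)) (.cons 14 (.negSucc (Nat.sub (Nat.shiftLeft 0x56c3e38df896d8c85e7e57002eac3 56) 1)) (.cons 15 (.negSucc (Nat.sub (Nat.shiftLeft 0x6bcfe651dae3a38753beebdc7bcd 56) 1)) (.cons 16 (.negSucc (Nat.sub (Nat.shiftLeft 0x216f23906f3a8831a7d9f43c9aaf 57) 1)) (.cons 17 (.ofNat (Nat.shiftLeft 0x1f9585fe9143c55ad213a420997 56)) (.cons 18 (.ofNat (Nat.shiftLeft 0x1e7b692a4f7ac6731055973f5223 58)) .nil)))))),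
    .cons 12 (.ofNat (Nat.shiftLeft 0x6aff5c10644b4f3cd4a3d42ada0107b7 36)) (.cons 13 (.ofNat (Nat.shiftLeft 0x5d1b32c0a3c97c556917fcd38b985ae785 36)) (.cons 14 (.negSucc (Nat.sub (Nat.shiftLeft 0x1778c1d7cb304da855341055958f46cbd 36) 1)) (.cons 15 (.ofNat (Nat.shiftLeft 0x1e997b90d07cdb0282bdf411f7425e6b4d 36)) (.cons 16 (.negSucc (Nat.sub (Nat.shiftLeft 0xfd14b3b9c703478cf8f90321625a4ad1 37) 1)) (.cons 17 (.negSucc (Nat.sub (Nat.shiftLeft 0x27f351d0ffdc7aa2e321bd351a1696017 36) 1)) (.cons 18 (.ofNat (Nat.shiftLeft 0x1cdc32155dfa42e2116d4e0fe078755d 38)) .nil)))))),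
    .cons 12 (.negSucc (Nat.sub (Nat.shiftLeft 0x330c8b07ccfd8996d4806e72843d22f8c39 28) 1)) (.cons 13 (.ofNat (Nat.shiftLeft 0xe0cddc481203fa87a3f536a719b5713d5b5 28)) (.cons 14 (.ofNat (Nat.shiftLeft 0x2b72d1da581c47247018a5d9c526e4d1fc93 28)) (.cons 15 (.negSucc (Nat.sub (Nat.shiftLeft 0x34df44887efee6bf223ce4b224e2aac15f03 28) 1)) (.cons 16 (.ofNat (Nat.shiftLeft 0x7e5315037c590697bb38b582b1d460c65bf 29)) (.cons 17 (.negSucc (Nat.sub (Nat.shiftLeft 0x5bb4a3c0f4eeb5b9bb8b2895c1f3c5ef627 28) 1)) (.cons 18 (.negSucc (Nat.sub (Nat.shiftLeft 0x339305ed9a6371272d66ddd3bf64135adf3 30) 1)) .nil)))))),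
    .cons 19 (.negSucc (Nat.sub (Nat.shiftLeft 0x8f5b201 142) 1)) (.cons 20 (.negSucc (Nat.sub (Nat.shiftLeft 0x13bea6f 142) 1)) (.cons 21 (.negSucc (Nat.sub (Nat.shiftLeft 0x5a9c8b 142) 1)) (.cons 22 (.negSucc (Nat.sub (Nat.shiftLeft 0x17829 147) 1)) .nil))),
    .cons 19 (.ofNat (Nat.shiftLeft 0x9576c0060cf5 123)) (.cons 20 (.ofNat (Nat.shiftLeft 0x4679c55a8a3b 123)) (.cons 21 (.negSucc (Nat.sub (Nat.shiftLeft 0x346272588f9 123) 1)) (.cons 22 (.ofNat (Nat.shiftLeft 0x891842813d 128)) .nil))),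
    .cons 19 (.negSucc (Nat.sub (Nat.shiftLeft 0x190e89bd16f1ee79f 105) 1)) (.cons 20 (.ofNat (Nat.shiftLeft 0xa3ef7e162f9bce0f 105)) (.cons 21 (.ofNat (Nat.shiftLeft 0x53485160bbcb72ab 105)) (.cons 22 (.negSucc (Nat.sub (Nat.shiftLeft 0xf41312274ae277 110) 1)) .nil))),
    .cons 19 (.ofNat (Nat.shiftLeft 0x96b975ece3a727aeecb 95)) (.cons 20 (.ofNat (Nat.shiftLeft 0x330071be8526eb39e05 95)) (.cons 21 (.negSucc (Nat.sub (Nat.shiftLeft 0x9f56ea2f4c8c6745c7 95) 1)) (.cons 22 (.negSucc (Nat.sub (Nat.shiftLeft 0x738b0bed2c26faf7d 100) 1)) .nil))),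
    .cons 23 (.negSucc (Nat.sub (Nat.shiftLeft 0x1d1 159) 1)) .nil],
   [.nil,
    .cons 0 (.ofNat (Nat.shiftLeft 0x81d1b1 142)) .nil,
    .cons 0 (.ofNat (Nat.shiftLeft 0x14e7f50c55b7 123)) .nil,
    .cons 0 (.ofNat (Nat.shiftLeft 0x3333e243e72266c1 103)) .nil,
    .cons 0 (.negSucc (Nat.sub (Nat.shiftLeft 0x9a958cd072cf3ea851f 92) 1)) .nil,
    .cons 1 (.ofNat (Nat.shiftLeft 0xe9156fc9 136)) (.cons 2 (.ofNat (Nat.shiftLeft 0x64b40c3 136)) (.cons 3 (.ofNat (Nat.shiftLeft 0x221ee3 137)) (.cons 4 (.ofNat (Nat.shiftLeft 0x12f4b7 136)) .nil))),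
    .cons 1 (.negSucc (Nat.sub (Nat.shiftLeft 0x6fd2eececb68beb 110) 1)) (.cons 2 (.ofNat (Nat.shiftLeft 0xf0baa362aa7187 110)) (.cons 3 (.ofNat (Nat.shiftLeft 0x1b1994e18ff527 111)) (.cons 4 (.ofNat (Nat.shiftLeft 0x620cf4ef17166b 110)) .nil))),
    .cons 1 (.ofNat (Nat.shiftLeft 0x2bd985c01e295ea97b5f 93)) (.cons 2 (.negSucc (Nat.sub (Nat.shiftLeft 0x6f0eb7ce9efa021310b 93) 1)) (.cons 3 (.ofNat (Nat.shiftLeft 0x21090858cf08b5dddd5 94)) (.cons 4 (.negSucc (Nat.sub (Nat.shiftLeft 0x44f5007d6907e84bdf 93) 1)) .nil))),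
    .cons 1 (.ofNat (Nat.shiftLeft 0x3ccbdc9e88c5816caa3f0e375f 68)) (.cons 2 (.negSucc (Nat.sub (Nat.shiftLeft 0x1b27ab22c0b91827d5a25d9d0b 68) 1)) (.cons 3 (.ofNat (Nat.shiftLeft 0x204a5e42a67ba11fdbe84f1d5 69)) (.cons 4 (.negSucc (Nat.sub (Nat.shiftLeft 0x8b6c28074e36fd1b707ef07df 68) 1)) .nil))),
    .cons 1 (.ofNat (Nat.shiftLeft 0x512c9245a29b299ae329526aca7197 51)) (.cons 2 (.ofNat (Nat.shiftLeft 0x20aae2e6a567221e4805574c395a5d 51)) (.cons 3 (.ofNat (Nat.shiftLeft 0x970ecd2596d197c27f4bd1d52883d 52)) (.cons 4 (.ofNat (Nat.shiftLeft 0x1f16324abf31b19e93b93492dd9e9 51)) .nil))),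
    .cons 1 (.negSucc (Nat.sub (Nat.shiftLeft 0x26be3ea0a6de24e022aaa8def8e79436083 32) 1)) (.cons 2 (.ofNat (Nat.shiftLeft 0xccef718792ecca32babf98187e0445cbff 32)) (.cons 3 (.ofNat (Nat.shiftLeft 0x1adb0993336aaeacb16e5d03827d8849f 33)) (.cons 4 (.ofNat (Nat.shiftLeft 0xc0496a1024c4b155fdb6daf8b6c0cd9f03 32)) .nil))),
    .cons 1 (.negSucc (Nat.sub (Nat.shiftLeft 0x2241b86cc3ca784236a9d4a90e100dc1f236b 23) 1)) (.cons 2 (.negSucc (Nat.sub (Nat.shiftLeft 0x813b7f77d71d6828778aa30188c87758200f9 23) 1)) (.cons 3 (.ofNat (Nat.shiftLeft 0x15937ae3e1eb296469408528f5f4c4b3712a7 24)) (.cons 4 (.negSucc (Nat.sub (Nat.shiftLeft 0x3ea087abfbc9278822a0f3f11fa52b8c1215 23) 1)) .nil))),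
    .cons 5 (.ofNat (Nat.shiftLeft 0x6841de91 140)) (.cons 6 (.negSucc (Nat.sub (Nat.shiftLeft 0x1fc74c1b 138) 1)) (.cons 7 (.negSucc (Nat.sub (Nat.shiftLeft 0x1d3ad5d 138) 1)) (.cons 8 (.ofNat (Nat.shiftLeft 0xe95cc3 138)) (.cons 9 (.negSucc (Nat.sub (Nat.shiftLeft 0xf3d7 141) 1)) (.cons 10 (.negSucc (Nat.sub (Nat.shiftLeft 0x2db85 138) 1)) (.cons 11 (.negSucc (Nat.sub (Nat.shiftLeft 0xf3d7 140) 1)) .nil)))))),
    .cons 5 (.ofNat (Nat.shiftLeft 0x21696e592c3e3bf 113)) (.cons 6 (.negSucc (Nat.sub (Nat.shiftLeft 0x405deccb3522355 111) 1)) (.cons 7 (.ofNat (Nat.shiftLeft 0x173d38aaf1acf4d 111)) (.cons 8 (.negSucc (Nat.sub (Nat.shiftLeft 0x8ed49df77070d3 111) 1)) (.cons 9 (.ofNat (Nat.shiftLeft 0x436e5c039eda7 114)) (.cons 10 (.ofNat (Nat.shiftLeft 0x1ed21440adc8f5 111)) (.cons 11 (.ofNat (Nat.shiftLeft 0xb9d2c039eda7 113)) .nil)))))),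
    .cons 5 (.ofNat (Nat.shiftLeft 0x3e1d78752bee21092389 90)) (.cons 6 (.ofNat (Nat.shiftLeft 0x32a244c2594de7af0cc3d 88)) (.cons 7 (.negSucc (Nat.sub (Nat.shiftLeft 0x9d29355a0c1aed272df5 88) 1)) (.cons 8 (.ofNat (Nat.shiftLeft 0x7ecb198531e78148bb2b 88)) (.cons 9 (.ofNat (Nat.shiftLeft 0x9273c701da5156a4861 91)) (.cons 10 (.negSucc (Nat.sub (Nat.shiftLeft 0xd5be9aaf74bbfc126dd 88) 1)) (.cons 11 (.ofNat (Nat.shiftLeft 0xbbd2f989710156a4861 90)) .nil)))))),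
    .cons 5 (.ofNat (Nat.shiftLeft 0x1b216f585231e9eba9d0ccca1 72)) (.cons 6 (.ofNat (Nat.shiftLeft 0x11778af211cc6255f8408f5b35 70)) (.cons 7 (.negSucc (Nat.sub (Nat.shiftLeft 0x71ed5ebe477f672bf82b7c42d 70) 1)) (.cons 8 (.ofNat (Nat.shiftLeft 0x7f15659070366d95a7a0e87f3 70)) (.cons 9 (.ofNat (Nat.shiftLeft 0x1f4ae806be5652be71654bb9 73)) (.cons 10 (.negSucc (Nat.sub (Nat.shiftLeft 0x1aff5978cde018247abd01cd5 70) 1)) (.cons 11 (.ofNat (Nat.shiftLeft 0x59e041f2b3427ef171654bb9 72)) .nil)))))),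
    .cons 5 (.ofNat (Nat.shiftLeft 0xb33a9a7e01d62079656dedacb9b 58)) (.cons 6 (.ofNat (Nat.shiftLeft 0x2f9cba834ef64585a11b91b9759b7 56)) (.cons 7 (.ofNat (Nat.shiftLeft 0x3c80cc3f5725cb42d95e716728921 56)) (.cons 8 (.negSucc (Nat.sub (Nat.shiftLeft 0x133055e8c68353ec25babbf999b7f 56) 1)) (.cons 9 (.ofNat (Nat.shiftLeft 0x16a2fbe89129629bb962973f5223 59)) (.cons 10 (.negSucc (Nat.sub (Nat.shiftLeft 0x13f0881efbf2e22987893a420997 56) 1)) (.cons 11 (.negSucc (Nat.sub (Nat.shiftLeft 0x15bef0e9ada4780a675c68c0addd 58) 1)) .nil)))))),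
    .cons 5 (.ofNat (Nat.shiftLeft 0x11571c03548d99f69a76eace236e27e5 38)) (.cons 6 (.negSucc (Nat.sub (Nat.shiftLeft 0x42b02bb996500c5bf2ccfbbd6ded1c6037 36) 1)) (.cons 7 (.ofNat (Nat.shiftLeft 0x61da440d74ada425fe4231b58709195f 36)) (.cons 8 (.negSucc (Nat.sub (Nat.shiftLeft 0x15dd8228c56f438b08adaa006fd3485201 36) 1)) (.cons 9 (.ofNat (Nat.shiftLeft 0x2caf6b4edbd57a32d277d582e078755d 39)) (.cons 10 (.ofNat (Nat.shiftLeft 0xc96942740279799f51f4929b9a1696017 36)) (.cons 11 (.negSucc (Nat.sub (Nat.shiftLeft 0x1fb785ccb831a453b1d5173e1f878aa3 38) 1)) .nil)))))),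
    .cons 5 (.ofNat (Nat.shiftLeft 0xddc61d12d4638f5ca05a9bb78cb832c015 30)) (.cons 6 (.ofNat (Nat.shiftLeft 0x95d202e8171e69137d2eb5ded2064137bb9 28)) (.cons 7 (.ofNat (Nat.shiftLeft 0x3fc503553d1ab64f4d539d922cd2ee0b5eef 28)) (.cons 8 (.negSucc (Nat.sub (Nat.shiftLeft 0x252b5bdc0f5b2d8c4a7e45ad2bb197a08671 28) 1)) (.cons 9 (.negSucc (Nat.sub (Nat.shiftLeft 0x15c95a36d318a0cd047a121b6334135adf3 31) 1)) (.cons 10 (.ofNat (Nat.shiftLeft 0x2591810eca681c0791b86c6a0073c5ef627 28)) (.cons 11 (.negSucc (Nat.sub (Nat.shiftLeft 0x492efb057176f6a4788ef918b644135adf3 30) 1)) .nil)))))),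
    .cons 12 (.ofNat (Nat.shiftLeft 0x1d69d449 142)) (.cons 13 (.ofNat (Nat.shiftLeft 0x382c4a1 143)) (.cons 14 (.negSucc (Nat.sub (Nat.shiftLeft 0x52121cb 142) 1)) (.cons 15 (.ofNat (Nat.shiftLeft 0xfa489d 142)) (.cons 16 (.ofNat (Nat.shiftLeft 0x758cd 145)) (.cons 17 (.ofNat (Nat.shiftLeft 0x18fab9 142)) (.cons 18 (.negSucc (Nat.sub (Nat.shiftLeft 0xb43e5 142) 1)) .nil)))))),
    .cons 12 (.ofNat (Nat.shiftLeft 0x60dad08f1423 123)) (.cons 13 (.negSucc (Nat.sub (Nat.shiftLeft 0x3ba48ebc2015 124) 1)) (.cons 14 (.ofNat (Nat.shiftLeft 0x6538e0fe7d47 123)) (.cons 15 (.negSucc (Nat.sub (Nat.shiftLeft 0x37f1676aa841 123) 1)) (.cons 16 (.ofNat (Nat.shiftLeft 0xcf203379cf 126)) (.cons 17 (.negSucc (Nat.sub (Nat.shiftLeft 0x959faea950d 123) 1)) (.cons 18 (.negSucc (Nat.sub (Nat.shiftLeft 0x134e742ccbd7 123) 1)) .nil)))))),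
    .cons 12 (.negSucc (Nat.sub (Nat.shiftLeft 0x2b1c6eb900fcc5a9 105) 1)) (.cons 13 (.ofNat (Nat.shiftLeft 0xa8a420e5b41718ff 106)) (.cons 14 (.ofNat (Nat.shiftLeft 0x34a4cb47c786b6feb 105)) (.cons 15 (.negSucc (Nat.sub (Nat.shiftLeft 0x8330539cdc57517d 105) 1)) (.cons 16 (.negSucc (Nat.sub (Nat.shiftLeft 0x9186b6da80993ad 108) 1)) (.cons 17 (.ofNat (Nat.shiftLeft 0x10fff372177909e7 105)) (.cons 18 (.negSucc (Nat.sub (Nat.shiftLeft 0x4780e4e52d68c83b 105) 1)) .nil)))))),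
    .cons 12 (.ofNat (Nat.shiftLeft 0xb25c6726d4475a21d 95)) (.cons 13 (.ofNat (Nat.shiftLeft 0x5daab5b3cdd9f5a4c55 96)) (.cons 14 (.negSucc (Nat.sub (Nat.shiftLeft 0x31791ba150a7619c07 95) 1)) (.cons 15 (.ofNat (Nat.shiftLeft 0x3e9a4f7365deccfc381 95)) (.cons 16 (.ofNat (Nat.shiftLeft 0xb43d41a8252ae6d71 98)) (.cons 17 (.ofNat (Nat.shiftLeft 0x16ea6b710c567eaa74d 95)) (.cons 18 (.ofNat (Nat.shiftLeft 0xc61cdb0566627be97 95)) .nil)))))),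
    .cons 19 (.ofNat (Nat.shiftLeft 0x783 160)) (.cons 20 (.ofNat (Nat.shiftLeft 0x50f 159)) (.cons 21 (.ofNat (Nat.shiftLeft 0x69 159)) (.cons 22 (.ofNat (Nat.shiftLeft 0x11d 159)) .nil)))]⟩

noncomputable def A18 : Tn :=
  ⟨[.cons 1 (.negSucc (Nat.sub (Nat.shiftLeft 0xf05 159) 1)) (.cons 2 (.negSucc (Nat.sub (Nat.shiftLeft 0x511 159) 1)) (.cons 3 (.negSucc (Nat.sub (Nat.shiftLeft 0x17 160) 1)) (.cons 4 (.ofNat (Nat.shiftLeft 0x127 159)) .nil))),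
    .cons 5 (.ofNat (Nat.shiftLeft 0x75ad31d1 140)) (.cons 6 (.negSucc (Nat.sub (Nat.shiftLeft 0x39b9b615 139) 1)) (.cons 7 (.ofNat (Nat.shiftLeft 0x14318145 140)) (.cons 8 (.ofNat (Nat.shiftLeft 0x7e30435 139)) (.cons 9 (.ofNat (Nat.shiftLeft 0xbb1bf7 140)) (.cons 10 (.negSucc (Nat.sub (Nat.shiftLeft 0xa58eb1 140) 1)) (.cons 11 (.negSucc (Nat.sub (Nat.shiftLeft 0x2e0ae7 140) 1)) .nil)))))),
    .cons 5 (.negSucc (Nat.sub (Nat.shiftLeft 0x60cd09981b4f1b 115) 1)) (.cons 6 (.negSucc (Nat.sub (Nat.shiftLeft 0xf36a95a25db579 114) 1)) (.cons 7 (.ofNat (Nat.shiftLeft 0x63af0f828d6469 115)) (.cons 8 (.ofNat (Nat.shiftLeft 0x70e65cbb5b7619 114)) (.cons 9 (.negSucc (Nat.sub (Nat.shiftLeft 0x9724b7030897d 115) 1)) (.cons 10 (.negSucc (Nat.sub (Nat.shiftLeft 0x695f577343745 115) 1)) (.cons 11 (.ofNat (Nat.shiftLeft 0x1359513fcb9bcd 115)) .nil)))))),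
    .cons 5 (.ofNat (Nat.shiftLeft 0xa7678ed21bf07e6d61 95)) (.cons 6 (.ofNat (Nat.shiftLeft 0xa1c784dcd863057d01b 94)) (.cons 7 (.ofNat (Nat.shiftLeft 0xd3e6ff86b6c1f746615 95)) (.cons 8 (.ofNat (Nat.shiftLeft 0x4263a8816d8be6c3005 94)) (.cons 9 (.ofNat (Nat.shiftLeft 0x1272d472aa73d3ed0e7 95)) (.cons 10 (.negSucc (Nat.sub (Nat.shiftLeft 0x110d15e86bc03e4841 95) 1)) (.cons 11 (.ofNat (Nat.shiftLeft 0x126034f162af4f33929 95)) .nil)))))),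
    .cons 5 (.negSucc (Nat.sub (Nat.shiftLeft 0x1811d2af644c80a4107 85) 1)) (.cons 6 (.negSucc (Nat.sub (Nat.shiftLeft 0x5d351b81db9afdc8647fdd 84) 1)) (.cons 7 (.negSucc (Nat.sub (Nat.shiftLeft 0x28eb694c3de067dd1d73 85) 1)) (.cons 8 (.ofNat (Nat.shiftLeft 0x1f4364a4c95e778fd492fd 84)) (.cons 9 (.negSucc (Nat.sub (Nat.shiftLeft 0xa311e22dd242a0f085f1 85) 1)) (.cons 10 (.negSucc (Nat.sub (Nat.shiftLeft 0x5ded64d27a54755738ed9 85) 1)) (.cons 11 (.negSucc (Nat.sub (Nat.shiftLeft 0xc24add3b1727d41767f 85) 1)) .nil)))))),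
    .cons 12 (.negSucc (Nat.sub (Nat.shiftLeft 0x6723fce09 136) 1)) (.cons 13 (.negSucc (Nat.sub (Nat.shiftLeft 0x10ccdf92b 135) 1)) (.cons 14 (.negSucc (Nat.sub (Nat.shiftLeft 0x3ba01f1 137) 1)) (.cons 15 (.negSucc (Nat.sub (Nat.shiftLeft 0x72bcca9 135) 1)) (.cons 16 (.negSucc (Nat.sub (Nat.shiftLeft 0x1a9b15 136) 1)) (.cons 18 (.negSucc (Nat.sub (Nat.shiftLeft 0x29cf21 135) 1)) .nil))))),
    .cons 12 (.negSucc (Nat.sub (Nat.shiftLeft 0x10fcd793497e2bacb 106) 1)) (.cons 13 (.negSucc (Nat.sub (Nat.shiftLeft 0x10aae6a1593b72091 105) 1)) (.cons 14 (.ofNat (Nat.shiftLeft 0x175154d8206015fd 107)) (.cons 15 (.ofNat (Nat.shiftLeft 0x2479077ceb2d2b55 105)) (.cons 16 (.ofNat (Nat.shiftLeft 0x35fc2b57dd7d7d1 106)) (.cons 17 (.negSucc (Nat.sub (Nat.shiftLeft 0x23de12d 139) 1)) (.cons 18 (.ofNat (Nat.shiftLeft 0xd4607dc5c0e56d 105)) .nil)))))),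
    .cons 12 (.ofNat (Nat.shiftLeft 0x1057c7ba895b26e7e96bf5b 80)) (.cons 13 (.negSucc (Nat.sub (Nat.shiftLeft 0x6506febaf8976efff97a0bf 79) 1)) (.cons 14 (.ofNat (Nat.shiftLeft 0x4c512a0cfabfaf841ecd13 81)) (.cons 15 (.ofNat (Nat.shiftLeft 0x1040e49eb0eca8ff8a1433b 79)) (.cons 16 (.negSucc (Nat.sub (Nat.shiftLeft 0x4be40e4c0c7c449beed281 80) 1)) (.cons 17 (.ofNat (Nat.shiftLeft 0x3a46ced3bf1d 113)) (.cons 18 (.negSucc (Nat.sub (Nat.shiftLeft 0x594808845c6f0c62c06f5d 79) 1)) .nil)))))),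
    .cons 12 (.negSucc (Nat.sub (Nat.shiftLeft 0x6fd2ff4479ec12ba6a954ac71db 62) 1)) (.cons 13 (.ofNat (Nat.shiftLeft 0x23259d6476df6027633e69a1213f 61)) (.cons 14 (.negSucc (Nat.sub (Nat.shiftLeft 0x398f0304fe4f8ef5c3f6674a393 63) 1)) (.cons 15 (.negSucc (Nat.sub (Nat.shiftLeft 0x10475daa8441f03aec6b7a3105bb 61) 1)) (.cons 16 (.ofNat (Nat.shiftLeft 0x1598adf295a1510f709c693b201 62)) (.cons 17 (.ofNat (Nat.shiftLeft 0xb6d9d8022defa22f63 95)) (.cons 18 (.ofNat (Nat.shiftLeft 0x2c7839ba519947bf1f9137a60dd 61)) .nil)))))),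
    .cons 12 (.negSucc (Nat.sub (Nat.shiftLeft 0xc0dbdcc7dd438b95c161a0103e7ad83 42) 1)) (.cons 13 (.ofNat (Nat.shiftLeft 0x1774885bfbbc3d89dab3c89c23778cfc7 41)) (.cons 14 (.ofNat (Nat.shiftLeft 0x7a52ffcde43349660e9000192709ca85 43)) (.cons 15 (.ofNat (Nat.shiftLeft 0x98e6df07928784b034777a1b8ff74d9d 41)) (.cons 16 (.ofNat (Nat.shiftLeft 0x2adfa4f69a4c64ce62f3b9cebf4dc979 42)) (.cons 17 (.negSucc (Nat.sub (Nat.shiftLeft 0x12fe1a5756f64170c4e0535 75) 1)) (.cons 18 (.negSucc (Nat.sub (Nat.shiftLeft 0x29c364b1663c7fd53e453a6841180c8b 41) 1)) .nil)))))),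
    .cons 12 (.ofNat (Nat.shiftLeft 0x905da6f30be43350ab493d0f6822766ab1 21)) (.cons 13 (.ofNat (Nat.shiftLeft 0x41dec5ec03d8f8538274387e4e7be13ee8fda3 20)) (.cons 14 (.ofNat (Nat.shiftLeft 0x3144eec615e9751f8489e90e9770dfc9cd9 22)) (.cons 15 (.negSucc (Nat.sub (Nat.shiftLeft 0x160e9782fcfb8e739e819c4faf638957d385af 20) 1)) (.cons 16 (.ofNat (Nat.shiftLeft 0x72783912303f8b78f028ff629ba36e08109d 21)) (.cons 17 (.ofNat (Nat.shiftLeft 0x31f3dc0abbbaa31beecbec93f01b7 54)) (.cons 18 (.negSucc (Nat.sub (Nat.shiftLeft 0x1933eb9ffb3f60309aad10b80860e5610a77 20) 1)) .nil)))))),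
    .cons 12 (.negSucc (Nat.sub (Nat.shiftLeft 0x3e3569ecd56aabc4ea63aa6ba1d068ff6b73763 12) 1)) (.cons 13 (.ofNat (Nat.shiftLeft 0x1426f0d7ae0b0aebc1825ee9d74190f0b0c3e427 11)) (.cons 14 (.ofNat (Nat.shiftLeft 0x1f807ff0bc4cd497a4749b71e43aa08dd1cd85a5 13)) (.cons 15 (.ofNat (Nat.shiftLeft 0x4ae15632aa1c2e766236f405fba13587bafdb7bd 11)) (.cons 16 (.negSucc (Nat.sub (Nat.shiftLeft 0xc02dc5119e46e707311180db4c450309cd382e7 12) 1)) (.cons 17 (.ofNat (Nat.shiftLeft 0xc546af3674756d2888c6bca8411ab 45)) (.cons 18 (.negSucc (Nat.sub (Nat.shiftLeft 0x25119f30a3469061a87850a595bf689e1b033b6b 11) 1)) .nil)))))),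
    .cons 19 (.ofNat (Nat.shiftLeft 0xe8ac9ea79 132)) (.cons 20 (.ofNat (Nat.shiftLeft 0x635c5593 132)) (.cons 21 (.negSucc (Nat.sub (Nat.shiftLeft 0x2e8ff4b 132) 1)) .nil)),
    .cons 19 (.negSucc (Nat.sub (Nat.shiftLeft 0x1cde5764b8f737a115 100) 1)) (.cons 20 (.ofNat (Nat.shiftLeft 0x3f2f67ed2a8672b39 100)) (.cons 21 (.negSucc (Nat.sub (Nat.shiftLeft 0xba6f8905a2636c61 100) 1)) (.cons 22 (.negSucc (Nat.sub (Nat.shiftLeft 0x328ea65 139) 1)) .nil))),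
    .cons 19 (.negSucc (Nat.sub (Nat.shiftLeft 0x15de13ef80b9c65b0b8cf6a15 74) 1)) (.cons 20 (.ofNat (Nat.shiftLeft 0x38523dd096dcd26212912839 74)) (.cons 21 (.ofNat (Nat.shiftLeft 0x20f4df8be133cce61929ce9f 74)) (.cons 22 (.ofNat (Nat.shiftLeft 0x195d7caabc9b 113)) .nil))),
    .cons 19 (.ofNat (Nat.shiftLeft 0x799fc4d12dda90ed76553a3170a709 51)) (.cons 20 (.negSucc (Nat.sub (Nat.shiftLeft 0x389551f4c5b5e2ccdb124d81fc8a3d 51) 1)) (.cons 21 (.negSucc (Nat.sub (Nat.shiftLeft 0x96cb4798fd09537f7ebd2596192fb 51) 1)) (.cons 22 (.ofNat (Nat.shiftLeft 0x206e1a90dc93ca5e2f99 90)) .nil))),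
    .cons 19 (.ofNat (Nat.shiftLeft 0x28a4646b05765066902369924585b512511 32)) (.cons 20 (.ofNat (Nat.shiftLeft 0x108ee2add8e798dde860d43bf6db9c40b1b 32)) (.cons 21 (.negSucc (Nat.sub (Nat.shiftLeft 0x967c51ec930973b308f06aba2e982f8413 32) 1)) (.cons 22 (.negSucc (Nat.sub (Nat.shiftLeft 0x2407e1ff5647c74c5ca6b1df 71) 1)) .nil))),
    .cons 19 (.ofNat (Nat.shiftLeft 0x261c309e378848224c9f39842b8e8ed78d7bd47b 12)) (.cons 20 (.negSucc (Nat.sub (Nat.shiftLeft 0xcbc7bf0446f1b30302c42561974f4ed2d0b6197 12) 1)) (.cons 21 (.negSucc (Nat.sub (Nat.shiftLeft 0x7aa90cac8a38d420038241c08c615059ba0b11 12) 1)) (.cons 22 (.ofNat (Nat.shiftLeft 0x17377aa3b65a2856cb39f09cab642b 51)) .nil))),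
    .cons 19 (.negSucc 0x118227870dd4e6f125f7d373abd0bfad6d73b5c38bf) (.cons 20 (.negSucc 0x40dfd34fc80612146e4c8d128b279200c7d1271783f) (.cons 21 (.negSucc 0x1534d4280255c95e5a6e9f3c149dd9e845206f52dbf) (.cons 22 (.ofNat (Nat.shiftLeft 0x18e0ecfc40b74c5aaa4424144578ed 45)) .nil))),
    .cons 23 (.negSucc (Nat.sub (Nat.shiftLeft 0x4134e31 139) 1)) .nil,
    .cons 23 (.ofNat (Nat.shiftLeft 0x2a09d99646207d 114)) .nil,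
    .cons 23 (.ofNat (Nat.shiftLeft 0xbad885960cf170e449 93)) .nil,
    .cons 23 (.ofNat (Nat.shiftLeft 0x254f3e3c6acda3e2532d15 82)) .nil,
    .nil],
   [.cons 0 (.negSucc (Nat.sub (Nat.shiftLeft 0x1d7 159) 1)) .nil,
    .cons 1 (.ofNat (Nat.shiftLeft 0x2356e0eb 140)) (.cons 2 (.ofNat (Nat.shiftLeft 0x4d545a7 140)) (.cons 3 (.negSucc (Nat.sub (Nat.shiftLeft 0x729ddd 141) 1)) (.cons 4 (.negSucc (Nat.sub (Nat.shiftLeft 0x2953ffb 139) 1)) .nil))),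
    .cons 1 (.ofNat (Nat.shiftLeft 0x94fdc07061ed87 115)) (.cons 2 (.ofNat (Nat.shiftLeft 0x451a26278ac5f3 115)) (.cons 3 (.ofNat (Nat.shiftLeft 0x5beb7b752011f 116)) (.cons 4 (.negSucc (Nat.sub (Nat.shiftLeft 0x1a752aad26e5d7 114) 1)) .nil))),
    .cons 1 (.negSucc (Nat.sub (Nat.shiftLeft 0x643401a73700788a8e5 95) 1)) (.cons 2 (.ofNat (Nat.shiftLeft 0x2822aa9f4c108418d97 95)) (.cons 3 (.negSucc (Nat.sub (Nat.shiftLeft 0xb8db5b21b518c8a82d 96) 1)) (.cons 4 (.negSucc (Nat.sub (Nat.shiftLeft 0x43c33ba8c5fb4a8f2b 94) 1)) .nil))),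
    .cons 1 (.negSucc (Nat.sub (Nat.shiftLeft 0x25f0642d8f2ba1ececd0dd 85) 1)) (.cons 2 (.negSucc (Nat.sub (Nat.shiftLeft 0xcd1b1c5c280fc9e2bc0c1 85) 1)) (.cons 3 (.negSucc (Nat.sub (Nat.shiftLeft 0x33c846aa0e26a77762e5 86) 1)) (.cons 4 (.negSucc (Nat.sub (Nat.shiftLeft 0x8c8ba24112e143275b0b3 84) 1)) .nil))),
    .cons 5 (.negSucc (Nat.sub (Nat.shiftLeft 0x48f413851 136) 1)) (.cons 6 (.ofNat (Nat.shiftLeft 0x17c18f903 135)) (.cons 7 (.ofNat (Nat.shiftLeft 0x5454b29 136)) (.cons 8 (.ofNat (Nat.shiftLeft 0xa23f701 135)) (.cons 9 (.ofNat (Nat.shiftLeft 0x4fd13f 135)) (.cons 11 (.negSucc (Nat.sub (Nat.shiftLeft 0x1a9b15 135) 1)) .nil))))),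
    .cons 5 (.ofNat (Nat.shiftLeft 0x1804a96d10439a0dd 106)) (.cons 6 (.ofNat (Nat.shiftLeft 0x5e40dbb92bb18099 105)) (.cons 7 (.ofNat (Nat.shiftLeft 0x41f69d0311f4882b 106)) (.cons 8 (.negSucc (Nat.sub (Nat.shiftLeft 0xce37e94f6b1d3cd 105) 1)) (.cons 9 (.negSucc (Nat.sub (Nat.shiftLeft 0x25d3a3a79878773 105) 1)) (.cons 10 (.ofNat (Nat.shiftLeft 0x328ea65 139)) (.cons 11 (.negSucc (Nat.sub (Nat.shiftLeft 0x12f95be8228282f 105) 1)) .nil)))))),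
    .cons 5 (.ofNat (Nat.shiftLeft 0xb8a464e8b10c462a322833 80)) (.cons 6 (.ofNat (Nat.shiftLeft 0x8ed7b924b4db03b6a05e337 79)) (.cons 7 (.negSucc (Nat.sub (Nat.shiftLeft 0x6c0b5989a96dcfd2d4debb 80) 1)) (.cons 8 (.negSucc (Nat.sub (Nat.shiftLeft 0x16ff306d9e99fb123b0a043 79) 1)) (.cons 9 (.ofNat (Nat.shiftLeft 0xd6e347867536c7d3cc7783 79)) (.cons 10 (.negSucc (Nat.sub (Nat.shiftLeft 0x3f5341ad86d5 113) 1)) (.cons 11 (.negSucc (Nat.sub (Nat.shiftLeft 0x3ec60b04d2d8109beed281 79) 1)) .nil)))))),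
    .cons 5 (.ofNat (Nat.shiftLeft 0x9e15f08aa85355277377001914d 62)) (.cons 6 (.negSucc (Nat.sub (Nat.shiftLeft 0xc6535c654a16ded9edd5a4d27b7 61) 1)) (.cons 7 (.negSucc (Nat.sub (Nat.shiftLeft 0xa2a56177fc0ddf3aee3e8f91ec5 62) 1)) (.cons 8 (.ofNat (Nat.shiftLeft 0x5c1580e453a2be6d6d47522dec3 61)) (.cons 9 (.negSucc (Nat.sub (Nat.shiftLeft 0xedbf0f09a3616cea1753bb1603 61) 1)) (.cons 10 (.negSucc (Nat.sub (Nat.shiftLeft 0x103ecb25f78d62543ab 95) 1)) (.cons 11 (.negSucc (Nat.sub (Nat.shiftLeft 0x3ef9f4ec2931875132a396c4dff 61) 1)) .nil)))))),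
    .cons 5 (.ofNat (Nat.shiftLeft 0x110c08f901566b9183dfd7783566e865 42)) (.cons 6 (.negSucc (Nat.sub (Nat.shiftLeft 0x85ce5d9b77b1ac2b8ccd610f4e00267f 41) 1)) (.cons 7 (.ofNat (Nat.shiftLeft 0x15a4212be6e5ab204f15b0413634df1e3 42)) (.cons 8 (.negSucc (Nat.sub (Nat.shiftLeft 0x35aa11cfe1ef86c7cfe3e6677c1380d5 41) 1)) (.cons 9 (.negSucc (Nat.sub (Nat.shiftLeft 0x1fa368a72dbef81751469d963de95c6b 41) 1)) (.cons 10 (.ofNat (Nat.shiftLeft 0x241f5eff01cc6382b1e772d 75)) (.cons 11 (.ofNat (Nat.shiftLeft 0x3cf1adf4213b70d89270fb3abf4dc979 41)) .nil)))))),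
    .cons 5 (.negSucc (Nat.sub (Nat.shiftLeft 0x81dcc546183c2a7750a6af242cf5e3b5c7 21) 1)) (.cons 6 (.ofNat (Nat.shiftLeft 0x5d20996762a2a5a0b38f341580bca3587f3ac5 20)) (.cons 7 (.ofNat (Nat.shiftLeft 0x13750150efcdb53ad1a49e50d509eab0232f 21)) (.cons 8 (.negSucc (Nat.sub (Nat.shiftLeft 0x1f4680c954de49a7a32f8d6a20ff505da53069 20) 1)) (.cons 9 (.ofNat (Nat.shiftLeft 0x117a966882099330decc7c1f483c3b5e7ce29 20)) (.cons 10 (.negSucc (Nat.sub (Nat.shiftLeft 0xb8839e95a7e991b8d04985d321df 54) 1)) (.cons 11 (.negSucc (Nat.sub (Nat.shiftLeft 0x13fa430c5f59687cc83fe685e4091f7ef63 20) 1)) .nil)))))),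
    .cons 5 (.negSucc (Nat.sub (Nat.shiftLeft 0x2c00aaa37aaac2c0ab2a948d5f254ede253b07b 12) 1)) (.cons 6 (.negSucc (Nat.sub (Nat.shiftLeft 0x1c805154fba7661b3e0de4574b85f618f76f2ddf 11) 1)) (.cons 7 (.negSucc (Nat.sub (Nat.shiftLeft 0x2c8d07d8ea8abd1e2875e9c42cd49cc880f4c83d 12) 1)) (.cons 8 (.negSucc (Nat.sub (Nat.shiftLeft 0x69d317e7eba8d1435d308ef6ea50456f15abadf5 11) 1)) (.cons 9 (.ofNat (Nat.shiftLeft 0x2289f4a063275210c00525af4ff81627d67a88b5 11)) (.cons 10 (.negSucc (Nat.sub (Nat.shiftLeft 0xa3a624df8707a987be0381ec4a4b3 45) 1)) (.cons 11 (.negSucc (Nat.sub (Nat.shiftLeft 0x197d307a1c8421130d224e98b8b6cb449cd382e7 11) 1)) .nil)))))),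
    .cons 12 (.ofNat (Nat.shiftLeft 0x247661728b 133)) (.cons 13 (.negSucc (Nat.sub (Nat.shiftLeft 0x2f7c91863 134) 1)) (.cons 14 (.ofNat (Nat.shiftLeft 0x5464eb7f 132)) (.cons 15 (.negSucc (Nat.sub (Nat.shiftLeft 0x51117e97 132) 1)) (.cons 16 (.negSucc (Nat.sub (Nat.shiftLeft 0x4c0527 135) 1)) (.cons 18 (.ofNat (Nat.shiftLeft 0xe40f75 132)) .nil))))),
    .cons 12 (.negSucc (Nat.sub (Nat.shiftLeft 0x300b8a9c03cc09d9df 101) 1)) (.cons 13 (.negSucc (Nat.sub (Nat.shiftLeft 0x2f1ef9279780ccba9 102) 1)) (.cons 14 (.ofNat (Nat.shiftLeft 0x107d2c0663654346fd 100)) (.cons 15 (.ofNat (Nat.shiftLeft 0x19c768b755452ebbb 100)) (.cons 16 (.ofNat (Nat.shiftLeft 0x9b4b6325d24e00b 103)) (.cons 17 (.ofNat (Nat.shiftLeft 0x328ea65 139)) (.cons 18 (.ofNat (Nat.shiftLeft 0x25f729a8e8915fdf 100)) .nil)))))),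
    .cons 12 (.ofNat (Nat.shiftLeft 0x1719985387d365649891ab21 75)) (.cons 13 (.ofNat (Nat.shiftLeft 0x476c60ff604a2aeffd450757 76)) (.cons 14 (.ofNat (Nat.shiftLeft 0x1af2efaf3bd70aaf264397fd 74)) (.cons 15 (.negSucc (Nat.sub (Nat.shiftLeft 0x2defb810a96851e3d54ecd45 74) 1)) (.cons 16 (.ofNat (Nat.shiftLeft 0x35b86fb34ba6f4a6b0eb70b 77)) (.cons 17 (.negSucc (Nat.sub (Nat.shiftLeft 0x195d7caabc9b 113) 1)) (.cons 18 (.negSucc (Nat.sub (Nat.shiftLeft 0x7d8bfe82de4c19f412c2521 74) 1)) .nil)))))),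
    .cons 12 (.negSucc (Nat.sub (Nat.shiftLeft 0x278388ccd00c1166c9c5af699885c5 52) 1)) (.cons 13 (.ofNat (Nat.shiftLeft 0xc6c0bc4e4e561d7b6328ba9340a6d 53)) (.cons 14 (.negSucc (Nat.sub (Nat.shiftLeft 0x51691f344afb0e9e4424ebdff25991 51) 1)) (.cons 15 (.negSucc (Nat.sub (Nat.shiftLeft 0x17061023174d4f9511db3f279e2307 51) 1)) (.cons 16 (.ofNat (Nat.shiftLeft 0x7aa7857bc2b4a0183334fc1a9d69 54)) (.cons 17 (.negSucc (Nat.sub (Nat.shiftLeft 0x20a97e90dc93ca5e2f99 90) 1)) (.cons 18 (.ofNat (Nat.shiftLeft 0xff8d43b1397223696a1210bb027c5 51)) .nil)))))),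
    .cons 12 (.negSucc (Nat.sub (Nat.shiftLeft 0x224a27b45d0deeb1c9e0b729e277eb2aad 33) 1)) (.cons 13 (.ofNat (Nat.shiftLeft 0x417f1f8d999ec7e062ce7c5094d594ea95 34)) (.cons 14 (.ofNat (Nat.shiftLeft 0x5680798790833c5a6d9ac374d873d61f627 32)) (.cons 15 (.ofNat (Nat.shiftLeft 0x6adcfa29a71c89a6f56c6c9c24de420e81 32)) (.cons 16 (.ofNat (Nat.shiftLeft 0x77ccb48520805e0df2c0e826f7d883671 35)) (.cons 17 (.ofNat (Nat.shiftLeft 0x238bf0a1d247c74c5ca6b1df 71)) (.cons 18 (.negSucc (Nat.sub (Nat.shiftLeft 0x7580daaed155c50f060bbb268e7898a353 32) 1)) .nil)))))),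
    .cons 12 (.negSucc (Nat.sub (Nat.shiftLeft 0x1ee8342bfc469fcfe6ab3e2c1db16e0e2872f 13) 1)) (.cons 13 (.ofNat (Nat.shiftLeft 0x174a52377484eb70d9ac3e82dec843976e533427 14)) (.cons 14 (.ofNat (Nat.shiftLeft 0x3308c6dc756d16d396ca00642e0ada2a1340ed 12)) (.cons 15 (.negSucc (Nat.sub (Nat.shiftLeft 0x1f451a7c68d4e6ff76e44aab9c280a62e81a0fb5 12) 1)) (.cons 16 (.ofNat (Nat.shiftLeft 0x26ed15397b48ec88e6a1856108be3fa3409b9b 15)) (.cons 17 (.ofNat (Nat.shiftLeft 0x60e072501a6effd34c60f63549bd5 51)) (.cons 18 (.ofNat (Nat.shiftLeft 0x119faf8dcade84aad19725e9567d81163e2d2f 12)) .nil)))))),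
    .cons 12 (.ofNat 0x2c691059a9a2f31d4a4825ab00574758525a427b80) (.cons 13 (.ofNat (Nat.shiftLeft 0xe38d572f0ede1f4a61d76453d7341e225b9ddbd1 8)) (.cons 14 (.negSucc 0x2c6b29d6236d7882fadb443b70089e6b2b53639d13f) (.cons 15 (.ofNat 0x34f06947ba5e492dc7388475e683514e7a53e2d7340) (.cons 16 (.negSucc (Nat.sub (Nat.shiftLeft 0x89ba4b663ffd564474a2faf72765ab0ae802d703 9) 1)) (.cons 17 (.negSucc (Nat.sub (Nat.shiftLeft 0x9e465348851510eaa4424144578ed 45) 1)) (.cons 18 (.ofNat 0xcf30dbf8e8a80f639eaa214b035036b82e02214240) .nil)))))),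
    .cons 19 (.negSucc (Nat.sub (Nat.shiftLeft 0x46b0b231 139) 1)) (.cons 20 (.ofNat (Nat.shiftLeft 0x4d545a7 140)) (.cons 21 (.negSucc (Nat.sub (Nat.shiftLeft 0x1cb723d 139) 1)) (.cons 22 (.ofNat (Nat.shiftLeft 0x2934a69 139)) .nil))),
    .cons 19 (.ofNat (Nat.shiftLeft 0x129fb0b0de4347d 114)) (.cons 20 (.negSucc (Nat.sub (Nat.shiftLeft 0x4537245dd7217b 115) 1)) (.cons 21 (.negSucc (Nat.sub (Nat.shiftLeft 0x16fb3d24b42ae7 114) 1)) (.cons 22 (.negSucc (Nat.sub (Nat.shiftLeft 0x1aafdacfb2af55 114) 1)) .nil))),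
    .cons 19 (.negSucc (Nat.sub (Nat.shiftLeft 0x18de715a1ec3d23a57b7 93) 1)) (.cons 20 (.negSucc (Nat.sub (Nat.shiftLeft 0x51e06bbcacc10a08fcf 94) 1)) (.cons 21 (.ofNat (Nat.shiftLeft 0x5c5033e4bf124601b75 93)) (.cons 22 (.negSucc (Nat.sub (Nat.shiftLeft 0x67bc9e614d921519c1 93) 1)) .nil))),
    .cons 19 (.ofNat (Nat.shiftLeft 0x13086df09d3beda7292a115 82)) (.cons 20 (.negSucc (Nat.sub (Nat.shiftLeft 0x32f01e086bf41974f73123 83) 1)) (.cons 21 (.negSucc (Nat.sub (Nat.shiftLeft 0x3e0201f5c9d99509d1d2f 82) 1)) (.cons 22 (.ofNat (Nat.shiftLeft 0x2338b2e09421b44cec5ed3 82)) .nil))),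
    .cons 23 (.ofNat (Nat.shiftLeft 0x3a9 158)) .nil],
   [.nil,
    .cons 0 (.ofNat (Nat.shiftLeft 0x41543c3 139)) .nil,
    .cons 0 (.ofNat (Nat.shiftLeft 0x2a0909a9697b3f 114)) .nil,
    .cons 0 (.ofNat (Nat.shiftLeft 0x6431bb62bcae99e373 94)) .nil,
    .cons 0 (.negSucc (Nat.sub (Nat.shiftLeft 0x950d3d87ba837adf5f045 84) 1)) .nil,
    .cons 1 (.negSucc (Nat.sub (Nat.shiftLeft 0x745b14d7 137) 1)) (.cons 2 (.ofNat (Nat.shiftLeft 0xc6d4acf 135)) (.cons 3 (.negSucc (Nat.sub (Nat.shiftLeft 0xb6709 138) 1)) .nil)),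
    .cons 1 (.ofNat (Nat.shiftLeft 0x39b29b5a5a61682b 107)) (.cons 2 (.ofNat (Nat.shiftLeft 0x1f8c2d5838c1a03d 105)) (.cons 3 (.negSucc (Nat.sub (Nat.shiftLeft 0xbbe3344a1135cb 108) 1)) (.cons 4 (.ofNat (Nat.shiftLeft 0x64fdf61 138)) .nil))),
    .cons 1 (.negSucc (Nat.sub (Nat.shiftLeft 0x2bbc59a9812c09e5fbbbebb 81) 1)) (.cons 2 (.negSucc (Nat.sub (Nat.shiftLeft 0x1c21fd3ad4b0771bd2a892d 79) 1)) (.cons 3 (.negSucc (Nat.sub (Nat.shiftLeft 0x20f4fd21f289d3551d35a5 82) 1)) (.cons 4 (.negSucc (Nat.sub (Nat.shiftLeft 0x43e1a5993d11 112) 1)) .nil))),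
    .cons 1 (.negSucc (Nat.sub (Nat.shiftLeft 0x79aa4e4146b95706be4b3823ec5 63) 1)) (.cons 2 (.negSucc (Nat.sub (Nat.shiftLeft 0xe1e6d735c46253c615c9b8e6d53 61) 1)) (.cons 3 (.negSucc (Nat.sub (Nat.shiftLeft 0x4a81c99baee8e65ecf0652fcdb 64) 1)) (.cons 4 (.negSucc (Nat.sub (Nat.shiftLeft 0x20b4ee0543ee0c52b6f 94) 1)) .nil))),
    .cons 1 (.negSucc (Nat.sub (Nat.shiftLeft 0x518611f8b6443e7edc39bc17cb622e1d 43) 1)) (.cons 2 (.ofNat (Nat.shiftLeft 0x82ed6b32961d365fdde7ac4a133d2ec5 41)) (.cons 3 (.negSucc (Nat.sub (Nat.shiftLeft 0x9282605ec10829bb2089cd7c04c6083 44) 1)) (.cons 4 (.ofNat (Nat.shiftLeft 0x4774420e78c9f1f43d90f89 74)) .nil))),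
    .cons 1 (.ofNat (Nat.shiftLeft 0x9800a770a40b829c234f9f8eb47a6a1d7832f 22)) (.cons 2 (.ofNat (Nat.shiftLeft 0xcc11ebdae4c68dade7371cd9c64722da96219 20)) (.cons 3 (.ofNat (Nat.shiftLeft 0xf91b5da7d53d65fb88ac119357441712bb1 23)) (.cons 4 (.ofNat (Nat.shiftLeft 0x5cc76609ce066fa6a4923ff85a2ed 53)) .nil))),
    .cons 1 (.ofNat (Nat.shiftLeft 0x8bb38cf19cee339e8d2cc418dc6961e014717c3 13)) (.cons 2 (.negSucc (Nat.sub (Nat.shiftLeft 0x81b786b043eb8124165e6aeb8b0b9d0b9b7e6e1b 11) 1)) (.cons 3 (.negSucc (Nat.sub (Nat.shiftLeft 0x53fe6acda1802c6b140134b161bb9109ea3ca63 14) 1)) (.cons 4 (.ofNat (Nat.shiftLeft 0xbaef03ec420b51724b618ccc40d29 44)) .nil))),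
    .cons 5 (.ofNat (Nat.shiftLeft 0x6729920599 132)) (.cons 6 (.ofNat (Nat.shiftLeft 0x219306897 134)) (.cons 7 (.negSucc (Nat.sub (Nat.shiftLeft 0x3b91a329 133) 1)) (.cons 8 (.ofNat (Nat.shiftLeft 0x1caf8b51 133)) (.cons 9 (.ofNat (Nat.shiftLeft 0x1b8eaaf 132)) (.cons 11 (.ofNat (Nat.shiftLeft 0xa73e89 133)) .nil))))),
    .cons 5 (.ofNat (Nat.shiftLeft 0x43edc410432edea04b 100)) (.cons 6 (.ofNat (Nat.shiftLeft 0x854097c8bce6cd245 102)) (.cons 7 (.ofNat (Nat.shiftLeft 0x5d49a0310964b8f05 101)) (.cons 8 (.negSucc (Nat.sub (Nat.shiftLeft 0x2475296babf508a8d 101) 1)) (.cons 9 (.negSucc (Nat.sub (Nat.shiftLeft 0xd9645030e9091373 100) 1)) (.cons 10 (.negSucc (Nat.sub (Nat.shiftLeft 0x475e21f 138) 1)) (.cons 11 (.negSucc (Nat.sub (Nat.shiftLeft 0xd460c82001dece5 101) 1)) .nil)))))),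
    .cons 5 (.ofNat (Nat.shiftLeft 0x414e3f5dae52643f85c1b74b 74)) (.cons 6 (.negSucc (Nat.sub (Nat.shiftLeft 0x328438a946f5466e82fb74bb 76) 1)) (.cons 7 (.negSucc (Nat.sub (Nat.shiftLeft 0x1314b6c688b1f3161c44f7fb 75) 1)) (.cons 8 (.ofNat (Nat.shiftLeft 0x104107400e37f1319a3f5473 75)) (.cons 9 (.negSucc (Nat.sub (Nat.shiftLeft 0x13078698e62ac1bc6ceef273 74) 1)) (.cons 10 (.ofNat (Nat.shiftLeft 0x3c149cc462e1 112)) (.cons 11 (.negSucc (Nat.sub (Nat.shiftLeft 0x5947f9895c103b6eb86c5e5 75) 1)) .nil)))))),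
    .cons 5 (.ofNat (Nat.shiftLeft 0x37dc322ec76def6cac5c9aa7591429 51)) (.cons 6 (.negSucc (Nat.sub (Nat.shiftLeft 0x2318554a9dd67949c2c799781252f9 53) 1)) (.cons 7 (.negSucc (Nat.sub (Nat.shiftLeft 0x1cc58b4ab1c752b4dbe4ae73f1dab9 52) 1)) (.cons 8 (.ofNat (Nat.shiftLeft 0x20aa5e06a51f622e4d0ed4dec1cd61 52)) (.cons 9 (.negSucc (Nat.sub (Nat.shiftLeft 0xac9f23a9777cb8e398d59b633f761 51) 1)) (.cons 10 (.ofNat (Nat.shiftLeft 0x2e88a3994f3db6c56b7b 89)) (.cons 11 (.negSucc (Nat.sub (Nat.shiftLeft 0x58ea7b313b1609225f0ae2aa0f3e7 52) 1)) .nil)))))),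
    .cons 5 (.ofNat (Nat.shiftLeft 0x306809e5f1e7a9b947708f3290a462b331 32)) (.cons 6 (.negSucc (Nat.sub (Nat.shiftLeft 0xbcdb3ef703baabc625e54a09860f88b481 34) 1)) (.cons 7 (.ofNat (Nat.shiftLeft 0x1e8e7f300b525152febad06d6f690ef75bf 33)) (.cons 8 (.negSucc (Nat.sub (Nat.shiftLeft 0x983ecb2c80dde53a549b9cc00b919957d7 33) 1)) (.cons 9 (.negSucc (Nat.sub (Nat.shiftLeft 0xaf6652bf6115ecc70e009e321371afa229 32) 1)) (.cons 10 (.negSucc (Nat.sub (Nat.shiftLeft 0x2411332320b03cf83c1fff6d 70) 1)) (.cons 11 (.ofNat (Nat.shiftLeft 0x2b904f42b50c4b3289386b2f37856deea1 33)) .nil)))))),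
    .cons 5 (.ofNat (Nat.shiftLeft 0x350a740331df0f29c80009aaffe7a3a1587db 12)) (.cons 6 (.ofNat (Nat.shiftLeft 0x106daebeeaeb6347d1c8bd411a4243bf64746db5 14)) (.cons 7 (.ofNat (Nat.shiftLeft 0x151742f4e3bf71b0e0e310575a6bddb939ee75 13)) (.cons 8 (.negSucc (Nat.sub (Nat.shiftLeft 0xb1d795de0c003be15ecb25ea68bd02366fab77d 13) 1)) (.cons 9 (.ofNat (Nat.shiftLeft 0xc3cccc32bcb4782ba1a0c8d0f6484ee6bc797d 12)) (.cons 10 (.negSucc (Nat.sub (Nat.shiftLeft 0x319b5ec6f98db5f034d9e0e4db3b6f 50) 1)) (.cons 11 (.ofNat (Nat.shiftLeft 0x2c2f59e4ec771e5c579355521f493ff3ea9ab 13)) .nil)))))),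
    .cons 5 (.ofNat 0x3de548abcb22d6eb00b128327d639b63eeacdbaf40) (.cons 6 (.negSucc (Nat.sub (Nat.shiftLeft 0xa0e2e9d221863f6aa307e52f5b45b3de83eea3cd 8) 1)) (.cons 7 (.ofNat 0x3f0dcc741f24ed689223ee7d0e75b96d3b2e328b980) (.cons 8 (.negSucc 0x253422df4940c7e097db7caac0ef1aa7ad376d5557f) (.cons 9 (.ofNat 0xc4bc5fbca925fbb2b1a02cc0d70d73f96a041e2ac0) (.cons 10 (.negSucc (Nat.sub (Nat.shiftLeft 0x2335f353577de21b8c8ec80ec638c9 44) 1)) (.cons 11 (.ofNat 0x127fd0910e55a171e0ba2713a69809448cc031fb680) .nil)))))),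
    .cons 12 (.negSucc (Nat.sub (Nat.shiftLeft 0x75ad31d1 140) 1)) (.cons 13 (.ofNat (Nat.shiftLeft 0x39b3d55f 139)) (.cons 14 (.ofNat (Nat.shiftLeft 0x2865f2e5 139)) (.cons 15 (.negSucc (Nat.sub (Nat.shiftLeft 0x7e5f49 143) 1)) (.cons 16 (.negSucc (Nat.sub (Nat.shiftLeft 0x17732b7 139) 1)) (.cons 17 (.negSucc (Nat.sub (Nat.shiftLeft 0x14a2299 139) 1)) (.cons 18 (.ofNat (Nat.shiftLeft 0x2f05b 144)) .nil)))))),
    .cons 12 (.negSucc (Nat.sub (Nat.shiftLeft 0x60ca9cd3a85063 115) 1)) (.cons 13 (.negSucc (Nat.sub (Nat.shiftLeft 0xf33394515d2dd3 114) 1)) (.cons 14 (.negSucc (Nat.sub (Nat.shiftLeft 0xc77a4ea7ca9da1 114) 1)) (.cons 15 (.ofNat (Nat.shiftLeft 0x70e5483f5beb5 118)) (.cons 16 (.negSucc (Nat.sub (Nat.shiftLeft 0x12ab11fcad54b5 114) 1)) (.cons 17 (.ofNat (Nat.shiftLeft 0xd494300eb29c5 114)) (.cons 18 (.ofNat (Nat.shiftLeft 0x1359b39951361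 119)) .nil)))))),
    .cons 12 (.ofNat (Nat.shiftLeft 0x1516075970f24408ee9 94)) (.cons 13 (.ofNat (Nat.shiftLeft 0x1484a88cd48cfd7d9339 93)) (.cons 14 (.negSucc (Nat.sub (Nat.shiftLeft 0x34e5afa6c60a2d5667dd 93) 1)) (.cons 15 (.ofNat (Nat.shiftLeft 0x85165ca15a583273a1 97)) (.cons 16 (.ofNat (Nat.shiftLeft 0x4b8db690f2a6993ce5f 93)) (.cons 17 (.ofNat (Nat.shiftLeft 0x53b2a1eb8664eafe71 93)) (.cons 18 (.ofNat (Nat.shiftLeft 0x24cb499207e8bd569d 98)) .nil)))))),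
    .cons 12 (.negSucc (Nat.sub (Nat.shiftLeft 0x44710c822dea282eccb 83) 1)) (.cons 13 (.ofNat (Nat.shiftLeft 0x17415ed08f18459048d0945 82)) (.cons 14 (.ofNat (Nat.shiftLeft 0x11590fdc9e075810584e7 82)) (.cons 15 (.negSucc (Nat.sub (Nat.shiftLeft 0x7d6b91eefdd34c16e5a73 86) 1)) (.cons 16 (.ofNat (Nat.shiftLeft 0x47cddc56b293c05ac7473 82)) (.cons 17 (.negSucc (Nat.sub (Nat.shiftLeft 0x2eb5d68c5abd1b07b51fe3 82) 1)) (.cons 18 (.ofNat (Nat.shiftLeft 0x675854e7c39779a2d9 87)) .nil)))))),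
    .cons 19 (.ofNat (Nat.shiftLeft 0x1e0d 158)) (.cons 20 (.negSucc (Nat.sub (Nat.shiftLeft 0x50d 159) 1)) (.cons 21 (.negSucc (Nat.sub (Nat.shiftLeft 0x55 158) 1)) (.cons 22 (.negSucc (Nat.sub (Nat.shiftLeft 0x253 158) 1)) .nil)))]⟩

noncomputable def A19 : Tn :=
  ⟨[.cons 1 (.ofNat (Nat.shiftLeft 0x799 160)) (.cons 2 (.ofNat (Nat.shiftLeft 0x48b 159)) (.cons 3 (.ofNat (Nat.shiftLeft 0x47 159)) (.cons 4 (.negSucc (Nat.sub (Nat.shiftLeft 0x131 159) 1)) .nil))),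
    .cons 5 (.ofNat (Nat.shiftLeft 0x74b8869 144)) (.cons 6 (.negSucc (Nat.sub (Nat.shiftLeft 0x211312f 144) 1)) (.cons 7 (.ofNat (Nat.shiftLeft 0x114f097 144)) (.cons 8 (.ofNat (Nat.shiftLeft 0x294f0b 145)) (.cons 9 (.ofNat (Nat.shiftLeft 0xbbb9 145)) (.cons 10 (.negSucc (Nat.sub (Nat.shiftLeft 0x115ac5 144) 1)) (.cons 11 (.negSucc (Nat.sub (Nat.shiftLeft 0x61c5b 144) 1)) .nil)))))),
    .cons 5 (.negSucc (Nat.sub (Nat.shiftLeft 0x635b9cd968b 127) 1)) (.cons 6 (.negSucc (Nat.sub (Nat.shiftLeft 0x6046d36de43 127) 1)) (.cons 7 (.ofNat (Nat.shiftLeft 0x645cfa1db8b 127)) (.cons 8 (.ofNat (Nat.shiftLeft 0x1653e7ae1ef 128)) (.cons 9 (.negSucc (Nat.sub (Nat.shiftLeft 0x3b8c37617b 128) 1)) (.cons 10 (.negSucc (Nat.sub (Nat.shiftLeft 0x4a6c36a7a1 127) 1)) (.cons 11 (.ofNat (Nat.shiftLeft 0x1235322d701 127)) .nil)))))),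
    .cons 5 (.negSucc (Nat.sub (Nat.shiftLeft 0x2d35182cff84349 109) 1)) (.cons 6 (.negSucc (Nat.sub (Nat.shiftLeft 0x297e78fa589fcb1 109) 1)) (.cons 7 (.negSucc (Nat.sub (Nat.shiftLeft 0x330ea352baa115b7 109) 1)) (.cons 8 (.negSucc (Nat.sub (Nat.shiftLeft 0x6e758668fcf45ab 110) 1)) (.cons 9 (.negSucc (Nat.sub (Nat.shiftLeft 0x1f2988558298c99 110) 1)) (.cons 10 (.ofNat (Nat.shiftLeft 0x1f1852e692caa25 109)) (.cons 11 (.negSucc (Nat.sub (Nat.shiftLeft 0x419150843fb1705 109) 1)) .nil)))))),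
    .cons 5 (.ofNat (Nat.shiftLeft 0x17b3e1c37a2b22499f 99)) (.cons 6 (.ofNat (Nat.shiftLeft 0xd8c65cb1c8e0500477 99)) (.cons 7 (.ofNat (Nat.shiftLeft 0x38b034ade54f1bc561 99)) (.cons 8 (.negSucc (Nat.sub (Nat.shiftLeft 0x16ac517adec9ddce73 100) 1)) (.cons 9 (.ofNat (Nat.shiftLeft 0x389b4b23034a12ccf 100)) (.cons 10 (.ofNat (Nat.shiftLeft 0x16b649920f4fc430dd 99)) (.cons 11 (.ofNat (Nat.shiftLeft 0x2b50dc7f83c163543 99)) .nil)))))),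
    .cons 12 (.ofNat (Nat.shiftLeft 0x1ac0f6621 138)) (.cons 13 (.ofNat (Nat.shiftLeft 0x6660e4bd 137)) (.cons 14 (.negSucc (Nat.sub (Nat.shiftLeft 0x5bdc86f 138) 1)) (.cons 15 (.negSucc (Nat.sub (Nat.shiftLeft 0x994d5 145) 1)) (.cons 16 (.ofNat (Nat.shiftLeft 0x1f425d5 137)) (.cons 17 (.ofNat (Nat.shiftLeft 0x1af2971 137)) (.cons 18 (.ofNat (Nat.shiftLeft 0x13c2f75 138)) .nil)))))),
    .cons 12 (.negSucc (Nat.sub (Nat.shiftLeft 0x3e02ebd9fc30437 112) 1)) (.cons 13 (.negSucc (Nat.sub (Nat.shiftLeft 0x3b32a79573eaf3b 111) 1)) (.cons 14 (.ofNat (Nat.shiftLeft 0xa8598cbb983eb9 112)) (.cons 15 (.ofNat (Nat.shiftLeft 0x8308e0d4ef63 119)) (.cons 16 (.ofNat (Nat.shiftLeft 0x2615070094c99d 111)) (.cons 17 (.negSucc (Nat.sub (Nat.shiftLeft 0x2fcbe9696e1467 111) 1)) (.cons 18 (.ofNat (Nat.shiftLeft 0x4538e908d243d 112)) .nil)))))),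
    .cons 12 (.negSucc (Nat.sub (Nat.shiftLeft 0x6029252ab1031e6081ef 89) 1)) (.cons 13 (.ofNat (Nat.shiftLeft 0x32c29f4520235ad5c6aed 88)) (.cons 14 (.negSucc (Nat.sub (Nat.shiftLeft 0x339c61c4a271ab97677f 89) 1)) (.cons 15 (.negSucc (Nat.sub (Nat.shiftLeft 0x5ef96711d330a78985 96) 1)) (.cons 16 (.ofNat (Nat.shiftLeft 0x3b61f7c6d1fd57c30a85 88)) (.cons 17 (.ofNat (Nat.shiftLeft 0xb03db7d0e6689732c61 88)) (.cons 18 (.ofNat (Nat.shiftLeft 0xef3b1d489b93198ba25 89)) .nil)))))),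
    .cons 12 (.ofNat (Nat.shiftLeft 0x3b384f607c02e1b19d3b37ae7 71)) (.cons 13 (.negSucc (Nat.sub (Nat.shiftLeft 0x1218b0a98b2ed4fa65ec2aced5 70) 1)) (.cons 14 (.ofNat (Nat.shiftLeft 0x1f131d8257df5996bd18434f7 71)) (.cons 15 (.ofNat (Nat.shiftLeft 0x6287d86a24575f3cce57e2d 78)) (.cons 16 (.negSucc (Nat.sub (Nat.shiftLeft 0x14310d7fdbbca1a11c6cb872d 70) 1)) (.cons 17 (.negSucc (Nat.sub (Nat.shiftLeft 0x147ced68c5bed831fe0572de9 70) 1)) (.cons 18 (.negSucc (Nat.sub (Nat.shiftLeft 0x55e12d74be64fe4ab59543cd 71) 1)) .nil)))))),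
    .cons 12 (.negSucc (Nat.sub (Nat.shiftLeft 0x39d71e85ba232af1cc21b3007d55 55) 1)) (.cons 13 (.ofNat (Nat.shiftLeft 0x108cea2c2267005ddef653aad51e5f 54)) (.cons 14 (.ofNat (Nat.shiftLeft 0x7930c52b387790ef88a215069ee7b 55)) (.cons 15 (.ofNat (Nat.shiftLeft 0xb868094facd8782d0254562299 62)) (.cons 16 (.ofNat (Nat.shiftLeft 0x32c5eaf5922731ec2ddfd18095867 54)) (.cons 17 (.ofNat (Nat.shiftLeft 0x15776525fb36affd6f69040dbeb1b 54)) (.cons 18 (.negSucc (Nat.sub (Nat.shiftLeft 0x67387336ad2d182aa9007b1a75b9 55) 1)) .nil)))))),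
    .cons 12 (.negSucc (Nat.sub (Nat.shiftLeft 0x74253a9500465cfaf1520d1f7615897f3 35) 1)) (.cons 13 (.ofNat (Nat.shiftLeft 0xb0e9df6366d39d52d3946bb6675a182079 34)) (.cons 14 (.negSucc (Nat.sub (Nat.shiftLeft 0x217b35059f76bb757113cecd63ab0a2b43 35) 1)) (.cons 15 (.negSucc (Nat.sub (Nat.shiftLeft 0x62b151779556d9ecb1144f0b647d3ab1 42) 1)) (.cons 16 (.negSucc (Nat.sub (Nat.shiftLeft 0x15f6a40bd3a000fe9fe84f87fec677084f 34) 1)) (.cons 17 (.ofNat (Nat.shiftLeft 0x2eb7df88301443ca17c09139f2b603511d 34)) (.cons 18 (.negSucc (Nat.sub (Nat.shiftLeft 0x227ce62c7876a5746c32eb9e4cfdb6f2f 35) 1)) .nil)))))),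
    .cons 12 (.negSucc (Nat.sub (Nat.shiftLeft 0x4ee6b5f9abbb330b5e250321aebab96a293 26) 1)) (.cons 13 (.ofNat (Nat.shiftLeft 0x3485807cf0253a389910e8003f0ac85b0c59 25)) (.cons 14 (.negSucc (Nat.sub (Nat.shiftLeft 0x1440e442dd742af0b67d474a1ac656f64bbe3 26) 1)) (.cons 15 (.negSucc (Nat.sub (Nat.shiftLeft 0x11aa34dd581b0e65d61ee1723b4f41f0791 33) 1)) (.cons 16 (.ofNat (Nat.shiftLeft 0x25a2c8a3fd45260145e88e64081d9cba2491 25)) (.cons 17 (.ofNat (Nat.shiftLeft 0x33065d3136ab021892d5a0b9c637574547d 25)) (.cons 18 (.ofNat (Nat.shiftLeft 0x3acf141e2c2484fb2a6f6e5b610333fff9b1 26)) .nil)))))),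
    .cons 19 (.ofNat (Nat.shiftLeft 0x1f18bb5 143)) (.cons 20 (.ofNat (Nat.shiftLeft 0x383f1 142)) (.cons 21 (.ofNat (Nat.shiftLeft 0x2f1b37 141)) (.cons 22 (.ofNat (Nat.shiftLeft 0xa8bd3 143)) .nil))),
    .cons 19 (.ofNat (Nat.shiftLeft 0x19441aed0254335 112)) (.cons 20 (.negSucc (Nat.sub (Nat.shiftLeft 0x761005ef7c8a8f 111) 1)) (.cons 21 (.ofNat (Nat.shiftLeft 0x4a325b907b25b7 110)) (.cons 22 (.ofNat (Nat.shiftLeft 0x1b38f9718a6053 112)) .nil))),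
    .cons 19 (.negSucc (Nat.sub (Nat.shiftLeft 0x2da0f9d432cbd00e81ded 89) 1)) (.cons 20 (.ofNat (Nat.shiftLeft 0x11179e2f219a827d10537 88)) (.cons 21 (.ofNat (Nat.shiftLeft 0xe28933fcec91625745e1 87)) (.cons 22 (.negSucc (Nat.sub (Nat.shiftLeft 0xb8ccb3f2b10c88cf05b 89) 1)) .nil))),
    .cons 19 (.negSucc (Nat.sub (Nat.shiftLeft 0x1c05fac44d4f80bc7f2d1294d 73) 1)) (.cons 20 (.ofNat (Nat.shiftLeft 0x1af9166148d198220bbdf6957 72)) (.cons 21 (.ofNat (Nat.shiftLeft 0xb56741472134d47788b1b6c1 71)) (.cons 22 (.negSucc (Nat.sub (Nat.shiftLeft 0x39bc5c6936bad8bf0c61c3fb 73) 1)) .nil))),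
    .cons 19 (.ofNat (Nat.shiftLeft 0x1c8d9b2fcc6110c3170391a0365d9 57)) (.cons 20 (.ofNat (Nat.shiftLeft 0xc734a6a0d52891d19aab38d402c5 56)) (.cons 21 (.negSucc (Nat.sub (Nat.shiftLeft 0x74280e60cae1bf8a310d534d747d 55) 1)) (.cons 22 (.ofNat (Nat.shiftLeft 0x442df4673f28de43758dea7c084f 57)) .nil))),
    .cons 19 (.ofNat (Nat.shiftLeft 0x40f3f77c17d6acae72820904fff2cf71 40)) (.cons 20 (.negSucc (Nat.sub (Nat.shiftLeft 0x3a36a7e23839dd4e29ec4d3a86b788e83 39) 1)) (.cons 21 (.negSucc (Nat.sub (Nat.shiftLeft 0x2c0c64aa0c81fe2e48162e9a201c4275 38) 1)) (.cons 22 (.ofNat (Nat.shiftLeft 0x8d824a8d56c5ae93e22b9688fd965477 40)) .nil))),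
    .cons 19 (.negSucc (Nat.sub (Nat.shiftLeft 0x165c17d06ef7c236f099410316aebbdc2a7 31) 1)) (.cons 20 (.negSucc (Nat.sub (Nat.shiftLeft 0x10c17a4415800d73a21c4c7d75b303436bbb 30) 1)) (.cons 21 (.negSucc (Nat.sub (Nat.shiftLeft 0x1078e0d52bb99053c967d7692fbc122109fd 29) 1)) (.cons 22 (.negSucc (Nat.sub (Nat.shiftLeft 0x604f244c9763ffc81ad75178acc9ca4331 31) 1)) .nil))),
    .cons 23 (.ofNat (Nat.shiftLeft 0x3e9829 143)) .nil,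
    .cons 23 (.ofNat (Nat.shiftLeft 0xa26bae8493 128)) .nil,
    .cons 23 (.ofNat (Nat.shiftLeft 0xeaa4737ff783b51 107)) .nil,
    .cons 23 (.negSucc (Nat.sub (Nat.shiftLeft 0x4b0b03bee112541e29 97) 1)) .nil,
    .nil],
   [.cons 0 (.ofNat (Nat.shiftLeft 0x1b9 159)) .nil,
    .cons 1 (.ofNat (Nat.shiftLeft 0x244089f 144)) (.cons 2 (.ofNat (Nat.shiftLeft 0x217cab 145)) (.cons 3 (.negSucc (Nat.sub (Nat.shiftLeft 0x4a4e9 144) 1)) (.cons 4 (.negSucc (Nat.sub (Nat.shiftLeft 0x1b9ee3 144) 1)) .nil))),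
    .cons 1 (.ofNat (Nat.shiftLeft 0xa81a0e1ccf3 127)) (.cons 2 (.ofNat (Nat.shiftLeft 0x2306374470f 128)) (.cons 3 (.ofNat (Nat.shiftLeft 0xbb0ab4140b 127)) (.cons 4 (.negSucc (Nat.sub (Nat.shiftLeft 0xbcc12f52e7 127) 1)) .nil))),
    .cons 1 (.ofNat (Nat.shiftLeft 0x220e3ffd379e9341 109)) (.cons 2 (.negSucc (Nat.sub (Nat.shiftLeft 0x3a5874810bebf4b 110) 1)) (.cons 3 (.ofNat (Nat.shiftLeft 0x5b27062fbb1cfc9 109)) (.cons 4 (.ofNat (Nat.shiftLeft 0x19d46fd3b725a83 109)) .nil))),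
    .cons 1 (.ofNat (Nat.shiftLeft 0x5fa799906a3e017399 99)) (.cons 2 (.ofNat (Nat.shiftLeft 0x190e6a83e24215a8ed 100)) (.cons 3 (.negSucc (Nat.sub (Nat.shiftLeft 0x4db9e94c6eaa7711f 99) 1)) (.cons 4 (.ofNat (Nat.shiftLeft 0xf87b7e3506ef3bd8b 99)) .nil))),
    .cons 5 (.ofNat (Nat.shiftLeft 0x4212f5ab 140)) (.cons 6 (.negSucc (Nat.sub (Nat.shiftLeft 0x39e28e05 138) 1)) (.cons 7 (.negSucc (Nat.sub (Nat.shiftLeft 0x11917f5b 137) 1)) (.cons 8 (.ofNat (Nat.shiftLeft 0x8063f3 140)) (.cons 9 (.negSucc (Nat.sub (Nat.shiftLeft 0x240cc7d 137) 1)) (.cons 10 (.negSucc (Nat.sub (Nat.shiftLeft 0x119b143 138) 1)) (.cons 11 (.negSucc (Nat.sub (Nat.shiftLeft 0xe40967 137) 1)) .nil)))))),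
    .cons 5 (.ofNat (Nat.shiftLeft 0x18ff56617945de3 114)) (.cons 6 (.ofNat (Nat.shiftLeft 0x1e01d89a6d6eb3 112)) (.cons 7 (.ofNat (Nat.shiftLeft 0x1c8b389726fbced 111)) (.cons 8 (.ofNat (Nat.shiftLeft 0x3537328daab6b 114)) (.cons 9 (.negSucc (Nat.sub (Nat.shiftLeft 0x25c42059ed4e85 111) 1)) (.cons 10 (.ofNat (Nat.shiftLeft 0x186a65a4744ac5 112)) (.cons 11 (.negSucc (Nat.sub (Nat.shiftLeft 0xe3c7dd03424ff 111) 1)) .nil)))))),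
    .cons 5 (.negSucc (Nat.sub (Nat.shiftLeft 0x2f73afa53bc8e572a705 91) 1)) (.cons 6 (.negSucc (Nat.sub (Nat.shiftLeft 0x22a379ab74aca9cf5cfb5 89) 1)) (.cons 7 (.ofNat (Nat.shiftLeft 0x62b437ea54def59ad855 88)) (.cons 8 (.ofNat (Nat.shiftLeft 0x107e149a23ff7ff832c3 91)) (.cons 9 (.negSucc (Nat.sub (Nat.shiftLeft 0x61663088b47a3cff56ad 88) 1)) (.cons 10 (.negSucc (Nat.sub (Nat.shiftLeft 0x506fb777e91ca70cb13 89) 1)) (.cons 11 (.ofNat (Nat.shiftLeft 0x24e94fa4b7a6d6063709 88)) .nil)))))),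
    .cons 5 (.negSucc (Nat.sub (Nat.shiftLeft 0x11f13ea5d382ef469969ab853 73) 1)) (.cons 6 (.ofNat (Nat.shiftLeft 0x4f2e88bea658007ff8275addd 71)) (.cons 7 (.ofNat (Nat.shiftLeft 0x9055dbc74435bca5e8ccbf483 70)) (.cons 8 (.negSucc (Nat.sub (Nat.shiftLeft 0x4cc6d7dee90ef3dfb403345b 73) 1)) (.cons 9 (.ofNat (Nat.shiftLeft 0x600fccf66b91a99e8df77895 70)) (.cons 10 (.ofNat (Nat.shiftLeft 0xfd93857a0a460895c25b172b 71)) (.cons 11 (.ofNat (Nat.shiftLeft 0x1c488648446c133fb9d55ee2f 70)) .nil)))))),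
    .cons 5 (.ofNat (Nat.shiftLeft 0x24dc6845248c7e46251851343619 57)) (.cons 6 (.ofNat (Nat.shiftLeft 0x43153c41ba58b45ac7aa8ab93d189 55)) (.cons 7 (.ofNat (Nat.shiftLeft 0x12ff34c13fbf1567ab092dfabca357 54)) (.cons 8 (.negSucc (Nat.sub (Nat.shiftLeft 0x74ff1401d38e5c7c9829614f02cf 57) 1)) (.cons 9 (.negSucc (Nat.sub (Nat.shiftLeft 0x1c3ca36c48adb23ea14d99558439f 54) 1)) (.cons 10 (.ofNat (Nat.shiftLeft 0x58b5d33082d16de89eae6b12c5f 55)) (.cons 11 (.ofNat (Nat.shiftLeft 0x14c7d2c06db9f3a937e52719b9dd3 54)) .nil)))))),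
    .cons 5 (.ofNat (Nat.shiftLeft 0x1e02c2555a5cd54dc630922f73f97bdcf 37)) (.cons 6 (.ofNat (Nat.shiftLeft 0xa99592593e736aab46b0310137eb706bdf 35)) (.cons 7 (.negSucc (Nat.sub (Nat.shiftLeft 0xd974401aec621a56585c5110a9c59e9dbf 34) 1)) (.cons 8 (.negSucc (Nat.sub (Nat.shiftLeft 0xdb18bfff16d82d5d2c55c6dc09971ed89 37) 1)) (.cons 9 (.ofNat (Nat.shiftLeft 0x106d79fcb0be1a024ad7fe6935c28d32c7 34)) (.cons 10 (.negSucc (Nat.sub (Nat.shiftLeft 0x70299b3ee28f831848fac8427ee61bd87 35) 1)) (.cons 11 (.negSucc (Nat.sub (Nat.shiftLeft 0x19abef893d93f079b6e14ad9586ba474db 34) 1)) .nil)))))),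
    .cons 5 (.ofNat (Nat.shiftLeft 0x6d01aa37aa75356976e7c1a344372c860ef 28)) (.cons 6 (.ofNat (Nat.shiftLeft 0x58b55f662c2c3ac90ea089244679e1567cff 26)) (.cons 7 (.ofNat (Nat.shiftLeft 0x114a38815e602fae04e2b30b3d2992a4ded21 25)) (.cons 8 (.ofNat (Nat.shiftLeft 0x2d455ac54ec0d388fe06f92290c09e6c9897 28)) (.cons 9 (.negSucc (Nat.sub (Nat.shiftLeft 0x4f77c127ead7b74beea9e68b66171db26119 25) 1)) (.cons 10 (.ofNat (Nat.shiftLeft 0x74d09f6799a4619d067c8411e45dfa2ee59 26)) (.cons 11 (.ofNat (Nat.shiftLeft 0x58b3217111a64404a3d07fbe0ef75383e585 25)) .nil)))))),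
    .cons 12 (.ofNat (Nat.shiftLeft 0x28c3ce0f 141)) (.cons 13 (.negSucc (Nat.sub (Nat.shiftLeft 0x40f62ad 141) 1)) (.cons 14 (.negSucc (Nat.sub (Nat.shiftLeft 0x1089797 141) 1)) (.cons 15 (.negSucc (Nat.sub (Nat.shiftLeft 0xb708f3 141) 1)) (.cons 16 (.ofNat (Nat.shiftLeft 0x1643a1 142)) (.cons 17 (.negSucc (Nat.sub (Nat.shiftLeft 0x26ab5b 141) 1)) (.cons 18 (.ofNat (Nat.shiftLeft 0x8abdb 142)) .nil)))))),
    .cons 12 (.ofNat (Nat.shiftLeft 0x167a7480cacedc8f 110)) (.cons 13 (.ofNat (Nat.shiftLeft 0x3d12457c2d6b1d3 110)) (.cons 14 (.negSucc (Nat.sub (Nat.shiftLeft 0x41796edd2623217 110) 1)) (.cons 15 (.negSucc (Nat.sub (Nat.shiftLeft 0x8dc6b4b9ab8d73 110) 1)) (.cons 16 (.negSucc (Nat.sub (Nat.shiftLeft 0x518e94214c2df 111) 1)) (.cons 17 (.negSucc (Nat.sub (Nat.shiftLeft 0x49363335a60bdb 110) 1)) (.cons 18 (.negSucc (Nat.sub (Nat.shiftLeft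 0x5ebe0463333a5 111) 1)) .nil)))))),
    .cons 12 (.ofNat (Nat.shiftLeft 0x15e473226842e6a6b78c9 87)) (.cons 13 (.ofNat (Nat.shiftLeft 0x8c2688f98fba3d8ecfa25 87)) (.cons 14 (.ofNat (Nat.shiftLeft 0x1959b351b524ded47777f 87)) (.cons 15 (.negSucc (Nat.sub (Nat.shiftLeft 0x14da492f71d2e10940f85 87) 1)) (.cons 16 (.ofNat (Nat.shiftLeft 0x5ff8cc3703af51812107 88)) (.cons 17 (.ofNat (Nat.shiftLeft 0x2eb99052bd86ca04c6a3 87)) (.cons 18 (.negSucc (Nat.sub (Nat.shiftLeft 0x28d01f584ebfd984f323 88) 1)) .nil)))))),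
    .cons 12 (.ofNat (Nat.shiftLeft 0x4ab473110b4eb08d4e3b354a9 71)) (.cons 13 (.negSucc (Nat.sub (Nat.shiftLeft 0x3576c637c3d46edaf265ca97b 71) 1)) (.cons 14 (.ofNat (Nat.shiftLeft 0x3edc25fbbcfcb6cd0cbfb3a9f 71)) (.cons 15 (.ofNat (Nat.shiftLeft 0xe172f3dcd0d47e356c3a601b 71)) (.cons 16 (.negSucc (Nat.sub (Nat.shiftLeft 0x8d66a668183fa7504ce64d9 72) 1)) (.cons 17 (.ofNat (Nat.shiftLeft 0xea435cffe5b26ec86d667943 71)) (.cons 18 (.negSucc (Nat.sub (Nat.shiftLeft 0x66ce93ba98ba53b99f8395c3 72) 1)) .nil)))))),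
    .cons 12 (.negSucc (Nat.sub (Nat.shiftLeft 0x6d0a94af4ba6691aec7ab71a48c5 55) 1)) (.cons 13 (.ofNat (Nat.shiftLeft 0x88f2180b0046707d47892332377cf 55)) (.cons 14 (.ofNat (Nat.shiftLeft 0x93d8158c0d8df943dd0495344409d 55)) (.cons 15 (.negSucc (Nat.sub (Nat.shiftLeft 0x324728eb1ca040957939decb84bef 55) 1)) (.cons 16 (.ofNat (Nat.shiftLeft 0x637c600168d18b7e2704bd3ebc35 56)) (.cons 17 (.ofNat (Nat.shiftLeft 0x40cee3433add2ddf84d60ee3e189 55)) (.cons 18 (.negSucc (Nat.sub (Nat.shiftLeft 0x7380703c8fdfd588fb3ae2c1d709 56) 1)) .nil)))))),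
    .cons 12 (.negSucc (Nat.sub (Nat.shiftLeft 0xccc4f253f8abc4a477377139be2fc77d 38) 1)) (.cons 13 (.ofNat (Nat.shiftLeft 0xfecc524b680a55a901a3838d04a3c97f7 38)) (.cons 14 (.negSucc (Nat.sub (Nat.shiftLeft 0xe496f06898cf1d7c651e238233c5ae66b 38) 1)) (.cons 15 (.negSucc (Nat.sub (Nat.shiftLeft 0x527c85a339c623be205cce9cef9ae3717 38) 1)) (.cons 16 (.negSucc (Nat.sub (Nat.shiftLeft 0xe63b97ed8c0d95d39c15ec84fdfb8693 39) 1)) (.cons 17 (.ofNat (Nat.shiftLeft 0x2ba8a9486747475c829cf1f21e2e1fa1 38)) (.cons 18 (.ofNat (Nat.shiftLeft 0xb5aede80be21c33927cc5a92cc3d06df 39)) .nil)))))),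
    .cons 12 (.ofNat (Nat.shiftLeft 0x1e8201f067379d612359b9d68840ec825bb 29)) (.cons 13 (.ofNat (Nat.shiftLeft 0xb6b440d89ae7cd8e607159811fd9a336c4f 29)) (.cons 14 (.negSucc (Nat.sub (Nat.shiftLeft 0xa5c4488d509772722faf2fea3ec9b71b9e3 29) 1)) (.cons 15 (.ofNat (Nat.shiftLeft 0x1a39cbb2fa6c0faf34eebb9a90a1e5a54f91 29)) (.cons 16 (.negSucc (Nat.sub (Nat.shiftLeft 0x497126ee6bdca1cfd0c95a4637abf55aa4b 30) 1)) (.cons 17 (.ofNat (Nat.shiftLeft 0x1cae87b7adcf24adcac0c94f622a3e5a109 29)) (.cons 18 (.ofNat (Nat.shiftLeft 0x42421ed8f966a53e2c781db6b4755d12977 30)) .nil)))))),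
    .cons 19 (.ofNat (Nat.shiftLeft 0x21e3d37 144)) (.cons 20 (.negSucc (Nat.sub (Nat.shiftLeft 0x9cdaa9 143) 1)) (.cons 21 (.ofNat (Nat.shiftLeft 0x17cf77 144)) (.cons 22 (.negSucc (Nat.sub (Nat.shiftLeft 0x1ac18b 143) 1)) .nil))),
    .cons 19 (.ofNat (Nat.shiftLeft 0x234f5ae948d 129)) (.cons 20 (.negSucc (Nat.sub (Nat.shiftLeft 0x21dfc8b2813 128) 1)) (.cons 21 (.negSucc (Nat.sub (Nat.shiftLeft 0x26dd0eeeb3 129) 1)) (.cons 22 (.negSucc (Nat.sub (Nat.shiftLeft 0x6c76a7f669 128) 1)) .nil))),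
    .cons 19 (.ofNat (Nat.shiftLeft 0x5da5229450c1390f 108)) (.cons 20 (.negSucc (Nat.sub (Nat.shiftLeft 0x14c80ac476a5c1d1 107) 1)) (.cons 21 (.negSucc (Nat.sub (Nat.shiftLeft 0x6fafd7090b92ab1 108) 1)) (.cons 22 (.ofNat (Nat.shiftLeft 0x1035b3977defbe7d 107)) .nil))),
    .cons 19 (.negSucc (Nat.sub (Nat.shiftLeft 0x1f4adc3495931ef737 98) 1)) (.cons 20 (.ofNat (Nat.shiftLeft 0x128423fa2ac776960a9 97)) (.cons 21 (.negSucc (Nat.sub (Nat.shiftLeft 0x15a92c82cc652a0977 98) 1)) (.cons 22 (.negSucc (Nat.sub (Nat.shiftLeft 0xbf10c14de731d4c75 97) 1)) .nil))),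
    .cons 23 (.ofNat (Nat.shiftLeft 0x1db 159)) .nil],
   [.nil,
    .cons 0 (.ofNat (Nat.shiftLeft 0xfe353 145)) .nil,
    .cons 0 (.ofNat (Nat.shiftLeft 0xaf00a56a97 128)) .nil,
    .cons 0 (.ofNat (Nat.shiftLeft 0x1501c8db266f0d 110)) .nil,
    .cons 0 (.ofNat (Nat.shiftLeft 0x74ffe64f7baf97585 100)) .nil,
    .cons 1 (.ofNat (Nat.shiftLeft 0x1b132ab1 139)) (.cons 2 (.negSucc (Nat.sub (Nat.shiftLeft 0x57ca12d 137) 1)) (.cons 3 (.ofNat (Nat.shiftLeft 0x23cf75b 137)) (.cons 4 (.negSucc (Nat.sub (Nat.shiftLeft 0x1068799 138) 1)) .nil))),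
    .cons 1 (.ofNat (Nat.shiftLeft 0x1210726624abed9 113)) (.cons 2 (.ofNat (Nat.shiftLeft 0x7cc13eadf0494b 111)) (.cons 3 (.ofNat (Nat.shiftLeft 0xbd5c7e2427b13 111)) (.cons 4 (.ofNat (Nat.shiftLeft 0xf8643faca6bff 112)) .nil))),
    .cons 1 (.ofNat (Nat.shiftLeft 0x161e0756b0bc1789f99a1 90)) (.cons 2 (.ofNat (Nat.shiftLeft 0xc6db77a4463817423fa3 88)) (.cons 3 (.ofNat (Nat.shiftLeft 0x8b4eaba453a331891fab 88)) (.cons 4 (.negSucc (Nat.sub (Nat.shiftLeft 0x3471661f51a9121b809 89) 1)) .nil))),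
    .cons 1 (.ofNat (Nat.shiftLeft 0x3fd59e0d73ddd35b0bf80dad7 72)) (.cons 2 (.ofNat (Nat.shiftLeft 0x727dc01cefbad4f115b6ba7c5 70)) (.cons 3 (.ofNat (Nat.shiftLeft 0x16f11106726a35932e264537d 70)) (.cons 4 (.ofNat (Nat.shiftLeft 0x10a078412a9ef511a90901ad1 71)) .nil))),
    .cons 1 (.negSucc (Nat.sub (Nat.shiftLeft 0xe36bbbdfd64f1e51d0847032f725 56) 1)) (.cons 2 (.ofNat (Nat.shiftLeft 0x64ac2dcbd07a8e5f9b93854869cd1 54)) (.cons 3 (.negSucc (Nat.sub (Nat.shiftLeft 0x1305b49592e89d5ebffea3db87b57 54) 1)) (.cons 4 (.ofNat (Nat.shiftLeft 0xdec0e511a234e5579b6a0604e72d 55)) .nil))),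
    .cons 1 (.ofNat (Nat.shiftLeft 0x2eda63be02d7efa59ff2d2a7ef01ded95d 36)) (.cons 2 (.negSucc (Nat.sub (Nat.shiftLeft 0x2c7c753e37af73e3391bd707c467b69c29 34) 1)) (.cons 3 (.ofNat (Nat.shiftLeft 0xd6bdcbc98fff75b7255960998fd40b5bf 34)) (.cons 4 (.ofNat (Nat.shiftLeft 0xde329e5efea17e263c23717025298b7db 35)) .nil))),
    .cons 1 (.negSucc (Nat.sub (Nat.shiftLeft 0x16ba25e56891081fa044e3afaaf06b846b43 27) 1)) (.cons 2 (.ofNat (Nat.shiftLeft 0x1f4b1e3e53ee10693b661af7c6a630b07ddf7 25)) (.cons 3 (.ofNat (Nat.shiftLeft 0x7737c72d2ce3af68201dc6e92ea370d92adf 25)) (.cons 4 (.ofNat (Nat.shiftLeft 0xe4a2eeb7e7249afb1d5b3f1c23c3fe0fd7b 26)) .nil))),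
    .cons 5 (.ofNat (Nat.shiftLeft 0x60f8801 144)) (.cons 6 (.ofNat (Nat.shiftLeft 0xae9917 142)) (.cons 7 (.negSucc (Nat.sub (Nat.shiftLeft 0x2d3b3f 144) 1)) (.cons 8 (.ofNat (Nat.shiftLeft 0x76d205 142)) (.cons 9 (.negSucc (Nat.sub (Nat.shiftLeft 0x22736d 141) 1)) (.cons 10 (.ofNat (Nat.shiftLeft 0xc6bcb 142)) (.cons 11 (.negSucc (Nat.sub (Nat.shiftLeft 0x2ae349 141) 1)) .nil)))))),
    .cons 5 (.negSucc (Nat.sub (Nat.shiftLeft 0x271e34f5121ee7f 113) 1)) (.cons 6 (.negSucc (Nat.sub (Nat.shiftLeft 0x3c68979a1298c69 111) 1)) (.cons 7 (.negSucc (Nat.sub (Nat.shiftLeft 0x4e431478bd91bf 113) 1)) (.cons 8 (.ofNat (Nat.shiftLeft 0x494061948e8185 111)) (.cons 9 (.ofNat (Nat.shiftLeft 0x4aa58a77c48113 110)) (.cons 10 (.ofNat (Nat.shiftLeft 0xe0603a947f44b 111)) (.cons 11 (.ofNat (Nat.shiftLeft 0x27d2eb1cef6737 110)) .nil)))))),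
    .cons 5 (.ofNat (Nat.shiftLeft 0x31683907c30149f5dba7 90)) (.cons 6 (.negSucc (Nat.sub (Nat.shiftLeft 0x2e0580c4c7fd41bc7fcff 88) 1)) (.cons 7 (.negSucc (Nat.sub (Nat.shiftLeft 0x1bc3508bb2d8b15f4319 90) 1)) (.cons 8 (.ofNat (Nat.shiftLeft 0x4c408346ae07db65b043 88)) (.cons 9 (.negSucc (Nat.sub (Nat.shiftLeft 0x8ea14d6d771a9fcd331b 87) 1)) (.cons 10 (.negSucc (Nat.sub (Nat.shiftLeft 0x11445ed85f7e3794ed93 88) 1)) (.cons 11 (.negSucc (Nat.sub (Nat.shiftLeft 0x46c39bee1453cc293f9f 87) 1)) .nil)))))),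
    .cons 5 (.negSucc (Nat.sub (Nat.shiftLeft 0x63a5bf39e8b26bccecbede39 74) 1)) (.cons 6 (.ofNat (Nat.shiftLeft 0x540593c8a317d46e09dad6fe1 72)) (.cons 7 (.ofNat (Nat.shiftLeft 0x63dac03764cc7078aa701b07 74)) (.cons 8 (.negSucc (Nat.sub (Nat.shiftLeft 0x1c82ffc08be27f45fcb80b11d 72) 1)) (.cons 9 (.ofNat (Nat.shiftLeft 0xa5bbb3fb25024ceae8729145 71)) (.cons 10 (.negSucc (Nat.sub (Nat.shiftLeft 0x53462acd164084d0f93ff233 72) 1)) (.cons 11 (.ofNat (Nat.shiftLeft 0x88bf21479f890da9f25a6141 71)) .nil)))))),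
    .cons 5 (.ofNat (Nat.shiftLeft 0x62ed16da9e521426344ee635815 58)) (.cons 6 (.ofNat (Nat.shiftLeft 0xfb5995f2f34d49f768573121dee3 56)) (.cons 7 (.ofNat (Nat.shiftLeft 0x87bf586e29f0f4612a7f008b53d5 58)) (.cons 8 (.negSucc (Nat.sub (Nat.shiftLeft 0x147ddfec20dd9f8ece50818ced597 56) 1)) (.cons 9 (.negSucc (Nat.sub (Nat.shiftLeft 0x147a70fdd59901d1b519e1350e7f1 55) 1)) (.cons 10 (.negSucc (Nat.sub (Nat.shiftLeft 0x80e177049f7d765e216ec8461859 56) 1)) (.cons 11 (.negSucc (Nat.sub (Nat.shiftLeft 0x917ad5bbfec4d0610a9cee754fd 55) 1)) .nil)))))),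
    .cons 5 (.ofNat (Nat.shiftLeft 0x13f32e8ff55b13c0d868d8c54f9aca4d 41)) (.cons 6 (.ofNat (Nat.shiftLeft 0x8f8aca648b7b034d53d2139a8fb9c59eb 39)) (.cons 7 (.negSucc (Nat.sub (Nat.shiftLeft 0x17ec35dc7a36b4e26ba460399ce8a6ff3 41) 1)) (.cons 8 (.negSucc (Nat.sub (Nat.shiftLeft 0x1dbe0171a320139d65c4760b30846a7f 39) 1)) (.cons 9 (.ofNat (Nat.shiftLeft 0x291ded694d6c734426576ed599d370e37 38)) (.cons 10 (.negSucc (Nat.sub (Nat.shiftLeft 0xbf85104f46cf83fb7fad7baa51105df1 39) 1)) (.cons 11 (.negSucc (Nat.sub (Nat.shiftLeft 0xc3ff7e2e6344671457e39d4960dacef5 38) 1)) .nil)))))),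
    .cons 5 (.ofNat (Nat.shiftLeft 0x4055e39e55f8749760c3ddff702e448195 32)) (.cons 6 (.negSucc (Nat.sub (Nat.shiftLeft 0x1c6c9d4c6cecd9b46fa4270a7867769e69d 30) 1)) (.cons 7 (.ofNat (Nat.shiftLeft 0x43c9c86baa9306ca55001035780d2859d55 32)) (.cons 8 (.negSucc (Nat.sub (Nat.shiftLeft 0x944f260b344626458d06d6276f93b1a0617 30) 1)) (.cons 9 (.ofNat (Nat.shiftLeft 0x33b0a62de87e0a5c16e7062733d6cc7ec8f 29)) (.cons 10 (.negSucc (Nat.sub (Nat.shiftLeft 0xa47d70aadf7cb284cb982f27a66965afd9 30) 1)) (.cons 11 (.ofNat (Nat.shiftLeft 0x7d9e3de7e5c5d586ef5debdb713db035583 29)) .nil)))))),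
    .cons 12 (.ofNat (Nat.shiftLeft 0x76cd891 144)) (.cons 13 (.negSucc (Nat.sub (Nat.shiftLeft 0x312b9b3 143) 1)) (.cons 14 (.negSucc (Nat.sub (Nat.shiftLeft 0x2bbd465 143) 1)) (.cons 15 (.ofNat (Nat.shiftLeft 0x270789 144)) (.cons 16 (.ofNat (Nat.shiftLeft 0x2b72a7 143)) (.cons 17 (.ofNat (Nat.shiftLeft 0x71e5b 143)) (.cons 18 (.negSucc (Nat.sub (Nat.shiftLeft 0x527a3 143) 1)) .nil)))))),
    .cons 12 (.negSucc (Nat.sub (Nat.shiftLeft 0x16ad3136675 129) 1)) (.cons 13 (.negSucc (Nat.sub (Nat.shiftLeft 0x41d08fadca1 128) 1)) (.cons 14 (.negSucc (Nat.sub (Nat.shiftLeft 0x33712e775e7 128) 1)) (.cons 15 (.ofNat (Nat.shiftLeft 0xf268f75bb3 129)) (.cons 16 (.negSucc (Nat.sub (Nat.shiftLeft 0x4465f64ca3 128) 1)) (.cons 17 (.ofNat (Nat.shiftLeft 0x38988f5459 128)) (.cons 18 (.ofNat (Nat.shiftLeft 0x9a553fef0f 128)) .nil)))))),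
    .cons 12 (.negSucc (Nat.sub (Nat.shiftLeft 0x57c9971fdcd7607 108) 1)) (.cons 13 (.ofNat (Nat.shiftLeft 0x57c25e2252f0b215 107)) (.cons 14 (.ofNat (Nat.shiftLeft 0x800f877172a6aa13 107)) (.cons 15 (.negSucc (Nat.sub (Nat.shiftLeft 0x21c557daedd3264f 108) 1)) (.cons 16 (.negSucc (Nat.sub (Nat.shiftLeft 0xaad55cc9b250401 107) 1)) (.cons 17 (.negSucc (Nat.sub (Nat.shiftLeft 0x125a6dffe083e52d 107) 1)) (.cons 18 (.negSucc (Nat.sub (Nat.shiftLeft 0xaedee2aeba07d5b 107) 1)) .nil)))))),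
    .cons 12 (.negSucc (Nat.sub (Nat.shiftLeft 0x1bdda2a4db35b4e91 98) 1)) (.cons 13 (.negSucc (Nat.sub (Nat.shiftLeft 0x2dfd7d84d438f01e44d 97) 1)) (.cons 14 (.ofNat (Nat.shiftLeft 0x277e5a056ae03b68265 97)) (.cons 15 (.negSucc (Nat.sub (Nat.shiftLeft 0xafacd5f06958ecd89 98) 1)) (.cons 16 (.negSucc (Nat.sub (Nat.shiftLeft 0x2393e651df43a3cca7 97) 1)) (.cons 17 (.ofNat (Nat.shiftLeft 0x1c4569eb5e36970fa5 97)) (.cons 18 (.negSucc (Nat.sub (Nat.shiftLeft 0x4cf24465defdbcd65d 97) 1)) .nil)))))),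
    .cons 19 (.ofNat (Nat.shiftLeft 0x77b 160)) (.cons 20 (.negSucc (Nat.sub (Nat.shiftLeft 0x53f 159) 1)) (.cons 21 (.negSucc (Nat.sub (Nat.shiftLeft 0x9 159) 1)) (.cons 22 (.negSucc (Nat.sub (Nat.shiftLeft 0x119 159) 1)) .nil)))]⟩

noncomputable def A20 : Tn :=
  ⟨[.cons 1 (.ofNat (Nat.shiftLeft 0xf35 159)) (.cons 2 (.ofNat (Nat.shiftLeft 0x49b 159)) (.cons 3 (.negSucc (Nat.sub (Nat.shiftLeft 0x7 160) 1)) (.cons 4 (.ofNat (Nat.shiftLeft 0xc5 159)) .nil))),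
    .cons 5 (.ofNat (Nat.shiftLeft 0x1d8d1d31 142)) (.cons 6 (.ofNat (Nat.shiftLeft 0x415e5d3 143)) (.cons 7 (.ofNat (Nat.shiftLeft 0xfd81a3 144)) (.cons 8 (.ofNat (Nat.shiftLeft 0x2f9027 144)) (.cons 9 (.negSucc (Nat.sub (Nat.shiftLeft 0x65fdb 143) 1)) (.cons 10 (.ofNat (Nat.shiftLeft 0x21d563 142)) (.cons 11 (.negSucc (Nat.sub (Nat.shiftLeft 0x7d87 145) 1)) .nil)))))),
    .cons 5 (.negSucc (Nat.sub (Nat.shiftLeft 0x2f812b176f7 128) 1)) (.cons 6 (.ofNat (Nat.shiftLeft 0x236c099cf5b 129)) (.cons 7 (.ofNat (Nat.shiftLeft 0xaaf28b6aab 130)) (.cons 8 (.ofNat (Nat.shiftLeft 0x6660a9428f 130)) (.cons 9 (.ofNat (Nat.shiftLeft 0x3bdcb72bdd 129)) (.cons 10 (.negSucc (Nat.sub (Nat.shiftLeft 0x2955cc3795 128) 1)) (.cons 11 (.ofNat (Nat.shiftLeft 0xd8f0e1711 131)) .nil)))))),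
    .cons 5 (.ofNat (Nat.shiftLeft 0x2cd769537445c1 111)) (.cons 6 (.ofNat (Nat.shiftLeft 0x3d325f95684a383 112)) (.cons 7 (.ofNat (Nat.shiftLeft 0x19e0e8627c17453 113)) (.cons 8 (.ofNat (Nat.shiftLeft 0xf49ac5e5b56117 113)) (.cons 9 (.ofNat (Nat.shiftLeft 0x280b504619d5f5 112)) (.cons 10 (.ofNat (Nat.shiftLeft 0xcfa757efc5a413 111)) (.cons 11 (.ofNat (Nat.shiftLeft 0xe080acdee4b89 114)) .nil)))))),
    .cons 5 (.ofNat (Nat.shiftLeft 0x272b20fc195fa4c85 101)) (.cons 6 (.negSucc (Nat.sub (Nat.shiftLeft 0x123d18736d28e68f31 102) 1)) (.cons 7 (.ofNat (Nat.shiftLeft 0xc4de4f70ad4c350df 103)) (.cons 8 (.ofNat (Nat.shiftLeft 0x9073b1ab14d3fb3 103)) (.cons 9 (.negSucc (Nat.sub (Nat.shiftLeft 0x256fd254a1e026f77 102) 1)) (.cons 10 (.negSucc (Nat.sub (Nat.shiftLeft 0x157fd06f1d9cbb061 101) 1)) (.cons 11 (.ofNat (Nat.shiftLeft 0x7e6c08ba6375f76d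 104)) .nil)))))),
    .cons 12 (.ofNat (Nat.shiftLeft 0x17cff4041 138)) (.cons 13 (.negSucc (Nat.sub (Nat.shiftLeft 0x2af318df 138) 1)) (.cons 14 (.ofNat (Nat.shiftLeft 0x75aa1f 140)) (.cons 15 (.negSucc (Nat.sub (Nat.shiftLeft 0xf0eea1 138) 1)) (.cons 16 (.negSucc (Nat.sub (Nat.shiftLeft 0x1de21 139) 1)) (.cons 17 (.negSucc (Nat.sub (Nat.shiftLeft 0x1de21 138) 1)) .nil))))),
    .cons 12 (.ofNat (Nat.shiftLeft 0x991dd10f35b9cef 111)) (.cons 13 (.negSucc (Nat.sub (Nat.shiftLeft 0x49ad64783dddff1 111) 1)) (.cons 14 (.negSucc (Nat.sub (Nat.shiftLeft 0x580e5e7464354f 113) 1)) (.cons 15 (.ofNat (Nat.shiftLeft 0xa15461c9c0ff71 111)) (.cons 16 (.ofNat (Nat.shiftLeft 0x61d494afd86f1 112)) (.cons 17 (.ofNat (Nat.shiftLeft 0x1af8ae4afd86f1 111)) (.cons 18 (.negSucc (Nat.sub (Nat.shiftLeft 0x3ed1 145) 1)) .nil)))))),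
    .cons 12 (.negSucc (Nat.sub (Nat.shiftLeft 0x12655304c67d753b7741d 88) 1)) (.cons 13 (.negSucc (Nat.sub (Nat.shiftLeft 0x2f4a9a269ec73d725037d 88) 1)) (.cons 14 (.negSucc (Nat.sub (Nat.shiftLeft 0x156c7b78a0b765cd60c3 90) 1)) (.cons 15 (.ofNat (Nat.shiftLeft 0x60ee83cebba8abe17cfd 88)) (.cons 16 (.ofNat (Nat.shiftLeft 0x183151e340ec4ac23e7d 89)) (.cons 17 (.negSucc (Nat.sub (Nat.shiftLeft 0x32ad65e7f9b2b53dc183 88) 1)) (.cons 18 (.ofNat (Nat.shiftLeft 0xc0dea117323 122)) .nil)))))),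
    .cons 12 (.ofNat (Nat.shiftLeft 0x407e97a9b5b2268286373c11d 71)) (.cons 13 (.ofNat (Nat.shiftLeft 0xa6fddf0556b6a5673603ab07d 71)) (.cons 14 (.ofNat (Nat.shiftLeft 0x957e9107d0b962df9557f3c3 73)) (.cons 15 (.negSucc (Nat.sub (Nat.shiftLeft 0x3d7e761ccaa35e1faf4d8a9fd 71) 1)) (.cons 16 (.negSucc (Nat.sub (Nat.shiftLeft 0x8d4f62ed688715424362eb7d 72) 1)) (.cons 17 (.ofNat (Nat.shiftLeft 0x247786127282d45cbc9d1483 71)) (.cons 18 (.negSucc (Nat.sub (Nat.shiftLeft 0x32485b77b7486623 105) 1)) .nil)))))),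
    .cons 12 (.ofNat (Nat.shiftLeft 0x899a12e383ab4186e5e06f9f525 56)) (.cons 13 (.negSucc (Nat.sub (Nat.shiftLeft 0xa5223e66bdefce136ba8aa247b 56) 1)) (.cons 14 (.ofNat (Nat.shiftLeft 0xfac03a2ad9111ac44618ea0fd2bb 58)) (.cons 15 (.negSucc (Nat.sub (Nat.shiftLeft 0x1ea95e813c9f2cd0e962a40cb1105 56) 1)) (.cons 16 (.ofNat (Nat.shiftLeft 0x21e4ea8bcfbb13f9256c311c317b 57)) (.cons 17 (.negSucc (Nat.sub (Nat.shiftLeft 0x8c2008e7a19482738d9ccee3ce85 56) 1)) (.cons 18 (.negSucc (Nat.sub (Nat.shiftLeft 0x13506848ccec3d7a341b 90) 1)) .nil)))))),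
    .cons 12 (.ofNat (Nat.shiftLeft 0x2851b44dc819617c5ad6e142200770fb 39)) (.cons 13 (.ofNat (Nat.shiftLeft 0x843aa3bf3f10ac1f01aa628838af6a69b 39)) (.cons 14 (.negSucc (Nat.sub (Nat.shiftLeft 0x1e6ed97150ff25db4684d501be8d4acdb 41) 1)) (.cons 15 (.ofNat (Nat.shiftLeft 0x24a120cea2a35a3e81e79fc2abfc9ee5 39)) (.cons 16 (.negSucc (Nat.sub (Nat.shiftLeft 0xc9285cf84c459e1514bcdf30b739939b 40) 1)) (.cons 17 (.negSucc (Nat.sub (Nat.shiftLeft 0x2e76a50160c0d09a27b0ecc7b739939b 39) 1)) (.cons 18 (.ofNat (Nat.shiftLeft 0x2ccc09922eaceb2dfd36123b 73)) .nil)))))),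
    .cons 12 (.ofNat (Nat.shiftLeft 0x7a61d2953e333fce1f36d3919c161c9773 30)) (.cons 13 (.negSucc (Nat.sub (Nat.shiftLeft 0x35cba5913d624ba7a473eccd79e95f6f9ed 30) 1)) (.cons 14 (.negSucc (Nat.sub (Nat.shiftLeft 0x3d3dc1f1c0941351d56a864ee4ed5e8f653 32) 1)) (.cons 15 (.ofNat (Nat.shiftLeft 0x6b948f93476313a6db12872bbc0484abb6d 30)) (.cons 16 (.ofNat (Nat.shiftLeft 0x575ba18630666d17b05e666e3f342844ed 31)) (.cons 17 (.negSucc (Nat.sub (Nat.shiftLeft 0xd99a0a3f0857e701ee3338ef2fcbd7bb13 30) 1)) (.cons 18 (.ofNat (Nat.shiftLeft 0xfafe3f7fc8ea9481ec07bc9ab3 64)) .nil)))))),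
    .cons 19 (.ofNat (Nat.shiftLeft 0x6cc081b9 137)) (.cons 20 (.negSucc (Nat.sub (Nat.shiftLeft 0x2ed1fa5 137) 1)) (.cons 21 (.negSucc (Nat.sub (Nat.shiftLeft 0xb8665 137) 1)) (.cons 22 (.negSucc (Nat.sub (Nat.shiftLeft 0x22932f 136) 1)) .nil))),
    .cons 19 (.negSucc (Nat.sub (Nat.shiftLeft 0x501e93fda933123 111) 1)) (.cons 20 (.negSucc (Nat.sub (Nat.shiftLeft 0xb7e1a1f0677f79 111) 1)) (.cons 21 (.ofNat (Nat.shiftLeft 0x20adbc7664cec7 111)) (.cons 22 (.negSucc (Nat.sub (Nat.shiftLeft 0x3bbcee9cd193ab 110) 1)) .nil))),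
    .cons 19 (.negSucc (Nat.sub (Nat.shiftLeft 0x16ebbce8bee206b2aeed1 90) 1)) (.cons 20 (.negSucc (Nat.sub (Nat.shiftLeft 0x4be5e6a74eca160e4823 90) 1)) (.cons 21 (.ofNat (Nat.shiftLeft 0x16c0d75504b8468d909d 90)) (.cons 22 (.ofNat (Nat.shiftLeft 0x2721035476dcd3a8b1d7 89)) .nil))),
    .cons 19 (.ofNat (Nat.shiftLeft 0x3312d89fc9a61585829696e55 72)) (.cons 20 (.ofNat (Nat.shiftLeft 0x256bac81d0d55222506f9a16f 72)) (.cons 21 (.negSucc (Nat.sub (Nat.shiftLeft 0xa78e379d54c17a41f413ca51 72) 1)) (.cons 22 (.negSucc (Nat.sub (Nat.shiftLeft 0xf441f966dce749dc3b5ef3 71) 1)) .nil))),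
    .cons 19 (.ofNat (Nat.shiftLeft 0x311e0516501ad6e5851b9da5175e1 56)) (.cons 20 (.negSucc (Nat.sub (Nat.shiftLeft 0x23a3188937b4c65e9b064733487ad 56) 1)) (.cons 21 (.negSucc (Nat.sub (Nat.shiftLeft 0x21507eaca1bb157998e93cd96c6d 56) 1)) (.cons 22 (.ofNat (Nat.shiftLeft 0x22a4f79e10b1e4e179504973bab9 55)) .nil))),
    .cons 19 (.ofNat (Nat.shiftLeft 0x2c50a728c1e87db6e5affb13e8a42912d 39)) (.cons 20 (.ofNat (Nat.shiftLeft 0x179f0667be3f6e4595cb9387d79031e77 39)) (.cons 21 (.negSucc (Nat.sub (Nat.shiftLeft 0x10248ba664b0cf218d5834f3058b90f49 39) 1)) (.cons 22 (.ofNat (Nat.shiftLeft 0x15120b5c342115045f0caa00af5d4d225 38)) .nil))),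
    .cons 19 (.negSucc (Nat.sub (Nat.shiftLeft 0x653fa9110764f196d5fe089e382f85a4e9 33) 1)) (.cons 20 (.ofNat (Nat.shiftLeft 0x22bcc73022d40d6f62e521d88640b074515 33)) (.cons 21 (.negSucc (Nat.sub (Nat.shiftLeft 0x9542e27fdff676689544e62c4781ccb02b 33) 1)) (.cons 22 (.negSucc (Nat.sub (Nat.shiftLeft 0x153f3209b095e07b859d118e94285661081 32) 1)) .nil))),
    .cons 23 (.ofNat (Nat.shiftLeft 0x451dd9 143)) .nil,
    .cons 23 (.negSucc (Nat.sub (Nat.shiftLeft 0x176bc14fceb 127) 1)) .nil,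
    .cons 23 (.ofNat (Nat.shiftLeft 0x191b571910725e3 109)) .nil,
    .cons 23 (.negSucc (Nat.sub (Nat.shiftLeft 0xe06003b5c81dede05 99) 1)) .nil,
    .nil],
   [.cons 0 (.negSucc (Nat.sub (Nat.shiftLeft 0x1b7 159) 1)) .nil,
    .cons 1 (.negSucc (Nat.sub (Nat.shiftLeft 0x82761e7 142) 1)) (.cons 2 (.negSucc (Nat.sub (Nat.shiftLeft 0xf89a5d 142) 1)) (.cons 3 (.negSucc (Nat.sub (Nat.shiftLeft 0x75ae9 145) 1)) (.cons 4 (.negSucc (Nat.sub (Nat.shiftLeft 0x95105 144) 1)) .nil))),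
    .cons 1 (.negSucc (Nat.sub (Nat.shiftLeft 0x4a25fb26e4f 128) 1)) (.cons 2 (.negSucc (Nat.sub (Nat.shiftLeft 0x1db46185155 128) 1)) (.cons 3 (.ofNat (Nat.shiftLeft 0x879d359ff 131)) (.cons 4 (.negSucc (Nat.sub (Nat.shiftLeft 0x1534f449bd 130) 1)) .nil))),
    .cons 1 (.ofNat (Nat.shiftLeft 0xba829acf6961129 111)) (.cons 2 (.ofNat (Nat.shiftLeft 0x1350e81f7ef9853 111)) (.cons 3 (.negSucc (Nat.sub (Nat.shiftLeft 0x28f251970992f9 114) 1)) (.cons 4 (.negSucc (Nat.sub (Nat.shiftLeft 0x22d0b9f25064d5 113) 1)) .nil))),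
    .cons 1 (.negSucc (Nat.sub (Nat.shiftLeft 0x19f057f8708589473 101) 1)) (.cons 2 (.negSucc (Nat.sub (Nat.shiftLeft 0xff0d9edf8a05efb21 101) 1)) (.cons 3 (.negSucc (Nat.sub (Nat.shiftLeft 0x689ae5ec7416809d 104) 1)) (.cons 4 (.ofNat (Nat.shiftLeft 0xf1c757dffac15d17 103)) .nil))),
    .cons 5 (.negSucc (Nat.sub (Nat.shiftLeft 0x14986004f 138) 1)) (.cons 6 (.negSucc (Nat.sub (Nat.shiftLeft 0xd1c3da5 140) 1)) (.cons 7 (.ofNat (Nat.shiftLeft 0x885769 140)) (.cons 8 (.ofNat (Nat.shiftLeft 0x885769 139)) (.cons 10 (.ofNat (Nat.shiftLeft 0x59a63 138)) (.cons 11 (.negSucc (Nat.sub (Nat.shiftLeft 0x59a63 138) 1)) .nil))))),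
    .cons 5 (.ofNat (Nat.shiftLeft 0xb4bc810d0b3327f 111)) (.cons 6 (.negSucc (Nat.sub (Nat.shiftLeft 0x4651dd9a5bc64b 113) 1)) (.cons 7 (.ofNat (Nat.shiftLeft 0x746b871db48547 113)) (.cons 8 (.negSucc (Nat.sub (Nat.shiftLeft 0x229bf8624b7ab9 112) 1)) (.cons 9 (.negSucc (Nat.sub (Nat.shiftLeft 0x2b2fb 146) 1)) (.cons 10 (.negSucc (Nat.sub (Nat.shiftLeft 0x253cb8e0f894d3 111) 1)) (.cons 11 (.negSucc (Nat.sub (Nat.shiftLeft 0x47a111f076b2d 111) 1)) .nil)))))),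
    .cons 5 (.ofNat (Nat.shiftLeft 0xcdbf37f94718f52f0833 88)) (.cons 6 (.negSucc (Nat.sub (Nat.shiftLeft 0x11aed9204291c3a7f5c8f 90) 1)) (.cons 7 (.negSucc (Nat.sub (Nat.shiftLeft 0x171b71228571d163d1a5 90) 1)) (.cons 8 (.negSucc (Nat.sub (Nat.shiftLeft 0x471bd82e32cb5163d1a5 89) 1)) (.cons 9 (.negSucc (Nat.sub (Nat.shiftLeft 0xc703b400d7f 123) 1)) (.cons 10 (.ofNat (Nat.shiftLeft 0x40754195dec21fb94489 88)) (.cons 11 (.negSucc (Nat.sub (Nat.shiftLeft 0x10bdf1ff69841fb94489 88) 1)) .nil)))))),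
    .cons 5 (.ofNat (Nat.shiftLeft 0x44d27805a173b3db1c635f4cd 71)) (.cons 6 (.ofNat (Nat.shiftLeft 0xa69451b0a8041ea1faa0fb8f 73)) (.cons 7 (.negSucc (Nat.sub (Nat.shiftLeft 0xf1ed018e165be58a48cad95b 73) 1)) (.cons 8 (.ofNat (Nat.shiftLeft 0x8bde017d6b12894f373526a5 72)) (.cons 9 (.ofNat (Nat.shiftLeft 0x17c44b8e69e39c7f 106)) (.cons 10 (.ofNat (Nat.shiftLeft 0xce51e01c48ce873fca28c277 71)) (.cons 11 (.negSucc (Nat.sub (Nat.shiftLeft 0xb27b67f5dee25a7dca28c277 71) 1)) .nil)))))),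
    .cons 5 (.ofNat (Nat.shiftLeft 0x151011384c234e4ce315ad3e0455 56)) (.cons 6 (.negSucc (Nat.sub (Nat.shiftLeft 0xfb3e0c5971b5fd3ab47e4518ab99 58) 1)) (.cons 7 (.negSucc (Nat.sub (Nat.shiftLeft 0x114a03d4b28d437b9dbf5810a1c13 58) 1)) (.cons 8 (.negSucc (Nat.sub (Nat.shiftLeft 0x1bd7b20aa1447b0a22e0010a1c13 57) 1)) (.cons 9 (.negSucc (Nat.sub (Nat.shiftLeft 0xa7455daca08ca403d29 91) 1)) (.cons 10 (.ofNat (Nat.shiftLeft 0x58bd79eec115f652e39c6cab6b8f 56)) (.cons 11 (.negSucc (Nat.sub (Nat.shiftLeft 0x31c2e6d25baba9797d8a6cab6b8f 56) 1)) .nil)))))),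
    .cons 5 (.negSucc (Nat.sub (Nat.shiftLeft 0x18dc16b7657f8f1debfeeee007719035 39) 1)) (.cons 6 (.negSucc (Nat.sub (Nat.shiftLeft 0x23bbe6b0a5346ca5efa5b7ce327291f07 41) 1)) (.cons 7 (.ofNat (Nat.shiftLeft 0xdd9ca2b91e5a53dfb1ef514fbf6b1733 41)) (.cons 8 (.negSucc (Nat.sub (Nat.shiftLeft 0x2556465fc3a3dbe800e8fd9d5c094e8cd 40) 1)) (.cons 9 (.ofNat (Nat.shiftLeft 0x3a551ea4dc390924752c889 74)) (.cons 10 (.ofNat (Nat.shiftLeft 0x429a03026fd14e5cb77a195125acbad1 39)) (.cons 11 (.ofNat (Nat.shiftLeft 0x4978b28c015e2c364e6e01dcda53452f 39)) .nil)))))),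
    .cons 5 (.negSucc (Nat.sub (Nat.shiftLeft 0xd8b661908eac58aefd325890adb3272d3d 30) 1)) (.cons 6 (.ofNat (Nat.shiftLeft 0x195db42443c45b3bf28b90061f41eabd3a1 32)) (.cons 7 (.negSucc (Nat.sub (Nat.shiftLeft 0x4aa2f30a4b05d45d45c8f6962ae5f7ba795 32) 1)) (.cons 8 (.negSucc (Nat.sub (Nat.shiftLeft 0x40eab70bacd13e2cc58e173714fdf7ba795 31) 1)) (.cons 9 (.negSucc (Nat.sub (Nat.shiftLeft 0x41e608f561cec970b0d4e55a4f 65) 1)) (.cons 10 (.ofNat (Nat.shiftLeft 0x25ab4be229c3c32c98e08873d1963873139 30)) (.cons 11 (.negSucc (Nat.sub (Nat.shiftLeft 0x30c004e32a047b1b6dd0548823b63873139 30) 1)) .nil)))))),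
    .cons 12 (.negSucc (Nat.sub (Nat.shiftLeft 0x4251038b5 136) 1)) (.cons 13 (.negSucc (Nat.sub (Nat.shiftLeft 0x228f5789 138) 1)) (.cons 14 (.negSucc (Nat.sub (Nat.shiftLeft 0x5b7ac1b 136) 1)) (.cons 15 (.negSucc (Nat.sub (Nat.shiftLeft 0x15d974d 137) 1)) (.cons 17 (.negSucc (Nat.sub (Nat.shiftLeft 0x3d777 137) 1)) (.cons 18 (.negSucc (Nat.sub (Nat.shiftLeft 0x133553 136) 1)) .nil))))),
    .cons 12 (.ofNat (Nat.shiftLeft 0x189eb03c17013f37 110)) (.cons 13 (.negSucc (Nat.sub (Nat.shiftLeft 0x7ed4944e5fefed 112) 1)) (.cons 14 (.negSucc (Nat.sub (Nat.shiftLeft 0x45af7c543fd6b47 110) 1)) (.cons 15 (.ofNat (Nat.shiftLeft 0x30d78f5c9c803f 111)) (.cons 16 (.negSucc (Nat.sub (Nat.shiftLeft 0xb99dd 145) 1)) (.cons 17 (.negSucc (Nat.sub (Nat.shiftLeft 0x15ff3e8333bb13 111) 1)) (.cons 18 (.negSucc (Nat.sub (Nat.shiftLeft 0xcc7e49002a75f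 110) 1)) .nil)))))),
    .cons 12 (.negSucc (Nat.sub (Nat.shiftLeft 0xcd2abaf8914470a0f993 89) 1)) (.cons 13 (.ofNat (Nat.shiftLeft 0x85ae346497dc3bd7fc21 91)) (.cons 14 (.negSucc (Nat.sub (Nat.shiftLeft 0x56a9f9918540ffc5421d 89) 1)) (.cons 15 (.negSucc (Nat.sub (Nat.shiftLeft 0x22cf7e39b5fa4e8f32bb 90) 1)) (.cons 16 (.negSucc (Nat.sub (Nat.shiftLeft 0x62bf79b9a2f 124) 1)) (.cons 17 (.ofNat (Nat.shiftLeft 0xe157f108e056cd9dadf 90)) (.cons 18 (.ofNat (Nat.shiftLeft 0xa74ca247e772041465b 89)) .nil)))))),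
    .cons 12 (.ofNat (Nat.shiftLeft 0x4bd5669598d142b33adfa749f 71)) (.cons 13 (.ofNat (Nat.shiftLeft 0x176556afee34753b115fcfb1b 73)) (.cons 14 (.ofNat (Nat.shiftLeft 0x4ee61246424f893a3ea2ea1d1 71)) (.cons 15 (.negSucc (Nat.sub (Nat.shiftLeft 0x9e98ddfbcf7f8415ebada399 72) 1)) (.cons 16 (.ofNat (Nat.shiftLeft 0x17c64dc1f8a97eab 106)) (.cons 17 (.ofNat (Nat.shiftLeft 0x5dd174cf99aad1acaea411e5 72)) (.cons 18 (.negSucc (Nat.sub (Nat.shiftLeft 0x10c87819b964e586c96cba687 71) 1)) .nil)))))),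
    .cons 12 (.ofNat (Nat.shiftLeft 0xaeb0b621ed781177a740d298a0c3 55)) (.cons 13 (.ofNat (Nat.shiftLeft 0xc398f15d49fdfccf4b9bdd5887cf 57)) (.cons 14 (.negSucc (Nat.sub (Nat.shiftLeft 0xbf0286cd2b035d69c3c492fdcca13 55) 1)) (.cons 15 (.negSucc (Nat.sub (Nat.shiftLeft 0xa788b7d47ab33a89117d8b188395 56) 1)) (.cons 16 (.negSucc (Nat.sub (Nat.shiftLeft 0x2a873be3e5c945d85ce1 90) 1)) (.cons 17 (.ofNat (Nat.shiftLeft 0x5cab1103c5f2c8c67ebf96623131 56)) (.cons 18 (.ofNat (Nat.shiftLeft 0x1433578455fe707b763a1efeaf5f5 55)) .nil)))))),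
    .cons 12 (.negSucc (Nat.sub (Nat.shiftLeft 0x4406b3428d6aa136cae352c65c83fd9 38) 1)) (.cons 13 (.ofNat (Nat.shiftLeft 0x55074df441a22e641c25562c29d0fd4c3 40)) (.cons 14 (.ofNat (Nat.shiftLeft 0x6f80ae1d745f1c8d20a5f07ffc316ac9 38)) (.cons 15 (.negSucc (Nat.sub (Nat.shiftLeft 0x3f69750270777d94634d1b4d52ded7a51 39) 1)) (.cons 16 (.negSucc (Nat.sub (Nat.shiftLeft 0xd833f8564a96fbc147d8c2d 73) 1)) (.cons 17 (.negSucc (Nat.sub (Nat.shiftLeft 0x26b819e3d33993b520fb7f62c83dafc3 39) 1)) (.cons 18 (.ofNat (Nat.shiftLeft 0x479c6f2efebd8414224fea616cb9131 38)) .nil)))))),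
    .cons 12 (.negSucc (Nat.sub (Nat.shiftLeft 0x83e89089a7710b628e511448e12de726db 32) 1)) (.cons 13 (.ofNat (Nat.shiftLeft 0x51d46ad22e011035bacced6bbdc533b9b9 34)) (.cons 14 (.negSucc (Nat.sub (Nat.shiftLeft 0xc4494f0c7a346caf051f19245648b6555 32) 1)) (.cons 15 (.ofNat (Nat.shiftLeft 0x159423f993859da20f30cf7a2e19ebf203d 33)) (.cons 16 (.ofNat (Nat.shiftLeft 0x1b160b851034bd785e72c3c3e9 67)) (.cons 17 (.negSucc (Nat.sub (Nat.shiftLeft 0x629400bd09d250d4a560cff8e52b443ab9 33) 1)) (.cons 18 (.negSucc (Nat.sub (Nat.shiftLeft 0x94b510de373a589161e770157dd855259d 32) 1)) .nil)))))),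
    .cons 19 (.negSucc (Nat.sub (Nat.shiftLeft 0x4a8a0fd 143) 1)) (.cons 20 (.negSucc (Nat.sub (Nat.shiftLeft 0xb1f03f 143) 1)) (.cons 21 (.negSucc (Nat.sub (Nat.shiftLeft 0x1cebcf 144) 1)) (.cons 22 (.ofNat (Nat.shiftLeft 0x27371 143)) .nil))),
    .cons 19 (.ofNat (Nat.shiftLeft 0x9e6a3e1fbd7 127)) (.cons 20 (.ofNat (Nat.shiftLeft 0x52f7cc3a65d 127)) (.cons 21 (.ofNat (Nat.shiftLeft 0x2a0a860f0d 128)) (.cons 22 (.negSucc (Nat.sub (Nat.shiftLeft 0xdb23ca46b3 127) 1)) .nil))),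
    .cons 19 (.negSucc (Nat.sub (Nat.shiftLeft 0x28ba254f0939faaf 109) 1)) (.cons 20 (.ofNat (Nat.shiftLeft 0x24a64849680a95b 109)) (.cons 21 (.ofNat (Nat.shiftLeft 0x2b8c4792b68212b 110)) (.cons 22 (.ofNat (Nat.shiftLeft 0x131db0ec3f72ceb 109)) .nil))),
    .cons 19 (.ofNat (Nat.shiftLeft 0x33b301532f581b6ed9 99)) (.cons 20 (.ofNat (Nat.shiftLeft 0x3a551336fdd46ec933 99)) (.cons 21 (.negSucc (Nat.sub (Nat.shiftLeft 0x2f1be17bcd0f0d07d 100) 1)) (.cons 22 (.ofNat (Nat.shiftLeft 0xc9789d394c866d943 99)) .nil))),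
    .cons 23 (.negSucc (Nat.sub (Nat.shiftLeft 0x1cf 159) 1)) .nil],
   [.nil,
    .cons 0 (.ofNat (Nat.shiftLeft 0x3863a5 143)) .nil,
    .cons 0 (.ofNat (Nat.shiftLeft 0x4cafaba35d 129)) .nil,
    .cons 0 (.negSucc (Nat.sub (Nat.shiftLeft 0x70274f270bee8b 112) 1)) .nil,
    .cons 0 (.ofNat (Nat.shiftLeft 0x200ffe9475901da09 102)) .nil,
    .cons 1 (.ofNat (Nat.shiftLeft 0x1ecb861d 139)) (.cons 2 (.negSucc (Nat.sub (Nat.shiftLeft 0x2738b5 141) 1)) (.cons 3 (.negSucc (Nat.sub (Nat.shiftLeft 0x59a63 139) 1)) (.cons 4 (.ofNat (Nat.shiftLeft 0x59a63 138)) .nil))),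
    .cons 1 (.negSucc (Nat.sub (Nat.shiftLeft 0x17620117639f3ad 112) 1)) (.cons 2 (.negSucc (Nat.sub (Nat.shiftLeft 0xa8ac71933ee3b 114) 1)) (.cons 3 (.negSucc (Nat.sub (Nat.shiftLeft 0x205e71f076b2d 112) 1)) (.cons 4 (.ofNat (Nat.shiftLeft 0x3414731f076b2d 111)) .nil))),
    .cons 1 (.ofNat (Nat.shiftLeft 0x2d1f90e76f43b5b3facf7 89)) (.cons 2 (.ofNat (Nat.shiftLeft 0x19a9ecbd3f8ce1ef2041 91)) (.cons 3 (.negSucc (Nat.sub (Nat.shiftLeft 0x4167aeade8e21fb94489 89) 1)) (.cons 4 (.ofNat (Nat.shiftLeft 0x1a9a50c628fe1fb94489 88)) .nil))),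
    .cons 1 (.ofNat (Nat.shiftLeft 0x3cdaa9f9cee1551491604cc09 72)) (.cons 2 (.ofNat (Nat.shiftLeft 0x537d096a0d0756a5b8e2aebf 74)) (.cons 3 (.negSucc (Nat.sub (Nat.shiftLeft 0x820038121e0e5d1fca28c277 72) 1)) (.cons 4 (.negSucc (Nat.sub (Nat.shiftLeft 0xc475df78fc403efc35d73d89 71) 1)) .nil))),
    .cons 1 (.negSucc (Nat.sub (Nat.shiftLeft 0x18c3530284ae7ea04346dbddbd90f 57) 1)) (.cons 2 (.ofNat (Nat.shiftLeft 0xefa7ce96969afe2512747500f17 59)) (.cons 3 (.ofNat (Nat.shiftLeft 0x46613377ac51154c8b8393549471 57)) (.cons 4 (.ofNat (Nat.shiftLeft 0x6724f9e6fb48014fa006cab6b8f 56)) .nil))),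
    .cons 1 (.negSucc (Nat.sub (Nat.shiftLeft 0x1956217189f0ecf54b7999b3aefa93d51 40) 1)) (.cons 2 (.negSucc (Nat.sub (Nat.shiftLeft 0x1f219dccac6f664066a47bfe47b91bb7 42) 1)) (.cons 3 (.ofNat (Nat.shiftLeft 0x1f9ee3921554502712514b8eda53452f 40)) (.cons 4 (.ofNat (Nat.shiftLeft 0x168f07f26a0156a158e982d6d25acbad1 39)) .nil))),
    .cons 1 (.negSucc (Nat.sub (Nat.shiftLeft 0x1656ecacea1d690c541bdf67656fbf877b9 31) 1)) (.cons 2 (.ofNat (Nat.shiftLeft 0x1de40a2dd56819debe59354399e074da771 33)) (.cons 3 (.negSucc (Nat.sub (Nat.shiftLeft 0x19add061caf074a38f86aa68d3963873139 31) 1)) (.cons 4 (.negSucc (Nat.sub (Nat.shiftLeft 0xe65629676746c1b4e517a4b96a9c78cec7 30) 1)) .nil))),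
    .cons 5 (.ofNat (Nat.shiftLeft 0x6c2231951 136)) (.cons 6 (.negSucc (Nat.sub (Nat.shiftLeft 0x2e4b850b 137) 1)) (.cons 7 (.negSucc (Nat.sub (Nat.shiftLeft 0x253750d 136) 1)) (.cons 8 (.ofNat (Nat.shiftLeft 0x1c92851 136)) (.cons 9 (.ofNat (Nat.shiftLeft 0x3d777 136)) .nil)))),
    .cons 5 (.ofNat (Nat.shiftLeft 0xfe271d6a061ead5 110)) (.cons 6 (.negSucc (Nat.sub (Nat.shiftLeft 0x2d00037166563f7 111) 1)) (.cons 7 (.ofNat (Nat.shiftLeft 0x2ab4cea8fadbb7f 110)) (.cons 8 (.negSucc (Nat.sub (Nat.shiftLeft 0xfd0e6d02f40a2b 110) 1)) (.cons 9 (.ofNat (Nat.shiftLeft 0x4d318a8333bb13 110)) (.cons 10 (.ofNat (Nat.shiftLeft 0x4c335 145)) (.cons 11 (.ofNat (Nat.shiftLeft 0x1f43 145)) .nil)))))),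
    .cons 5 (.ofNat (Nat.shiftLeft 0x1b79d4d71695df4cf957 89)) (.cons 6 (.ofNat (Nat.shiftLeft 0xb54ad74aecd4bd529153 90)) (.cons 7 (.negSucc (Nat.sub (Nat.shiftLeft 0x47642356538b18187afb 89) 1)) (.cons 8 (.ofNat (Nat.shiftLeft 0x2297019d07e666bb4257 89)) (.cons 9 (.ofNat (Nat.shiftLeft 0x23101b47a87e93262521 89)) (.cons 10 (.negSucc (Nat.sub (Nat.shiftLeft 0x12bf336b089 124) 1)) (.cons 11 (.negSucc (Nat.sub (Nat.shiftLeft 0x284630e87cf 124) 1)) .nil)))))),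
    .cons 5 (.ofNat (Nat.shiftLeft 0x3130a0891e15580bed1055b8d 71)) (.cons 6 (.ofNat (Nat.shiftLeft 0x47afbceea3bcad5b08f2ba4a1 72)) (.cons 7 (.negSucc (Nat.sub (Nat.shiftLeft 0x2c55d21ccea5c034e42a92a59 71) 1)) (.cons 8 (.ofNat (Nat.shiftLeft 0x2e1027faab04b6f9ed1bbae8d 71)) (.cons 9 (.ofNat (Nat.shiftLeft 0x660fbb21e8fe3cbf515bee1b 71)) (.cons 10 (.negSucc (Nat.sub (Nat.shiftLeft 0x19edf7a00c1fdb13 106) 1)) (.cons 11 (.negSucc (Nat.sub (Nat.shiftLeft 0x1453786d02427535 106) 1)) .nil)))))),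
    .cons 5 (.ofNat (Nat.shiftLeft 0xd2f74d5cc60a2a0f12a0d77fb39 55)) (.cons 6 (.ofNat (Nat.shiftLeft 0x1f53c56f932f5ce6956133d4acb7d 56)) (.cons 7 (.ofNat (Nat.shiftLeft 0x4652d3c9748eb9ff524140d73c8ab 55)) (.cons 8 (.negSucc (Nat.sub (Nat.shiftLeft 0x1ac5c0140c8427050363ae7a4ddc7 55) 1)) (.cons 9 (.ofNat (Nat.shiftLeft 0x1b54a9463d73410c2fa7c699dcecf 55)) (.cons 10 (.negSucc (Nat.sub (Nat.shiftLeft 0x8130cf7dc186dd4fce7 90) 1)) (.cons 11 (.negSucc (Nat.sub (Nat.shiftLeft 0x41453b694347cf85541 90) 1)) .nil)))))),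
    .cons 5 (.negSucc (Nat.sub (Nat.shiftLeft 0x1ca07031424ea8eed9b112740d6d875b 38) 1)) (.cons 6 (.negSucc (Nat.sub (Nat.shiftLeft 0xa4a057b75ee2bf66131b39d8b0f5f10e7 39) 1)) (.cons 7 (.negSucc (Nat.sub (Nat.shiftLeft 0x3ea382c7792e8b3ae7340f2cb3d596b11 38) 1)) (.cons 8 (.negSucc (Nat.sub (Nat.shiftLeft 0x3c7f04e0b30ef8a1bc9148b50eb534c5b 38) 1)) (.cons 9 (.ofNat (Nat.shiftLeft 0x26c40c2b3ab608bac135e46ec83dafc3 38)) (.cons 10 (.ofNat (Nat.shiftLeft 0x67819e6e3a2a03c454ba4705 73)) (.cons 11 (.ofNat (Nat.shiftLeft 0x71d419013bd73ac8c880ef3 73)) .nil)))))),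
    .cons 5 (.negSucc (Nat.sub (Nat.shiftLeft 0x120f94adac7ec46b67c5e51061e5cc5501 32) 1)) (.cons 6 (.ofNat (Nat.shiftLeft 0x26d18434c3b607d20757fc58a99ac8589b 33)) (.cons 7 (.ofNat (Nat.shiftLeft 0x4cdd5e4f9a1c6dc7b052ab0b68acdb071fd 32)) (.cons 8 (.negSucc (Nat.sub (Nat.shiftLeft 0x27f3cf01a71f239fe0aedb7a8ece348b401 32) 1)) (.cons 9 (.negSucc (Nat.sub (Nat.shiftLeft 0x3b75186bbcba335f9e6cc34a36d4bbc547 32) 1)) (.cons 10 (.ofNat (Nat.shiftLeft 0x7069fad85a988fb7702f8641f 67)) (.cons 11 (.ofNat (Nat.shiftLeft 0x20eb8c283cadd4962b24137f49 67)) .nil)))))),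
    .cons 12 (.ofNat (Nat.shiftLeft 0x1d834f09 142)) (.cons 13 (.ofNat (Nat.shiftLeft 0x2ddcff5 143)) (.cons 14 (.negSucc (Nat.sub (Nat.shiftLeft 0x2bf6baf 143) 1)) (.cons 15 (.negSucc (Nat.sub (Nat.shiftLeft 0xc781bb 142) 1)) (.cons 16 (.ofNat (Nat.shiftLeft 0x21d2b1 143)) (.cons 17 (.ofNat (Nat.shiftLeft 0x36e6b 142)) (.cons 18 (.negSucc (Nat.sub (Nat.shiftLeft 0x65f59 142) 1)) .nil)))))),
    .cons 12 (.ofNat (Nat.shiftLeft 0xbc8fc579d85 126)) (.cons 13 (.negSucc (Nat.sub (Nat.shiftLeft 0x548c12b15bf 127) 1)) (.cons 14 (.ofNat (Nat.shiftLeft 0x7823dc542ad 127)) (.cons 15 (.ofNat (Nat.shiftLeft 0x55746eae151 126)) (.cons 16 (.ofNat (Nat.shiftLeft 0x7b9ae5638d 127)) (.cons 17 (.negSucc (Nat.sub (Nat.shiftLeft 0x1416fb4c961 126) 1)) (.cons 18 (.negSucc (Nat.sub (Nat.shiftLeft 0x24ad88bae95 126) 1)) .nil)))))),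
    .cons 12 (.negSucc (Nat.sub (Nat.shiftLeft 0x5c5d7905579aa0d 108) 1)) (.cons 13 (.negSucc (Nat.sub (Nat.shiftLeft 0x4070ef80a521129 109) 1)) (.cons 14 (.ofNat (Nat.shiftLeft 0x2e78d7b1ffe4a48b 109)) (.cons 15 (.ofNat (Nat.shiftLeft 0x19e2dfe7eace5147 108)) (.cons 16 (.negSucc (Nat.sub (Nat.shiftLeft 0x4048eb25879c755 109) 1)) (.cons 17 (.negSucc (Nat.sub (Nat.shiftLeft 0x2f5f8a8100c5ab7 108) 1)) (.cons 18 (.negSucc (Nat.sub (Nat.shiftLeft 0xaabec6467e90e63 108) 1)) .nil)))))),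
    .cons 12 (.negSucc (Nat.sub (Nat.shiftLeft 0x1839bc0453debd3d75 98) 1)) (.cons 13 (.ofNat (Nat.shiftLeft 0xe201cd93d885e27e8f 99)) (.cons 14 (.ofNat (Nat.shiftLeft 0x49eb2a61de96b26de3 99)) (.cons 15 (.negSucc (Nat.sub (Nat.shiftLeft 0x55ccf6fae0de4d7b81 98) 1)) (.cons 16 (.ofNat (Nat.shiftLeft 0x5bd5f4bbf04be8303 99)) (.cons 17 (.ofNat (Nat.shiftLeft 0x2757ad4f9016299691 98)) (.cons 18 (.negSucc (Nat.sub (Nat.shiftLeft 0x15f2d321869371ce7b 98) 1)) .nil)))))),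
    .cons 19 (.ofNat (Nat.shiftLeft 0xef5 159)) (.cons 20 (.ofNat (Nat.shiftLeft 0x53d 159)) (.cons 21 (.ofNat (Nat.shiftLeft 0x7f 160)) (.cons 22 (.negSucc (Nat.sub (Nat.shiftLeft 0xc5 159) 1)) .nil)))]⟩

theorem iso14 : isoChk 24 24 (4 ^ 171) A14 = true := by decide +kernel

theorem iso15 : isoChk 24 24 (4 ^ 171) A15 = true := by decide +kernel

theorem iso16 : isoChk 24 24 (4 ^ 171) A16 = true := by decide +kernel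

theorem iso17 : isoChk 24 24 (4 ^ 171) A17 = true := by decide +kernel

theorem iso18 : isoChk 24 24 (4 ^ 171) A18 = true := by decide +kernel

theorem iso19 : isoChk 24 24 (4 ^ 171) A19 = true := by decide +kernel

theorem iso20 : isoChk 24 24 (4 ^ 171) A20 = true := by decide +kernel


end Crest.Agent.R347.Dat
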