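import Crest.Agent.R347.CDefs

/-! Energy bounds along the chain. -/

set_option autoImplicit false
set_option maxRecDepth 100000
set_option Elab.async false

namespace Crest.Agent.R347.Dat

open Crest.Agent.R347 Crest.Agent.R347.K

noncomputable def X0 : List SL :=
  [.cons 0 (.negSucc 0x9999999998) .nil,
   .nil,
   .cons 2 (.ofNat 0x999999999a) .nil]

noncomputable def X1 : List SL :=
  [.cons 0 (.ofNat 0x1cd2de0e3db) .nil,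
   .cons 1 (.ofNat 0xcd2de0e3db) (.cons 3 (.ofNat (Nat.shiftLeft 0x1 40)) .nil),
   .cons 2 (.negSucc 0x32d21f1c24) (.cons 4 (.ofNat (Nat.shiftLeft 0x1 40)) .nil),
   .cons 1 (.ofNat (Nat.shiftLeft 0x1 40)) (.cons 3 (.ofNat 0x166c77a7d74) .nil),
   .cons 2 (.ofNat (Nat.shiftLeft 0x1 40)) (.cons 4 (.ofNat 0x166c77a7d74) (.cons 6 (.ofNat (Nat.shiftLeft 0x1 40)) .nil)),
   .cons 5 (.ofNat 0x166c77a7d74) (.cons 7 (.ofNat (Nat.shiftLeft 0x1 40)) .nil),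
   .cons 4 (.ofNat (Nat.shiftLeft 0x1 40)) (.cons 6 (.ofNat 0x1006114170e) .nil),
   .cons 5 (.ofNat (Nat.shiftLeft 0x1 40)) (.cons 7 (.ofNat 0x2006114170e) .nil),
   .cons 8 (.ofNat 0x3006114170e) .nil]

noncomputable def X2 : List SL :=
  [.cons 0 (.ofNat 0x433f55b614f) .nil,
   .cons 1 (.ofNat 0x333f55b614f) (.cons 3 (.ofNat (Nat.shiftLeft 0x1 40)) .nil),
   .cons 2 (.ofNat 0x233f55b614f) (.cons 4 (.ofNat (Nat.shiftLeft 0x1 40)) .nil),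
   .cons 1 (.ofNat (Nat.shiftLeft 0x1 40)) (.cons 3 (.ofNat 0x233f55b614f) (.cons 9 (.ofNat (Nat.shiftLeft 0x1 40)) .nil)),
   .cons 2 (.ofNat (Nat.shiftLeft 0x1 40)) (.cons 4 (.ofNat 0x233f55b614f) (.cons 6 (.ofNat (Nat.shiftLeft 0x1 40)) (.cons 10 (.ofNat (Nat.shiftLeft 0x1 40)) .nil))),
   .cons 5 (.ofNat 0x233f55b614f) (.cons 7 (.ofNat (Nat.shiftLeft 0x1 40)) (.cons 11 (.ofNat (Nat.shiftLeft 0x1 40)) .nil)),
   .cons 4 (.ofNat (Nat.shiftLeft 0x1 40)) (.cons 6 (.ofNat 0x33f55b614f) (.cons 12 (.ofNat (Nat.shiftLeft 0x1 40)) .nil)),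
   .cons 5 (.ofNat (Nat.shiftLeft 0x1 40)) (.cons 7 (.ofNat 0x133f55b614f) (.cons 13 (.ofNat (Nat.shiftLeft 0x1 40)) .nil)),
   .cons 8 (.ofNat 0x233f55b614f) (.cons 14 (.ofNat (Nat.shiftLeft 0x1 40)) .nil),
   .cons 3 (.ofNat (Nat.shiftLeft 0x1 40)) (.cons 9 (.ofNat 0x3cd8ef4fae8) .nil),
   .cons 4 (.ofNat (Nat.shiftLeft 0x1 40)) (.cons 10 (.ofNat 0x2cd8ef4fae8) (.cons 12 (.ofNat (Nat.shiftLeft 0x1 40)) .nil)),
   .cons 5 (.ofNat (Nat.shiftLeft 0x1 40)) (.cons 11 (.ofNat 0x1cd8ef4fae8) (.cons 13 (.ofNat (Nat.shiftLeft 0x1 40)) .nil)),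
   .cons 6 (.ofNat (Nat.shiftLeft 0x1 40)) (.cons 10 (.ofNat (Nat.shiftLeft 0x1 40)) (.cons 12 (.ofNat 0x2cd8ef4fae8) (.cons 18 (.ofNat (Nat.shiftLeft 0x1 40)) .nil))),
   .cons 7 (.ofNat (Nat.shiftLeft 0x1 40)) (.cons 11 (.ofNat (Nat.shiftLeft 0x1 40)) (.cons 13 (.ofNat 0x2cd8ef4fae8) (.cons 15 (.ofNat (Nat.shiftLeft 0x1 40)) (.cons 19 (.ofNat (Nat.shiftLeft 0x1 40)) .nil)))),
   .cons 8 (.ofNat (Nat.shiftLeft 0x1 40)) (.cons 14 (.ofNat 0x2cd8ef4fae8) (.cons 16 (.ofNat (Nat.shiftLeft 0x1 40)) (.cons 20 (.ofNat (Nat.shiftLeft 0x1 40)) .nil))),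
   .cons 13 (.ofNat (Nat.shiftLeft 0x1 40)) (.cons 15 (.ofNat 0x1cd8ef4fae8) (.cons 21 (.ofNat (Nat.shiftLeft 0x1 40)) .nil)),
   .cons 14 (.ofNat (Nat.shiftLeft 0x1 40)) (.cons 16 (.ofNat 0x2cd8ef4fae8) (.cons 22 (.ofNat (Nat.shiftLeft 0x1 40)) .nil)),
   .cons 17 (.ofNat 0x3cd8ef4fae8) (.cons 23 (.ofNat (Nat.shiftLeft 0x1 40)) .nil),
   .cons 12 (.ofNat (Nat.shiftLeft 0x1 40)) (.cons 18 (.ofNat 0x367288e9482) .nil),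
   .cons 13 (.ofNat (Nat.shiftLeft 0x1 40)) (.cons 19 (.ofNat 0x267288e9482) (.cons 21 (.ofNat (Nat.shiftLeft 0x1 40)) .nil)),
   .cons 14 (.ofNat (Nat.shiftLeft 0x1 40)) (.cons 20 (.ofNat 0x167288e9482) (.cons 22 (.ofNat (Nat.shiftLeft 0x1 40)) .nil)),
   .cons 15 (.ofNat (Nat.shiftLeft 0x1 40)) (.cons 19 (.ofNat (Nat.shiftLeft 0x1 40)) (.cons 21 (.ofNat 0x367288e9482) .nil)),
   .cons 16 (.ofNat (Nat.shiftLeft 0x1 40)) (.cons 20 (.ofNat (Nat.shiftLeft 0x1 40)) (.cons 22 (.ofNat 0x367288e9482) (.cons 24 (.ofNat (Nat.shiftLeft 0x1 40)) .nil))),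
   .cons 17 (.ofNat (Nat.shiftLeft 0x1 40)) (.cons 23 (.ofNat 0x367288e9482) (.cons 25 (.ofNat (Nat.shiftLeft 0x1 40)) .nil)),
   .cons 22 (.ofNat (Nat.shiftLeft 0x1 40)) (.cons 24 (.ofNat 0x367288e9482) .nil),
   .cons 23 (.ofNat (Nat.shiftLeft 0x1 40)) (.cons 25 (.ofNat 0x467288e9482) .nil),
   .cons 26 (.ofNat 0x567288e9482) .nil]

noncomputable def X3 : List SL :=
  [.cons 0 (.ofNat 0x3773e634529) .nil,
   .cons 1 (.ofNat 0x139aa3306c4) (.cons 2 (.ofNat 0x8ba56bc18c) (.cons 3 (.ofNat 0xebd4036aa) (.cons 4 (.negSucc 0xaa946288f) .nil))),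
   .cons 1 (.ofNat 0x8ba56bc18c) (.cons 2 (.ofNat 0x1f8efb0c064) (.cons 3 (.negSucc 0xe7a466e98) (.cons 4 (.ofNat 0x4f2bdf17dd) .nil))),
   .cons 1 (.ofNat 0xebd4036aa) (.cons 2 (.negSucc 0xe7a466e98) (.cons 3 (.ofNat 0x34c47752a14) (.cons 4 (.ofNat 0x71aeaad918) .nil))),
   .cons 1 (.negSucc 0xaa946288f) (.cons 2 (.ofNat 0x4f2bdf17dd) (.cons 3 (.ofNat 0x71aeaad918) (.cons 4 (.ofNat 0x324836fae7e) .nil))),
   .cons 5 (.negSucc 0x4029905350) (.cons 6 (.ofNat 0x1897e8e8a0) (.cons 7 (.negSucc 0x3f04afc757) (.cons 8 (.ofNat 0x1f43a27ef) (.cons 9 (.ofNat 0x32e2234b7) (.cons 10 (.negSucc 0x386bb7f30) (.cons 11 (.ofNat 0x535d17bd9) .nil)))))),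
   .cons 5 (.ofNat 0x1897e8e8a0) (.cons 6 (.ofNat 0x1694733fc0b) (.cons 7 (.ofNat 0x99d458656) (.cons 8 (.ofNat 0x796f38c3ff) (.cons 9 (.ofNat 0x347e7cabe5) (.cons 10 (.negSucc 0x184abfc13) (.cons 11 (.negSucc 0x5fc94033d) .nil)))))),
   .cons 5 (.negSucc 0x3f04afc757) (.cons 6 (.ofNat 0x99d458656) (.cons 7 (.ofNat 0x13120dcaaf7) (.cons 8 (.ofNat 0x5b6f777d2) (.cons 9 (.ofNat 0xe61c9fd8c) (.cons 10 (.ofNat 0x16e97690d) (.cons 11 (.negSucc 0x12c5334c3e) .nil)))))),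
   .cons 5 (.ofNat 0x1f43a27ef) (.cons 6 (.ofNat 0x796f38c3ff) (.cons 7 (.ofNat 0x5b6f777d2) (.cons 8 (.ofNat 0x24b715bfe61) (.cons 9 (.negSucc 0x783d7d71b) (.cons 10 (.ofNat 0x78f53f801) (.cons 11 (.ofNat 0x23f90fc3ce) .nil)))))),
   .cons 5 (.ofNat 0x32e2234b7) (.cons 6 (.ofNat 0x347e7cabe5) (.cons 7 (.ofNat 0xe61c9fd8c) (.cons 8 (.negSucc 0x783d7d71b) (.cons 9 (.ofNat 0x22fbcb4a12f) (.cons 10 (.ofNat 0x6950a9ab44) (.cons 11 (.ofNat 0x28f7bdfe64) .nil)))))),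
   .cons 5 (.negSucc 0x386bb7f30) (.cons 6 (.negSucc 0x184abfc13) (.cons 7 (.ofNat 0x16e97690d) (.cons 8 (.ofNat 0x78f53f801) (.cons 9 (.ofNat 0x6950a9ab44) (.cons 10 (.ofNat 0x3568c862cba) (.cons 11 (.ofNat 0x5ba5820132) .nil)))))),
   .cons 5 (.ofNat 0x535d17bd9) (.cons 6 (.negSucc 0x5fc94033d) (.cons 7 (.negSucc 0x12c5334c3e) (.cons 8 (.ofNat 0x23f90fc3ce) (.cons 9 (.ofNat 0x28f7bdfe64) (.cons 10 (.ofNat 0x5ba5820132) (.cons 11 (.ofNat 0x3510f46b27a) .nil)))))),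
   .cons 12 (.negSucc 0xad91300110) (.cons 13 (.ofNat 0x2bc385a559) (.cons 14 (.negSucc 0x219f1c0e78) (.cons 15 (.negSucc 0x1116dc4d14) (.cons 16 (.negSucc 0x768e685e4) (.cons 17 (.negSucc 0x5ae49ba) (.cons 18 (.ofNat 0x58962fc76) .nil)))))),
   .cons 12 (.ofNat 0x2bc385a559) (.cons 13 (.ofNat 0xe920a2dfee) (.cons 14 (.ofNat 0x8eb7ce1407) (.cons 15 (.negSucc 0x74e709702a) (.cons 16 (.negSucc 0x1eefa5ebb9) (.cons 17 (.ofNat 0x12b07a2cb) (.cons 18 (.negSucc 0x27bd021c4b) .nil)))))),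
   .cons 12 (.negSucc 0x219f1c0e78) (.cons 13 (.ofNat 0x8eb7ce1407) (.cons 14 (.ofNat 0x1422a511aca) (.cons 15 (.ofNat 0x1d05e489b4) (.cons 16 (.ofNat 0x45dedd92a1) (.cons 17 (.ofNat 0xf90f35177) (.cons 18 (.negSucc 0x6a4197df62) .nil)))))),
   .cons 12 (.negSucc 0x1116dc4d14) (.cons 13 (.negSucc 0x74e709702a) (.cons 14 (.ofNat 0x1d05e489b4) (.cons 15 (.ofNat 0x1d8a30445a5) (.cons 16 (.negSucc 0x74f32c4227) (.cons 17 (.negSucc 0x15b8f0b660) (.cons 18 (.ofNat 0x4d78f5cdcb) .nil)))))),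
   .cons 12 (.negSucc 0x768e685e4) (.cons 13 (.negSucc 0x1eefa5ebb9) (.cons 14 (.ofNat 0x45dedd92a1) (.cons 15 (.negSucc 0x74f32c4227) (.cons 16 (.ofNat 0x1c032d98880) (.cons 17 (.negSucc 0x1e4ae9eab9) (.cons 18 (.negSucc 0x1ab9c5bd9) .nil)))))),
   .cons 12 (.negSucc 0x5ae49ba) (.cons 13 (.ofNat 0x12b07a2cb) (.cons 14 (.ofNat 0xf90f35177) (.cons 15 (.negSucc 0x15b8f0b660) (.cons 16 (.negSucc 0x1e4ae9eab9) (.cons 17 (.ofNat 0x38a56c50c1d) (.cons 18 (.ofNat 0x2ad3820691) .nil)))))),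
   .cons 12 (.ofNat 0x58962fc76) (.cons 13 (.negSucc 0x27bd021c4b) (.cons 14 (.negSucc 0x6a4197df62) (.cons 15 (.ofNat 0x4d78f5cdcb) (.cons 16 (.negSucc 0x1ab9c5bd9) (.cons 17 (.ofNat 0x2ad3820691) (.cons 18 (.ofNat 0x2415d041d46) .nil)))))),
   .cons 19 (.ofNat 0xc483196b68) (.cons 20 (.ofNat 0xa4ae464ba9) (.cons 21 (.negSucc 0x209c017c74) (.cons 22 (.negSucc 0xee4c751f3) .nil))),
   .cons 19 (.ofNat 0xa4ae464ba9) (.cons 20 (.ofNat 0x19b6f316101) (.cons 21 (.ofNat 0x7bfa87511f) (.cons 22 (.negSucc 0x54c669babf) .nil))),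
   .cons 19 (.negSucc 0x209c017c74) (.cons 20 (.ofNat 0x7bfa87511f) (.cons 21 (.ofNat 0x1e3922c8430) (.cons 22 (.ofNat 0x533dfcc1c3) .nil))),
   .cons 19 (.negSucc 0xee4c751f3) (.cons 20 (.negSucc 0x54c669babf) (.cons 21 (.ofNat 0x533dfcc1c3) (.cons 22 (.ofNat 0x37b664371ef) .nil))),
   .cons 23 (.ofNat 0x2855d92ab8f) .nil]

noncomputable def X4 : List SL :=
  [.cons 0 (.ofNat 0x34975b53893) .nil,
   .cons 1 (.ofNat 0x1099744a935) (.cons 2 (.ofNat 0x8dcb00e85e) (.cons 3 (.negSucc 0x1e76ec9167) (.cons 4 (.negSucc 0xb3efd560d) .nil))),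
   .cons 1 (.ofNat 0x8dcb00e85e) (.cons 2 (.ofNat 0x24bb022f351) (.cons 3 (.ofNat 0x6538d2509a) (.cons 4 (.ofNat 0x4388e810ec) .nil))),
   .cons 1 (.negSucc 0x1e76ec9167) (.cons 2 (.ofNat 0x6538d2509a) (.cons 3 (.ofNat 0x27f55e344d0) (.cons 4 (.negSucc 0xb6362337d9) .nil))),
   .cons 1 (.negSucc 0xb3efd560d) (.cons 2 (.ofNat 0x4388e810ec) (.cons 3 (.negSucc 0xb6362337d9) (.cons 4 (.ofNat 0x2ec4b9e415f) .nil))),
   .cons 5 (.negSucc 0xa45067c363) (.cons 6 (.ofNat 0x206d63c239) (.cons 7 (.negSucc 0x2d1be0766e) (.cons 8 (.ofNat 0x6f6d661f9) (.cons 9 (.negSucc 0x2084dc11a) (.cons 10 (.negSucc 0x365c8167a) (.cons 11 (.negSucc 0x5d22aa8e0) .nil)))))),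
   .cons 5 (.ofNat 0x206d63c239) (.cons 6 (.ofNat 0x1203a9f9ceb) (.cons 7 (.ofNat (Nat.shiftLeft 0x3c970847 8)) (.cons 8 (.ofNat 0x827983f935) (.cons 9 (.negSucc 0x2e88d98a19) (.cons 10 (.negSucc 0x19182672e7) (.cons 11 (.ofNat 0xe6d357511) .nil)))))),
   .cons 5 (.negSucc 0x2d1be0766e) (.cons 6 (.ofNat (Nat.shiftLeft 0x3c970847 8)) (.cons 7 (.ofNat 0x1473878c3e0) (.cons 8 (.ofNat 0x21a3ea6935) (.cons 9 (.ofNat 0x56c3cf90e) (.cons 10 (.ofNat 0x179696891f) (.cons 11 (.ofNat 0x399e805750) .nil)))))),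
   .cons 5 (.ofNat 0x6f6d661f9) (.cons 6 (.ofNat 0x827983f935) (.cons 7 (.ofNat 0x21a3ea6935) (.cons 8 (.ofNat 0x2111724fe91) (.cons 9 (.ofNat 0xc29636d27) (.cons 10 (.ofNat 0x3e59218aaf) (.cons 11 (.ofNat 0x252db2c83c) .nil)))))),
   .cons 5 (.negSucc 0x2084dc11a) (.cons 6 (.negSucc 0x2e88d98a19) (.cons 7 (.ofNat 0x56c3cf90e) (.cons 8 (.ofNat 0xc29636d27) (.cons 9 (.ofNat 0x26bad507749) (.cons 10 (.negSucc 0xa9bf9f08ab) (.cons 11 (.ofNat 0x1da16bf2e1) .nil)))))),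
   .cons 5 (.negSucc 0x365c8167a) (.cons 6 (.negSucc 0x19182672e7) (.cons 7 (.ofNat 0x179696891f) (.cons 8 (.ofNat 0x3e59218aaf) (.cons 9 (.negSucc 0xa9bf9f08ab) (.cons 10 (.ofNat 0x2a520d1263e) (.cons 11 (.negSucc 0x50b564f22d) .nil)))))),
   .cons 5 (.negSucc 0x5d22aa8e0) (.cons 6 (.ofNat 0xe6d357511) (.cons 7 (.ofNat 0x399e805750) (.cons 8 (.ofNat 0x252db2c83c) (.cons 9 (.ofNat 0x1da16bf2e1) (.cons 10 (.negSucc 0x50b564f22d) (.cons 11 (.ofNat 0x29e0f250e25) .nil)))))),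
   .cons 12 (.negSucc 0x595e9fe1b7) (.cons 13 (.ofNat 0x1280f6122e) (.cons 14 (.negSucc 0x48e4c01dfd) (.cons 15 (.negSucc 0x2ef5c9144) (.cons 16 (.negSucc 0x824c75629) (.cons 17 (.ofNat 0x890a88379) (.cons 18 (.negSucc 0xc2c7c724f) .nil)))))),
   .cons 12 (.ofNat 0x1280f6122e) (.cons 13 (.ofNat 0x13707548cca) (.cons 14 (.negSucc 0x1c6a5e99c3) (.cons 15 (.ofNat 0x8bad06f0bb) (.cons 16 (.ofNat 0x2ad523163f) (.cons 17 (.negSucc 0x241233bec) (.cons 18 (.negSucc 0x1e63421590) .nil)))))),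
   .cons 12 (.negSucc 0x48e4c01dfd) (.cons 13 (.negSucc 0x1c6a5e99c3) (.cons 14 (.ofNat 0xa03b22a5f3) (.cons 15 (.ofNat 0x11c948575c) (.cons 16 (.ofNat 0x262eb44d6c) (.cons 17 (.negSucc 0x3fd969e44b) (.cons 18 (.ofNat 0x3dc1e00bd8) .nil)))))),
   .cons 12 (.negSucc 0x2ef5c9144) (.cons 13 (.ofNat 0x8bad06f0bb) (.cons 14 (.ofNat 0x11c948575c) (.cons 15 (.ofNat 0x1edbaafbcf4) (.cons 16 (.negSucc 0x11fb693247) (.cons 17 (.ofNat 0x434cbf2248) (.cons 18 (.ofNat 0x5aa458f81) .nil)))))),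
   .cons 12 (.negSucc 0x824c75629) (.cons 13 (.ofNat 0x2ad523163f) (.cons 14 (.ofNat 0x262eb44d6c) (.cons 15 (.negSucc 0x11fb693247) (.cons 16 (.ofNat 0x217d12209a0) (.cons 17 (.ofNat 0xa53562886a) (.cons 18 (.negSucc 0x502af3da3) .nil)))))),
   .cons 12 (.ofNat 0x890a88379) (.cons 13 (.negSucc 0x241233bec) (.cons 14 (.negSucc 0x3fd969e44b) (.cons 15 (.ofNat 0x434cbf2248) (.cons 16 (.ofNat 0xa53562886a) (.cons 17 (.ofNat 0x293345a8117) (.cons 18 (.ofNat 0x6995c67eab) .nil)))))),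
   .cons 12 (.negSucc 0xc2c7c724f) (.cons 13 (.negSucc 0x1e63421590) (.cons 14 (.ofNat 0x3dc1e00bd8) (.cons 15 (.ofNat 0x5aa458f81) (.cons 16 (.negSucc 0x502af3da3) (.cons 17 (.ofNat 0x6995c67eab) (.cons 18 (.ofNat 0x1dfcc386d94) .nil)))))),
   .cons 19 (.ofNat 0xe07bb6f3c3) (.cons 20 (.ofNat 0xbc4d131e7f) (.cons 21 (.ofNat 0xc0be82cdc) (.cons 22 (.ofNat 0x6d415f1b3) .nil))),
   .cons 19 (.ofNat 0xbc4d131e7f) (.cons 20 (.ofNat 0x11bc755f0be) (.cons 21 (.negSucc 0x3b552d7f48) (.cons 22 (.ofNat 0x8ca4ef4a8d) .nil))),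
   .cons 19 (.ofNat 0xc0be82cdc) (.cons 20 (.negSucc 0x3b552d7f48) (.cons 21 (.ofNat 0x229c1e3e4c5) (.cons 22 (.ofNat 0x7580761fa3) .nil))),
   .cons 19 (.ofNat 0x6d415f1b3) (.cons 20 (.ofNat 0x8ca4ef4a8d) (.cons 21 (.ofNat 0x7580761fa3) (.cons 22 (.ofNat 0x2a441be1d2c) .nil))),
   .cons 23 (.ofNat 0x26deef65fc6) .nil]

noncomputable def X5 : List SL :=
  [.cons 0 (.ofNat 0x2f35096588e) .nil,
   .cons 1 (.ofNat 0x108109cb225) (.cons 2 (.ofNat 0xa3a8d9e3f5) (.cons 3 (.ofNat 0xffdb47376) (.cons 4 (.negSucc 0xf7a7a951e) .nil))),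
   .cons 1 (.ofNat 0xa3a8d9e3f5) (.cons 2 (.ofNat 0x19dc5f0e831) (.cons 3 (.negSucc 0x2276237791) (.cons 4 (.ofNat 0x5d19c3a870) .nil))),
   .cons 1 (.ofNat 0xffdb47376) (.cons 2 (.negSucc 0x2276237791) (.cons 3 (.ofNat 0x2b9335d32b6) (.cons 4 (.ofNat 0x73853141ea) .nil))),
   .cons 1 (.negSucc 0xf7a7a951e) (.cons 2 (.ofNat 0x5d19c3a870) (.cons 3 (.ofNat 0x73853141ea) (.cons 4 (.ofNat 0x28bcb195efa) .nil))),
   .cons 5 (.negSucc 0x5f102291fe) (.cons 6 (.negSucc 0x1396f1c04b) (.cons 7 (.ofNat 0x44da082631) (.cons 8 (.ofNat 0x2273643af) (.cons 9 (.negSucc 0xdbdd64ed) (.cons 10 (.ofNat 0x413264706) (.cons 11 (.ofNat 0xab46d2460) .nil)))))),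
   .cons 5 (.negSucc 0x1396f1c04b) (.cons 6 (.ofNat 0x12381863382) (.cons 7 (.ofNat 0x6cf6a195b) (.cons 8 (.negSucc 0x95e5fbd480) (.cons 9 (.ofNat 0x28ffb0f1f1) (.cons 10 (.negSucc 0x1398baae77) (.cons 11 (.ofNat 0x31d17d93d) .nil)))))),
   .cons 5 (.ofNat 0x44da082631) (.cons 6 (.ofNat 0x6cf6a195b) (.cons 7 (.ofNat 0xdff2afe2a3) (.cons 8 (.negSucc 0xa597411b7) (.cons 9 (.ofNat 0x7d1e0baf0) (.cons 10 (.ofNat 0x3d679a60c) (.cons 11 (.ofNat 0x32863b479c) .nil)))))),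
   .cons 5 (.ofNat 0x2273643af) (.cons 6 (.negSucc 0x95e5fbd480) (.cons 7 (.negSucc 0xa597411b7) (.cons 8 (.ofNat 0x1e13d9d2ccb) (.cons 9 (.ofNat 0x3088468fbe) (.cons 10 (.negSucc 0x2469f58790) (.cons 11 (.ofNat 0x1c421abbf8) .nil)))))),
   .cons 5 (.negSucc 0xdbdd64ed) (.cons 6 (.ofNat 0x28ffb0f1f1) (.cons 7 (.ofNat 0x7d1e0baf0) (.cons 8 (.ofNat 0x3088468fbe) (.cons 9 (.ofNat 0x22d54342b9e) (.cons 10 (.ofNat 0x8d45088cf0) (.cons 11 (.negSucc 0x20c7eb4739) .nil)))))),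
   .cons 5 (.ofNat 0x413264706) (.cons 6 (.negSucc 0x1398baae77) (.cons 7 (.ofNat 0x3d679a60c) (.cons 8 (.negSucc 0x2469f58790) (.cons 9 (.ofNat 0x8d45088cf0) (.cons 10 (.ofNat 0x29af5edcc2a) (.cons 11 (.negSucc 0x4c3242947c) .nil)))))),
   .cons 5 (.ofNat 0xab46d2460) (.cons 6 (.ofNat 0x31d17d93d) (.cons 7 (.ofNat 0x32863b479c) (.cons 8 (.ofNat 0x1c421abbf8) (.cons 9 (.negSucc 0x20c7eb4739) (.cons 10 (.negSucc 0x4c3242947c) (.cons 11 (.ofNat 0x25b00a52056) .nil)))))),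
   .cons 12 (.negSucc 0xa3f2bf81e4) (.cons 13 (.ofNat 0x1eae8f07cf) (.cons 14 (.ofNat 0x2ecbbfab44) (.cons 15 (.negSucc 0xe308cab20) (.cons 16 (.negSucc 0x799be5793) (.cons 17 (.negSucc 0xd3222e9b) (.cons 18 (.negSucc 0x9758195e0) .nil)))))),
   .cons 12 (.ofNat 0x1eae8f07cf) (.cons 13 (.ofNat 0xf0253c6d19) (.cons 14 (.negSucc 0x589570a87d) (.cons 15 (.negSucc 0x94a6151712) (.cons 16 (.negSucc 0x1d4036f0eb) (.cons 17 (.ofNat 0x1e7819134) (.cons 18 (.ofNat 0x24ee669f74) .nil)))))),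
   .cons 12 (.ofNat 0x2ecbbfab44) (.cons 13 (.negSucc 0x589570a87d) (.cons 14 (.ofNat 0xf70653788f) (.cons 15 (.negSucc 0xf31e85f2f) (.cons 16 (.negSucc 0x3ef54f0fcc) (.cons 17 (.ofNat 0x9bd7d844) (.cons 18 (.negSucc 0x65cab2b7e7) .nil)))))),
   .cons 12 (.negSucc 0xe308cab20) (.cons 13 (.negSucc 0x94a6151712) (.cons 14 (.negSucc 0xf31e85f2f) (.cons 15 (.ofNat 0x19cab55f1a6) (.cons 16 (.negSucc 0x8120c4af9f) (.cons 17 (.ofNat 0xbc1a4807c) (.cons 18 (.negSucc 0x3b642d9307) .nil)))))),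
   .cons 12 (.negSucc 0x799be5793) (.cons 13 (.negSucc 0x1d4036f0eb) (.cons 14 (.negSucc 0x3ef54f0fcc) (.cons 15 (.negSucc 0x8120c4af9f) (.cons 16 (.ofNat 0x198299b71b9) (.cons 17 (.ofNat 0xa5e662bf2) (.cons 18 (.negSucc 0x1e8ab94a76) .nil)))))),
   .cons 12 (.negSucc 0xd3222e9b) (.cons 13 (.ofNat 0x1e7819134) (.cons 14 (.ofNat 0x9bd7d844) (.cons 15 (.ofNat 0xbc1a4807c) (.cons 16 (.ofNat 0xa5e662bf2) (.cons 17 (.ofNat 0x308c3067923) (.cons 18 (.negSucc 0xd6544083a) .nil)))))),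
   .cons 12 (.negSucc 0x9758195e0) (.cons 13 (.ofNat 0x24ee669f74) (.cons 14 (.negSucc 0x65cab2b7e7) (.cons 15 (.negSucc 0x3b642d9307) (.cons 16 (.negSucc 0x1e8ab94a76) (.cons 17 (.negSucc 0xd6544083a) (.cons 18 (.ofNat 0x1cb8cbfab5b) .nil)))))),
   .cons 19 (.ofNat 0xcf6c56fc64) (.cons 20 (.ofNat 0xab815066ad) (.cons 21 (.negSucc 0x16d99542a5) (.cons 22 (.negSucc 0x81dc35413) .nil))),
   .cons 19 (.ofNat 0xab815066ad) (.cons 20 (.ofNat 0x1642b86943a) (.cons 21 (.ofNat 0x8e2b238e4f) (.cons 22 (.negSucc 0x4ed94fb734) .nil))),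
   .cons 19 (.negSucc 0x16d99542a5) (.cons 20 (.ofNat 0x8e2b238e4f) (.cons 21 (.ofNat 0x1d60b603bbb) (.cons 22 (.ofNat 0x45360b687d) .nil))),
   .cons 19 (.negSucc 0x81dc35413) (.cons 20 (.negSucc 0x4ed94fb734) (.cons 21 (.ofNat 0x45360b687d) (.cons 22 (.ofNat 0x2f054939968) .nil))),
   .cons 23 (.ofNat 0x2873bddb790) .nil]

noncomputable def X6 : List SL :=
  [.cons 0 (.ofNat 0x2e6fd4d8bf3) .nil,
   .cons 1 (.ofNat 0xebdcc074ac) (.cons 2 (.negSucc 0x9eb178a4d0) (.cons 3 (.ofNat 0x1fbdb2262e) (.cons 4 (.negSucc 0x25fd58cbf) .nil))),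
   .cons 1 (.negSucc 0x9eb178a4d0) (.cons 2 (.ofNat 0x1d3725ec498) (.cons 3 (.ofNat 0x7f82b48a92) (.cons 4 (.negSucc 0x21fee5cc04) .nil))),
   .cons 1 (.ofNat 0x1fbdb2262e) (.cons 2 (.ofNat 0x7f82b48a92) (.cons 3 (.ofNat 0x1e6a89401d5) (.cons 4 (.ofNat 0x4918b6d7b5) .nil))),
   .cons 1 (.negSucc 0x25fd58cbf) (.cons 2 (.negSucc 0x21fee5cc04) (.cons 3 (.ofNat 0x4918b6d7b5) (.cons 4 (.ofNat 0x2f1679041a3) .nil))),
   .cons 5 (.negSucc 0x9f00e80f8b) (.cons 6 (.negSucc 0x17e10a78ea) (.cons 7 (.negSucc 0x3468b41d4d) (.cons 8 (.ofNat 0x71c54023e) (.cons 9 (.negSucc 0x24aa52076) (.cons 10 (.negSucc 0x32a060ad5) (.cons 11 (.ofNat 0xa2c32612a) .nil)))))),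
   .cons 5 (.negSucc 0x17e10a78ea) (.cons 6 (.ofNat 0xfe814a81fe) (.cons 7 (.negSucc 0x2d8339b7b0) (.cons 8 (.negSucc (Nat.sub (Nat.shiftLeft 0x25f3cf75 10) 1)) (.cons 9 (.ofNat 0x297bc97141) (.cons 10 (.ofNat 0x120c726881) (.cons 11 (.ofNat 0xea67db65c) .nil)))))),
   .cons 5 (.negSucc 0x3468b41d4d) (.cons 6 (.negSucc 0x2d8339b7b0) (.cons 7 (.ofNat 0xfcc1240ce2) (.cons 8 (.ofNat 0xfcec6c059) (.cons 9 (.ofNat 0xd2b1eb6fd) (.cons 10 (.ofNat 0x13418bb032) (.cons 11 (.negSucc 0x50085a2744) .nil)))))),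
   .cons 5 (.ofNat 0x71c54023e) (.cons 6 (.negSucc (Nat.sub (Nat.shiftLeft 0x25f3cf75 10) 1)) (.cons 7 (.ofNat 0xfcec6c059) (.cons 8 (.ofNat 0x1c82ee14e60) (.cons 9 (.ofNat 0x42a80b5849) (.cons 10 (.ofNat 0x409ca52227) (.cons 11 (.negSucc 0x1bfa6ec70d) .nil)))))),
   .cons 5 (.negSucc 0x24aa52076) (.cons 6 (.ofNat 0x297bc97141) (.cons 7 (.ofNat 0xd2b1eb6fd) (.cons 8 (.ofNat 0x42a80b5849) (.cons 9 (.ofNat 0x1faaf811a95) (.cons 10 (.negSucc 0x8003915bce) (.cons 11 (.negSucc 0xce50fa5b9) .nil)))))),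
   .cons 5 (.negSucc 0x32a060ad5) (.cons 6 (.ofNat 0x120c726881) (.cons 7 (.ofNat 0x13418bb032) (.cons 8 (.ofNat 0x409ca52227) (.cons 9 (.negSucc 0x8003915bce) (.cons 10 (.ofNat 0x2a31da90927) (.cons 11 (.ofNat 0x37019bb28d) .nil)))))),
   .cons 5 (.ofNat 0xa2c32612a) (.cons 6 (.ofNat 0xea67db65c) (.cons 7 (.negSucc 0x50085a2744) (.cons 8 (.negSucc 0x1bfa6ec70d) (.cons 9 (.negSucc 0xce50fa5b9) (.cons 10 (.ofNat 0x37019bb28d) (.cons 11 (.ofNat 0x2034485e314) .nil)))))),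
   .cons 12 (.negSucc 0x6a67328ccc) (.cons 13 (.ofNat 0xf83286316) (.cons 14 (.ofNat 0x4680e501dc) (.cons 15 (.ofNat 0x19f97cb25) (.cons 16 (.negSucc 0x525f24ee5) (.cons 17 (.ofNat 0x2001256b8) (.cons 18 (.negSucc 0x111856d970) .nil)))))),
   .cons 12 (.ofNat 0xf83286316) (.cons 13 (.ofNat 0x10bb1bc8bcf) (.cons 14 (.ofNat 0xbee3d7e1f) (.cons 15 (.negSucc 0x9eafb868dd) (.cons 16 (.ofNat 0x213f806802) (.cons 17 (.negSucc 0x11bebff420) (.cons 18 (.negSucc 0x14591b614c) .nil)))))),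
   .cons 12 (.ofNat 0x4680e501dc) (.cons 13 (.ofNat 0xbee3d7e1f) (.cons 14 (.ofNat 0x9eeec2281f) (.cons 15 (.ofNat 0x15c0c66939) (.cons 16 (.negSucc 0x1e777eb41c) (.cons 17 (.ofNat 0x18d29ca1c1) (.cons 18 (.negSucc 0x6166a5ea49) .nil)))))),
   .cons 12 (.ofNat 0x19f97cb25) (.cons 13 (.negSucc 0x9eafb868dd) (.cons 14 (.ofNat 0x15c0c66939) (.cons 15 (.ofNat 0x1aa812ac59b) (.cons 16 (.ofNat 0x32eeb060be) (.cons 17 (.negSucc 0x4c741f90b9) (.cons 18 (.ofNat 0x101a06844c) .nil)))))),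
   .cons 12 (.negSucc 0x525f24ee5) (.cons 13 (.ofNat 0x213f806802) (.cons 14 (.negSucc 0x1e777eb41c) (.cons 15 (.ofNat 0x32eeb060be) (.cons 16 (.ofNat 0x20e5e831cf2) (.cons 17 (.ofNat 0x8601901e32) (.cons 18 (.negSucc 0x319edfda83) .nil)))))),
   .cons 12 (.ofNat 0x2001256b8) (.cons 13 (.negSucc 0x11bebff420) (.cons 14 (.ofNat 0x18d29ca1c1) (.cons 15 (.negSucc 0x4c741f90b9) (.cons 16 (.ofNat 0x8601901e32) (.cons 17 (.ofNat 0x28288b35861) (.cons 18 (.ofNat 0x3b185fc8a) .nil)))))),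
   .cons 12 (.negSucc 0x111856d970) (.cons 13 (.negSucc 0x14591b614c) (.cons 14 (.negSucc 0x6166a5ea49) (.cons 15 (.ofNat 0x101a06844c) (.cons 16 (.negSucc 0x319edfda83) (.cons 17 (.ofNat 0x3b185fc8a) (.cons 18 (.ofNat 0x16c55abe9d6) .nil)))))),
   .cons 19 (.ofNat 0xe3ab630c6d) (.cons 20 (.ofNat 0xb6133e976e) (.cons 21 (.ofNat 0xe18a2f3d1) (.cons 22 (.ofNat 0x34cc9911d) .nil))),
   .cons 19 (.ofNat 0xb6133e976e) (.cons 20 (.ofNat 0x128c2f8586e) (.cons 21 (.negSucc 0x4178786b66) (.cons 22 (.negSucc 0x7b9925ecad) .nil))),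
   .cons 19 (.ofNat 0xe18a2f3d1) (.cons 20 (.negSucc 0x4178786b66) (.cons 21 (.ofNat 0x22c6142b64d) (.cons 22 (.negSucc 0x6f4ea80d3b) .nil))),
   .cons 19 (.ofNat 0x34cc9911d) (.cons 20 (.negSucc 0x7b9925ecad) (.cons 21 (.negSucc 0x6f4ea80d3b) (.cons 22 (.ofNat 0x26c48c3b3c1) .nil))),
   .cons 23 (.ofNat 0x277b29e000e) .nil]

noncomputable def X7 : List SL :=
  [.cons 0 (.ofNat 0x2b9e97a8980) .nil,
   .cons 1 (.ofNat 0xf285440c30) (.cons 2 (.negSucc 0xabb7c81a8c) (.cons 3 (.negSucc 0x10ea10c35e) (.cons 4 (.negSucc 0x11e8abce33) .nil))),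
   .cons 1 (.negSucc 0xabb7c81a8c) (.cons 2 (.ofNat 0x174795513a0) (.cons 3 (.negSucc 0x2ff7236670) (.cons 4 (.negSucc 0x6046d474da) .nil))),
   .cons 1 (.negSucc 0x10ea10c35e) (.cons 2 (.negSucc 0x2ff7236670) (.cons 3 (.ofNat 0x2783d2ccd72) (.cons 4 (.negSucc 0x6f3cc0b91e) .nil))),
   .cons 1 (.negSucc 0x11e8abce33) (.cons 2 (.negSucc 0x6046d474da) (.cons 3 (.negSucc 0x6f3cc0b91e) (.cons 4 (.ofNat 0x24e1d2ea2b2) .nil))),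
   .cons 5 (.negSucc 0x6ef7970e34) (.cons 6 (.negSucc 0xee1bb8fa0) (.cons 7 (.negSucc 0x4528e89f51) (.cons 8 (.negSucc 0x1e5d5d639) (.cons 9 (.negSucc 0x11385056) (.cons 10 (.ofNat 0x2dd44b3ca) (.cons 11 (.negSucc 0xe84948add) .nil)))))),
   .cons 5 (.negSucc 0xee1bb8fa0) (.cons 6 (.ofNat 0x1020c58c471) (.cons 7 (.negSucc 0x57398c4b1) (.cons 8 (.ofNat 0xa2471e6dbd) (.cons 9 (.ofNat 0x223263042f) (.cons 10 (.negSucc 0x14226ece97) (.cons 11 (.negSucc 0x5515ddb6) .nil)))))),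
   .cons 5 (.negSucc 0x4528e89f51) (.cons 6 (.negSucc 0x57398c4b1) (.cons 7 (.ofNat 0xbd703a7890) (.cons 8 (.negSucc 0xa674d7da7) (.cons 9 (.negSucc 0x61e4f492d) (.cons 10 (.negSucc 0x3cc1888fc) (.cons 11 (.ofNat 0x4bd07836fe) .nil)))))),
   .cons 5 (.negSucc 0x1e5d5d639) (.cons 6 (.ofNat 0xa2471e6dbd) (.cons 7 (.negSucc 0xa674d7da7) (.cons 8 (.ofNat 0x1a59e1a89bf) (.cons 9 (.negSucc 0x43433dd7e9) (.cons 10 (.ofNat 0x3710fb22fa) (.cons 11 (.ofNat 0x10aafdcac3) .nil)))))),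
   .cons 5 (.negSucc 0x11385056) (.cons 6 (.ofNat 0x223263042f) (.cons 7 (.negSucc 0x61e4f492d) (.cons 8 (.negSucc 0x43433dd7e9) (.cons 9 (.ofNat 0x218367e812d) (.cons 10 (.ofNat 0x7f91326a7e) (.cons 11 (.ofNat 0x13936767f1) .nil)))))),
   .cons 5 (.ofNat 0x2dd44b3ca) (.cons 6 (.negSucc 0x14226ece97) (.cons 7 (.negSucc 0x3cc1888fc) (.cons 8 (.ofNat 0x3710fb22fa) (.cons 9 (.ofNat 0x7f91326a7e) (.cons 10 (.ofNat 0x2752a092bcd) (.cons 11 (.ofNat 0x3375e8e2ad) .nil)))))),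
   .cons 5 (.negSucc 0xe84948add) (.cons 6 (.negSucc 0x5515ddb6) (.cons 7 (.ofNat 0x4bd07836fe) (.cons 8 (.ofNat 0x10aafdcac3) (.cons 9 (.ofNat 0x13936767f1) (.cons 10 (.ofNat 0x3375e8e2ad) (.cons 11 (.ofNat 0x1d6ebadda70) .nil)))))),
   .cons 12 (.negSucc 0x9d723c0322) (.cons 13 (.ofNat 0x1567f2c3e0) (.cons 14 (.ofNat 0x36024d1a78) (.cons 15 (.ofNat 0xa0cd6fde6) (.cons 16 (.negSucc 0x61f57aa4b) (.cons 17 (.negSucc 0x180d50866) (.cons 18 (.ofNat 0xca8afe685) .nil)))))),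
   .cons 12 (.ofNat 0x1567f2c3e0) (.cons 13 (.ofNat 0xeb7c471f69) (.cons 14 (.negSucc 0x3634269f25) (.cons 15 (.ofNat 0xa1481232e6) (.cons 16 (.negSucc 0x1f78616197) (.cons 17 (.negSucc 0x4d23643) (.cons 18 (.negSucc 0x1acaa81ccd) .nil)))))),
   .cons 12 (.ofNat 0x36024d1a78) (.cons 13 (.negSucc 0x3634269f25) (.cons 14 (.ofNat 0xd40205f9ba) (.cons 15 (.ofNat 0x64ea91d15) (.cons 16 (.negSucc 0x2d031d880c) (.cons 17 (.negSucc 0x6e99e33ab) (.cons 18 (.ofNat 0x65d48054b8) .nil)))))),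
   .cons 12 (.ofNat 0xa0cd6fde6) (.cons 13 (.ofNat 0xa1481232e6) (.cons 14 (.ofNat 0x64ea91d15) (.cons 15 (.ofNat 0x1896fcd14a4) (.cons 16 (.ofNat 0x7c5f5cae0f) (.cons 17 (.ofNat 0x25032634f) (.cons 18 (.negSucc 0x22d2fcf520) .nil)))))),
   .cons 12 (.negSucc 0x61f57aa4b) (.cons 13 (.negSucc 0x1f78616197) (.cons 14 (.negSucc 0x2d031d880c) (.cons 15 (.ofNat 0x7c5f5cae0f) (.cons 16 (.ofNat 0x19ad0064db5) (.cons 17 (.negSucc 0xc50520a37) (.cons 18 (.ofNat 0x231d67d117) .nil)))))),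
   .cons 12 (.negSucc 0x180d50866) (.cons 13 (.negSucc 0x4d23643) (.cons 14 (.negSucc 0x6e99e33ab) (.cons 15 (.ofNat 0x25032634f) (.cons 16 (.negSucc 0xc50520a37) (.cons 17 (.ofNat 0x2ce3a79ad55) (.cons 18 (.ofNat 0x1e08d72aac) .nil)))))),
   .cons 12 (.ofNat 0xca8afe685) (.cons 13 (.negSucc 0x1acaa81ccd) (.cons 14 (.ofNat 0x65d48054b8) (.cons 15 (.negSucc 0x22d2fcf520) (.cons 16 (.ofNat 0x231d67d117) (.cons 17 (.ofNat 0x1e08d72aac) (.cons 18 (.ofNat 0x19d16ee75dd) .nil)))))),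
   .cons 19 (.ofNat 0xd4842ff1c8) (.cons 20 (.ofNat 0xac91652a02) (.cons 21 (.ofNat 0x170c593fd5) (.cons 22 (.negSucc 0x1ce624de2) .nil))),
   .cons 19 (.ofNat 0xac91652a02) (.cons 20 (.ofNat 0x160c8ae4b3b) (.cons 21 (.negSucc 0x8e59e18315) (.cons 22 (.negSucc 0x3a613475cb) .nil))),
   .cons 19 (.ofNat 0x170c593fd5) (.cons 20 (.negSucc 0x8e59e18315) (.cons 21 (.ofNat 0x1c91cece887) (.cons 22 (.negSucc 0x3a899c576a) .nil))),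
   .cons 19 (.negSucc 0x1ce624de2) (.cons 20 (.negSucc 0x3a613475cb) (.cons 21 (.negSucc 0x3a899c576a) (.cons 22 (.ofNat 0x2b9d22661df) .nil))),
   .cons 23 (.ofNat 0x28e2110d8c2) .nil]

noncomputable def X8 : List SL :=
  [.cons 0 (.ofNat 0x2b9931148ce) .nil,
   .cons 1 (.ofNat 0xe08da51537) (.cons 2 (.ofNat 0xa6cff15a6b) (.cons 3 (.ofNat 0x1e50a15731) (.cons 4 (.negSucc 0xf034aa2) .nil))),
   .cons 1 (.ofNat 0xa6cff15a6b) (.cons 2 (.ofNat 0x198ba1cd4d6) (.cons 3 (.negSucc 0x82b42216a0) (.cons 4 (.ofNat 0x1169b70f56) .nil))),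
   .cons 1 (.ofNat 0x1e50a15731) (.cons 2 (.negSucc 0x82b42216a0) (.cons 3 (.ofNat 0x1c59bb01284) (.cons 4 (.ofNat 0x1cc4cdfe34) .nil))),
   .cons 1 (.negSucc 0xf034aa2) (.cons 2 (.ofNat 0x1169b70f56) (.cons 3 (.ofNat 0x1cc4cdfe34) (.cons 4 (.ofNat 0x2c882090901) .nil))),
   .cons 5 (.negSucc 0x9a4c69fb09) (.cons 6 (.negSucc 0x1121f89be1) (.cons 7 (.negSucc 0x38cfbab2fe) (.cons 8 (.ofNat 0x5f067ca77) (.cons 9 (.ofNat 0x23c11844d) (.cons 10 (.negSucc 0x263a93caa) (.cons 11 (.ofNat 0xd1fc49421) .nil)))))),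
   .cons 5 (.negSucc 0x1121f89be1) (.cons 6 (.ofNat 0xee4156ce35) (.cons 7 (.negSucc 0x206f45ff5e) (.cons 8 (.negSucc 0xa29e7b8ac8) (.cons 9 (.negSucc 0x24fac83241) (.cons 10 (.ofNat 0xdc715ea4f) (.cons 11 (.ofNat 0xbf97aac47) .nil)))))),
   .cons 5 (.negSucc 0x38cfbab2fe) (.cons 6 (.negSucc 0x206f45ff5e) (.cons 7 (.ofNat 0xd5d2af6598) (.cons 8 (.ofNat 0x7b45b7a39) (.cons 9 (.negSucc 0xdd644188c) (.cons 10 (.ofNat 0xd831179bd) (.cons 11 (.negSucc 0x5c34c2577f) .nil)))))),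
   .cons 5 (.ofNat 0x5f067ca77) (.cons 6 (.negSucc 0xa29e7b8ac8) (.cons 7 (.ofNat 0x7b45b7a39) (.cons 8 (.ofNat 0x19b2c008578) (.cons 9 (.negSucc 0x5c8c456fdf) (.cons 10 (.ofNat 0x3480513562) (.cons 11 (.negSucc 0x13efe0e28b) .nil)))))),
   .cons 5 (.ofNat 0x23c11844d) (.cons 6 (.negSucc 0x24fac83241) (.cons 7 (.negSucc 0xdd644188c) (.cons 8 (.negSucc 0x5c8c456fdf) (.cons 9 (.ofNat 0x1d5972c1a1b) (.cons 10 (.ofNat 0x6015149c97) (.cons 11 (.ofNat 0x8a209c99) .nil)))))),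
   .cons 5 (.negSucc 0x263a93caa) (.cons 6 (.ofNat 0xdc715ea4f) (.cons 7 (.ofNat 0xd831179bd) (.cons 8 (.ofNat 0x3480513562) (.cons 9 (.ofNat 0x6015149c97) (.cons 10 (.ofNat 0x29996524cfc) (.cons 11 (.ofNat 0x25be3c001d) .nil)))))),
   .cons 5 (.ofNat 0xd1fc49421) (.cons 6 (.ofNat 0xbf97aac47) (.cons 7 (.negSucc 0x5c34c2577f) (.cons 8 (.negSucc 0x13efe0e28b) (.cons 9 (.ofNat 0x8a209c99) (.cons 10 (.ofNat 0x25be3c001d) (.cons 11 (.ofNat 0x1b6b797601b) .nil)))))),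
   .cons 12 (.negSucc 0x7502432060) (.cons 13 (.ofNat 0xc30ccdb03) (.cons 14 (.ofNat 0x45150ff7df) (.cons 15 (.ofNat 0x4f5bf02f) (.cons 16 (.negSucc 0x2af0a70bd) (.cons 17 (.ofNat 0x811da) (.cons 18 (.ofNat 0x11dbfa1d77) .nil)))))),
   .cons 12 (.ofNat 0xc30ccdb03) (.cons 13 (.ofNat 0xf5cf770276) (.cons 14 (.ofNat 0x3697649f7) (.cons 15 (.negSucc 0xa6b9ffdc6a) (.cons 16 (.ofNat 0x1de31f40d2) (.cons 17 (.negSucc 0x1437a221c5) (.cons 18 (.ofNat 0xafa38ae59) .nil)))))),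
   .cons 12 (.ofNat 0x45150ff7df) (.cons 13 (.ofNat 0x3697649f7) (.cons 14 (.ofNat 0xa05e26065a) (.cons 15 (.ofNat 0x10e56ac926) (.cons 16 (.negSucc 0x1264a991ee) (.cons 17 (.ofNat 0x90eecf9fa) (.cons 18 (.ofNat 0x662f799eb8) .nil)))))),
   .cons 12 (.ofNat 0x4f5bf02f) (.cons 13 (.negSucc 0xa6b9ffdc6a) (.cons 14 (.ofNat 0x10e56ac926) (.cons 15 (.ofNat 0x188030cd8cb) (.cons 16 (.ofNat 0x437b5748c4) (.cons 17 (.negSucc 0x4ca478dc81) (.cons 18 (.negSucc 0xe1c2cd21b) .nil)))))),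
   .cons 12 (.negSucc 0x2af0a70bd) (.cons 13 (.ofNat 0x1de31f40d2) (.cons 14 (.negSucc 0x1264a991ee) (.cons 15 (.ofNat 0x437b5748c4) (.cons 16 (.ofNat 0x20a50db5893) (.cons 17 (.ofNat 0x7883064cd8) (.cons 18 (.ofNat 0x21d33e4f80) .nil)))))),
   .cons 12 (.ofNat 0x811da) (.cons 13 (.negSucc 0x1437a221c5) (.cons 14 (.ofNat 0x90eecf9fa) (.cons 15 (.negSucc 0x4ca478dc81) (.cons 16 (.ofNat 0x7883064cd8) (.cons 17 (.ofNat 0x263263b62ce) (.cons 18 (.ofNat 0xf4cbb335f) .nil)))))),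
   .cons 12 (.ofNat 0x11dbfa1d77) (.cons 13 (.ofNat 0xafa38ae59) (.cons 14 (.ofNat 0x662f799eb8) (.cons 15 (.negSucc 0xe1c2cd21b) (.cons 16 (.ofNat 0x21d33e4f80) (.cons 17 (.ofNat 0xf4cbb335f) (.cons 18 (.ofNat 0x16362aebbed) .nil)))))),
   .cons 19 (.ofNat 0xe27f86dc6d) (.cons 20 (.negSucc 0xb34583ca2a) (.cons 21 (.ofNat 0xffc01f261) (.cons 22 (.ofNat 0xb69cbeae3) .nil))),
   .cons 19 (.negSucc 0xb34583ca2a) (.cons 20 (.ofNat 0x1397ba3c4ca) (.cons 21 (.ofNat 0x43cf92684d) (.cons 22 (.ofNat 0x6c7e109556) .nil))),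
   .cons 19 (.ofNat 0xffc01f261) (.cons 20 (.ofNat 0x43cf92684d) (.cons 21 (.ofNat 0x2312d3bc21c) (.cons 22 (.negSucc 0x6c442cf2d4) .nil))),
   .cons 19 (.ofNat 0xb69cbeae3) (.cons 20 (.ofNat 0x6c7e109556) (.cons 21 (.negSucc 0x6c442cf2d4) (.cons 22 (.ofNat 0x24757714309) .nil))),
   .cons 23 (.ofNat 0x28092e1d50b) .nil]

noncomputable def X9 : List SL :=
  [.cons 0 (.ofNat 0x29f68879a4f) .nil,
   .cons 1 (.ofNat 0xe83183bb98) (.cons 2 (.negSucc 0xaec2496855) (.cons 3 (.negSucc 0x115f00fbb5) (.cons 4 (.negSucc 0x1352380f71) .nil))),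
   .cons 1 (.negSucc 0xaec2496855) (.cons 2 (.ofNat 0x16050f1e640) (.cons 3 (.negSucc 0x3b196ce363) (.cons 4 (.negSucc 0x5fca045073) .nil))),
   .cons 1 (.negSucc 0x115f00fbb5) (.cons 2 (.negSucc 0x3b196ce363) (.cons 3 (.ofNat 0x252543927b1) (.cons 4 (.negSucc 0x6cac63d020) .nil))),
   .cons 1 (.negSucc 0x1352380f71) (.cons 2 (.negSucc 0x5fca045073) (.cons 3 (.negSucc 0x6cac63d020) (.cons 4 (.ofNat 0x2325bb79ec1) .nil))),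
   .cons 5 (.negSucc 0x784bd95203) (.cons 6 (.negSucc 0xb22d64cc5) (.cons 7 (.negSucc 0x446b0732d1) (.cons 8 (.negSucc 0x18909a338) (.cons 9 (.negSucc 0x68c9b84) (.cons 10 (.ofNat 0x1c3a7d9cc) (.cons 11 (.negSucc 0x1067c8d70f) .nil)))))),
   .cons 5 (.negSucc 0xb22d64cc5) (.cons 6 (.ofNat 0xf08dad577b) (.cons 7 (.negSucc 0x4e39076c6) (.cons 8 (.ofNat 0xa85eaf4134) (.cons 9 (.negSucc 0x1ea4af472f) (.cons 10 (.negSucc 0x1316d6ce1e) (.cons 11 (.ofNat 0xe5a7cc95) .nil)))))),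
   .cons 5 (.negSucc 0x446b0732d1) (.cons 6 (.negSucc 0x4e39076c6) (.cons 7 (.ofNat 0xadb465cd29) (.cons 8 (.negSucc 0x948166666) (.cons 9 (.ofNat 0x4af0b126b) (.cons 10 (.negSucc 0x36748ed32) (.cons 11 (.ofNat 0x59eb1f275e) .nil)))))),
   .cons 5 (.negSucc 0x18909a338) (.cons 6 (.ofNat 0xa85eaf4134) (.cons 7 (.negSucc 0x948166666) (.cons 8 (.ofNat 0x1845836bd74) (.cons 9 (.ofNat 0x4f74dbf6fb) (.cons 10 (.ofNat 0x3d8dcdbc51) (.cons 11 (.ofNat 0x93dd4967a) .nil)))))),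
   .cons 5 (.negSucc 0x68c9b84) (.cons 6 (.negSucc 0x1ea4af472f) (.cons 7 (.ofNat 0x4af0b126b) (.cons 8 (.ofNat 0x4f74dbf6fb) (.cons 9 (.ofNat 0x201bb29ed33) (.cons 10 (.negSucc 0x7259f82480) (.cons 11 (.negSucc 0xac66efbc5) .nil)))))),
   .cons 5 (.ofNat 0x1c3a7d9cc) (.cons 6 (.negSucc 0x1316d6ce1e) (.cons 7 (.negSucc 0x36748ed32) (.cons 8 (.ofNat 0x3d8dcdbc51) (.cons 9 (.negSucc 0x7259f82480) (.cons 10 (.ofNat 0x26830d8ab07) (.cons 11 (.ofNat 0x1fb6b81d63) .nil)))))),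
   .cons 5 (.negSucc 0x1067c8d70f) (.cons 6 (.ofNat 0xe5a7cc95) (.cons 7 (.ofNat 0x59eb1f275e) (.cons 8 (.ofNat 0x93dd4967a) (.cons 9 (.negSucc 0xac66efbc5) (.cons 10 (.ofNat 0x1fb6b81d63) (.cons 11 (.ofNat 0x1999cce3811) .nil)))))),
   .cons 12 (.negSucc 0x98a4a0ba21) (.cons 13 (.ofNat 0xeeedbdc4b) (.cons 14 (.ofNat 0x39faf56f3b) (.cons 15 (.ofNat 0x6d9202e73) (.cons 16 (.negSucc 0x441d744b4) (.cons 17 (.ofNat 0x1914326e3) (.cons 18 (.ofNat 0xed0664c9e) .nil)))))),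
   .cons 12 (.ofNat 0xeeedbdc4b) (.cons 13 (.ofNat 0xe5c2d6ca85) (.cons 14 (.negSucc 0x21c52cbd5d) (.cons 15 (.ofNat 0xa762d923a2) (.cons 16 (.negSucc 0x20d060cd4e) (.cons 17 (.ofNat 0x373fdc869) (.cons 18 (.negSucc 0x11a956eb0c) .nil)))))),
   .cons 12 (.ofNat 0x39faf56f3b) (.cons 13 (.negSucc 0x21c52cbd5d) (.cons 14 (.ofNat 0xc0781217f6) (.cons 15 (.ofNat 0x2553e9e8d) (.cons 16 (.negSucc 0x1c56d18835) (.cons 17 (.ofNat 0x834135d47) (.cons 18 (.ofNat 0x677b92a44e) .nil)))))),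
   .cons 12 (.ofNat 0x6d9202e73) (.cons 13 (.ofNat 0xa762d923a2) (.cons 14 (.ofNat 0x2553e9e8d) (.cons 15 (.ofNat 0x17be20bdc4b) (.cons 16 (.ofNat 0x7710a8a204) (.cons 17 (.negSucc 0xda9ec7b37) (.cons 18 (.negSucc 0x14dc1336c5) .nil)))))),
   .cons 12 (.negSucc 0x441d744b4) (.cons 13 (.negSucc 0x20d060cd4e) (.cons 14 (.negSucc 0x1c56d18835) (.cons 15 (.ofNat 0x7710a8a204) (.cons 16 (.ofNat 0x1a6cae875b3) (.cons 17 (.ofNat 0x1fcd58be64) (.cons 18 (.ofNat 0x18614a601f) .nil)))))),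
   .cons 12 (.ofNat 0x1914326e3) (.cons 13 (.ofNat 0x373fdc869) (.cons 14 (.ofNat 0x834135d47) (.cons 15 (.negSucc 0xda9ec7b37) (.cons 16 (.ofNat 0x1fcd58be64) (.cons 17 (.ofNat 0x2ae928531ac) (.cons 18 (.negSucc 0x1aacbb2c17) .nil)))))),
   .cons 12 (.ofNat 0xed0664c9e) (.cons 13 (.negSucc 0x11a956eb0c) (.cons 14 (.ofNat 0x677b92a44e) (.cons 15 (.negSucc 0x14dc1336c5) (.cons 16 (.ofNat 0x18614a601f) (.cons 17 (.negSucc 0x1aacbb2c17) (.cons 18 (.ofNat 0x182967d860b) .nil)))))),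
   .cons 19 (.ofNat 0xd6cd48afd9) (.cons 20 (.ofNat 0xad32dfaf67) (.cons 21 (.ofNat 0x1943b1eec9) (.cons 22 (.negSucc 0xcf71c88d) .nil))),
   .cons 19 (.ofNat 0xad32dfaf67) (.cons 20 (.ofNat 0x162759d2414) (.cons 21 (.negSucc 0x8aedc7596c) (.cons 22 (.ofNat 0x2434b6508e) .nil))),
   .cons 19 (.ofNat 0x1943b1eec9) (.cons 20 (.negSucc 0x8aedc7596c) (.cons 21 (.ofNat 0x1bbbefbaf33) (.cons 22 (.ofNat 0x28ba79ca1f) .nil))),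
   .cons 19 (.negSucc 0xcf71c88d) (.cons 20 (.ofNat 0x2434b6508e) (.cons 21 (.ofNat 0x28ba79ca1f) (.cons 22 (.ofNat 0x2a63b32b214) .nil))),
   .cons 23 (.ofNat 0x28ff0ee25b1) .nil]

noncomputable def X10 : List SL :=
  [.cons 0 (.ofNat 0x2a346f67c0f) .nil,
   .cons 1 (.ofNat 0xdc233832a3) (.cons 2 (.ofNat 0xaaa7f63d16) (.cons 3 (.negSucc 0x1e225cfa64) (.cons 4 (.ofNat 0x1880579c8) .nil))),
   .cons 1 (.ofNat 0xaaa7f63d16) (.cons 2 (.ofNat 0x17c962e2f41) (.cons 3 (.ofNat 0x82a7841bbb) (.cons 4 (.ofNat 0x40c09d541) .nil))),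
   .cons 1 (.negSucc 0x1e225cfa64) (.cons 2 (.ofNat 0x82a7841bbb) (.cons 3 (.ofNat 0x1b75da88d3c) (.cons 4 (.negSucc 0x3f2f6b884) .nil))),
   .cons 1 (.ofNat 0x1880579c8) (.cons 2 (.ofNat 0x40c09d541) (.cons 3 (.negSucc 0x3f2f6b884) (.cons 4 (.ofNat 0x2aea33f642c) .nil))),
   .cons 5 (.negSucc 0x967736bcb0) (.cons 6 (.negSucc 0xc26f1898c) (.cons 7 (.negSucc 0x3b7f039ddf) (.cons 8 (.ofNat 0x48ad0cc2c) (.cons 9 (.ofNat 0x1df8c287b) (.cons 10 (.negSucc 0x19c5247b0) (.cons 11 (.negSucc 0xf06d18303) .nil)))))),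
   .cons 5 (.negSucc 0xc26f1898c) (.cons 6 (.ofNat 0xe5b2574d20) (.cons 7 (.negSucc (Nat.sub (Nat.shiftLeft 0x1671265d 8) 1)) (.cons 8 (.negSucc 0xa85efe1fa7) (.cons 9 (.negSucc 0x21ef5e77e6) (.cons 10 (.ofNat 0xb46508155) (.cons 11 (.negSucc 0x90b3f43cc) .nil)))))),
   .cons 5 (.negSucc 0x3b7f039ddf) (.cons 6 (.negSucc (Nat.sub (Nat.shiftLeft 0x1671265d 8) 1)) (.cons 7 (.ofNat 0xc0521cdc9a) (.cons 8 (.ofNat 0x42e293697) (.cons 9 (.negSucc 0xbb4c9adcf) (.cons 10 (.ofNat 0x8fa7522cc) (.cons 11 (.ofNat 0x62edd1c604) .nil)))))),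
   .cons 5 (.ofNat 0x48ad0cc2c) (.cons 6 (.negSucc 0xa85efe1fa7) (.cons 7 (.ofNat 0x42e293697) (.cons 8 (.ofNat 0x18034cb22e2) (.cons 9 (.negSucc 0x681d964037) (.cons 10 (.ofNat 0x2b3121a165) (.cons 11 (.ofNat 0xdb0703d6b) .nil)))))),
   .cons 5 (.ofNat 0x1df8c287b) (.cons 6 (.negSucc 0x21ef5e77e6) (.cons 7 (.negSucc 0xbb4c9adcf) (.cons 8 (.negSucc 0x681d964037) (.cons 9 (.ofNat 0x1c634e2a092) (.cons 10 (.ofNat 0x4ccbd67dcd) (.cons 11 (.ofNat 0x41d20adfe) .nil)))))),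
   .cons 5 (.negSucc 0x19c5247b0) (.cons 6 (.ofNat 0xb46508155) (.cons 7 (.ofNat 0x8fa7522cc) (.cons 8 (.ofNat 0x2b3121a165) (.cons 9 (.ofNat 0x4ccbd67dcd) (.cons 10 (.ofNat 0x291703e0ffe) (.cons 11 (.negSucc 0x184953fa86) .nil)))))),
   .cons 5 (.negSucc 0xf06d18303) (.cons 6 (.negSucc 0x90b3f43cc) (.cons 7 (.ofNat 0x62edd1c604) (.cons 8 (.ofNat 0xdb0703d6b) (.cons 9 (.ofNat 0x41d20adfe) (.cons 10 (.negSucc 0x184953fa86) (.cons 11 (.ofNat 0x18e3338c8c7) .nil)))))),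
   .cons 12 (.negSucc 0x7bddf5da65) (.cons 13 (.ofNat 0x94cb8cbac) (.cons 14 (.ofNat 0x440033098d) (.cons 15 (.negSucc 0x788a6efc) (.cons 16 (.negSucc 0x14f579420) (.cons 17 (.negSucc 0x628fcf36) (.cons 18 (.ofNat 0x120ec94a42) .nil)))))),
   .cons 12 (.ofNat 0x94cb8cbac) (.cons 13 (.ofNat 0xea1bc0434a) (.cons 14 (.negSucc 0xc1e19b2a) (.cons 15 (.negSucc 0xaab4f5c542) (.cons 16 (.ofNat 0x1caf819f5a) (.cons 17 (.negSucc 0x127eaa07fe) (.cons 18 (.ofNat 0x58f57b05d) .nil)))))),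
   .cons 12 (.ofNat 0x440033098d) (.cons 13 (.negSucc 0xc1e19b2a) (.cons 14 (.ofNat 0xa08705c9b2) (.cons 15 (.ofNat 0xbf328e5da) (.cons 16 (.negSucc 0xa211d2fe5) (.cons 17 (.ofNat 0x30ac34b29) (.cons 18 (.ofNat 0x66de5d9125) .nil)))))),
   .cons 12 (.negSucc 0x788a6efc) (.cons 13 (.negSucc 0xaab4f5c542) (.cons 14 (.ofNat 0xbf328e5da) (.cons 15 (.ofNat 0x172d42d46c3) (.cons 16 (.ofNat 0x5193d1cccf) (.cons 17 (.negSucc 0x465f8a7476) (.cons 18 (.negSucc 0x85a56805a) .nil)))))),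
   .cons 12 (.negSucc 0x14f579420) (.cons 13 (.ofNat 0x1caf819f5a) (.cons 14 (.negSucc 0xa211d2fe5) (.cons 15 (.ofNat 0x5193d1cccf) (.cons 16 (.ofNat 0x1fccd73d4c9) (.cons 17 (.ofNat 0x6f608c1824) (.cons 18 (.ofNat 0x11bc07e1bb) .nil)))))),
   .cons 12 (.negSucc 0x628fcf36) (.cons 13 (.negSucc 0x127eaa07fe) (.cons 14 (.ofNat 0x30ac34b29) (.cons 15 (.negSucc 0x465f8a7476) (.cons 16 (.ofNat 0x6f608c1824) (.cons 17 (.ofNat 0x25dc7304c96) (.cons 18 (.ofNat 0xdd670adc8) .nil)))))),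
   .cons 12 (.ofNat 0x120ec94a42) (.cons 13 (.ofNat 0x58f57b05d) (.cons 14 (.ofNat 0x66de5d9125) (.cons 15 (.negSucc 0x85a56805a) (.cons 16 (.ofNat 0x11bc07e1bb) (.cons 17 (.ofNat 0xdd670adc8) (.cons 18 (.ofNat 0x16466c06122) .nil)))))),
   .cons 19 (.ofNat 0xe0d513a4f0) (.cons 20 (.negSucc 0xb20074d5ed) (.cons 21 (.ofNat 0x11af011b28) (.cons 22 (.ofNat 0xfad1ac101) .nil))),
   .cons 19 (.negSucc 0xb20074d5ed) (.cons 20 (.ofNat 0x144648e3a36) (.cons 21 (.ofNat 0x482902e2f2) (.cons 22 (.ofNat 0x623e0ed704) .nil))),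
   .cons 19 (.ofNat 0x11af011b28) (.cons 20 (.ofNat 0x482902e2f2) (.cons 21 (.ofNat 0x22bbca506e1) (.cons 22 (.negSucc 0x6b5aabad6d) .nil))),
   .cons 19 (.ofNat 0xfad1ac101) (.cons 20 (.ofNat 0x623e0ed704) (.cons 21 (.negSucc 0x6b5aabad6d) (.cons 22 (.ofNat 0x235d7bd61cb) .nil))),
   .cons 23 (.ofNat 0x2854355a5fa) .nil]

noncomputable def X11 : List SL :=
  [.cons 0 (.ofNat 0x29338423356) .nil,
   .cons 1 (.ofNat 0xe2c7b0007f) (.cons 2 (.negSucc 0xafc3c08721) (.cons 3 (.negSucc 0x132ee372da) (.cons 4 (.negSucc 0x1368b35621) .nil))),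
   .cons 1 (.negSucc 0xafc3c08721) (.cons 2 (.ofNat 0x1579151aad8) (.cons 3 (.negSucc 0x46838702a9) (.cons 4 (.negSucc 0x5ac964b366) .nil))),
   .cons 1 (.negSucc 0x132ee372da) (.cons 2 (.negSucc 0x46838702a9) (.cons 3 (.ofNat 0x2363e2cb40d) (.cons 4 (.negSucc 0x6d0d8123da) .nil))),
   .cons 1 (.negSucc 0x1368b35621) (.cons 2 (.negSucc 0x5ac964b366) (.cons 3 (.negSucc 0x6d0d8123da) (.cons 4 (.ofNat 0x22d9d351611) .nil))),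
   .cons 5 (.negSucc 0x7e2cc0e5b4) (.cons 6 (.negSucc 0x845173822) (.cons 7 (.negSucc 0x438fc8f821) (.cons 8 (.negSucc 0x14cd95463) (.cons 9 (.ofNat 0x524797a) (.cons 10 (.ofNat 0x1027255a9) (.cons 11 (.negSucc 0x1152b8fc35) .nil)))))),
   .cons 5 (.negSucc 0x845173822) (.cons 6 (.ofNat 0xe731514623) (.cons 7 (.negSucc 0x47ddde526) (.cons 8 (.ofNat 0xaba6569d7d) (.cons 9 (.negSucc 0x1d5f19c242) (.cons 10 (.negSucc 0x1038602444) (.cons 11 (.ofNat 0xfaac0410) .nil)))))),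
   .cons 5 (.negSucc 0x438fc8f821) (.cons 6 (.negSucc 0x47ddde526) (.cons 7 (.ofNat 0xa63ffdfd6b) (.cons 8 (.negSucc 0x753a9fa4a) (.cons 9 (.ofNat 0x28f0fd6d7) (.cons 10 (.negSucc 0x1c7c529ef) (.cons 11 (.ofNat 0x6168de2c1b) .nil)))))),
   .cons 5 (.negSucc 0x14cd95463) (.cons 6 (.ofNat 0xaba6569d7d) (.cons 7 (.negSucc 0x753a9fa4a) (.cons 8 (.ofNat 0x16fc5a5664b) (.cons 9 (.ofNat 0x5a1dafbf45) (.cons 10 (.ofNat 0x3bb6f9ab2e) (.cons 11 (.ofNat 0x51f4e3ca7) .nil)))))),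
   .cons 5 (.ofNat 0x524797a) (.cons 6 (.negSucc 0x1d5f19c242) (.cons 7 (.ofNat 0x28f0fd6d7) (.cons 8 (.ofNat 0x5a1dafbf45) (.cons 9 (.ofNat 0x1eefb207d48) (.cons 10 (.negSucc 0x6697e3a9ea) (.cons 11 (.negSucc 0x451ab9fc0) .nil)))))),
   .cons 5 (.ofNat 0x1027255a9) (.cons 6 (.negSucc 0x1038602444) (.cons 7 (.negSucc 0x1c7c529ef) (.cons 8 (.ofNat 0x3bb6f9ab2e) (.cons 9 (.negSucc 0x6697e3a9ea) (.cons 10 (.ofNat 0x2676527e15b) (.cons 11 (.ofNat 0x11a8b13e25) .nil)))))),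
   .cons 5 (.negSucc 0x1152b8fc35) (.cons 6 (.ofNat 0xfaac0410) (.cons 7 (.ofNat 0x6168de2c1b) (.cons 8 (.ofNat 0x51f4e3ca7) (.cons 9 (.negSucc 0x451ab9fc0) (.cons 10 (.ofNat 0x11a8b13e25) (.cons 11 (.ofNat 0x17bfef3eb31) .nil)))))),
   .cons 12 (.negSucc 0x95060698e0) (.cons 13 (.ofNat 0xa6e24950f) (.cons 14 (.ofNat 0x3c4ed87ac0) (.cons 15 (.ofNat 0x4a21218f6) (.cons 16 (.negSucc 0x2c7f312b4) (.cons 17 (.ofNat 0x1377b233a) (.cons 18 (.ofNat 0x1012e238f6) .nil)))))),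
   .cons 12 (.ofNat 0xa6e24950f) (.cons 13 (.ofNat 0xe193130cc8) (.cons 14 (.negSucc 0x157b9a7555) (.cons 15 (.ofNat 0xaacc236897) (.cons 16 (.negSucc 0x1ffa232748) (.cons 17 (.ofNat 0x5d09588e9) (.cons 18 (.negSucc 0xb184e953f) .nil)))))),
   .cons 12 (.ofNat 0x3c4ed87ac0) (.cons 13 (.negSucc 0x157b9a7555) (.cons 14 (.ofNat 0xb510ddbf04) (.cons 15 (.ofNat 0x64b93442) (.cons 16 (.negSucc 0x1234d0a9b0) (.cons 17 (.ofNat 0x601ce7014) (.cons 18 (.ofNat 0x68d50b68d5) .nil)))))),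
   .cons 12 (.ofNat 0x4a21218f6) (.cons 13 (.ofNat 0xaacc236897) (.cons 14 (.ofNat 0x64b93442) (.cons 15 (.ofNat 0x16fb8208e49) (.cons 16 (.ofNat 0x74c8a6ee95) (.cons 17 (.negSucc 0x15f1603459) (.cons 18 (.negSucc 0xc7d1fb628) .nil)))))),
   .cons 12 (.negSucc 0x2c7f312b4) (.cons 13 (.negSucc 0x1ffa232748) (.cons 14 (.negSucc 0x1234d0a9b0) (.cons 15 (.ofNat 0x74c8a6ee95) (.cons 16 (.ofNat 0x1af8456d2ad) (.cons 17 (.ofNat 0x2a3a354655) (.cons 18 (.ofNat 0x10872714b0) .nil)))))),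
   .cons 12 (.ofNat 0x1377b233a) (.cons 13 (.ofNat 0x5d09588e9) (.cons 14 (.ofNat 0x601ce7014) (.cons 15 (.negSucc 0x15f1603459) (.cons 16 (.ofNat 0x2a3a354655) (.cons 17 (.ofNat 0x29c59d34913) (.cons 18 (.negSucc 0x11f90fd029) .nil)))))),
   .cons 12 (.ofNat 0x1012e238f6) (.cons 13 (.negSucc 0xb184e953f) (.cons 14 (.ofNat 0x68d50b68d5) (.cons 15 (.negSucc 0xc7d1fb628) (.cons 16 (.ofNat 0x10872714b0) (.cons 17 (.negSucc 0x11f90fd029) (.cons 18 (.ofNat 0x17349480ab9) .nil)))))),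
   .cons 19 (.ofNat 0xd83cfd8e2f) (.cons 20 (.ofNat 0xadbe526de9) (.cons 21 (.ofNat 0x1b496b2740) (.cons 22 (.ofNat 0x26b7a53) .nil))),
   .cons 19 (.ofNat 0xadbe526de9) (.cons 20 (.ofNat 0x1615e573564) (.cons 21 (.negSucc 0x867db96e0b) (.cons 22 (.negSucc 0xf47c68486) .nil))),
   .cons 19 (.ofNat 0x1b496b2740) (.cons 20 (.negSucc 0x867db96e0b) (.cons 21 (.ofNat 0x1b1dbe78918) (.cons 22 (.negSucc 0x1092c2b294) .nil))),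
   .cons 19 (.ofNat 0x26b7a53) (.cons 20 (.negSucc 0xf47c68486) (.cons 21 (.negSucc 0x1092c2b294) (.cons 22 (.ofNat 0x29d96334349) .nil))),
   .cons 23 (.ofNat 0x28feb0ba2b1) .nil]

noncomputable def X12 : List SL :=
  [.cons 0 (.ofNat 0x2973a8c85c4) .nil,
   .cons 1 (.ofNat 0xdaa3b83188) (.cons 2 (.ofNat 0xacb818ecfc) (.cons 3 (.negSucc 0x1daf925cb9) (.cons 4 (.ofNat 0x22d033892) .nil))),
   .cons 1 (.ofNat 0xacb818ecfc) (.cons 2 (.ofNat 0x16c0e74f834) (.cons 3 (.ofNat 0x7ff737806e) (.cons 4 (.negSucc 0x3e3158160) .nil))),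
   .cons 1 (.negSucc 0x1daf925cb9) (.cons 2 (.ofNat 0x7ff737806e) (.cons 3 (.ofNat 0x1b26b089df2) (.cons 4 (.ofNat 0x98d036d12) .nil))),
   .cons 1 (.ofNat 0x22d033892) (.cons 2 (.negSucc 0x3e3158160) (.cons 3 (.ofNat 0x98d036d12) (.cons 4 (.ofNat 0x29dae70225f) .nil))),
   .cons 5 (.negSucc 0x9376b4aab2) (.cons 6 (.negSucc 0x89503e95b) (.cons 7 (.negSucc 0x3d2f1e80a7) (.cons 8 (.ofNat 0x349dcaa47) (.cons 9 (.ofNat 0x1805a9870) (.cons 10 (.ofNat 0xfd29501a) (.cons 11 (.ofNat 0x102ebb9057) .nil)))))),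
   .cons 5 (.negSucc 0x89503e95b) (.cons 6 (.ofNat 0xe0f0014799) (.cons 7 (.negSucc 0xf37c1d4fc) (.cons 8 (.negSucc 0xab6ec5a768) (.cons 9 (.negSucc 0x1fc55e93dd) (.cons 10 (.negSucc 0x92d195f0f) (.cons 11 (.ofNat 0x6750fae93) .nil)))))),
   .cons 5 (.negSucc 0x3d2f1e80a7) (.cons 6 (.negSucc 0xf37c1d4fc) (.cons 7 (.ofNat 0xb41d267867) (.cons 8 (.ofNat 0x258c14c56) (.cons 9 (.negSucc 0x91ae20967) (.cons 10 (.negSucc 0x56343c9e4) (.cons 11 (.negSucc 0x66c22d5d94) .nil)))))),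
   .cons 5 (.ofNat 0x349dcaa47) (.cons 6 (.negSucc 0xab6ec5a768) (.cons 7 (.ofNat 0x258c14c56) (.cons 8 (.ofNat 0x16f0bd820b2) (.cons 9 (.negSucc 0x6ee3bee7bd) (.cons 10 (.negSucc 0x248f1d2ee6) (.cons 11 (.negSucc 0x8d88f5068) .nil)))))),
   .cons 5 (.ofNat 0x1805a9870) (.cons 6 (.negSucc 0x1fc55e93dd) (.cons 7 (.negSucc 0x91ae20967) (.cons 8 (.negSucc 0x6ee3bee7bd) (.cons 9 (.ofNat 0x1be76e2fb35) (.cons 10 (.negSucc 0x404ed2c704) (.cons 11 (.negSucc 0x5cef95900) .nil)))))),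
   .cons 5 (.ofNat 0xfd29501a) (.cons 6 (.negSucc 0x92d195f0f) (.cons 7 (.negSucc 0x56343c9e4) (.cons 8 (.negSucc 0x248f1d2ee6) (.cons 9 (.negSucc 0x404ed2c704) (.cons 10 (.ofNat 0x28ddcb1e748) (.cons 11 (.negSucc 0xe52509747) .nil)))))),
   .cons 5 (.ofNat 0x102ebb9057) (.cons 6 (.ofNat 0x6750fae93) (.cons 7 (.negSucc 0x66c22d5d94) (.cons 8 (.negSucc 0x8d88f5068) (.cons 9 (.negSucc 0x5cef95900) (.cons 10 (.negSucc 0xe52509747) (.cons 11 (.ofNat 0x177c66bcb88) .nil)))))),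
   .cons 12 (.negSucc 0x806e269c74) (.cons 13 (.ofNat 0x6f923d046) (.cons 14 (.ofNat 0x432718e819) (.cons 15 (.negSucc 0xc537fa29) (.cons 16 (.negSucc 0x93c92467) (.cons 17 (.negSucc 0x738fc9d4) (.cons 18 (.ofNat 0x121664971e) .nil)))))),
   .cons 12 (.ofNat 0x6f923d046) (.cons 13 (.ofNat 0xe3b9ddac3f) (.cons 14 (.negSucc 0x28622d4fe) (.cons 15 (.negSucc 0xacf3f123fc) (.cons 16 (.ofNat 0x1c1d9fce3b) (.cons 17 (.negSucc 0x1053238967) (.cons 18 (.ofNat 0x2b6688b65) .nil)))))),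
   .cons 12 (.ofNat 0x432718e819) (.cons 13 (.negSucc 0x28622d4fe) (.cons 14 (.ofNat 0xa05636b0e6) (.cons 15 (.ofNat 0x84a2c2241) (.cons 16 (.negSucc 0x547b02eea) (.cons 17 (.ofNat 0x3f3fada7) (.cons 18 (.ofNat 0x679466130d) .nil)))))),
   .cons 12 (.negSucc 0xc537fa29) (.cons 13 (.negSucc 0xacf3f123fc) (.cons 14 (.ofNat 0x84a2c2241) (.cons 15 (.ofNat 0x166db4c1905) (.cons 16 (.ofNat 0x5d027527cf) (.cons 17 (.negSucc 0x3f77e1619e) (.cons 18 (.negSucc 0x48b1b82f5) .nil)))))),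
   .cons 12 (.negSucc 0x93c92467) (.cons 13 (.ofNat 0x1c1d9fce3b) (.cons 14 (.negSucc 0x547b02eea) (.cons 15 (.ofNat 0x5d027527cf) (.cons 16 (.ofNat 0x1ea763c0ec2) (.cons 17 (.ofNat 0x64d0f5c729) (.cons 18 (.ofNat 0x8c4856ae0) .nil)))))),
   .cons 12 (.negSucc 0x738fc9d4) (.cons 13 (.negSucc 0x1053238967) (.cons 14 (.ofNat 0x3f3fada7) (.cons 15 (.negSucc 0x3f77e1619e) (.cons 16 (.ofNat 0x64d0f5c729) (.cons 17 (.ofNat 0x2616f09cfdb) (.cons 18 (.ofNat 0xafb1b5b48) .nil)))))),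
   .cons 12 (.ofNat 0x121664971e) (.cons 13 (.ofNat 0x2b6688b65) (.cons 14 (.ofNat 0x679466130d) (.cons 15 (.negSucc 0x48b1b82f5) (.cons 16 (.ofNat 0x8c4856ae0) (.cons 17 (.ofNat 0xafb1b5b48) (.cons 18 (.ofNat 0x163d933ca76) .nil)))))),
   .cons 19 (.ofNat 0xdf412ebab2) (.cons 20 (.negSucc 0xb1221410ef) (.cons 21 (.ofNat 0x13e5f8e68c) (.cons 22 (.negSucc 0x114677b706) .nil))),
   .cons 19 (.negSucc 0xb1221410ef) (.cons 20 (.ofNat 0x14b27a970ff) (.cons 21 (.ofNat 0x4ffd6db8d4) (.cons 22 (.negSucc 0x58952ce9c5) .nil))),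
   .cons 19 (.ofNat 0x13e5f8e68c) (.cons 20 (.ofNat 0x4ffd6db8d4) (.cons 21 (.ofNat 0x21bebcee33d) (.cons 22 (.ofNat 0x6aeb483252) .nil))),
   .cons 19 (.negSucc 0x114677b706) (.cons 20 (.negSucc 0x58952ce9c5) (.cons 21 (.ofNat 0x6aeb483252) (.cons 22 (.ofNat 0x235291faeca) .nil))),
   .cons 23 (.ofNat 0x2877f7e48ab) .nil]

noncomputable def X13 : List SL :=
  [.cons 0 (.ofNat 0x28deea1ccce) .nil,
   .cons 1 (.ofNat 0xdfffff0ddc) (.cons 2 (.negSucc 0xb018daa5e4) (.cons 3 (.negSucc 0x155c5ded5e) (.cons 4 (.negSucc 0x1234a9b462) .nil))),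
   .cons 1 (.negSucc 0xb018daa5e4) (.cons 2 (.ofNat 0x1540aa3bc4a) (.cons 3 (.negSucc 0x52ee6618e4) (.cons 4 (.negSucc 0x5232124617) .nil))),
   .cons 1 (.negSucc 0x155c5ded5e) (.cons 2 (.negSucc 0x52ee6618e4) (.cons 3 (.ofNat 0x2182768be82) (.cons 4 (.negSucc 0x6b7ca12da1) .nil))),
   .cons 1 (.negSucc 0x1234a9b462) (.cons 2 (.negSucc 0x5232124617) (.cons 3 (.negSucc 0x6b7ca12da1) (.cons 4 (.ofNat 0x237d4c9d92c) .nil))),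
   .cons 5 (.negSucc 0x820b572a05) (.cons 6 (.negSucc 0x61a91e51e) (.cons 7 (.negSucc 0x42d1d08a32) (.cons 8 (.negSucc 0x10d2bbe50) (.cons 9 (.ofNat 0x1c0cdd71) (.cons 10 (.ofNat 0xa5e19739) (.cons 11 (.negSucc 0x11c594a4f4) .nil)))))),
   .cons 5 (.negSucc 0x61a91e51e) (.cons 6 (.ofNat 0xe20b549504) (.cons 7 (.negSucc 0x40361033f) (.cons 8 (.ofNat 0xad5ab77d40) (.cons 9 (.negSucc 0x1d438c21fc) (.cons 10 (.negSucc (Nat.sub (Nat.shiftLeft 0xe3d5e0d 8) 1)) (.cons 11 (.ofNat 0xb9aab042) .nil)))))),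
   .cons 5 (.negSucc 0x42d1d08a32) (.cons 6 (.negSucc 0x40361033f) (.cons 7 (.ofNat 0xa2d80140d1) (.cons 8 (.negSucc 0x5b3d0cab4) (.cons 9 (.ofNat 0x1713099cd) (.cons 10 (.negSucc 0x15d734c31) (.cons 11 (.ofNat 0x65673abb55) .nil)))))),
   .cons 5 (.negSucc 0x10d2bbe50) (.cons 6 (.ofNat 0xad5ab77d40) (.cons 7 (.negSucc 0x5b3d0cab4) (.cons 8 (.ofNat 0x1657ef4d842) (.cons 9 (.ofNat 0x641cb1a274) (.cons 10 (.ofNat 0x35fe639410) (.cons 11 (.ofNat 0x2d2169b79) .nil)))))),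
   .cons 5 (.ofNat 0x1c0cdd71) (.cons 6 (.negSucc 0x1d438c21fc) (.cons 7 (.ofNat 0x1713099cd) (.cons 8 (.ofNat 0x641cb1a274) (.cons 9 (.ofNat 0x1db31979bf9) (.cons 10 (.negSucc 0x5a69b0ce86) (.cons 11 (.negSucc 0x1b64e6243) .nil)))))),
   .cons 5 (.ofNat 0xa5e19739) (.cons 6 (.negSucc (Nat.sub (Nat.shiftLeft 0xe3d5e0d 8) 1)) (.cons 7 (.negSucc 0x15d734c31) (.cons 8 (.ofNat 0x35fe639410) (.cons 9 (.negSucc 0x5a69b0ce86) (.cons 10 (.ofNat 0x26c90a1e56b) (.cons 11 (.ofNat 0xaa54163c4) .nil)))))),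
   .cons 5 (.negSucc 0x11c594a4f4) (.cons 6 (.ofNat 0xb9aab042) (.cons 7 (.ofNat 0x65673abb55) (.cons 8 (.ofNat 0x2d2169b79) (.cons 9 (.negSucc 0x1b64e6243) (.cons 10 (.ofNat 0xaa54163c4) (.cons 11 (.ofNat 0x16cf470f61c) .nil)))))),
   .cons 12 (.negSucc 0x924df7b843) (.cons 13 (.ofNat (Nat.shiftLeft 0x7503583 8)) (.cons 14 (.ofNat 0x3dbb98c9f8) (.cons 15 (.ofNat 0x318ad1046) (.cons 16 (.negSucc 0x1ca5d3f50) (.cons 17 (.ofNat 0xcc073131) (.cons 18 (.ofNat 0x10cd388d45) .nil)))))),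
   .cons 12 (.ofNat (Nat.shiftLeft 0x7503583 8)) (.cons 13 (.ofNat 0xdee84164d4) (.cons 14 (.negSucc 0xdd82e4e1d) (.cons 15 (.ofNat 0xacae8e4d4c) (.cons 16 (.negSucc 0x1f5c665d02) (.cons 17 (.ofNat 0x67a3626b4) (.cons 18 (.negSucc 0x6a3c9d03b) .nil)))))),
   .cons 12 (.ofNat 0x3dbb98c9f8) (.cons 13 (.negSucc 0xdd82e4e1d) (.cons 14 (.ofNat 0xae2598f5b3) (.cons 15 (.negSucc 0x8708ad9d) (.cons 16 (.negSucc 0xb17b47f0c) (.cons 17 (.ofNat 0x3cd6fa0a7) (.cons 18 (.ofNat 0x69e34553d9) .nil)))))),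
   .cons 12 (.ofNat 0x318ad1046) (.cons 13 (.ofNat 0xacae8e4d4c) (.cons 14 (.negSucc 0x8708ad9d) (.cons 15 (.ofNat 0x166a94c1541) (.cons 16 (.ofNat 0x746a4846d3) (.cons 17 (.negSucc 0x181ca2fdb2) (.cons 18 (.negSucc 0x7b4118ee3) .nil)))))),
   .cons 12 (.negSucc 0x1ca5d3f50) (.cons 13 (.negSucc 0x1f5c665d02) (.cons 14 (.negSucc 0xb17b47f0c) (.cons 15 (.ofNat 0x746a4846d3) (.cons 16 (.ofNat 0x1b380e930ca) (.cons 17 (.ofNat 0x2c385dde2c) (.cons 18 (.ofNat 0xab424a6f4) .nil)))))),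
   .cons 12 (.ofNat 0xcc073131) (.cons 13 (.ofNat 0x67a3626b4) (.cons 14 (.ofNat 0x3cd6fa0a7) (.cons 15 (.negSucc 0x181ca2fdb2) (.cons 16 (.ofNat 0x2c385dde2c) (.cons 17 (.ofNat 0x290e456d419) (.cons 18 (.negSucc 0xb27a1b095) .nil)))))),
   .cons 12 (.ofNat 0x10cd388d45) (.cons 13 (.negSucc 0x6a3c9d03b) (.cons 14 (.ofNat 0x69e34553d9) (.cons 15 (.negSucc 0x7b4118ee3) (.cons 16 (.ofNat 0xab424a6f4) (.cons 17 (.negSucc 0xb27a1b095) (.cons 18 (.ofNat 0x16964d5fdd0) .nil)))))),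
   .cons 19 (.ofNat 0xd922a6bbe3) (.cons 20 (.ofNat 0xae2b8b8689) (.cons 21 (.ofNat 0x1cba785536) (.cons 22 (.negSucc 0x15434b2fa) .nil))),
   .cons 19 (.ofNat 0xae2b8b8689) (.cons 20 (.ofNat 0x15f0f3423e7) (.cons 21 (.negSucc 0x810adebe3d) (.cons 22 (.negSucc 0x157b9d179) .nil))),
   .cons 19 (.ofNat 0x1cba785536) (.cons 20 (.negSucc 0x810adebe3d) (.cons 21 (.ofNat 0x1af85c05220) (.cons 22 (.ofNat 0xde62b6de) .nil))),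
   .cons 19 (.negSucc 0x15434b2fa) (.cons 20 (.negSucc 0x157b9d179) (.cons 21 (.ofNat 0xde62b6de) (.cons 22 (.ofNat 0x29661c6d3cd) .nil))),
   .cons 23 (.ofNat 0x28e6d766e2d) .nil]

noncomputable def X14 : List SL :=
  [.cons 0 (.ofNat 0x292419a4deb) .nil,
   .cons 1 (.ofNat 0xda570fb8b6) (.cons 2 (.ofNat 0xadcb57a55e) (.cons 3 (.negSucc 0x1d805866ab) (.cons 4 (.ofNat 0x2ac54149a) .nil))),
   .cons 1 (.ofNat 0xadcb57a55e) (.cons 2 (.ofNat 0x162e9f9ab1d) (.cons 3 (.ofNat 0x7e21767ecc) (.cons 4 (.negSucc 0x85ed89d7d) .nil))),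
   .cons 1 (.negSucc 0x1d805866ab) (.cons 2 (.ofNat 0x7e21767ecc) (.cons 3 (.ofNat 0x1b00e866c66) (.cons 4 (.ofNat 0xfb5c23497) .nil))),
   .cons 1 (.ofNat 0x2ac54149a) (.cons 2 (.negSucc 0x85ed89d7d) (.cons 3 (.ofNat 0xfb5c23497) (.cons 4 (.ofNat 0x2946723e7a7) .nil))),
   .cons 5 (.negSucc 0x912c27b20e) (.cons 6 (.negSucc 0x612ac550c) (.cons 7 (.negSucc 0x3e46a34cda) (.cons 8 (.ofNat 0x2513514bc) (.cons 9 (.ofNat 0x11a93b7ee) (.cons 10 (.ofNat 0x9f5267cc) (.cons 11 (.negSucc 0x10d3a18995) .nil)))))),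
   .cons 5 (.negSucc 0x612ac550c) (.cons 6 (.ofNat 0xde4f309f99) (.cons 7 (.negSucc 0xa47f33ce5) (.cons 8 (.negSucc 0xad266b58e4) (.cons 9 (.negSucc 0x1f181c3024) (.cons 10 (.negSucc 0x7804b4819) (.cons 11 (.negSucc 0x457cfadab) .nil)))))),
   .cons 5 (.negSucc 0x3e46a34cda) (.cons 6 (.negSucc 0xa47f33ce5) (.cons 7 (.ofNat 0xad43d7ebc3) (.cons 8 (.ofNat 0x17e2ed3eb) (.cons 9 (.negSucc 0x67a69a9fc) (.cons 10 (.negSucc 0x33a249ca8) (.cons 11 (.ofNat 0x68d9e37069) .nil)))))),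
   .cons 5 (.ofNat 0x2513514bc) (.cons 6 (.negSucc 0xad266b58e4) (.cons 7 (.ofNat 0x17e2ed3eb) (.cons 8 (.ofNat 0x16591c9f004) (.cons 9 (.negSucc 0x7260cdca07) (.cons 10 (.negSucc 0x1e2a5ce570) (.cons 11 (.ofNat 0x63a72a6aa) .nil)))))),
   .cons 5 (.ofNat 0x11a93b7ee) (.cons 6 (.negSucc 0x1f181c3024) (.cons 7 (.negSucc 0x67a69a9fc) (.cons 8 (.negSucc 0x7260cdca07) (.cons 9 (.ofNat 0x1b8edb3c7b3) (.cons 10 (.negSucc 0x34821c086d) (.cons 11 (.ofNat 0x547d767e2) .nil)))))),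
   .cons 5 (.ofNat 0x9f5267cc) (.cons 6 (.negSucc 0x7804b4819) (.cons 7 (.negSucc 0x33a249ca8) (.cons 8 (.negSucc 0x1e2a5ce570) (.cons 9 (.negSucc 0x34821c086d) (.cons 10 (.ofNat 0x288e5bc9e55) (.cons 11 (.ofNat 0x91f697c99) .nil)))))),
   .cons 5 (.negSucc 0x10d3a18995) (.cons 6 (.negSucc 0x457cfadab) (.cons 7 (.ofNat 0x68d9e37069) (.cons 8 (.ofNat 0x63a72a6aa) (.cons 9 (.ofNat 0x547d767e2) (.cons 10 (.ofNat 0x91f697c99) (.cons 11 (.ofNat 0x16ba06d8b2b) .nil)))))),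
   .cons 12 (.negSucc 0x838745e9f5) (.cons 13 (.ofNat 0x52b999805) (.cons 14 (.ofNat 0x427f50ec24) (.cons 15 (.negSucc 0xc2979504) (.cons 16 (.negSucc 0x2a9e8867) (.cons 17 (.negSucc 0x572071f9) (.cons 18 (.ofNat 0x121f22ab28) .nil)))))),
   .cons 12 (.ofNat 0x52b999805) (.cons 13 (.ofNat 0xe01ac3d036) (.cons 14 (.negSucc 0x2ef23fad5) (.cons 15 (.negSucc 0xae1b828352) (.cons 16 (.ofNat 0x1cfb6e6a48) (.cons 17 (.negSucc 0xcfbffdc3a) (.cons 18 (.ofNat 0x19db6b65e) .nil)))))),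
   .cons 12 (.ofNat 0x427f50ec24) (.cons 13 (.negSucc 0x2ef23fad5) (.cons 14 (.ofNat 0xa046a9a204) (.cons 15 (.ofNat 0x5aca9e77d) (.cons 16 (.negSucc 0x2766ddc38) (.cons 17 (.ofNat 0x22192fbd) (.cons 18 (.ofNat 0x686b694d66) .nil)))))),
   .cons 12 (.negSucc 0xc2979504) (.cons 13 (.negSucc 0xae1b828352) (.cons 14 (.ofNat 0x5aca9e77d) (.cons 15 (.ofNat 0x1608337aea5) (.cons 16 (.ofNat 0x65807f1436) (.cons 17 (.negSucc 0x355fa0cb35) (.cons 18 (.negSucc 0x291564d8b) .nil)))))),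
   .cons 12 (.negSucc 0x2a9e8867) (.cons 13 (.ofNat 0x1cfb6e6a48) (.cons 14 (.negSucc 0x2766ddc38) (.cons 15 (.ofNat 0x65807f1436) (.cons 16 (.ofNat 0x1d712b247e6) (.cons 17 (.ofNat 0x5685614742) (.cons 18 (.ofNat 0x3027b3110) .nil)))))),
   .cons 12 (.negSucc 0x572071f9) (.cons 13 (.negSucc 0xcfbffdc3a) (.cons 14 (.ofNat 0x22192fbd) (.cons 15 (.negSucc 0x355fa0cb35) (.cons 16 (.ofNat 0x5685614742) (.cons 17 (.ofNat 0x26d95b33094) (.cons 18 (.ofNat 0x6386efcef) .nil)))))),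
   .cons 12 (.ofNat 0x121f22ab28) (.cons 13 (.ofNat 0x19db6b65e) (.cons 14 (.ofNat 0x686b694d66) (.cons 15 (.negSucc 0x291564d8b) (.cons 16 (.ofNat 0x3027b3110) (.cons 17 (.ofNat 0x6386efcef) (.cons 18 (.ofNat 0x16201184403) .nil)))))),
   .cons 19 (.ofNat 0xde2dc51ae7) (.cons 20 (.negSucc 0xb0a61b0cd6) (.cons 21 (.ofNat 0x167c17eed9) (.cons 22 (.negSucc 0x1029bc2eb1) .nil))),
   .cons 19 (.negSucc 0xb0a61b0cd6) (.cons 20 (.ofNat 0x14ed63bcdcc) (.cons 21 (.ofNat 0x5ada91a916) (.cons 22 (.negSucc 0x4c3224a235) .nil))),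
   .cons 19 (.ofNat 0x167c17eed9) (.cons 20 (.ofNat 0x5ada91a916) (.cons 21 (.ofNat 0x202f03b1635) (.cons 22 (.ofNat 0x66ec06dd40) .nil))),
   .cons 19 (.negSucc 0x1029bc2eb1) (.cons 20 (.negSucc 0x4c3224a235) (.cons 21 (.ofNat 0x66ec06dd40) (.cons 22 (.ofNat 0x2448464b7d5) .nil))),
   .cons 23 (.ofNat 0x288cc369960) .nil]

noncomputable def X15 : List SL :=
  [.cons 0 (.ofNat 0x28b9a29c4e8) .nil,
   .cons 1 (.ofNat 0xde4f9b8362) (.cons 2 (.negSucc 0xb018257e9d) (.cons 3 (.negSucc 0x187959a590) (.cons 4 (.negSucc 0xf1d4e4768) .nil))),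
   .cons 1 (.negSucc 0xb018257e9d) (.cons 2 (.ofNat 0x1537703fd5c) (.cons 3 (.negSucc 0x610b59bd46) (.cons 4 (.negSucc 0x4294b5c1af) .nil))),
   .cons 1 (.negSucc 0x187959a590) (.cons 2 (.negSucc 0x610b59bd46) (.cons 3 (.ofNat 0x1f360336b61) (.cons 4 (.negSucc 0x6205a54132) .nil))),
   .cons 1 (.negSucc 0xf1d4e4768) (.cons 2 (.negSucc 0x4294b5c1af) (.cons 3 (.negSucc 0x6205a54132) (.cons 4 (.ofNat 0x2531715dd14) .nil))),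
   .cons 5 (.negSucc 0x84a9317d01) (.cons 6 (.negSucc 0x478022151) (.cons 7 (.negSucc 0x423ef27035) (.cons 8 (.negSucc 0xebe39b0e) (.cons 9 (.ofNat 0x2cdee169) (.cons 10 (.ofNat 0x647dc4c7) (.cons 11 (.negSucc 0x11ef6935c4) .nil)))))),
   .cons 5 (.negSucc 0x478022151) (.cons 6 (.ofNat 0xdf1faa667c) (.cons 7 (.negSucc 0x384b84983) (.cons 8 (.ofNat 0xae67c284ac) (.cons 9 (.negSucc 0x1d1a695ebc) (.cons 10 (.negSucc 0xb1329348b) (.cons 11 (.ofNat 0xe6a19f4) .nil)))))),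
   .cons 5 (.negSucc 0x423ef27035) (.cons 6 (.negSucc 0x384b84983) (.cons 7 (.ofNat 0xa183f02ec8) (.cons 8 (.negSucc 0x407f4787a) (.cons 9 (.ofNat 0x3f66d09c) (.cons 10 (.negSucc 0x113caf27b) (.cons 11 (.ofNat 0x67bf399a94) .nil)))))),
   .cons 5 (.negSucc 0xebe39b0e) (.cons 6 (.ofNat 0xae67c284ac) (.cons 7 (.negSucc 0x407f4787a) (.cons 8 (.ofNat 0x15e5a985a76) (.cons 9 (.ofNat 0x6acc5a2885) (.cons 10 (.ofNat 0x2ca42f191a) (.cons 11 (.ofNat 0x1a33baa43) .nil)))))),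
   .cons 5 (.ofNat 0x2cdee169) (.cons 6 (.negSucc 0x1d1a695ebc) (.cons 7 (.ofNat 0x3f66d09c) (.cons 8 (.ofNat 0x6acc5a2885) (.cons 9 (.ofNat 0x1cb587d6dc3) (.cons 10 (.negSucc 0x4b2d5df250) (.cons 11 (.negSucc 0x47ae26f2) .nil)))))),
   .cons 5 (.ofNat 0x647dc4c7) (.cons 6 (.negSucc 0xb1329348b) (.cons 7 (.negSucc 0x113caf27b) (.cons 8 (.ofNat 0x2ca42f191a) (.cons 9 (.negSucc 0x4b2d5df250) (.cons 10 (.ofNat 0x2761dea597a) (.cons 11 (.ofNat 0x6aeb60dab) .nil)))))),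
   .cons 5 (.negSucc 0x11ef6935c4) (.cons 6 (.ofNat 0xe6a19f4) (.cons 7 (.ofNat 0x67bf399a94) (.cons 8 (.ofNat 0x1a33baa43) (.cons 9 (.negSucc 0x47ae26f2) (.cons 10 (.ofNat 0x6aeb60dab) (.cons 11 (.ofNat 0x165a791b2d7) .nil)))))),
   .cons 12 (.negSucc 0x90478111f6) (.cons 13 (.ofNat 0x52566aba0) (.cons 14 (.ofNat 0x3ea4a7317f) (.cons 15 (.ofNat 0x219885d7e) (.cons 16 (.negSucc 0x123086d40) (.cons 17 (.ofNat 0x804704f3) (.cons 18 (.ofNat 0x11332da1be) .nil)))))),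
   .cons 12 (.ofNat 0x52566aba0) (.cons 13 (.ofNat 0xdd54651293) (.cons 14 (.negSucc 0x90a20a2a8) (.cons 15 (.ofNat 0xaddf491430) (.cons 16 (.negSucc 0x1e93c3cf85) (.cons 17 (.ofNat 0x603a060ff) (.cons 18 (.negSucc 0x44fc2fb5d) .nil)))))),
   .cons 12 (.ofNat 0x3ea4a7317f) (.cons 13 (.negSucc 0x90a20a2a8) (.cons 14 (.ofNat 0xa9e574c865) (.cons 15 (.negSucc 0xa57e2b8f) (.cons 16 (.negSucc 0x6b557e378) (.cons 17 (.ofNat 0x267d5d2c0) (.cons 18 (.ofNat 0x6a4979a594) .nil)))))),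
   .cons 12 (.ofNat 0x219885d7e) (.cons 13 (.ofNat 0xaddf491430) (.cons 14 (.negSucc 0xa57e2b8f) (.cons 15 (.ofNat 0x1609dce6163) (.cons 16 (.ofNat 0x74f5bae908) (.cons 17 (.negSucc 0x17a5007241) (.cons 18 (.negSucc 0x53fa6bc47) .nil)))))),
   .cons 12 (.negSucc 0x123086d40) (.cons 13 (.negSucc 0x1e93c3cf85) (.cons 14 (.negSucc 0x6b557e378) (.cons 15 (.ofNat 0x74f5bae908) (.cons 16 (.ofNat 0x1b3508d9566) (.cons 17 (.ofNat 0x2935e9fd22) (.cons 18 (.ofNat 0x6dfb7d8ef) .nil)))))),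
   .cons 12 (.ofNat 0x804704f3) (.cons 13 (.ofNat 0x603a060ff) (.cons 14 (.ofNat 0x267d5d2c0) (.cons 15 (.negSucc 0x17a5007241) (.cons 16 (.ofNat 0x2935e9fd22) (.cons 17 (.ofNat 0x28c82737df2) (.cons 18 (.negSucc 0x78a18398e) .nil)))))),
   .cons 12 (.ofNat 0x11332da1be) (.cons 13 (.negSucc 0x44fc2fb5d) (.cons 14 (.ofNat 0x6a4979a594) (.cons 15 (.negSucc 0x53fa6bc47) (.cons 16 (.ofNat 0x6dfb7d8ef) (.cons 17 (.negSucc 0x78a18398e) (.cons 18 (.ofNat 0x165500ad36d) .nil)))))),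
   .cons 19 (.ofNat 0xd9b06fff91) (.cons 20 (.ofNat 0xae7890aa6c) (.cons 21 (.ofNat 0x1d4ecccd83) (.cons 22 (.negSucc 0x209b46a74) .nil))),
   .cons 19 (.ofNat 0xae7890aa6c) (.cons 20 (.ofNat 0x15d9b61d84c) (.cons 21 (.negSucc 0x7e9c0e0a8f) (.cons 22 (.ofNat 0x58783187c) .nil))),
   .cons 19 (.ofNat 0x1d4ecccd83) (.cons 20 (.negSucc 0x7e9c0e0a8f) (.cons 21 (.ofNat 0x1adaf944608) (.cons 22 (.ofNat 0xbfcb77704) .nil))),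
   .cons 19 (.negSucc 0x209b46a74) (.cons 20 (.ofNat 0x58783187c) (.cons 21 (.ofNat 0xbfcb77704) (.cons 22 (.ofNat 0x29127d2dc3b) .nil))),
   .cons 23 (.ofNat 0x28d47935aa0) .nil]

noncomputable def X16 : List SL :=
  [.cons 0 (.ofNat 0x28f091b10ff) .nil,
   .cons 1 (.ofNat 0xda6f271b60) (.cons 2 (.ofNat 0xae657546c8) (.cons 3 (.negSucc 0x1dd5ea8dc3) (.cons 4 (.ofNat 0x291b4bb39) .nil))),
   .cons 1 (.ofNat 0xae657546c8) (.cons 2 (.ofNat 0x15eca6fc1e7) (.cons 3 (.ofNat 0x7bbc0731db) (.cons 4 (.negSucc 0x9906b69b0) .nil))),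
   .cons 1 (.negSucc 0x1dd5ea8dc3) (.cons 2 (.ofNat 0x7bbc0731db) (.cons 3 (.ofNat 0x1af4a174a43) (.cons 4 (.ofNat 0x10904e0cfd) .nil))),
   .cons 1 (.ofNat 0x291b4bb39) (.cons 2 (.negSucc 0x9906b69b0) (.cons 3 (.ofNat 0x10904e0cfd) (.cons 4 (.ofNat 0x28fa5adc15b) .nil))),
   .cons 5 (.negSucc 0x8f73e9a752) (.cons 6 (.negSucc 0x44b75cb67) (.cons 7 (.negSucc 0x3efc27d1ae) (.cons 8 (.ofNat 0x19a48545a) (.cons 9 (.ofNat 0xd1e6d947) (.cons 10 (.negSucc 0x6773b637) (.cons 11 (.negSucc 0x114ce7d41a) .nil)))))),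
   .cons 5 (.negSucc 0x44b75cb67) (.cons 6 (.ofNat 0xdcf3f71e3f) (.cons 7 (.negSucc 0x6e29723e4) (.cons 8 (.negSucc 0xae1e568a0f) (.cons 9 (.negSucc 0x1e6f54748d) (.cons 10 (.ofNat 0x62fa1de0e) (.cons 11 (.negSucc 0x32ee74d75) .nil)))))),
   .cons 5 (.negSucc 0x3efc27d1ae) (.cons 6 (.negSucc 0x6e29723e4) (.cons 7 (.ofNat 0xa9053e54df) (.cons 8 (.ofNat 0x1013856e7) (.cons 9 (.negSucc 0x48aae19ba) (.cons 10 (.ofNat 0x1fb9f3016) (.cons 11 (.ofNat 0x69d3f52516) .nil)))))),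
   .cons 5 (.ofNat 0x19a48545a) (.cons 6 (.negSucc 0xae1e568a0f) (.cons 7 (.ofNat 0x1013856e7) (.cons 8 (.ofNat 0x15f1a7eb080) (.cons 9 (.negSucc 0x7434504f5e) (.cons 10 (.ofNat 0x19d37ecd4c) (.cons 11 (.ofNat 0x3f0e0cbd1) .nil)))))),
   .cons 5 (.ofNat 0xd1e6d947) (.cons 6 (.negSucc 0x1e6f54748d) (.cons 7 (.negSucc 0x48aae19ba) (.cons 8 (.negSucc 0x7434504f5e) (.cons 9 (.ofNat 0x1b51842b5de) (.cons 10 (.ofNat 0x2bff3e7bbf) (.cons 11 (.ofNat 0x3d2889c90) .nil)))))),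
   .cons 5 (.negSucc 0x6773b637) (.cons 6 (.ofNat 0x62fa1de0e) (.cons 7 (.ofNat 0x1fb9f3016) (.cons 8 (.ofNat 0x19d37ecd4c) (.cons 9 (.ofNat 0x2bff3e7bbf) (.cons 10 (.ofNat 0x2891356bfd9) (.cons 11 (.negSucc 0x5cbaabec3) .nil)))))),
   .cons 5 (.negSucc 0x114ce7d41a) (.cons 6 (.negSucc 0x32ee74d75) (.cons 7 (.ofNat 0x69d3f52516) (.cons 8 (.ofNat 0x3f0e0cbd1) (.cons 9 (.ofNat 0x3d2889c90) (.cons 10 (.negSucc 0x5cbaabec3) (.cons 11 (.ofNat 0x165260bc27f) .nil)))))),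
   .cons 12 (.negSucc 0x85aa756ba5) (.cons 13 (.ofNat 0x3cf35cfc8) (.cons 14 (.ofNat 0x4201898dd8) (.cons 15 (.negSucc 0xb71f9399) (.cons 16 (.ofNat 0x97f7542) (.cons 17 (.negSucc 0x2ca08697) (.cons 18 (.ofNat 0x12140f14bc) .nil)))))),
   .cons 12 (.ofNat 0x3cf35cfc8) (.cons 13 (.ofNat 0xde2175d96a) (.cons 14 (.negSucc 0x2c5012e85) (.cons 15 (.negSucc 0xaec7303bfc) (.cons 16 (.ofNat 0x1cccbccde5) (.cons 17 (.negSucc 0xa8927cb68) (.cons 18 (.ofNat 0x90a177c5) .nil)))))),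
   .cons 12 (.ofNat 0x4201898dd8) (.cons 13 (.negSucc 0x2c5012e85) (.cons 14 (.ofNat 0xa084e89a37) (.cons 15 (.ofNat 0x3b1efaa3a) (.cons 16 (.negSucc 0x12ec5d187) (.cons 17 (.negSucc 0x30bf5c9d) (.cons 18 (.ofNat 0x692589067d) .nil)))))),
   .cons 12 (.negSucc 0xb71f9399) (.cons 13 (.negSucc 0xaec7303bfc) (.cons 14 (.ofNat 0x3b1efaa3a) (.cons 15 (.ofNat 0x15b7dd4b77a) (.cons 16 (.ofNat 0x6cfcfd8367) (.cons 17 (.negSucc 0x2abacfea62) (.cons 18 (.negSucc 0xefdde332) .nil)))))),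
   .cons 12 (.ofNat 0x97f7542) (.cons 13 (.ofNat 0x1cccbccde5) (.cons 14 (.negSucc 0x12ec5d187) (.cons 15 (.ofNat 0x6cfcfd8367) (.cons 16 (.ofNat 0x1c7eb65445f) (.cons 17 (.ofNat 0x46e34f805a) (.cons 18 (.ofNat 0xb0de780a) .nil)))))),
   .cons 12 (.negSucc 0x2ca08697) (.cons 13 (.negSucc 0xa8927cb68) (.cons 14 (.negSucc 0x30bf5c9d) (.cons 15 (.negSucc 0x2abacfea62) (.cons 16 (.ofNat 0x46e34f805a) (.cons 17 (.ofNat 0x2789f7ee7b4) (.cons 18 (.ofNat 0x361e0b583) .nil)))))),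
   .cons 12 (.ofNat 0x12140f14bc) (.cons 13 (.ofNat 0x90a177c5) (.cons 14 (.ofNat 0x692589067d) (.cons 15 (.negSucc 0xefdde332) (.cons 16 (.ofNat 0xb0de780a) (.cons 17 (.ofNat 0x361e0b583) (.cons 18 (.ofNat 0x1605eeb0748) .nil)))))),
   .cons 19 (.ofNat 0xdd62d386b2) (.cons 20 (.negSucc 0xb043ddcdf4) (.cons 21 (.ofNat 0x195866ed91) (.cons 22 (.negSucc 0xd5be1ae5b) .nil))),
   .cons 19 (.negSucc 0xb043ddcdf4) (.cons 20 (.ofNat 0x15146a49f7b) (.cons 21 (.ofNat 0x670d0b06b7) (.cons 22 (.negSucc 0x3b4f7e78f3) .nil))),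
   .cons 19 (.ofNat 0x195866ed91) (.cons 20 (.ofNat 0x670d0b06b7) (.cons 21 (.ofNat 0x1e20725e7c0) (.cons 22 (.ofNat 0x58e9bbab3a) .nil))),
   .cons 19 (.negSucc 0xd5be1ae5b) (.cons 20 (.negSucc 0x3b4f7e78f3) (.cons 21 (.ofNat 0x58e9bbab3a) (.cons 22 (.ofNat 0x25ee780ae04) .nil))),
   .cons 23 (.ofNat 0x2896b7261a1) .nil]

noncomputable def X17 : List SL :=
  [.cons 0 (.ofNat 0x28aa14f7543) .nil,
   .cons 1 (.ofNat 0xdd39cded18) (.cons 2 (.negSucc 0xaff332b8f3) (.cons 3 (.negSucc 0x1d07960a3e) (.cons 4 (.negSucc 0x13a99aa8d) .nil))),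
   .cons 1 (.negSucc 0xaff332b8f3) (.cons 2 (.ofNat 0x15339f1ee62) (.cons 3 (.negSucc 0x7578eb2927) (.cons 4 (.ofNat 0x568244e7) .nil))),
   .cons 1 (.negSucc 0x1d07960a3e) (.cons 2 (.negSucc 0x7578eb2927) (.cons 3 (.ofNat 0x1b3e6460f63) (.cons 4 (.negSucc 0x21dbcda06) .nil))),
   .cons 1 (.negSucc 0x13a99aa8d) (.cons 2 (.ofNat 0x568244e7) (.cons 3 (.negSucc 0x21dbcda06) (.cons 4 (.ofNat 0x28ceece7938) .nil))),
   .cons 5 (.negSucc 0x8682a0a16d) (.cons 6 (.negSucc 0x1d806e827) (.cons 7 (.negSucc 0x41c1aadc6f) (.cons 8 (.negSucc 0x2c0afc47) (.cons 9 (.ofNat 0x542219b) (.cons 10 (.ofNat 0xe54b2fe) (.cons 11 (.ofNat 0x11ff7f32fa) .nil)))))),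
   .cons 5 (.negSucc 0x1d806e827) (.cons 6 (.ofNat 0xdd83f0bce4) (.cons 7 (.negSucc 0x286a78c03) (.cons 8 (.ofNat 0xaefab2edab) (.cons 9 (.negSucc 0x1e3d18b728) (.cons 10 (.ofNat 0x13a478e87) (.cons 11 (.ofNat 0x1d53ff1) .nil)))))),
   .cons 5 (.negSucc 0x41c1aadc6f) (.cons 6 (.negSucc 0x286a78c03) (.cons 7 (.ofNat 0xa1143da81c) (.cons 8 (.negSucc 0x2210f3cce) (.cons 9 (.ofNat 0x789568bc) (.cons 10 (.ofNat 0x4834b7ec) (.cons 11 (.negSucc 0x69177f266b) .nil)))))),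
   .cons 5 (.negSucc 0x2c0afc47) (.cons 6 (.ofNat 0xaefab2edab) (.cons 7 (.negSucc 0x2210f3cce) (.cons 8 (.ofNat 0x15a5e29f24c) (.cons 9 (.ofNat 0x7512d74c60) (.cons 10 (.ofNat 0x60302599) (.cons 11 (.ofNat 0xbd24c7f7) .nil)))))),
   .cons 5 (.ofNat 0x542219b) (.cons 6 (.negSucc 0x1e3d18b728) (.cons 7 (.ofNat 0x789568bc) (.cons 8 (.ofNat 0x7512d74c60) (.cons 9 (.ofNat 0x1b00f5377ce) (.cons 10 (.ofNat 0x1760ea18a) (.cons 11 (.negSucc 0x1999a733a) .nil)))))),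
   .cons 5 (.ofNat 0xe54b2fe) (.cons 6 (.ofNat 0x13a478e87) (.cons 7 (.ofNat 0x4834b7ec) (.cons 8 (.ofNat 0x60302599) (.cons 9 (.ofNat 0x1760ea18a) (.cons 10 (.ofNat 0x2900a977529) (.cons 11 (.negSucc 0x16a536915) .nil)))))),
   .cons 5 (.ofNat 0x11ff7f32fa) (.cons 6 (.ofNat 0x1d53ff1) (.cons 7 (.negSucc 0x69177f266b) (.cons 8 (.ofNat 0xbd24c7f7) (.cons 9 (.negSucc 0x1999a733a) (.cons 10 (.negSucc 0x16a536915) (.cons 11 (.ofNat 0x160ed63f831) .nil)))))),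
   .cons 12 (.negSucc 0x8ec563f52d) (.cons 13 (.ofNat 0x2357f56ca) (.cons 14 (.ofNat 0x3f58897ae6) (.cons 15 (.ofNat 0xa4522f95) (.cons 16 (.negSucc 0x34b4e2cd) (.cons 17 (.negSucc 0x21f7c81) (.cons 18 (.ofNat 0x118521f120) .nil)))))),
   .cons 12 (.ofNat 0x2357f56ca) (.cons 13 (.ofNat 0xdc86c6b0b4) (.cons 14 (.negSucc 0x4f85ab934) (.cons 15 (.ofNat 0xaea2fd852b) (.cons 16 (.negSucc 0x1e28827082) (.cons 17 (.ofNat 0x13bc08e37) (.cons 18 (.negSucc 0x1d93ed8e6) .nil)))))),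
   .cons 12 (.ofNat 0x3f58897ae6) (.cons 13 (.negSucc 0x4f85ab934) (.cons 14 (.ofNat 0xa72a4c6ccc) (.cons 15 (.ofNat 0x3aec65db) (.cons 16 (.negSucc 0x17a60b19e) (.cons 17 (.ofNat 0x26efced9) (.cons 18 (.ofNat 0x6ab62af19b) .nil)))))),
   .cons 12 (.ofNat 0xa4522f95) (.cons 13 (.ofNat 0xaea2fd852b) (.cons 14 (.ofNat 0x3aec65db) (.cons 15 (.ofNat 0x15c3a3e2b2e) (.cons 16 (.ofNat 0x7763435293) (.cons 17 (.negSucc 0x61a4b92b) (.cons 18 (.negSucc 0x6c5c84c0d) .nil)))))),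
   .cons 12 (.negSucc 0x34b4e2cd) (.cons 13 (.negSucc 0x1e28827082) (.cons 14 (.negSucc 0x17a60b19e) (.cons 15 (.ofNat 0x7763435293) (.cons 16 (.ofNat 0x1ad366c9cef) (.cons 17 (.ofNat 0x2318db11) (.cons 18 (.ofNat 0x351a21993) .nil)))))),
   .cons 12 (.negSucc 0x21f7c81) (.cons 13 (.ofNat 0x13bc08e37) (.cons 14 (.ofNat 0x26efced9) (.cons 15 (.negSucc 0x61a4b92b) (.cons 16 (.ofNat 0x2318db11) (.cons 17 (.ofNat 0x290ed7b9267) (.cons 18 (.ofNat 0xbda78e74) .nil)))))),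
   .cons 12 (.ofNat 0x118521f120) (.cons 13 (.negSucc 0x1d93ed8e6) (.cons 14 (.ofNat 0x6ab62af19b) (.cons 15 (.negSucc 0x6c5c84c0d) (.cons 16 (.ofNat 0x351a21993) (.cons 17 (.ofNat 0xbda78e74) (.cons 18 (.ofNat 0x16170ef4bef) .nil)))))),
   .cons 19 (.ofNat 0xda60a6e862) (.cons 20 (.ofNat 0xaebb7c7f24) (.cons 21 (.ofNat 0x1e46f3b314) (.cons 22 (.ofNat 0xa6a5f085) .nil))),
   .cons 19 (.ofNat 0xaebb7c7f24) (.cons 20 (.ofNat 0x15c5d43ec10) (.cons 21 (.negSucc 0x7c9c592355) (.cons 22 (.negSucc 0xa120010e) .nil))),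
   .cons 19 (.ofNat 0x1e46f3b314) (.cons 20 (.negSucc 0x7c9c592355) (.cons 21 (.ofNat 0x1abf917b148) (.cons 22 (.ofNat 0x206cf19d8) .nil))),
   .cons 19 (.ofNat 0xa6a5f085) (.cons 20 (.negSucc 0xa120010e) (.cons 21 (.ofNat 0x206cf19d8) (.cons 22 (.ofNat 0x28e88731ae3) .nil))),
   .cons 23 (.ofNat 0x28d20f89f7f) .nil]

noncomputable def X18 : List SL :=
  [.cons 0 (.ofNat 0x28cbde503cd) .nil,
   .cons 1 (.ofNat 0xdb76a908e1) (.cons 2 (.negSucc 0xaee754a6e6) (.cons 3 (.negSucc 0x1f0bb8c93b) (.cons 4 (.ofNat 0x3cb0f7ef5) .nil))),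
   .cons 1 (.negSucc 0xaee754a6e6) (.cons 2 (.ofNat 0x15d0bbd95cf) (.cons 3 (.negSucc 0x7aea816768) (.cons 4 (.ofNat 0x3c0f7083c) .nil))),
   .cons 1 (.negSucc 0x1f0bb8c93b) (.cons 2 (.negSucc 0x7aea816768) (.cons 3 (.ofNat 0x1ab2063d869) (.cons 4 (.ofNat 0x1f5d29883) .nil))),
   .cons 1 (.ofNat 0x3cb0f7ef5) (.cons 2 (.ofNat 0x3c0f7083c) (.cons 3 (.ofNat 0x1f5d29883) (.cons 4 (.ofNat 0x28d693a9b14) .nil))),
   .cons 5 (.negSucc 0x8e36a2c9f1) (.cons 6 (.negSucc 0x38c3f444b) (.cons 7 (.negSucc 0x3f56622fc6) (.cons 8 (.negSucc 0x4839ba2ce) (.cons 9 (.negSucc 0xbe7f58ca) (.cons 10 (.ofNat 0x2a917512) (.cons 11 (.ofNat 0x118b7eaf0f) .nil)))))),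
   .cons 5 (.negSucc 0x38c3f444b) (.cons 6 (.ofNat 0xdc27a8ed1e) (.cons 7 (.ofNat 0x2a926f75e) (.cons 8 (.ofNat 0xae9ca1453b) (.cons 9 (.negSucc 0x1e4466a09d) (.cons 10 (.negSucc 0x4a0f82432) (.cons 11 (.ofNat 0x4b1399e0) .nil)))))),
   .cons 5 (.negSucc 0x3f56622fc6) (.cons 6 (.ofNat 0x2a926f75e) (.cons 7 (.ofNat 0xa62fd3b403) (.cons 8 (.negSucc 0x6d078880) (.cons 9 (.ofNat 0x4741cd17) (.cons 10 (.ofNat 0x2be86092) (.cons 11 (.negSucc 0x6a95604563) .nil)))))),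
   .cons 5 (.negSucc 0x4839ba2ce) (.cons 6 (.ofNat 0xae9ca1453b) (.cons 7 (.negSucc 0x6d078880) (.cons 8 (.ofNat 0x15b4d448a17) (.cons 9 (.ofNat 0x778b0a71f2) (.cons 10 (.ofNat 0x40ecbe108) (.cons 11 (.negSucc 0x3fc3b872b) .nil)))))),
   .cons 5 (.negSucc 0xbe7f58ca) (.cons 6 (.negSucc 0x1e4466a09d) (.cons 7 (.ofNat 0x4741cd17) (.cons 8 (.ofNat 0x778b0a71f2) (.cons 9 (.ofNat 0x1ad8ce62251) (.cons 10 (.negSucc 0x307eb88fe) (.cons 11 (.ofNat 0x2de72be43) .nil)))))),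
   .cons 5 (.ofNat 0x2a917512) (.cons 6 (.negSucc 0x4a0f82432) (.cons 7 (.ofNat 0x2be86092) (.cons 8 (.ofNat 0x40ecbe108) (.cons 9 (.negSucc 0x307eb88fe) (.cons 10 (.ofNat 0x28da54aecc1) (.cons 11 (.negSucc 0xda8ddd30) .nil)))))),
   .cons 5 (.ofNat 0x118b7eaf0f) (.cons 6 (.ofNat 0x4b1399e0) (.cons 7 (.negSucc 0x6a95604563) (.cons 8 (.negSucc 0x3fc3b872b) (.cons 9 (.ofNat 0x2de72be43) (.cons 10 (.negSucc 0xda8ddd30) (.cons 11 (.ofNat 0x1607dd23391) .nil)))))),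
   .cons 12 (.negSucc 0x871987cf23) (.cons 13 (.ofNat 0x3d78465ac) (.cons 14 (.ofNat 0x41b108af03) (.cons 15 (.ofNat 0x48ca2179b) (.cons 16 (.ofNat 0x8fad611b) (.cons 17 (.negSucc 0x24349d26) (.cons 18 (.ofNat 0x1220290fd4) .nil)))))),
   .cons 12 (.ofNat 0x3d78465ac) (.cons 13 (.ofNat 0xdc4641aed7) (.cons 14 (.ofNat 0x1868ae86e) (.cons 15 (.ofNat 0xaed9cc21d7) (.cons 16 (.negSucc 0x1d4370b07b) (.cons 17 (.negSucc 0x4abae3cd6) (.cons 18 (.negSucc 0x8bd52e50) .nil)))))),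
   .cons 12 (.ofNat 0x41b108af03) (.cons 13 (.ofNat 0x1868ae86e) (.cons 14 (.ofNat 0xa0736796a0) (.cons 15 (.ofNat 0x19b0bc4d0) (.cons 16 (.negSucc 0xdb7d107b) (.cons 17 (.ofNat 0x1bd8ff99) (.cons 18 (.ofNat 0x697351320d) .nil)))))),
   .cons 12 (.ofNat 0x48ca2179b) (.cons 13 (.ofNat 0xaed9cc21d7) (.cons 14 (.ofNat 0x19b0bc4d0) (.cons 15 (.ofNat 0x1571c7dca68) (.cons 16 (.ofNat 0x75c45128b8) (.cons 17 (.ofNat 0x409d7ee11) (.cons 18 (.ofNat 0xa6e83ec1) .nil)))))),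
   .cons 12 (.ofNat 0x8fad611b) (.cons 13 (.negSucc 0x1d4370b07b) (.cons 14 (.negSucc 0xdb7d107b) (.cons 15 (.ofNat 0x75c45128b8) (.cons 16 (.ofNat 0x1b0183d08bd) (.cons 17 (.negSucc 0x463af87ea) (.cons 18 (.negSucc 0x11b12447f) .nil)))))),
   .cons 12 (.negSucc 0x24349d26) (.cons 13 (.negSucc 0x4abae3cd6) (.cons 14 (.ofNat 0x1bd8ff99) (.cons 15 (.ofNat 0x409d7ee11) (.cons 16 (.negSucc 0x463af87ea) (.cons 17 (.ofNat 0x28ca81023d2) (.cons 18 (.ofNat 0xbde0aa71) .nil)))))),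
   .cons 12 (.ofNat 0x1220290fd4) (.cons 13 (.negSucc 0x8bd52e50) (.cons 14 (.ofNat 0x697351320d) (.cons 15 (.ofNat 0xa6e83ec1) (.cons 16 (.negSucc 0x11b12447f) (.cons 17 (.ofNat 0xbde0aa71) (.cons 18 (.ofNat 0x15f2d9d1ba6) .nil)))))),
   .cons 19 (.ofNat 0xdbc3db6a01) (.cons 20 (.ofNat 0xafbc56e83a) (.cons 21 (.ofNat 0x1c362e395e) (.cons 22 (.negSucc 0x3e38a6085) .nil))),
   .cons 19 (.ofNat 0xafbc56e83a) (.cons 20 (.ofNat 0x151a905f01d) (.cons 21 (.negSucc 0x763ec4ee79) (.cons 22 (.ofNat 0x30ef448b6) .nil))),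
   .cons 19 (.ofNat 0x1c362e395e) (.cons 20 (.negSucc 0x763ec4ee79) (.cons 21 (.ofNat 0x1b2c5386209) (.cons 22 (.ofNat 0x4c1ec2e67) .nil))),
   .cons 19 (.negSucc 0x3e38a6085) (.cons 20 (.ofNat 0x30ef448b6) (.cons 21 (.ofNat 0x4c1ec2e67) (.cons 22 (.ofNat 0x28b3ec337c3) .nil))),
   .cons 23 (.ofNat 0x28952d62a01) .nil]

noncomputable def X19 : List SL :=
  [.cons 0 (.ofNat 0x28a9eba5a63) .nil,
   .cons 1 (.ofNat 0xda226c8aa8) (.cons 2 (.negSucc 0xad95a846cd) (.cons 3 (.negSucc 0x1e8c033dce) (.cons 4 (.ofNat 0x125da5ae2) .nil))),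
   .cons 1 (.negSucc 0xad95a846cd) (.cons 2 (.ofNat 0x1557441cedb) (.cons 3 (.negSucc 0x76ea8b9bcb) (.cons 4 (.negSucc 0x124d2c48e) .nil))),
   .cons 1 (.negSucc 0x1e8c033dce) (.cons 2 (.negSucc 0x76ea8b9bcb) (.cons 3 (.ofNat 0x1b19fe9f9ec) (.cons 4 (.negSucc 0x126d40120) .nil))),
   .cons 1 (.ofNat 0x125da5ae2) (.cons 2 (.negSucc 0x124d2c48e) (.cons 3 (.negSucc 0x126d40120) (.cons 4 (.ofNat 0x28b91cbbefc) .nil))),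
   .cons 5 (.negSucc 0x88b7cfc753) (.cons 6 (.ofNat 0x38bb63542) (.cons 7 (.negSucc 0x3ef12c0afd) (.cons 8 (.ofNat 0x8abd2c86) (.cons 9 (.negSucc 0x2d5a08268) (.cons 10 (.negSucc 0x1370b288) (.cons 11 (.ofNat 0xf2f90d40c) .nil)))))),
   .cons 5 (.ofNat 0x38bb63542) (.cons 6 (.ofNat 0xdb62fb868f) (.cons 7 (.negSucc 0x11b3ae4ca) (.cons 8 (.ofNat 0xae5b6074e3) (.cons 9 (.negSucc 0x1df7bb52b9) (.cons 10 (.negSucc 0x16836c994) (.cons 11 (.negSucc 0x310df3e9) .nil)))))),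
   .cons 5 (.negSucc 0x3ef12c0afd) (.cons 6 (.negSucc 0x11b3ae4ca) (.cons 7 (.ofNat 0xa1f9e6e1d5) (.cons 8 (.negSucc 0x8e9c8f2c) (.cons 9 (.ofNat 0xc91073de) (.cons 10 (.ofNat 0x247da177) (.cons 11 (.negSucc 0x6a5c104656) .nil)))))),
   .cons 5 (.ofNat 0x8abd2c86) (.cons 6 (.ofNat 0xae5b6074e3) (.cons 7 (.negSucc 0x8e9c8f2c) (.cons 8 (.ofNat 0x157ca3f44ff) (.cons 9 (.ofNat 0x76e8d9fca4) (.cons 10 (.negSucc 0x1d9657c35) (.cons 11 (.ofNat 0x15a28e3d3) .nil)))))),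
   .cons 5 (.negSucc 0x2d5a08268) (.cons 6 (.negSucc 0x1df7bb52b9) (.cons 7 (.ofNat 0xc91073de) (.cons 8 (.ofNat 0x76e8d9fca4) (.cons 9 (.ofNat 0x1af582f6a8c) (.cons 10 (.ofNat 0x14b51f39a) (.cons 11 (.negSucc 0xf920397a) .nil)))))),
   .cons 5 (.negSucc 0x1370b288) (.cons 6 (.negSucc 0x16836c994) (.cons 7 (.ofNat 0x247da177) (.cons 8 (.negSucc 0x1d9657c35) (.cons 9 (.ofNat 0x14b51f39a) (.cons 10 (.ofNat 0x28c4c5f80b8) (.cons 11 (.negSucc 0x6fdd3bb8) .nil)))))),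
   .cons 5 (.ofNat 0xf2f90d40c) (.cons 6 (.negSucc 0x310df3e9) (.cons 7 (.negSucc 0x6a5c104656) (.cons 8 (.ofNat 0x15a28e3d3) (.cons 9 (.negSucc 0xf920397a) (.cons 10 (.negSucc 0x6fdd3bb8) (.cons 11 (.ofNat 0x15fc878618a) .nil)))))),
   .cons 12 (.negSucc 0x8c9662cc45) (.cons 13 (.negSucc 0x36b573579) (.cons 14 (.ofNat 0x422babe7f1) (.cons 15 (.negSucc 0xbcc2b5b0) (.cons 16 (.ofNat 0x2d5ba549f) (.cons 17 (.ofNat 0x16ccdec7) (.cons 18 (.ofNat 0x14d2f30708) .nil)))))),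
   .cons 12 (.negSucc 0x36b573579) (.cons 13 (.ofNat 0xdc69e3f261) (.cons 14 (.negSucc 0x1b1c0e909) (.cons 15 (.ofNat 0xaf91005130) (.cons 16 (.negSucc 0x1d6cccffb9) (.cons 17 (.negSucc 0x171328fb7) (.cons 18 (.ofNat 0x78b38414) .nil)))))),
   .cons 12 (.ofNat 0x422babe7f1) (.cons 13 (.negSucc 0x1b1c0e909) (.cons 14 (.ofNat 0xa3d9f7e63e) (.cons 15 (.ofNat 0xca3981d6) (.cons 16 (.negSucc 0xef6168a) (.cons 17 (.ofNat 0x26b74d1e) (.cons 18 (.ofNat 0x69f8e0aee1) .nil)))))),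
   .cons 12 (.negSucc 0xbcc2b5b0) (.cons 13 (.ofNat 0xaf91005130) (.cons 14 (.ofNat 0xca3981d6) (.cons 15 (.ofNat 0x1586851ca3a) (.cons 16 (.ofNat 0x77c1c9419b) (.cons 17 (.negSucc 0x1d4fbbdc5) (.cons 18 (.negSucc 0x381907e6b) .nil)))))),
   .cons 12 (.ofNat 0x2d5ba549f) (.cons 13 (.negSucc 0x1d6cccffb9) (.cons 14 (.negSucc 0xef6168a) (.cons 15 (.ofNat 0x77c1c9419b) (.cons 16 (.ofNat 0x1ad2bf028c9) (.cons 17 (.ofNat 0x7cfc1cc5) (.cons 18 (.ofNat 0x1e2018970) .nil)))))),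
   .cons 12 (.ofNat 0x16ccdec7) (.cons 13 (.negSucc 0x171328fb7) (.cons 14 (.ofNat 0x26b74d1e) (.cons 15 (.negSucc 0x1d4fbbdc5) (.cons 16 (.ofNat 0x7cfc1cc5) (.cons 17 (.ofNat 0x28c1718ea66) (.cons 18 (.ofNat 0x418dbf5b) .nil)))))),
   .cons 12 (.ofNat 0x14d2f30708) (.cons 13 (.ofNat 0x78b38414) (.cons 14 (.ofNat 0x69f8e0aee1) (.cons 15 (.negSucc 0x381907e6b) (.cons 16 (.ofNat 0x1e2018970) (.cons 17 (.ofNat 0x418dbf5b) (.cons 18 (.ofNat 0x15dcb8d138d) .nil)))))),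
   .cons 19 (.ofNat 0xdd317cc1a2) (.cons 20 (.ofNat 0xb13f8d8ea5) (.cons 21 (.ofNat 0x1d0c5e0378) (.cons 22 (.negSucc 0x13c22b47d) .nil))),
   .cons 19 (.ofNat 0xb13f8d8ea5) (.cons 20 (.ofNat 0x158dd3b2113) (.cons 21 (.negSucc 0x79f41ffbe7) (.cons 22 (.negSucc 0x1c337c558) .nil))),
   .cons 19 (.ofNat 0x1d0c5e0378) (.cons 20 (.negSucc 0x79f41ffbe7) (.cons 21 (.ofNat 0x1ab1ffb4c10) (.cons 22 (.ofNat 0x4c7e647f) .nil))),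
   .cons 19 (.negSucc 0x13c22b47d) (.cons 20 (.negSucc 0x1c337c558) (.cons 21 (.ofNat 0x4c7e647f) (.cons 22 (.ofNat 0x28bb47212c7) .nil))),
   .cons 23 (.ofNat 0x28b062b6edb) .nil]

noncomputable def X20 : List SL :=
  [.cons 0 (.ofNat 0x28a0f644087) .nil,
   .cons 1 (.ofNat 0xdc4929197e) (.cons 2 (.negSucc 0xb0c3eea97c) (.cons 3 (.negSucc 0x1b95bf6bd1) (.cons 4 (.negSucc 0x1d2130933) .nil))),
   .cons 1 (.negSucc 0xb0c3eea97c) (.cons 2 (.ofNat 0x158966faf3c) (.cons 3 (.negSucc 0x789a0a1dfe) (.cons 4 (.ofNat 0x207fb7b55) .nil))),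
   .cons 1 (.negSucc 0x1b95bf6bd1) (.cons 2 (.negSucc 0x789a0a1dfe) (.cons 3 (.ofNat 0x1ac5f2cd9f6) (.cons 4 (.ofNat 0x1050bebff) .nil))),
   .cons 1 (.negSucc 0x1d2130933) (.cons 2 (.ofNat 0x207fb7b55) (.cons 3 (.ofNat 0x1050bebff) (.cons 4 (.ofNat 0x28ae915a008) .nil))),
   .cons 5 (.negSucc 0x8c119d6cd1) (.cons 6 (.negSucc 0x2b0da59cf) (.cons 7 (.negSucc 0x4286a3edc7) (.cons 8 (.ofNat 0x13fae52c6) (.cons 9 (.negSucc 0x2208dfe4) (.cons 10 (.negSucc 0x12be76df) (.cons 11 (.ofNat 0x13344ee4d4) .nil)))))),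
   .cons 5 (.negSucc 0x2b0da59cf) (.cons 6 (.ofNat 0xdbfe1424d6) (.cons 7 (.ofNat 0x15ef16c36) (.cons 8 (.ofNat 0xaf99abe415) (.cons 9 (.negSucc 0x1d0b69c3b2) (.cons 10 (.ofNat 0x23ff9c139) (.cons 11 (.negSucc 0x876093af) .nil)))))),
   .cons 5 (.negSucc 0x4286a3edc7) (.cons 6 (.ofNat 0x15ef16c36) (.cons 7 (.ofNat 0xa2ff6a0ab4) (.cons 8 (.negSucc 0x81d3139c) (.cons 9 (.negSucc 0x716b8fc2) (.cons 10 (.ofNat 0x133b429c) (.cons 11 (.negSucc 0x692ac7f9e5) .nil)))))),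
   .cons 5 (.ofNat 0x13fae52c6) (.cons 6 (.ofNat 0xaf99abe415) (.cons 7 (.negSucc 0x81d3139c) (.cons 8 (.ofNat 0x158567b5d9f) (.cons 9 (.ofNat 0x77c9ff0255) (.cons 10 (.ofNat 0x21ee30b52) (.cons 11 (.negSucc 0x182a9df82) .nil)))))),
   .cons 5 (.negSucc 0x2208dfe4) (.cons 6 (.negSucc 0x1d0b69c3b2) (.cons 7 (.negSucc 0x716b8fc2) (.cons 8 (.ofNat 0x77c9ff0255) (.cons 9 (.ofNat 0x1ad77c9fd17) (.cons 10 (.negSucc 0x11b08d2b8) (.cons 11 (.ofNat 0x11ddab9bf) .nil)))))),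
   .cons 5 (.negSucc 0x12be76df) (.cons 6 (.ofNat 0x23ff9c139) (.cons 7 (.ofNat 0x133b429c) (.cons 8 (.ofNat 0x21ee30b52) (.cons 9 (.negSucc 0x11b08d2b8) (.cons 10 (.ofNat 0x28bb40f6315) (.cons 11 (.negSucc 0x494b52de) .nil)))))),
   .cons 5 (.ofNat 0x13344ee4d4) (.cons 6 (.negSucc 0x876093af) (.cons 7 (.negSucc 0x692ac7f9e5) (.cons 8 (.negSucc 0x182a9df82) (.cons 9 (.ofNat 0x11ddab9bf) (.cons 10 (.negSucc 0x494b52de) (.cons 11 (.ofNat 0x15e6b507ba7) .nil)))))),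
   .cons 12 (.negSucc 0x893baa8bce) (.cons 13 (.ofNat 0x2c0ded759) (.cons 14 (.ofNat 0x3ea25b75d1) (.cons 15 (.negSucc 0x1678644a9) (.cons 16 (.ofNat 0x290b687e) (.cons 17 (.ofNat 0x1568611e) (.cons 18 (.ofNat 0x10cbdaa4f3) .nil)))))),
   .cons 12 (.ofNat 0x2c0ded759) (.cons 13 (.ofNat 0xdb9938b1e9) (.cons 14 (.ofNat 0x110584bfb) (.cons 15 (.ofNat 0xaeb1b1d5d5) (.cons 16 (.negSucc 0x1e85702d24) (.cons 17 (.ofNat 0x238135af0) (.cons 18 (.ofNat 0xd6913ce3) .nil)))))),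
   .cons 12 (.ofNat 0x3ea25b75d1) (.cons 13 (.ofNat 0x110584bfb) (.cons 14 (.ofNat 0xa26585a814) (.cons 15 (.ofNat 0x53613609) (.cons 16 (.negSucc 0xfab80d76) (.cons 17 (.ofNat 0x10f471bb) (.cons 18 (.ofNat 0x6ba507348d) .nil)))))),
   .cons 12 (.negSucc 0x1678644a9) (.cons 13 (.ofNat 0xaeb1b1d5d5) (.cons 14 (.ofNat 0x53613609) (.cons 15 (.ofNat 0x156cdb8f192) (.cons 16 (.ofNat 0x7770ede28e) (.cons 17 (.ofNat 0x23f6c2999) (.cons 18 (.ofNat 0x17865609) .nil)))))),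
   .cons 12 (.ofNat 0x290b687e) (.cons 13 (.negSucc 0x1e85702d24) (.cons 14 (.negSucc 0xfab80d76) (.cons 15 (.ofNat 0x7770ede28e) (.cons 16 (.ofNat 0x1ae8b4105eb) (.cons 17 (.negSucc 0x1aa2159da) (.cons 18 (.negSucc 0x9ef73afa) .nil)))))),
   .cons 12 (.ofNat 0x1568611e) (.cons 13 (.ofNat 0x238135af0) (.cons 14 (.ofNat 0x10f471bb) (.cons 15 (.ofNat 0x23f6c2999) (.cons 16 (.negSucc 0x1aa2159da) (.cons 17 (.ofNat 0x28bb0ff729c) (.cons 18 (.ofNat 0x1fce1b8b) .nil)))))),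
   .cons 12 (.ofNat 0x10cbdaa4f3) (.cons 13 (.ofNat 0xd6913ce3) (.cons 14 (.ofNat 0x6ba507348d) (.cons 15 (.ofNat 0x17865609) (.cons 16 (.negSucc 0x9ef73afa) (.cons 17 (.ofNat 0x1fce1b8b) (.cons 18 (.ofNat 0x15de84f8c33) .nil)))))),
   .cons 19 (.ofNat 0xdb12c96b80) (.cons 20 (.ofNat 0xae1d39ed79) (.cons 21 (.ofNat 0x20227c2b89) (.cons 22 (.ofNat 0x1c1840c75) .nil))),
   .cons 19 (.ofNat 0xae1d39ed79) (.cons 20 (.ofNat 0x15571543346) (.cons 21 (.negSucc 0x7820518c8a) (.cons 22 (.ofNat 0x1ac8ad35d) .nil))),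
   .cons 19 (.ofNat 0x20227c2b89) (.cons 20 (.negSucc 0x7820518c8a) (.cons 21 (.ofNat 0x1af9a3d5834) (.cons 22 (.ofNat 0x1dee7b7ba) .nil))),
   .cons 19 (.ofNat 0x1c1840c75) (.cons 20 (.ofNat 0x1ac8ad35d) (.cons 21 (.ofNat 0x1dee7b7ba) (.cons 22 (.ofNat 0x28ba85f7f79) .nil))),
   .cons 23 (.ofNat 0x28b7f87aa38) .nil]

noncomputable def X21 : List SL :=
  [.cons 0 (.ofNat 0x28aabcfcbeb) .nil,
   .cons 1 (.ofNat 0xdb0790251b) (.cons 2 (.negSucc 0xae51723407) (.cons 3 (.negSucc 0x205a225992) (.cons 4 (.ofNat 0x235dc673b) .nil))),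
   .cons 1 (.negSucc 0xae51723407) (.cons 2 (.ofNat 0x156012b0f18) (.cons 3 (.negSucc 0x77c6f707a4) (.cons 4 (.negSucc 0x8c5648d0) .nil))),
   .cons 1 (.negSucc 0x205a225992) (.cons 2 (.negSucc 0x77c6f707a4) (.cons 3 (.ofNat 0x1af26fca785) (.cons 4 (.negSucc 0x22386f8b) .nil))),
   .cons 1 (.ofNat 0x235dc673b) (.cons 2 (.negSucc 0x8c5648d0) (.cons 3 (.negSucc 0x22386f8b) (.cons 4 (.ofNat 0x28b20705f48) .nil))),
   .cons 5 (.negSucc 0x89a598a841) (.cons 6 (.ofNat 0x21d160076) (.cons 7 (.negSucc 0x3ebb5f333e) (.cons 8 (.negSucc 0x22ed83ea2) (.cons 9 (.ofNat 0xbf89647a) (.cons 10 (.negSucc 0xb6e8e91) (.cons 11 (.ofNat 0x127db14fe4) .nil)))))),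
   .cons 5 (.ofNat 0x21d160076) (.cons 6 (.ofNat 0xdb85f2cdcc) (.cons 7 (.negSucc 0xc88be7ae) (.cons 8 (.ofNat 0xaee6194ad0) (.cons 9 (.negSucc 0x1eb0fbd54a) (.cons 10 (.negSucc 0x2aa690749) (.cons 11 (.ofNat 0xbd55f307) .nil)))))),
   .cons 5 (.negSucc 0x3ebb5f333e) (.cons 6 (.negSucc 0xc88be7ae) (.cons 7 (.ofNat 0xa23a8db4ae) (.cons 8 (.negSucc 0x42360a52) (.cons 9 (.ofNat 0xa02fd6e4) (.cons 10 (.ofNat 0x92aa4e1) (.cons 11 (.negSucc 0x6b301770f8) .nil)))))),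
   .cons 5 (.negSucc 0x22ed83ea2) (.cons 6 (.ofNat 0xaee6194ad0) (.cons 7 (.negSucc 0x42360a52) (.cons 8 (.ofNat 0x157314f5d93) (.cons 9 (.ofNat 0x77b6a10a9b) (.cons 10 (.negSucc 0xfe419450) (.cons 11 (.ofNat 0xa89cce5f) .nil)))))),
   .cons 5 (.ofNat 0xbf89647a) (.cons 6 (.negSucc 0x1eb0fbd54a) (.cons 7 (.ofNat 0xa02fd6e4) (.cons 8 (.ofNat 0x77b6a10a9b) (.cons 9 (.ofNat 0x1ae50651382) (.cons 10 (.ofNat 0x70d38071) (.cons 11 (.negSucc 0x546280ad) .nil)))))),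
   .cons 5 (.negSucc 0xb6e8e91) (.cons 6 (.negSucc 0x2aa690749) (.cons 7 (.ofNat 0x92aa4e1) (.cons 8 (.negSucc 0xfe419450) (.cons 9 (.ofNat 0x70d38071) (.cons 10 (.ofNat 0x28b97c4730f) (.cons 11 (.negSucc 0x341103dc) .nil)))))),
   .cons 5 (.ofNat 0x127db14fe4) (.cons 6 (.ofNat 0xbd55f307) (.cons 7 (.negSucc 0x6b301770f8) (.cons 8 (.ofNat 0xa89cce5f) (.cons 9 (.negSucc 0x546280ad) (.cons 10 (.negSucc 0x341103dc) (.cons 11 (.ofNat 0x15e73c6517b) .nil)))))),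
   .cons 12 (.negSucc 0x8ba769be6b) (.cons 13 (.negSucc 0x214428ef7) (.cons 14 (.ofNat 0x427417756b) (.cons 15 (.ofNat 0x21488de21) (.cons 16 (.negSucc 0xbafcb67a) (.cons 17 (.ofNat 0xd507fd6) (.cons 18 (.ofNat 0x1173d31ca0) .nil)))))),
   .cons 12 (.negSucc 0x214428ef7) (.cons 13 (.ofNat 0xdbf8e120df) (.cons 14 (.negSucc 0xf25090e4) (.cons 15 (.ofNat 0xafa1b31f2a) (.cons 16 (.negSucc 0x1cfcc963cc) (.cons 17 (.negSucc 0x2abde4b3f) (.cons 18 (.negSucc 0x8c092796) .nil)))))),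
   .cons 12 (.ofNat 0x427417756b) (.cons 13 (.negSucc 0xf25090e4) (.cons 14 (.ofNat 0xa2f5548e13) (.cons 15 (.ofNat 0x4838de3c) (.cons 16 (.ofNat 0x4c8d87f1) (.cons 17 (.ofNat 0xa490869) (.cons 18 (.ofNat 0x69ecea7c78) .nil)))))),
   .cons 12 (.ofNat 0x21488de21) (.cons 13 (.ofNat 0xafa1b31f2a) (.cons 14 (.ofNat 0x4838de3c) (.cons 15 (.ofNat 0x15755872f04) (.cons 16 (.ofNat 0x77e7e437c2) (.cons 17 (.negSucc 0xd22f111e) (.cons 18 (.negSucc 0x1a17d4eea) .nil)))))),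
   .cons 12 (.negSucc 0xbafcb67a) (.cons 13 (.negSucc 0x1cfcc963cc) (.cons 14 (.ofNat 0x4c8d87f1) (.cons 15 (.ofNat 0x77e7e437c2) (.cons 16 (.ofNat 0x1ad5f46b5c5) (.cons 17 (.ofNat 0x4eed051) (.cons 18 (.ofNat 0x9976aeef) .nil)))))),
   .cons 12 (.ofNat 0xd507fd6) (.cons 13 (.negSucc 0x2abde4b3f) (.cons 14 (.ofNat 0xa490869) (.cons 15 (.negSucc 0xd22f111e) (.cons 16 (.ofNat 0x4eed051) (.cons 17 (.ofNat 0x28b53d2a5d3) (.cons 18 (.ofNat 0x9ed1749) .nil)))))),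
   .cons 12 (.ofNat 0x1173d31ca0) (.cons 13 (.negSucc 0x8c092796) (.cons 14 (.ofNat 0x69ecea7c78) (.cons 15 (.negSucc 0x1a17d4eea) (.cons 16 (.ofNat 0x9976aeef) (.cons 17 (.ofNat 0x9ed1749) (.cons 18 (.ofNat 0x15d31c349a6) .nil)))))),
   .cons 19 (.ofNat 0xdc59436f3e) (.cons 20 (.ofNat 0xb090386675) (.cons 21 (.ofNat 0x1b656fc6dd) (.cons 22 (.negSucc 0x237598bae) .nil))),
   .cons 19 (.ofNat 0xb090386675) (.cons 20 (.ofNat 0x157ea72c7ee) (.cons 21 (.negSucc 0x78e57e65a5) (.cons 22 (.negSucc 0xcddfcdb9) .nil))),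
   .cons 19 (.ofNat 0x1b656fc6dd) (.cons 20 (.negSucc 0x78e57e65a5) (.cons 21 (.ofNat 0x1ac5a735815) (.cons 22 (.ofNat 0x64667e38) .nil))),
   .cons 19 (.negSucc 0x237598bae) (.cons 20 (.negSucc 0xcddfcdb9) (.cons 21 (.ofNat 0x64667e38) (.cons 22 (.ofNat 0x28b1eb677f4) .nil))),
   .cons 23 (.ofNat 0x28adb27d086) .nil]

noncomputable def X22 : List SL :=
  [.cons 0 (.ofNat 0x28a3fd5d5b6) .nil,
   .cons 1 (.ofNat 0xdc11d17b51) (.cons 2 (.negSucc 0xb057bb46b6) (.cons 3 (.negSucc 0x1bd6a7853d) (.cons 4 (.negSucc 0x1b3f41d81) .nil))),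
   .cons 1 (.negSucc 0xb057bb46b6) (.cons 2 (.ofNat 0x157c83fbafd) (.cons 3 (.negSucc 0x788d97872e) (.cons 4 (.ofNat 0x16aa468ab) .nil))),
   .cons 1 (.negSucc 0x1bd6a7853d) (.cons 2 (.negSucc 0x788d97872e) (.cons 3 (.ofNat 0x1acd443ed3d) (.cons 4 (.ofNat 0xfc2ae249) .nil))),
   .cons 1 (.negSucc 0x1b3f41d81) (.cons 2 (.ofNat 0x16aa468ab) (.cons 3 (.ofNat 0xfc2ae249) (.cons 4 (.ofNat 0x28ac6cb1bed) .nil))),
   .cons 5 (.negSucc 0x8b71757e6f) (.cons 6 (.negSucc 0x1bbb30feb) (.cons 7 (.negSucc 0x42392de5c2) (.cons 8 (.ofNat 0x20d3d65c3) (.cons 9 (.negSucc 0x1194c7462) (.cons 10 (.negSucc 0x7c0c5fa) (.cons 11 (.ofNat 0x10c041e833) .nil)))))),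
   .cons 5 (.negSucc 0x1bbb30feb) (.cons 6 (.ofNat 0xdbd7a4dbd1) (.cons 7 (.ofNat 0xbdd3161b) (.cons 8 (.ofNat 0xafa46ed54e) (.cons 9 (.negSucc 0x1d3a18ca55) (.cons 10 (.ofNat 0x21df0ce56) (.cons 11 (.negSucc 0x956a6091) .nil)))))),
   .cons 5 (.negSucc 0x42392de5c2) (.cons 6 (.ofNat 0xbdd3161b) (.cons 7 (.ofNat 0xa2c81a7fab) (.cons 8 (.negSucc 0x51183a03) (.cons 9 (.negSucc 0x4057b7df) (.cons 10 (.ofNat 0x4384671) (.cons 11 (.negSucc 0x69fef3b46c) .nil)))))),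
   .cons 5 (.ofNat 0x20d3d65c3) (.cons 6 (.ofNat 0xafa46ed54e) (.cons 7 (.negSucc 0x51183a03) (.cons 8 (.ofNat 0x157a2051256) (.cons 9 (.ofNat 0x781546fc9f) (.cons 10 (.ofNat 0x170a39b37) (.cons 11 (.negSucc 0xfaa4ac99) .nil)))))),
   .cons 5 (.negSucc 0x1194c7462) (.cons 6 (.negSucc 0x1d3a18ca55) (.cons 7 (.negSucc 0x4057b7df) (.cons 8 (.ofNat 0x781546fc9f) (.cons 9 (.ofNat 0x1ad7e575217) (.cons 10 (.negSucc 0xd8611f7c) (.cons 11 (.ofNat 0x849c4524) .nil)))))),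
   .cons 5 (.negSucc 0x7c0c5fa) (.cons 6 (.ofNat 0x21df0ce56) (.cons 7 (.ofNat 0x4384671) (.cons 8 (.ofNat 0x170a39b37) (.cons 9 (.negSucc 0xd8611f7c) (.cons 10 (.ofNat 0x28b5dacd445) (.cons 11 (.negSucc 0x2648b974) .nil)))))),
   .cons 5 (.ofNat 0x10c041e833) (.cons 6 (.negSucc 0x956a6091) (.cons 7 (.negSucc 0x69fef3b46c) (.cons 8 (.negSucc 0xfaa4ac99) (.cons 9 (.ofNat 0x849c4524) (.cons 10 (.negSucc 0x2648b974) (.cons 11 (.ofNat 0x15da744e3c6) .nil)))))),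
   .cons 12 (.negSucc 0x89db4ea56f) (.cons 13 (.ofNat 0x1c05ee549) (.cons 14 (.ofNat 0x3ef96efff0) (.cons 15 (.negSucc 0x21dd7852d) (.cons 16 (.ofNat 0x119cbc894) (.cons 17 (.ofNat 0xa88e564) (.cons 18 (.ofNat 0x132829d53d) .nil)))))),
   .cons 12 (.ofNat 0x1c05ee549) (.cons 13 (.ofNat 0xdb99e4e1c4) (.cons 14 (.ofNat 0xa8d0268f) (.cons 15 (.ofNat 0xaf0556740d) (.cons 16 (.negSucc 0x1e8e248a45) (.cons 17 (.ofNat 0x21ca8b2d0) (.cons 18 (.ofNat 0xaaaeb3fd) .nil)))))),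
   .cons 12 (.ofNat 0x3ef96efff0) (.cons 13 (.ofNat 0xa8d0268f) (.cons 14 (.ofNat 0xa24e4af657) (.cons 15 (.ofNat 0xc221f83) (.cons 16 (.negSucc 0x786202ac) (.cons 17 (.ofNat 0x2e8fbfc) (.cons 18 (.ofNat 0x6b49eff58c) .nil)))))),
   .cons 12 (.negSucc 0x21dd7852d) (.cons 13 (.ofNat 0xaf0556740d) (.cons 14 (.ofNat 0xc221f83) (.cons 15 (.ofNat 0x15693a5916d) (.cons 16 (.ofNat 0x77bcb23cfe) (.cons 17 (.ofNat 0x1a379ea4f) (.cons 18 (.ofNat 0x48e91339) .nil)))))),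
   .cons 12 (.ofNat 0x119cbc894) (.cons 13 (.negSucc 0x1e8e248a45) (.cons 14 (.negSucc 0x786202ac) (.cons 15 (.ofNat 0x77bcb23cfe) (.cons 16 (.ofNat 0x1ae09ba1fbe) (.cons 17 (.negSucc 0x12f562bab) (.cons 18 (.negSucc 0x642676b6) .nil)))))),
   .cons 12 (.ofNat 0xa88e564) (.cons 13 (.ofNat 0x21ca8b2d0) (.cons 14 (.ofNat 0x2e8fbfc) (.cons 15 (.ofNat 0x1a379ea4f) (.cons 16 (.negSucc 0x12f562bab) (.cons 17 (.ofNat 0x28b457d06cf) (.cons 18 (.negSucc 0x3c809f2) .nil)))))),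
   .cons 12 (.ofNat 0x132829d53d) (.cons 13 (.ofNat 0xaaaeb3fd) (.cons 14 (.ofNat 0x6b49eff58c) (.cons 15 (.ofNat 0x48e91339) (.cons 16 (.negSucc 0x642676b6) (.cons 17 (.negSucc 0x3c809f2) (.cons 18 (.ofNat 0x15d9add6224) .nil)))))),
   .cons 19 (.ofNat 0xdb50cf7620) (.cons 20 (.ofNat 0xae8a116107) (.cons 21 (.ofNat 0x1ff353394e) (.cons 22 (.ofNat 0x1af14975a) .nil))),
   .cons 19 (.ofNat 0xae8a116107) (.cons 20 (.ofNat 0x15618cf3bf7) (.cons 21 (.negSucc 0x7812de9aae) (.cons 22 (.ofNat 0x13a87238c) .nil))),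
   .cons 19 (.ofNat 0x1ff353394e) (.cons 20 (.negSucc 0x7812de9aae) (.cons 21 (.ofNat 0x1ae76dfd357) (.cons 22 (.ofNat 0x14c2a1cb6) .nil))),
   .cons 19 (.ofNat 0x1af14975a) (.cons 20 (.ofNat 0x13a87238c) (.cons 21 (.ofNat 0x14c2a1cb6) (.cons 22 (.ofNat 0x28b47d9d501) .nil))),
   .cons 23 (.ofNat 0x28b46db7610) .nil]

noncomputable def X23 : List SL :=
  [.cons 0 (.ofNat 0x28aa902abb8) .nil,
   .cons 1 (.ofNat 0xdb50ddd71f) (.cons 2 (.negSucc 0xaeb46d85fa) (.cons 3 (.negSucc 0x1fd81fd9a9) (.cons 4 (.ofNat 0x1cf0d9e29) .nil))),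
   .cons 1 (.negSucc 0xaeb46d85fa) (.cons 2 (.ofNat 0x1567261a20e) (.cons 3 (.negSucc 0x77d38ffcdf) (.cons 4 (.negSucc 0x3dc44e39) .nil))),
   .cons 1 (.negSucc 0x1fd81fd9a9) (.cons 2 (.negSucc 0x77d38ffcdf) (.cons 3 (.ofNat 0x1ae8783979a) (.cons 4 (.ofNat 0x48171331) .nil))),
   .cons 1 (.ofNat 0x1cf0d9e29) (.cons 2 (.negSucc 0x3dc44e39) (.cons 3 (.ofNat 0x48171331) (.cons 4 (.ofNat 0x28afa206b88) .nil))),
   .cons 5 (.negSucc 0x8a10425edd) (.cons 6 (.ofNat 0x151677cb1) (.cons 7 (.negSucc 0x3f2ef97aac) (.cons 8 (.negSucc 0x217fa0fb4) (.cons 9 (.ofNat 0xfd912492) (.cons 10 (.negSucc 0x3c23f81) (.cons 11 (.ofNat 0x13379cb8f2) .nil)))))),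
   .cons 5 (.ofNat 0x151677cb1) (.cons 6 (.ofNat 0xdb93d49868) (.cons 7 (.negSucc 0x8112b09b) (.cons 8 (.ofNat 0xaf22669188) (.cons 9 (.negSucc 0x1e9501cefb) (.cons 10 (.negSucc 0x22930aff2) (.cons 11 (.ofNat 0xb1fdd543) .nil)))))),
   .cons 5 (.negSucc 0x3f2ef97aac) (.cons 6 (.negSucc 0x8112b09b) (.cons 7 (.ofNat 0xa246024d21) (.cons 8 (.negSucc 0xfa06065) (.cons 9 (.ofNat 0x542995b6) (.cons 10 (.ofNat 0xe68016) (.cons 11 (.negSucc 0x6b25da4b5d) .nil)))))),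
   .cons 5 (.negSucc 0x217fa0fb4) (.cons 6 (.ofNat 0xaf22669188) (.cons 7 (.negSucc 0xfa06065) (.cons 8 (.ofNat 0x15716effdf2) (.cons 9 (.ofNat 0x77e6773702) (.cons 10 (.negSucc 0x9345f78d) (.cons 11 (.ofNat 0x9432fd97) .nil)))))),
   .cons 5 (.ofNat 0xfd912492) (.cons 6 (.negSucc 0x1e9501cefb) (.cons 7 (.ofNat 0x542995b6) (.cons 8 (.ofNat 0x77e6773702) (.cons 9 (.ofNat 0x1ae0c1045fe) (.cons 10 (.ofNat 0xf29f9bb) (.cons 11 (.negSucc 0x31c5b6c9) .nil)))))),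
   .cons 5 (.negSucc 0x3c23f81) (.cons 6 (.negSucc 0x22930aff2) (.cons 7 (.ofNat 0xe68016) (.cons 8 (.negSucc 0x9345f78d) (.cons 9 (.ofNat 0xf29f9bb) (.cons 10 (.ofNat 0x28b61990995) (.cons 11 (.negSucc 0x1ebf4d90) .nil)))))),
   .cons 5 (.ofNat 0x13379cb8f2) (.cons 6 (.ofNat 0xb1fdd543) (.cons 7 (.negSucc 0x6b25da4b5d) (.cons 8 (.ofNat 0x9432fd97) (.cons 9 (.negSucc 0x31c5b6c9) (.cons 10 (.negSucc 0x1ebf4d90) (.cons 11 (.ofNat 0x15de8b51ce3) .nil)))))),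
   .cons 12 (.negSucc 0x8b3c762659) (.cons 13 (.negSucc 0x14e9cd38b) (.cons 14 (.ofNat 0x4205d6346e) (.cons 15 (.ofNat 0x20e42b120) (.cons 16 (.negSucc 0xfd88db58) (.cons 17 (.ofNat 0x5e48a82) (.cons 18 (.ofNat 0x10ab2d48de) .nil)))))),
   .cons 12 (.negSucc 0x14e9cd38b) (.cons 13 (.ofNat 0xdbd72f5143) (.cons 14 (.negSucc 0x8a43813a) (.cons 15 (.ofNat 0xaf9acbc77b) (.cons 16 (.negSucc 0x1d3a952e54) (.cons 17 (.negSucc 0x228dacb96) (.cons 18 (.negSucc 0xad6da78c) .nil)))))),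
   .cons 12 (.ofNat 0x4205d6346e) (.cons 13 (.negSucc 0x8a43813a) (.cons 14 (.ofNat 0xa2bf52dc53) (.cons 15 (.ofNat 0x339c49e2) (.cons 16 (.ofNat 0x30cf87e0) (.cons 17 (.ofNat 0x1c78f07) (.cons 18 (.ofNat 0x6a3c727033) .nil)))))),
   .cons 12 (.ofNat 0x20e42b120) (.cons 13 (.ofNat 0xaf9acbc77b) (.cons 14 (.ofNat 0x339c49e2) (.cons 15 (.ofNat 0x156eac40e58) (.cons 16 (.ofNat 0x7807c225f1) (.cons 17 (.negSucc 0x5d45348d) (.cons 18 (.negSucc 0x11b6d5172) .nil)))))),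
   .cons 12 (.negSucc 0xfd88db58) (.cons 13 (.negSucc 0x1d3a952e54) (.cons 14 (.ofNat 0x30cf87e0) (.cons 15 (.ofNat 0x7807c225f1) (.cons 16 (.ofNat 0x1ad685ef3c2) (.cons 17 (.negSucc 0x3ce6b259) (.cons 18 (.ofNat 0x412eb9b9) .nil)))))),
   .cons 12 (.ofNat 0x5e48a82) (.cons 13 (.negSucc 0x228dacb96) (.cons 14 (.ofNat 0x1c78f07) (.cons 15 (.negSucc 0x5d45348d) (.cons 16 (.negSucc 0x3ce6b259) (.cons 17 (.ofNat 0x28b1ece674e) (.cons 18 (.negSucc 0xb4d28e5) .nil)))))),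
   .cons 12 (.ofNat 0x10ab2d48de) (.cons 13 (.negSucc 0xad6da78c) (.cons 14 (.ofNat 0x6a3c727033) (.cons 15 (.negSucc 0x11b6d5172) (.cons 16 (.ofNat 0x412eb9b9) (.cons 17 (.negSucc 0xb4d28e5) (.cons 18 (.ofNat 0x15d295839f0) .nil)))))),
   .cons 19 (.ofNat (Nat.shiftLeft 0x6e09dbdd 9)) (.cons 20 (.ofNat 0xb02ae60c19) (.cons 21 (.ofNat 0x1bef495a7a) (.cons 22 (.negSucc 0x1ca4f60a4) .nil))),
   .cons 19 (.ofNat 0xb02ae60c19) (.cons 20 (.ofNat 0x15769f945d6) (.cons 21 (.negSucc 0x78c4a289a2) (.cons 22 (.negSucc 0x659bcc6a) .nil))),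
   .cons 19 (.ofNat 0x1bef495a7a) (.cons 20 (.negSucc 0x78c4a289a2) (.cons 21 (.ofNat 0x1aca2c119ae) (.cons 22 (.ofNat 0x801b6e4b) .nil))),
   .cons 19 (.negSucc 0x1ca4f60a4) (.cons 20 (.negSucc 0x659bcc6a) (.cons 21 (.ofNat 0x801b6e4b) (.cons 22 (.ofNat 0x28afcf8fa3a) .nil))),
   .cons 23 (.ofNat 0x28adecd5475) .nil]

noncomputable def X24 : List SL :=
  [.cons 0 (.ofNat 0x28a5d7aa6aa) .nil,
   .cons 1 (.ofNat 0xdbeb4a378c) (.cons 2 (.negSucc 0xb001d2b094) (.cons 3 (.negSucc 0x1c7059c270) (.cons 4 (.negSucc 0x130eeecd1) .nil))),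
   .cons 1 (.negSucc 0xb001d2b094) (.cons 2 (.ofNat 0x15779cbd913) (.cons 3 (.negSucc 0x7870d6fedd) (.cons 4 (.ofNat 0x112004447) .nil))),
   .cons 1 (.negSucc 0x1c7059c270) (.cons 2 (.negSucc 0x7870d6fedd) (.cons 3 (.ofNat 0x1ad20b97daa) (.cons 4 (.ofNat 0xeb6e40e1) .nil))),
   .cons 1 (.negSucc 0x130eeecd1) (.cons 2 (.ofNat 0x112004447) (.cons 3 (.ofNat 0xeb6e40e1) (.cons 4 (.ofNat 0x28ac4b7a4c4) .nil))),
   .cons 5 (.negSucc 0x8b2385b931) (.cons 6 (.negSucc 0x123921d14) (.cons 7 (.negSucc 0x41bf1b5eac) (.cons 8 (.ofNat 0x1a80169a3) (.cons 9 (.negSucc 0x106ac811b) (.cons 10 (.negSucc 0x30826e4) (.cons 11 (.ofNat 0x10a15083a7) .nil)))))),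
   .cons 5 (.negSucc 0x123921d14) (.cons 6 (.ofNat 0xdbc4fe12d8) (.cons 7 (.ofNat 0x6ec91478) (.cons 8 (.ofNat 0xaf9789ed8d) (.cons 9 (.negSucc 0x1d75fb6b3f) (.cons 10 (.ofNat 0x17f5ffd23) (.cons 11 (.negSucc 0x85f7ad33) .nil)))))),
   .cons 5 (.negSucc 0x41bf1b5eac) (.cons 6 (.ofNat 0x6ec91478) (.cons 7 (.ofNat 0xa2acf3c6de) (.cons 8 (.negSucc 0x37cc90a7) (.cons 9 (.negSucc 0x22ef1179) (.cons 10 (.negSucc 0x7feca1) (.cons 11 (.negSucc 0x6a44778a6a) .nil)))))),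
   .cons 5 (.ofNat 0x1a80169a3) (.cons 6 (.ofNat 0xaf9789ed8d) (.cons 7 (.negSucc 0x37cc90a7) (.cons 8 (.ofNat 0x1576348133e) (.cons 9 (.ofNat 0x7824d6dd56) (.cons 10 (.ofNat 0x109c81b71) (.cons 11 (.negSucc 0x99600282) .nil)))))),
   .cons 5 (.negSucc 0x106ac811b) (.cons 6 (.negSucc 0x1d75fb6b3f) (.cons 7 (.negSucc 0x22ef1179) (.cons 8 (.ofNat 0x7824d6dd56) (.cons 9 (.ofNat 0x1ad8ff02418) (.cons 10 (.negSucc 0xb19787e7) (.cons 11 (.ofNat 0x4eda2e06) .nil)))))),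
   .cons 5 (.negSucc 0x30826e4) (.cons 6 (.ofNat 0x17f5ffd23) (.cons 7 (.negSucc 0x7feca1) (.cons 8 (.ofNat 0x109c81b71) (.cons 9 (.negSucc 0xb19787e7) (.cons 10 (.ofNat 0x28b463851ff) (.cons 11 (.negSucc 0x19863af7) .nil)))))),
   .cons 5 (.ofNat 0x10a15083a7) (.cons 6 (.negSucc 0x85f7ad33) (.cons 7 (.negSucc 0x6a44778a6a) (.cons 8 (.negSucc 0x99600282) (.cons 9 (.ofNat 0x4eda2e06) (.cons 10 (.negSucc 0x19863af7) (.cons 11 (.ofNat 0x15dad5eae74) .nil)))))),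
   .cons 12 (.negSucc 0x8a291e0fdf) (.cons 13 (.ofNat 0x124ef168e) (.cons 14 (.ofNat 0x3f7671a214) (.cons 15 (.negSucc 0x1aeeaf456) (.cons 16 (.ofNat 0x10425f366) (.cons 17 (.ofNat 0x5a05552) (.cons 18 (.ofNat 0x133e0fe1e2) .nil)))))),
   .cons 12 (.ofNat 0x124ef168e) (.cons 13 (.ofNat 0xdba1b8d1f1) (.cons 14 (.ofNat 0x6c5cf25d) (.cons 15 (.ofNat 0xaf310ce578) (.cons 16 (.negSucc 0x1e63f2a4c7) (.cons 17 (.ofNat 0x18034235c) (.cons 18 (.ofNat 0x7fa651cf) .nil)))))),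
   .cons 12 (.ofNat 0x3f7671a214) (.cons 13 (.ofNat 0x6c5cf25d) (.cons 14 (.ofNat 0xa252c2fcd0) (.cons 15 (.negSucc 0x463320c) (.cons 16 (.negSucc 0x3e2c2775) (.cons 17 (.negSucc 0x164370c) (.cons 18 (.ofNat 0x6b2961d839) .nil)))))),
   .cons 12 (.negSucc 0x1aeeaf456) (.cons 13 (.ofNat 0xaf310ce578) (.cons 14 (.negSucc 0x463320c) (.cons 15 (.ofNat 0x1568764bff1) (.cons 16 (.ofNat 0x77dba04e58) (.cons 17 (.ofNat 0x14280b374) (.cons 18 (.ofNat 0x2b3d8ec8) .nil)))))),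
   .cons 12 (.ofNat 0x10425f366) (.cons 13 (.negSucc 0x1e63f2a4c7) (.cons 14 (.negSucc 0x3e2c2775) (.cons 15 (.ofNat 0x77dba04e58) (.cons 16 (.ofNat 0x1add7e054d9) (.cons 17 (.negSucc 0xf647b4b7) (.cons 18 (.negSucc 0x4d756f30) .nil)))))),
   .cons 12 (.ofNat 0x5a05552) (.cons 13 (.ofNat 0x18034235c) (.cons 14 (.negSucc 0x164370c) (.cons 15 (.ofNat 0x14280b374) (.cons 16 (.negSucc 0xf647b4b7) (.cons 17 (.ofNat 0x28b228c6fda) (.cons 18 (.negSucc 0x1082af50) .nil)))))),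
   .cons 12 (.ofNat 0x133e0fe1e2) (.cons 13 (.ofNat 0x7fa651cf) (.cons 14 (.ofNat 0x6b2961d839) (.cons 15 (.ofNat 0x2b3d8ec8) (.cons 16 (.negSucc 0x4d756f30) (.cons 17 (.negSucc 0x1082af50) (.cons 18 (.ofNat 0x15d463a9f1f) .nil)))))),
   .cons 19 (.ofNat 0xdb79d08956) (.cons 20 (.ofNat 0xaedd20fc8f) (.cons 21 (.ofNat 0x1f5c1c44ce) (.cons 22 (.ofNat 0x1310e93f6) .nil))),
   .cons 19 (.ofNat 0xaedd20fc8f) (.cons 20 (.ofNat 0x156627c9a77) (.cons 21 (.negSucc 0x78237a7527) (.cons 22 (.ofNat 0xefcb6039) .nil))),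
   .cons 19 (.ofNat 0x1f5c1c44ce) (.cons 20 (.negSucc 0x78237a7527) (.cons 21 (.ofNat 0x1adf93c7018) (.cons 22 (.ofNat 0x10eff0977) .nil))),
   .cons 19 (.ofNat 0x1310e93f6) (.cons 20 (.ofNat 0xefcb6039) (.cons 21 (.ofNat 0x10eff0977) (.cons 22 (.ofNat 0x28b2411ab38) .nil))),
   .cons 23 (.ofNat 0x28b2c269904) .nil]

noncomputable def X25 : List SL :=
  [.cons 0 (.ofNat 0x28aa1f9501d) .nil,
   .cons 1 (.ofNat 0xdb7486a839) (.cons 2 (.negSucc 0xaef0b6c1c4) (.cons 3 (.negSucc 0x1f45553c8e) (.cons 4 (.ofNat 0x153ffa149) .nil))),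
   .cons 1 (.negSucc 0xaef0b6c1c4) (.cons 2 (.ofNat 0x156b0f73d7b) (.cons 3 (.negSucc 0x77e53e9e55) (.cons 4 (.negSucc 0x26801f5) .nil))),
   .cons 1 (.negSucc 0x1f45553c8e) (.cons 2 (.negSucc 0x77e53e9e55) (.cons 3 (.ofNat 0x1ae373edfb6) (.cons 4 (.ofNat 0x78b22799) .nil))),
   .cons 1 (.ofNat 0x153ffa149) (.cons 2 (.negSucc 0x26801f5) (.cons 3 (.ofNat 0x78b22799) (.cons 4 (.ofNat 0x28aea1eedf4) .nil))),
   .cons 5 (.negSucc 0x8a49c6748e) (.cons 6 (.ofNat 0xd5297518) (.cons 7 (.negSucc 0x3f9ddc0619) (.cons 8 (.negSucc 0x18f847b31) (.cons 9 (.ofNat 0xc050df34) (.cons 10 (.negSucc 0x12e90a4) (.cons 11 (.ofNat 0x13022d72b5) .nil)))))),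
   .cons 5 (.ofNat 0xd5297518) (.cons 6 (.ofNat 0xdb9c64bbdd) (.cons 7 (.negSucc 0x5534b04e) (.cons 8 (.ofNat 0xaf3f866152) (.cons 9 (.negSucc 0x1e693d4616) (.cons 10 (.negSucc 0x192172ecf) (.cons 11 (.ofNat 0x7f63bf3e) .nil)))))),
   .cons 5 (.negSucc 0x3f9ddc0619) (.cons 6 (.negSucc 0x5534b04e) (.cons 7 (.ofNat 0xa2552549a6) (.cons 8 (.negSucc 0x5b7e17b) (.cons 9 (.ofNat 0x2ff10163) (.cons 10 (.negSucc 0x1ba45d1) (.cons 11 (.negSucc 0x6b02eea52a) .nil)))))),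
   .cons 5 (.negSucc 0x18f847b31) (.cons 6 (.ofNat 0xaf3f866152) (.cons 7 (.negSucc 0x5b7e17b) (.cons 8 (.ofNat 0x1571749087d) (.cons 9 (.ofNat 0x77fad8e774) (.cons 10 (.negSucc 0x471e34f2) (.cons 11 (.ofNat 0x708e4769) .nil)))))),
   .cons 5 (.ofNat 0xc050df34) (.cons 6 (.negSucc 0x1e693d4616) (.cons 7 (.ofNat 0x2ff10163) (.cons 8 (.ofNat 0x77fad8e774) (.cons 9 (.ofNat 0x1aded0fe2a4) (.cons 10 (.negSucc 0x218601e4) (.cons 11 (.negSucc 0x2261905c) .nil)))))),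
   .cons 5 (.negSucc 0x12e90a4) (.cons 6 (.negSucc 0x192172ecf) (.cons 7 (.negSucc 0x1ba45d1) (.cons 8 (.negSucc 0x471e34f2) (.cons 9 (.negSucc 0x218601e4) (.cons 10 (.ofNat 0x28b4f1e3878) (.cons 11 (.negSucc 0x1739279c) .nil)))))),
   .cons 5 (.ofNat 0x13022d72b5) (.cons 6 (.ofNat 0x7f63bf3e) (.cons 7 (.negSucc 0x6b02eea52a) (.cons 8 (.ofNat 0x708e4769) (.cons 9 (.negSucc 0x2261905c) (.cons 10 (.negSucc 0x1739279c) (.cons 11 (.ofNat 0x15dbd0ac544) .nil)))))),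
   .cons 12 (.negSucc 0x8b02debd28) (.cons 13 (.negSucc 0xd44d311a) (.cons 14 (.ofNat 0x41987ede24) (.cons 15 (.ofNat 0x18b7e7062) (.cons 16 (.negSucc 0xc24914cb) (.cons 17 (.ofNat 0x36e3a09) (.cons 18 (.ofNat 0x10dbbd6ac9) .nil)))))),
   .cons 12 (.negSucc 0xd44d311a) (.cons 13 (.ofNat 0xdbc879e340) (.cons 14 (.negSucc 0x53a8e887) (.cons 15 (.ofNat 0xaf8ee9fd15) (.cons 16 (.negSucc 0x1d71a63979) (.cons 17 (.negSucc 0x1910a9d42) (.cons 18 (.negSucc 0x8b9f5f3b) .nil)))))),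
   .cons 12 (.ofNat 0x41987ede24) (.cons 13 (.negSucc 0x53a8e887) (.cons 14 (.ofNat 0xa2a46039a9) (.cons 15 (.ofNat 0x2504dd81) (.cons 16 (.ofNat 0x1d00c083) (.cons 17 (.negSucc 0x12434c9) (.cons 18 (.ofNat 0x6a734b67f5) .nil)))))),
   .cons 12 (.ofNat 0x18b7e7062) (.cons 13 (.ofNat 0xaf8ee9fd15) (.cons 14 (.ofNat 0x2504dd81) (.cons 15 (.ofNat 0x156c1292fdf) (.cons 16 (.ofNat 0x780d6e1766) (.cons 17 (.negSucc 0xdb8a438) (.cons 18 (.negSucc 0xcfd49817) .nil)))))),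
   .cons 12 (.negSucc 0xc24914cb) (.cons 13 (.negSucc 0x1d71a63979) (.cons 14 (.ofNat 0x1d00c083) (.cons 15 (.ofNat 0x780d6e1766) (.cons 16 (.ofNat 0x1ad76b63374) (.cons 17 (.negSucc 0x62ce154d) (.cons 18 (.ofNat 0x1eef35b0) .nil)))))),
   .cons 12 (.ofNat 0x36e3a09) (.cons 13 (.negSucc 0x1910a9d42) (.cons 14 (.negSucc 0x12434c9) (.cons 15 (.negSucc 0xdb8a438) (.cons 16 (.negSucc 0x62ce154d) (.cons 17 (.ofNat 0x28b0fd59b61) (.cons 18 (.negSucc 0x12ec0d96) .nil)))))),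
   .cons 12 (.ofNat 0x10dbbd6ac9) (.cons 13 (.negSucc 0x8b9f5f3b) (.cons 14 (.ofNat 0x6a734b67f5) (.cons 15 (.negSucc 0xcfd49817) (.cons 16 (.ofNat 0x1eef35b0) (.cons 17 (.negSucc 0x12ec0d96) (.cons 18 (.ofNat 0x15d2a675754) .nil)))))),
   .cons 19 (.ofNat 0xdbf1755ae1) (.cons 20 (.ofNat 0xafeca26f45) (.cons 21 (.ofNat 0x1c841efa53) (.cons 22 (.negSucc 0x14df6365d) .nil))),
   .cons 19 (.ofNat 0xafeca26f45) (.cons 20 (.ofNat 0x1572aba1fdc) (.cons 21 (.negSucc 0x78aab545ed) (.cons 22 (.negSucc 0x21cfe3c0) .nil))),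
   .cons 19 (.ofNat 0x1c841efa53) (.cons 20 (.negSucc 0x78aab545ed) (.cons 21 (.ofNat 0x1acd997c1cf) (.cons 22 (.ofNat 0x95ed8af4) .nil))),
   .cons 19 (.negSucc 0x14df6365d) (.cons 20 (.negSucc 0x21cfe3c0) (.cons 21 (.ofNat 0x95ed8af4) (.cons 22 (.ofNat 0x28af7a3d3ca) .nil))),
   .cons 23 (.ofNat 0x28ae90483e1) .nil]

noncomputable def X26 : List SL :=
  [.cons 0 (.ofNat 0x28a6ff93b0e) .nil,
   .cons 1 (.ofNat 0xdbd45a00d3) (.cons 2 (.negSucc 0xafcac848c8) (.cons 3 (.negSucc 0x1cef558f32) (.cons 4 (.negSucc 0xc04f1408) .nil))),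
   .cons 1 (.negSucc 0xafcac848c8) (.cons 2 (.ofNat 0x157531f8a0c) (.cons 3 (.negSucc 0x7856a1c918) (.cons 4 (.ofNat 0xda3d608c) .nil))),
   .cons 1 (.negSucc 0x1cef558f32) (.cons 2 (.negSucc 0x7856a1c918) (.cons 3 (.ofNat 0x1ad53b2ee5e) (.cons 4 (.ofNat 0xdc3fec9a) .nil))),
   .cons 1 (.negSucc 0xc04f1408) (.cons 2 (.ofNat 0xda3d608c) (.cons 3 (.ofNat 0xdc3fec9a) (.cons 4 (.ofNat 0x28ac9634691) .nil))),
   .cons 5 (.negSucc 0x8af73803e8) (.cons 6 (.negSucc 0xc2849fcc) (.cons 7 (.negSucc 0x415dc7f58b) (.cons 8 (.ofNat 0x125b8a503) (.cons 9 (.negSucc 0xc610e032) (.cons 10 (.negSucc 0x1569d90) (.cons 11 (.ofNat 0x10ee94e160) .nil)))))),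
   .cons 5 (.negSucc 0xc2849fcc) (.cons 6 (.ofNat 0xdbbb82c97c) (.cons 7 (.ofNat 0x43ac8134) (.cons 8 (.ofNat 0xaf8a479507) (.cons 9 (.negSucc 0x1da319c589) (.cons 10 (.ofNat 0xf693a1ff) (.cons 11 (.negSucc 0x62b62725) .nil)))))),
   .cons 5 (.negSucc 0x415dc7f58b) (.cons 6 (.ofNat 0x43ac8134) (.cons 7 (.ofNat 0xa29c6dea24) (.cons 8 (.negSucc 0x2844c002) (.cons 9 (.negSucc 0x140e44f7) (.cons 10 (.negSucc 0x215de86) (.cons 11 (.negSucc 0x6a6a348d49) .nil)))))),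
   .cons 5 (.ofNat 0x125b8a503) (.cons 6 (.ofNat 0xaf8a479507) (.cons 7 (.negSucc 0x2844c002) (.cons 8 (.ofNat 0x1574a5ca028) (.cons 9 (.ofNat 0x78243cda49) (.cons 10 (.ofNat 0xc7793723) (.cons 11 (.negSucc 0x5d0e51f2) .nil)))))),
   .cons 5 (.negSucc 0xc610e032) (.cons 6 (.negSucc 0x1da319c589) (.cons 7 (.negSucc 0x140e44f7) (.cons 8 (.ofNat 0x78243cda49) (.cons 9 (.ofNat 0x1ad9f1df568) (.cons 10 (.negSucc 0x98df0b28) (.cons 11 (.ofNat 0x321055d3) .nil)))))),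
   .cons 5 (.negSucc 0x1569d90) (.cons 6 (.ofNat 0xf693a1ff) (.cons 7 (.negSucc 0x215de86) (.cons 8 (.ofNat 0xc7793723) (.cons 9 (.negSucc 0x98df0b28) (.cons 10 (.ofNat 0x28b40af271e) (.cons 11 (.negSucc 0x153a2b1b) .nil)))))),
   .cons 5 (.ofNat 0x10ee94e160) (.cons 6 (.negSucc 0x62b62725) (.cons 7 (.negSucc 0x6a6a348d49) (.cons 8 (.negSucc 0x5d0e51f2) (.cons 9 (.ofNat 0x321055d3) (.cons 10 (.negSucc 0x153a2b1b) (.cons 11 (.ofNat 0x15db082716f) .nil)))))),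
   .cons 12 (.negSucc 0x8a5565b774) (.cons 13 (.ofNat 0xc2d3e13e) (.cons 14 (.ofNat 0x3fd8ac211f) (.cons 15 (.negSucc 0x12939e280) (.cons 16 (.ofNat 0xc2a29c46) (.cons 17 (.ofNat 0x3d84abc) (.cons 18 (.ofNat 0x12ee172fad) .nil)))))),
   .cons 12 (.ofNat 0xc2d3e13e) (.cons 13 (.ofNat 0xdba7d6d124) (.cons 14 (.ofNat 0x4772773d) (.cons 15 (.ofNat 0xaf480978ff) (.cons 16 (.negSucc 0x1e3c21b14f) (.cons 17 (.ofNat 0xf804c2c9) (.cons 18 (.ofNat 0x52b80d30) .nil)))))),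
   .cons 12 (.ofNat 0x3fd8ac211f) (.cons 13 (.ofNat 0x4772773d) (.cons 14 (.ofNat 0xa25c6908cf) (.cons 15 (.negSucc 0x30a3aef) (.cons 16 (.negSucc 0x2534ef28) (.cons 17 (.negSucc 0x2afc51c) (.cons 18 (.ofNat 0x6b0ea184b3) .nil)))))),
   .cons 12 (.negSucc 0x12939e280) (.cons 13 (.ofNat 0xaf480978ff) (.cons 14 (.negSucc 0x30a3aef) (.cons 15 (.ofNat 0x1568857885a) (.cons 16 (.ofNat 0x77eacec148) (.cons 17 (.ofNat 0x10212a188) (.cons 18 (.ofNat 0x654ef6d) .nil)))))),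
   .cons 12 (.ofNat 0xc2a29c46) (.cons 13 (.negSucc 0x1e3c21b14f) (.cons 14 (.negSucc 0x2534ef28) (.cons 15 (.ofNat 0x77eacec148) (.cons 16 (.ofNat 0x1adc01b024a) (.cons 17 (.negSucc 0xd777529b) (.cons 18 (.negSucc 0x3b332350) .nil)))))),
   .cons 12 (.ofNat 0x3d84abc) (.cons 13 (.ofNat 0xf804c2c9) (.cons 14 (.negSucc 0x2afc51c) (.cons 15 (.ofNat 0x10212a188) (.cons 16 (.negSucc 0xd777529b) (.cons 17 (.ofNat 0x28b15fecebe) (.cons 18 (.negSucc 0x14d63b7e) .nil)))))),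
   .cons 12 (.ofNat 0x12ee172fad) (.cons 13 (.ofNat 0x52b80d30) (.cons 14 (.ofNat 0x6b0ea184b3) (.cons 15 (.ofNat 0x654ef6d) (.cons 16 (.negSucc 0x3b332350) (.cons 17 (.negSucc 0x14d63b7e) (.cons 18 (.ofNat 0x15d2ce130a4) .nil)))))),
   .cons 19 (.ofNat 0xdb91bd0688) (.cons 20 (.ofNat 0xaf1281e73c) (.cons 21 (.ofNat 0x1edd0dde44) (.cons 22 (.ofNat 0xc2a13fe1) .nil))),
   .cons 19 (.ofNat 0xaf1281e73c) (.cons 20 (.ofNat 0x156898d074d) (.cons 21 (.negSucc 0x783862b81e) (.cons 22 (.ofNat 0xbcb1a522) .nil))),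
   .cons 19 (.ofNat 0x1edd0dde44) (.cons 20 (.negSucc 0x783862b81e) (.cons 21 (.ofNat 0x1adb7fe0657) (.cons 22 (.ofNat 0xf1376fba) .nil))),
   .cons 19 (.ofNat 0xc2a13fe1) (.cons 20 (.ofNat 0xbcb1a522) (.cons 21 (.ofNat 0xf1376fba) (.cons 22 (.ofNat 0x28b140555fa) .nil))),
   .cons 23 (.ofNat 0x28b1c1c62e2) .nil]

noncomputable def X27 : List SL :=
  [.cons 0 (.ofNat 0x28a9bba4f63) .nil,
   .cons 1 (.ofNat 0xdb88a950d5) (.cons 2 (.negSucc 0xaf18b33c26) (.cons 3 (.negSucc 0x1ed7b14a04) (.cons 4 (.ofNat 0xf4a60b47) .nil))),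
   .cons 1 (.negSucc 0xaf18b33c26) (.cons 2 (.ofNat 0x156d4f23090) (.cons 3 (.negSucc 0x77f629423e) (.cons 4 (.ofNat 0x263c945f) .nil))),
   .cons 1 (.negSucc 0x1ed7b14a04) (.cons 2 (.negSucc 0x77f629423e) (.cons 3 (.ofNat 0x1ae09607f52) (.cons 4 (.ofNat 0x91a5f4e9) .nil))),
   .cons 1 (.ofNat 0xf4a60b47) (.cons 2 (.ofNat 0x263c945f) (.cons 3 (.ofNat 0x91a5f4e9) (.cons 4 (.ofNat 0x28ae28a5a88) .nil))),
   .cons 5 (.negSucc 0x8a6c2fc1e6) (.cons 6 (.ofNat 0x8629b5a4) (.cons 7 (.negSucc 0x3fef99a46e) (.cons 8 (.negSucc 0x11717b1b5) (.cons 9 (.ofNat 0x7f3bc10c) (.cons 10 (.negSucc 0x67c904) (.cons 11 (.ofNat 0x12afcfb9a3) .nil)))))),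
   .cons 5 (.ofNat 0x8629b5a4) (.cons 6 (.ofNat 0xdba203c28b) (.cons 7 (.negSucc 0x38ff3bd0) (.cons 8 (.ofNat 0xaf4fce2513) (.cons 9 (.negSucc 0x1e465c749e) (.cons 10 (.negSucc 0x11d942984) (.cons 11 (.ofNat 0x5581e8a3) .nil)))))),
   .cons 5 (.negSucc 0x3fef99a46e) (.cons 6 (.negSucc 0x38ff3bd0) (.cons 7 (.ofNat 0xa261c6ec05) (.cons 8 (.negSucc 0x6840b70) (.cons 9 (.ofNat 0x1e8a8cad) (.cons 10 (.negSucc 0x293e3e3) (.cons 11 (.negSucc 0x6ae72a253f) .nil)))))),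
   .cons 5 (.negSucc 0x11717b1b5) (.cons 6 (.ofNat 0xaf4fce2513) (.cons 7 (.negSucc 0x6840b70) (.cons 8 (.ofNat 0x1571ccac65f) (.cons 9 (.ofNat 0x7805504f70) (.cons 10 (.negSucc 0x143e13dc) (.cons 11 (.ofNat 0x51086c25) .nil)))))),
   .cons 5 (.ofNat 0x7f3bc10c) (.cons 6 (.negSucc 0x1e465c749e) (.cons 7 (.ofNat 0x1e8a8cad) (.cons 8 (.ofNat 0x7805504f70) (.cons 9 (.ofNat 0x1addc7c0126) (.cons 10 (.negSucc 0x3c6c67a4) (.cons 11 (.negSucc 0x168a6947) .nil)))))),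
   .cons 5 (.negSucc 0x67c904) (.cons 6 (.negSucc 0x11d942984) (.cons 7 (.negSucc 0x293e3e3) (.cons 8 (.negSucc 0x143e13dc) (.cons 9 (.negSucc 0x3c6c67a4) (.cons 10 (.ofNat 0x28b4853381e) (.cons 11 (.negSucc 0x14a194a0) .nil)))))),
   .cons 5 (.ofNat 0x12afcfb9a3) (.cons 6 (.ofNat 0x5581e8a3) (.cons 7 (.negSucc 0x6ae72a253f) (.cons 8 (.ofNat 0x51086c25) (.cons 9 (.negSucc 0x168a6947) (.cons 10 (.negSucc 0x14a194a0) (.cons 11 (.ofNat 0x15db2d6697d) .nil)))))),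
   .cons 12 (.negSucc 0x8ae071fb6c) (.cons 13 (.negSucc 0x85f44177) (.cons 14 (.ofNat 0x41472fccb9) (.cons 15 (.ofNat 0x114e279ad) (.cons 16 (.negSucc 0x8201c0b1) (.cons 17 (.ofNat 0x2b5b8df) (.cons 18 (.ofNat 0x112c9a66d4) .nil)))))),
   .cons 12 (.negSucc 0x85f44177) (.cons 13 (.ofNat 0xdbc0ddbc97) (.cons 14 (.negSucc 0x33e07709) (.cons 15 (.ofNat 0xaf842a6384) (.cons 16 (.negSucc 0x1d9848db00) (.cons 17 (.negSucc 0x11c3c5bd2) (.cons 18 (.negSucc 0x677735f4) .nil)))))),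
   .cons 12 (.ofNat 0x41472fccb9) (.cons 13 (.negSucc 0x33e07709) (.cons 14 (.ofNat 0xa2947a8fe2) (.cons 15 (.ofNat 0x1be9c818) (.cons 16 (.ofNat 0x10f6b0a5) (.cons 17 (.negSucc 0x2350318) (.cons 18 (.ofNat 0x6a94b6b21c) .nil)))))),
   .cons 12 (.ofNat 0x114e279ad) (.cons 13 (.ofNat 0xaf842a6384) (.cons 14 (.ofNat 0x1be9c818) (.cons 15 (.ofNat 0x156aef32fe5) (.cons 16 (.ofNat 0x780b8c738a) (.cons 17 (.ofNat 0x2659ce0d) (.cons 18 (.negSucc 0xa2ac4782) .nil)))))),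
   .cons 12 (.negSucc 0x8201c0b1) (.cons 13 (.negSucc 0x1d9848db00) (.cons 14 (.ofNat 0x10f6b0a5) (.cons 15 (.ofNat 0x780b8c738a) (.cons 16 (.ofNat 0x1ad8269a3c1) (.cons 17 (.negSucc 0x7a0a9475) (.cons 18 (.ofNat 0xc747a9b) .nil)))))),
   .cons 12 (.ofNat 0x2b5b8df) (.cons 13 (.negSucc 0x11c3c5bd2) (.cons 14 (.negSucc 0x2350318) (.cons 15 (.ofNat 0x2659ce0d) (.cons 16 (.negSucc 0x7a0a9475) (.cons 17 (.ofNat 0x28b0bf61740) (.cons 18 (.negSucc 0x158838cb) .nil)))))),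
   .cons 12 (.ofNat 0x112c9a66d4) (.cons 13 (.negSucc 0x677735f4) (.cons 14 (.ofNat 0x6a94b6b21c) (.cons 15 (.negSucc 0xa2ac4782) (.cons 16 (.ofNat 0xc747a9b) (.cons 17 (.negSucc 0x158838cb) (.cons 18 (.ofNat 0x15d280a79cc) .nil)))))),
   .cons 19 (.ofNat 0xdbddd707c3) (.cons 20 (.ofNat 0xafc3b7a0de) (.cons 21 (.ofNat 0x1cf277223b) (.cons 22 (.negSucc 0xee9dc4a4) .nil))),
   .cons 19 (.ofNat 0xafc3b7a0de) (.cons 20 (.ofNat 0x157079da79a) (.cons 21 (.negSucc 0x7896b95307) (.cons 22 (.ofNat 0x9a3e849) .nil))),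
   .cons 19 (.ofNat 0x1cf277223b) (.cons 20 (.negSucc 0x7896b95307) (.cons 21 (.ofNat 0x1acffcf0b42) (.cons 22 (.ofNat 0xa59ce52c) .nil))),
   .cons 19 (.negSucc 0xee9dc4a4) (.cons 20 (.ofNat 0x9a3e849) (.cons 21 (.ofNat 0xa59ce52c) (.cons 22 (.ofNat 0x28af8c9fd0a) .nil))),
   .cons 23 (.ofNat 0x28af112f7f2) .nil]

noncomputable def X28 : List SL :=
  [.cons 0 (.ofNat 0x28a7a9d868e) .nil,
   .cons 1 (.ofNat 0xdbc5f40938) (.cons 2 (.negSucc 0xafa7a4580a) (.cons 3 (.negSucc 0x1d496b1757) (.cons 4 (.negSucc 0x6f9194af) .nil))),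
   .cons 1 (.negSucc 0xafa7a4580a) (.cons 2 (.ofNat 0x1573be7df72) (.cons 3 (.negSucc 0x7843c1bbf8) (.cons 4 (.ofNat 0xb6d129c4) .nil))),
   .cons 1 (.negSucc 0x1d496b1757) (.cons 2 (.negSucc 0x7843c1bbf8) (.cons 3 (.ofNat 0x1ad75e9bc81) (.cons 4 (.ofNat 0xd07caae7) .nil))),
   .cons 1 (.negSucc 0x6f9194af) (.cons 2 (.ofNat 0xb6d129c4) (.cons 3 (.ofNat 0xd07caae7) (.cons 4 (.ofNat 0x28acdb418b4) .nil))),
   .cons 5 (.negSucc 0x8adbf5fc77) (.cons 6 (.negSucc 0x83a05fe2) (.cons 7 (.negSucc 0x411996f5a3) (.cons 8 (.ofNat 0xbf80dc98) (.cons 9 (.negSucc 0x8ddd5175) (.cons 10 (.negSucc 0xb69b20) (.cons 11 (.ofNat 0x113a414f1a) .nil)))))),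
   .cons 5 (.negSucc 0x83a05fe2) (.cons 6 (.ofNat 0xdbb6203a14) (.cons 7 (.ofNat 0x2a17291e) (.cons 8 (.ofNat 0xaf8032109d) (.cons 9 (.negSucc 0x1dc20458e5) (.cons 10 (.ofNat 0x945fd1b1) (.cons 11 (.negSucc 0x43e47150) .nil)))))),
   .cons 5 (.negSucc 0x411996f5a3) (.cons 6 (.ofNat 0x2a17291e) (.cons 7 (.ofNat 0xa2917e8a26) (.cons 8 (.negSucc 0x1f7b7e62) (.cons 9 (.negSucc 0xb0c6eea) (.cons 10 (.negSucc 0x2a12110) (.cons 11 (.negSucc 0x6a81fef2fe) .nil)))))),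
   .cons 5 (.ofNat 0xbf80dc98) (.cons 6 (.ofNat 0xaf8032109d) (.cons 7 (.negSucc 0x1f7b7e62) (.cons 8 (.ofNat 0x1573e9ec28e) (.cons 9 (.ofNat 0x78208f96c1) (.cons 10 (.ofNat 0x9ccbbc5f) (.cons 11 (.negSucc 0x381825bc) .nil)))))),
   .cons 5 (.negSucc 0x8ddd5175) (.cons 6 (.negSucc 0x1dc20458e5) (.cons 7 (.negSucc 0xb0c6eea) (.cons 8 (.ofNat 0x78208f96c1) (.cons 9 (.ofNat 0x1adaa3190d7) (.cons 10 (.negSucc 0x886e50de) (.cons 11 (.ofNat 0x218599ae) .nil)))))),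
   .cons 5 (.negSucc 0xb69b20) (.cons 6 (.ofNat 0x945fd1b1) (.cons 7 (.negSucc 0x2a12110) (.cons 8 (.ofNat 0x9ccbbc5f) (.cons 9 (.negSucc 0x886e50de) (.cons 10 (.ofNat 0x28b3ff0d058) (.cons 11 (.negSucc 0x13d1b8b1) .nil)))))),
   .cons 5 (.ofNat 0x113a414f1a) (.cons 6 (.negSucc 0x43e47150) (.cons 7 (.negSucc 0x6a81fef2fe) (.cons 8 (.negSucc 0x381825bc) (.cons 9 (.ofNat 0x218599ae) (.cons 10 (.negSucc 0x13d1b8b1) (.cons 11 (.ofNat 0x15db17c7968) .nil)))))),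
   .cons 12 (.negSucc 0x8a70a91e2e) (.cons 13 (.ofNat 0x83999b6e) (.cons 14 (.ofNat 0x401d260cc6) (.cons 15 (.negSucc 0xc1cdd9b1) (.cons 16 (.ofNat 0x8a393191) (.cons 17 (.ofNat 0x32cd034) (.cons 18 (.ofNat 0x12a1a6bfa5) .nil)))))),
   .cons 12 (.ofNat 0x83999b6e) (.cons 13 (.ofNat 0xdbac2aab23) (.cons 14 (.ofNat 0x2fef9021) (.cons 15 (.ofNat 0xaf552af032) (.cons 16 (.negSucc 0x1e1eb51c7b) (.cons 17 (.ofNat 0x95fad35a) (.cons 18 (.ofNat 0x30a48945) .nil)))))),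
   .cons 12 (.ofNat 0x401d260cc6) (.cons 13 (.ofNat 0x2fef9021) (.cons 14 (.ofNat 0xa2652b7d75) (.cons 15 (.ofNat 0x1006688) (.cons 16 (.negSucc 0x18a619e1) (.cons 17 (.negSucc 0x30a8556) (.cons 18 (.ofNat 0x6afa2c2668) .nil)))))),
   .cons 12 (.negSucc 0xc1cdd9b1) (.cons 13 (.ofNat 0xaf552af032) (.cons 14 (.ofNat 0x1006688) (.cons 15 (.ofNat 0x1568c46e127) (.cons 16 (.ofNat 0x77f3085e56) (.cons 17 (.ofNat 0xd7f9906a) (.cons 18 (.negSucc 0x16b1c35d) .nil)))))),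
   .cons 12 (.ofNat 0x8a393191) (.cons 13 (.negSucc 0x1e1eb51c7b) (.cons 14 (.negSucc 0x18a619e1) (.cons 15 (.ofNat 0x77f3085e56) (.cons 16 (.ofNat 0x1adb2c82cc6) (.cons 17 (.negSucc 0xc503ba5e) (.cons 18 (.negSucc 0x2e19f58d) .nil)))))),
   .cons 12 (.ofNat 0x32cd034) (.cons 13 (.ofNat 0x95fad35a) (.cons 14 (.negSucc 0x30a8556) (.cons 15 (.ofNat 0xd7f9906a) (.cons 16 (.negSucc 0xc503ba5e) (.cons 17 (.ofNat 0x28b112bdb36) (.cons 18 (.negSucc 0x16456eb1) .nil)))))),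
   .cons 12 (.ofNat 0x12a1a6bfa5) (.cons 13 (.ofNat 0x30a48945) (.cons 14 (.ofNat 0x6afa2c2668) (.cons 15 (.negSucc 0x16b1c35d) (.cons 16 (.negSucc 0x2e19f58d) (.cons 17 (.negSucc 0x16456eb1) (.cons 18 (.ofNat 0x15d25a10ca8) .nil)))))),
   .cons 19 (.ofNat 0xdba0850d98) (.cons 20 (.ofNat 0xaf34e0e37c) (.cons 21 (.ofNat 0x1e82964eef) (.cons 22 (.ofNat 0x72f56816) .nil))),
   .cons 19 (.ofNat 0xaf34e0e37c) (.cons 20 (.ofNat 0x156a15c66d8) (.cons 21 (.negSucc 0x7849249134) (.cons 22 (.ofNat 0x9ad5ce85) .nil))),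
   .cons 19 (.ofNat 0x1e82964eef) (.cons 20 (.negSucc 0x7849249134) (.cons 21 (.ofNat 0x1ad918fa194) (.cons 22 (.ofNat 0xe0c71220) .nil))),
   .cons 19 (.ofNat 0x72f56816) (.cons 20 (.ofNat 0x9ad5ce85) (.cons 21 (.ofNat 0xe0c71220) (.cons 22 (.ofNat 0x28b0c436a92) .nil))),
   .cons 23 (.ofNat 0x28b12ad0dbc) .nil]

noncomputable def X29 : List SL :=
  [.cons 0 (.ofNat 0x28a96b8edf1) .nil,
   .cons 1 (.ofNat 0xdb94ec8b66) (.cons 2 (.negSucc 0xaf3357300e) (.cons 3 (.negSucc 0x1e8caf7318) (.cons 4 (.ofNat 0xb24e4036) .nil))),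
   .cons 1 (.negSucc 0xaf3357300e) (.cons 2 (.ofNat 0x156ea7370be) (.cons 3 (.negSucc 0x780357ebc2) (.cons 4 (.ofNat 0x4157977e) .nil))),
   .cons 1 (.negSucc 0x1e8caf7318) (.cons 2 (.negSucc 0x780357ebc2) (.cons 3 (.ofNat 0x1adecbc8999) (.cons 4 (.ofNat 0x9fa1f5f7) .nil))),
   .cons 1 (.ofNat 0xb24e4036) (.cons 2 (.ofNat 0x4157977e) (.cons 3 (.ofNat 0x9fa1f5f7) (.cons 4 (.ofNat 0x28ade4761a4) .nil))),
   .cons 5 (.negSucc 0x8a81de8740) (.cons 6 (.ofNat 0x5314673b) (.cons 7 (.negSucc 0x40277f1986) (.cons 8 (.negSucc 0xc043b723) (.cons 9 (.ofNat 0x4e3d2f8f) (.cons 10 (.negSucc 0x329a07) (.cons 11 (.ofNat 0x126d7ad008) .nil)))))),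
   .cons 5 (.ofNat 0x5314673b) (.cons 6 (.ofNat 0xdba5bc2abf) (.cons 7 (.negSucc 0x267ec22b) (.cons 8 (.ofNat 0xaf59a7f7d3) (.cons 9 (.negSucc 0x1e2de6050f) (.cons 10 (.negSucc 0xcca829c4) (.cons 11 (.ofNat 0x38411eb5) .nil)))))),
   .cons 5 (.negSucc 0x40277f1986) (.cons 6 (.negSucc 0x267ec22b) (.cons 7 (.ofNat 0xa26ab6a9b8) (.cons 8 (.negSucc 0x95d38c9) (.cons 9 (.ofNat 0x153361e8) (.cons 10 (.negSucc 0x2d90a2d) (.cons 11 (.negSucc 0x6ad4058324) .nil)))))),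
   .cons 5 (.negSucc 0xc043b723) (.cons 6 (.ofNat 0xaf59a7f7d3) (.cons 7 (.negSucc 0x95d38c9) (.cons 8 (.ofNat 0x15721f467fe) (.cons 9 (.ofNat 0x780b54853a) (.cons 10 (.ofNat 0xd4a5476) (.cons 11 (.ofNat 0x39830867) .nil)))))),
   .cons 5 (.ofNat 0x4e3d2f8f) (.cons 6 (.negSucc 0x1e2de6050f) (.cons 7 (.ofNat 0x153361e8) (.cons 8 (.ofNat 0x780b54853a) (.cons 9 (.ofNat 0x1add27dc41b) (.cons 10 (.negSucc 0x4c4f4115) (.cons 11 (.negSucc 0xd787210) .nil)))))),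
   .cons 5 (.negSucc 0x329a07) (.cons 6 (.negSucc 0xcca829c4) (.cons 7 (.negSucc 0x2d90a2d) (.cons 8 (.ofNat 0xd4a5476) (.cons 9 (.negSucc 0x4c4f4115) (.cons 10 (.ofNat 0x28b457b9064) (.cons 11 (.negSucc 0x13bc0bcc) .nil)))))),
   .cons 5 (.ofNat 0x126d7ad008) (.cons 6 (.ofNat 0x38411eb5) (.cons 7 (.negSucc 0x6ad4058324) (.cons 8 (.ofNat 0x39830867) (.cons 9 (.negSucc 0xd787210) (.cons 10 (.negSucc 0x13bc0bcc) (.cons 11 (.ofNat 0x15db0c66445) .nil)))))),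
   .cons 12 (.negSucc 0x8acac494e4) (.cons 13 (.negSucc 0x5318efc6) (.cons 14 (.ofNat 0x410f670b73) (.cons 15 (.ofNat 0xbe9bbeeb) (.cons 16 (.negSucc 0x515b242b) (.cons 17 (.ofNat 0x2889e8f) (.cons 18 (.ofNat 0x116e76b778) .nil)))))),
   .cons 12 (.negSucc 0x5318efc6) (.cons 13 (.ofNat 0xdbbc7b44b0) (.cons 14 (.negSucc 0x202fac03) (.cons 15 (.ofNat 0xaf7c1af72d) (.cons 16 (.negSucc 0x1db20f7927) (.cons 17 (.negSucc 0xcb2ff4e6) (.cons 18 (.negSucc 0x4c22f3dd) .nil)))))),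
   .cons 12 (.ofNat 0x410f670b73) (.cons 13 (.negSucc 0x202fac03) (.cons 14 (.ofNat 0xa28ab13cd9) (.cons 15 (.ofNat 0x1642b98e) (.cons 16 (.ofNat 0x94cbeb2) (.cons 17 (.negSucc 0x29f8e72) (.cons 18 (.ofNat 0x6aa96b7e1f) .nil)))))),
   .cons 12 (.ofNat 0xbe9bbeeb) (.cons 13 (.ofNat 0xaf7c1af72d) (.cons 14 (.ofNat 0x1642b98e) (.cons 15 (.ofNat 0x156a5f438c6) (.cons 16 (.ofNat 0x780868f090) (.cons 17 (.ofNat 0x4851ea5e) (.cons 18 (.negSucc 0x86912c14) .nil)))))),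
   .cons 12 (.negSucc 0x515b242b) (.cons 13 (.negSucc 0x1db20f7927) (.cons 14 (.ofNat 0x94cbeb2) (.cons 15 (.ofNat 0x780868f090) (.cons 16 (.ofNat 0x1ad8ae83dcc) (.cons 17 (.negSucc 0x88acec94) (.cons 18 (.ofNat 0x1081153) .nil)))))),
   .cons 12 (.ofNat 0x2889e8f) (.cons 13 (.negSucc 0xcb2ff4e6) (.cons 14 (.negSucc 0x29f8e72) (.cons 15 (.ofNat 0x4851ea5e) (.cons 16 (.negSucc 0x88acec94) (.cons 17 (.ofNat 0x28b0b535df5) (.cons 18 (.negSucc 0x166cf44d) .nil)))))),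
   .cons 12 (.ofNat 0x116e76b778) (.cons 13 (.negSucc 0x4c22f3dd) (.cons 14 (.ofNat 0x6aa96b7e1f) (.cons 15 (.negSucc 0x86912c14) (.cons 16 (.ofNat 0x1081153) (.cons 17 (.negSucc 0x166cf44d) (.cons 18 (.ofNat 0x15d26436db9) .nil)))))),
   .cons 19 (.ofNat 0xdbd1c05166) (.cons 20 (.ofNat 0xafa8b5d479) (.cons 21 (.ofNat 0x1d3dcfe304) (.cons 22 (.negSucc 0xac8c0e2b) .nil))),
   .cons 19 (.ofNat 0xafa8b5d479) (.cons 20 (.ofNat 0x156f2b34614) (.cons 21 (.negSucc 0x78887b7f2e) (.cons 22 (.ofNat 0x25ae5d98) .nil))),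
   .cons 19 (.ofNat 0x1d3dcfe304) (.cons 20 (.negSucc 0x78887b7f2e) (.cons 21 (.ofNat 0x1ad1a1b07c0) (.cons 22 (.ofNat 0xb052293f) .nil))),
   .cons 19 (.negSucc 0xac8c0e2b) (.cons 20 (.ofNat 0x25ae5d98) (.cons 21 (.ofNat 0xb052293f) (.cons 22 (.ofNat 0x28afb16b0b4) .nil))),
   .cons 23 (.ofNat 0x28af6e13209) .nil]

noncomputable def X30 : List SL :=
  [.cons 0 (.ofNat 0x28a80d8ead6) .nil,
   .cons 1 (.ofNat 0xdbbca60a61) (.cons 2 (.negSucc 0xaf91038cd1) (.cons 3 (.negSucc 0x1d8641cd04) (.cons 4 (.negSucc 0x38e631c2) .nil))),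
   .cons 1 (.negSucc 0xaf91038cd1) (.cons 2 (.ofNat 0x1572cdf767a) (.cons 3 (.negSucc 0x7837252988) (.cons 4 (.ofNat 0xa007b2bf) .nil))),
   .cons 1 (.negSucc 0x1d8641cd04) (.cons 2 (.negSucc 0x7837252988) (.cons 3 (.ofNat 0x1ad8c86612e) (.cons 4 (.ofNat 0xc80bc3cf) .nil))),
   .cons 1 (.negSucc 0x38e631c2) (.cons 2 (.ofNat 0xa007b2bf) (.cons 3 (.ofNat 0xc80bc3cf) (.cons 4 (.ofNat 0x28ad0c82875) .nil))),
   .cons 5 (.negSucc 0x8aca9358d7) (.cons 6 (.negSucc 0x5a9c4061) (.cons 7 (.negSucc 0x40ebcc3aba) (.cons 8 (.ofNat 0x782123c3) (.cons 9 (.negSucc 0x656a6840) (.cons 10 (.negSucc 0x773959) (.cons 11 (.ofNat 0x11724c9275) .nil)))))),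
   .cons 5 (.negSucc 0x5a9c4061) (.cons 6 (.ofNat 0xdbb2d696f0) (.cons 7 (.ofNat 0x1a249ff1) (.cons 8 (.ofNat 0xaf792b6af0) (.cons 9 (.negSucc 0x1dd6939ded) (.cons 10 (.ofNat 0x51d6853d) (.cons 11 (.negSucc 0x2d7cb065) .nil)))))),
   .cons 5 (.negSucc 0x40ebcc3aba) (.cons 6 (.ofNat 0x1a249ff1) (.cons 7 (.ofNat 0xa28a36049f) (.cons 8 (.negSucc 0x1a67d4cd) (.cons 9 (.negSucc 0x53127c5) (.cons 10 (.negSucc 0x2d233cd) (.cons 11 (.negSucc 0x6a9187bdfa) .nil)))))),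
   .cons 5 (.ofNat 0x782123c3) (.cons 6 (.ofNat 0xaf792b6af0) (.cons 7 (.negSucc 0x1a67d4cd) (.cons 8 (.ofNat 0x157383d7c04) (.cons 9 (.ofNat 0x781d2ea0ac) (.cons 10 (.ofNat 0x8125ee8b) (.cons 11 (.negSucc 0x210e65e7) .nil)))))),
   .cons 5 (.negSucc 0x656a6840) (.cons 6 (.negSucc 0x1dd6939ded) (.cons 7 (.negSucc 0x53127c5) (.cons 8 (.ofNat 0x781d2ea0ac) (.cons 9 (.ofNat 0x1adb1bd3acc) (.cons 10 (.negSucc 0x7d6d50dc) (.cons 11 (.ofNat 0x1796a7fe) .nil)))))),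
   .cons 5 (.negSucc 0x773959) (.cons 6 (.ofNat 0x51d6853d) (.cons 7 (.negSucc 0x2d233cd) (.cons 8 (.ofNat 0x8125ee8b) (.cons 9 (.negSucc 0x7d6d50dc) (.cons 10 (.ofNat 0x28b4051279e) (.cons 11 (.negSucc 0x135eef8a) .nil)))))),
   .cons 5 (.ofNat 0x11724c9275) (.cons 6 (.negSucc 0x2d7cb065) (.cons 7 (.negSucc 0x6a9187bdfa) (.cons 8 (.negSucc 0x210e65e7) (.cons 9 (.ofNat 0x1796a7fe) (.cons 10 (.negSucc 0x135eef8a) (.cons 11 (.ofNat 0x15db19dfab6) .nil)))))),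
   .cons 12 (.negSucc 0x8a820f2a64) (.cons 13 (.ofNat 0x5a7af4c0) (.cons 14 (.ofNat 0x404b094dfd) (.cons 15 (.negSucc 0x79fcc339) (.cons 16 (.ofNat 0x61c374cd) (.cons 17 (.ofNat 0x2e6d7b5) (.cons 18 (.ofNat 0x1269676b83) .nil)))))),
   .cons 12 (.ofNat 0x5a7af4c0) (.cons 13 (.ofNat 0xdbaf1ef110) (.cons 14 (.ofNat 0x20aeb165) (.cons 15 (.ofNat 0xaf5d2358cb) (.cons 16 (.negSucc 0x1e0a81612b) (.cons 17 (.ofNat 0x5379f051) (.cons 18 (.ofNat 0x1926fb3c) .nil)))))),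
   .cons 12 (.ofNat 0x404b094dfd) (.cons 13 (.ofNat 0x20aeb165) (.cons 14 (.ofNat 0xa26bb570b9) (.cons 15 (.ofNat 0x48195cb) (.cons 16 (.negSucc 0x11819394) (.cons 17 (.negSucc 0x31c1f90) (.cons 18 (.ofNat 0x6aebb081a1) .nil)))))),
   .cons 12 (.negSucc 0x79fcc339) (.cons 13 (.ofNat 0xaf5d2358cb) (.cons 14 (.ofNat 0x48195cb) (.cons 15 (.ofNat 0x15690070119) (.cons 16 (.ofNat 0x77f7caeb98) (.cons 17 (.ofNat 0xbc7ddfd5) (.cons 18 (.negSucc 0x2b109c23) .nil)))))),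
   .cons 12 (.ofNat 0x61c374cd) (.cons 13 (.negSucc 0x1e0a81612b) (.cons 14 (.negSucc 0x11819394) (.cons 15 (.ofNat 0x77f7caeb98) (.cons 16 (.ofNat 0x1adaab34f9d) (.cons 17 (.negSucc 0xb95bf83b) (.cons 18 (.negSucc 0x253ca98d) .nil)))))),
   .cons 12 (.ofNat 0x2e6d7b5) (.cons 13 (.ofNat 0x5379f051) (.cons 14 (.negSucc 0x31c1f90) (.cons 15 (.ofNat 0xbc7ddfd5) (.cons 16 (.negSucc 0xb95bf83b) (.cons 17 (.ofNat 0x28b0f1d6449) (.cons 18 (.negSucc 0x16bc7934) .nil)))))),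
   .cons 12 (.ofNat 0x1269676b83) (.cons 13 (.ofNat 0x1926fb3c) (.cons 14 (.ofNat 0x6aebb081a1) (.cons 15 (.negSucc 0x2b109c23) (.cons 16 (.negSucc 0x253ca98d) (.cons 17 (.negSucc 0x16bc7934) (.cons 18 (.ofNat 0x15d23c6d6be) .nil)))))),
   .cons 19 (.ofNat 0xdba9f7c13a) (.cons 20 (.ofNat 0xaf4b2c536b) (.cons 21 (.ofNat 0x1e4570b3fa) (.cons 22 (.ofNat 0x3cdce05b) .nil))),
   .cons 19 (.ofNat 0xaf4b2c536b) (.cons 20 (.ofNat 0x156b0b0c8be) (.cons 21 (.negSucc 0x7854ec5128) (.cons 22 (.ofNat 0x84927e27) .nil))),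
   .cons 19 (.ofNat 0x1e4570b3fa) (.cons 20 (.negSucc 0x7854ec5128) (.cons 21 (.ofNat 0x1ad79b22993) (.cons 22 (.ofNat 0xd6ea2f17) .nil))),
   .cons 19 (.ofNat 0x3cdce05b) (.cons 20 (.ofNat 0x84927e27) (.cons 21 (.ofNat 0xd6ea2f17) (.cons 22 (.ofNat 0x28b08231f5e) .nil))),
   .cons 23 (.ofNat 0x28b0cf2b728) .nil]

noncomputable def X31 : List SL :=
  [.cons 0 (.ofNat 0x28a93097b37) .nil,
   .cons 1 (.ofNat 0xdb9cae004d) (.cons 2 (.negSucc 0xaf44fc2cac) (.cons 3 (.negSucc 0x1e5acd7d1f) (.cons 4 (.ofNat 0x85d73877) .nil))),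
   .cons 1 (.negSucc 0xaf44fc2cac) (.cons 2 (.ofNat 0x156f7c7a696) (.cons 3 (.negSucc 0x780cb1046d) (.cons 4 (.ofNat 0x534030cf) .nil))),
   .cons 1 (.negSucc 0x1e5acd7d1f) (.cons 2 (.negSucc 0x780cb1046d) (.cons 3 (.ofNat 0x1adda45d277) (.cons 4 (.ofNat 0xa801fc7f) .nil))),
   .cons 1 (.ofNat 0x85d73877) (.cons 2 (.ofNat 0x534030cf) (.cons 3 (.ofNat 0xa801fc7f) (.cons 4 (.ofNat 0x28adba598e1) .nil))),
   .cons 5 (.negSucc 0x8a8fd864c0) (.cons 6 (.ofNat 0x31d0e67c) (.cons 7 (.negSucc 0x404cb6410a) (.cons 8 (.negSucc 0x85600a74) (.cons 9 (.ofNat 0x2c87aa49) (.cons 10 (.negSucc 0x291572) (.cons 11 (.ofNat 0x123ed26535) .nil)))))),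
   .cons 5 (.ofNat 0x31d0e67c) (.cons 6 (.ofNat 0xdba830e5f2) (.cons 7 (.negSucc 0x1a50e573) (.cons 8 (.ofNat 0xaf5fdca421) (.cons 9 (.negSucc 0x1e1d72ac57) (.cons 10 (.negSucc 0x96768bdb) (.cons 11 (.ofNat 0x24bdba5b) .nil)))))),
   .cons 5 (.negSucc 0x404cb6410a) (.cons 6 (.negSucc 0x1a50e573) (.cons 7 (.ofNat 0xa270b542de) (.cons 8 (.negSucc 0xbfbb66b) (.cons 9 (.ofNat 0xfb84910) (.cons 10 (.negSucc 0x2edef63) (.cons 11 (.negSucc 0x6ac74ffcef) .nil)))))),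
   .cons 5 (.negSucc 0x85600a74) (.cons 6 (.ofNat 0xaf5fdca421) (.cons 7 (.negSucc 0xbfbb66b) (.cons 8 (.ofNat 0x15725ce1ab2) (.cons 9 (.ofNat 0x780f00cf35) (.cons 10 (.ofNat 0x23510249) (.cons 11 (.ofNat 0x291e5720) .nil)))))),
   .cons 5 (.ofNat 0x2c87aa49) (.cons 6 (.negSucc 0x1e1d72ac57) (.cons 7 (.ofNat 0xfb84910) (.cons 8 (.ofNat 0x780f00cf35) (.cons 9 (.ofNat 0x1adcc25c5f1) (.cons 10 (.negSucc 0x56242622) (.cons 11 (.negSucc 0x6f98cca) .nil)))))),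
   .cons 5 (.negSucc 0x291572) (.cons 6 (.negSucc 0x96768bdb) (.cons 7 (.negSucc 0x2edef63) (.cons 8 (.ofNat 0x23510249) (.cons 9 (.negSucc 0x56242622) (.cons 10 (.ofNat 0x28b441bd21e) (.cons 11 (.negSucc 0x136acec3) .nil)))))),
   .cons 5 (.ofNat 0x123ed26535) (.cons 6 (.ofNat 0x24bdba5b) (.cons 7 (.negSucc 0x6ac74ffcef) (.cons 8 (.ofNat 0x291e5720) (.cons 9 (.negSucc 0x6f98cca) (.cons 10 (.negSucc 0x136acec3) (.cons 11 (.ofNat 0x15db0876af7) .nil)))))),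
   .cons 12 (.negSucc 0x8abccd9ec8) (.cons 13 (.negSucc 0x31ea693f) (.cons 14 (.ofNat 0x40ea35d889) (.cons 15 (.ofNat 0x83dea00d) (.cons 16 (.negSucc 0x2fcf1fbe) (.cons 17 (.ofNat 0x28413f2) (.cons 18 (.ofNat 0x119cf727fc) .nil)))))),
   .cons 12 (.negSucc 0x31ea693f) (.cons 13 (.ofNat 0xdbb9ca425f) (.cons 14 (.negSucc 0x139ce55b) (.cons 15 (.ofNat 0xaf767d89a4) (.cons 16 (.negSucc 0x1dc30348eb) (.cons 17 (.negSucc 0x94ef52b5) (.cons 18 (.negSucc 0x394502e0) .nil)))))),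
   .cons 12 (.ofNat 0x40ea35d889) (.cons 13 (.negSucc 0x139ce55b) (.cons 14 (.ofNat 0xa284839869) (.cons 15 (.ofNat 0x12b142b8) (.cons 16 (.ofNat 0x44d1932) (.cons 17 (.negSucc 0x2cd465b) (.cons 18 (.ofNat 0x6ab6876e7b) .nil)))))),
   .cons 12 (.ofNat 0x83dea00d) (.cons 13 (.ofNat 0xaf767d89a4) (.cons 14 (.ofNat 0x12b142b8) (.cons 15 (.ofNat 0x156a100320e) (.cons 16 (.ofNat 0x7805bc170a) (.cons 17 (.ofNat 0x5e83c170) (.cons 18 (.negSucc 0x74a4a430) .nil)))))),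
   .cons 12 (.negSucc 0x2fcf1fbe) (.cons 13 (.negSucc 0x1dc30348eb) (.cons 14 (.ofNat 0x44d1932) (.cons 15 (.ofNat 0x7805bc170a) (.cons 16 (.ofNat 0x1ad90be6951) (.cons 17 (.negSucc 0x92127885) (.cons 18 (.negSucc 0x653264c) .nil)))))),
   .cons 12 (.ofNat 0x28413f2) (.cons 13 (.negSucc 0x94ef52b5) (.cons 14 (.negSucc 0x2cd465b) (.cons 15 (.ofNat 0x5e83c170) (.cons 16 (.negSucc 0x92127885) (.cons 17 (.ofNat 0x28b0b84ffd8) (.cons 18 (.negSucc 0x16bc7daa) .nil)))))),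
   .cons 12 (.ofNat 0x119cf727fc) (.cons 13 (.negSucc 0x394502e0) (.cons 14 (.ofNat 0x6ab6876e7b) (.cons 15 (.negSucc 0x74a4a430) (.cons 16 (.negSucc 0x653264c) (.cons 17 (.negSucc 0x16bc7daa) (.cons 18 (.ofNat 0x15d2544f734) .nil)))))),
   .cons 19 (.ofNat 0xdbca0ab46e) (.cons 20 (.ofNat 0xaf96f0a6fa) (.cons 21 (.ofNat 0x1d6fe6d093) (.cons 22 (.negSucc 0x80595240) .nil))),
   .cons 19 (.ofNat 0xaf96f0a6fa) (.cons 20 (.ofNat 0x156e5a8833e) (.cons 21 (.negSucc 0x787eccba24) (.cons 22 (.ofNat 0x37e6a371) .nil))),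
   .cons 19 (.ofNat 0x1d6fe6d093) (.cons 20 (.negSucc 0x787eccba24) (.cons 21 (.ofNat 0x1ad2bd4e4dc) (.cons 22 (.ofNat 0xb77cffca) .nil))),
   .cons 19 (.negSucc 0x80595240) (.cons 20 (.ofNat 0x37e6a371) (.cons 21 (.ofNat 0xb77cffca) (.cons 22 (.ofNat 0x28afd1bfc25) .nil))),
   .cons 23 (.ofNat 0x28afae1461e) .nil]

noncomputable def X32 : List SL :=
  [.cons 0 (.ofNat 0x28a84a19144) .nil,
   .cons 1 (.ofNat 0xdbb6922ded) (.cons 2 (.negSucc 0xaf825829aa) (.cons 3 (.negSucc 0x1dae96eb32) (.cons 4 (.negSucc 0x14a5a1d0) .nil))),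
   .cons 1 (.negSucc 0xaf825829aa) (.cons 2 (.ofNat 0x15722f634a4) (.cons 3 (.negSucc 0x782ee4a9e6) (.cons 4 (.ofNat 0x91401094) .nil))),
   .cons 1 (.negSucc 0x1dae96eb32) (.cons 2 (.negSucc 0x782ee4a9e6) (.cons 3 (.ofNat 0x1ad9b5d6f9b) (.cons 4 (.ofNat 0xc23d4b33) .nil))),
   .cons 1 (.negSucc 0x14a5a1d0) (.cons 2 (.ofNat 0x91401094) (.cons 3 (.ofNat 0xc23d4b33) (.cons 4 (.ofNat 0x28ad2d811d2) .nil))),
   .cons 5 (.negSucc 0x8abf51464f) (.cons 6 (.negSucc 0x3fcbdb2b) (.cons 7 (.negSucc 0x40cd8719df) (.cons 8 (.ofNat 0x483b6bb6) (.cons 9 (.negSucc 0x49f8f738) (.cons 10 (.negSucc 0x5b8db5) (.cons 11 (.ofNat 0x1198acc549) .nil)))))),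
   .cons 5 (.negSucc 0x3fcbdb2b) (.cons 6 (.ofNat 0xdbb0c0da9c) (.cons 7 (.ofNat 0xff2ad5f) (.cons 8 (.ofNat 0xaf7470b216) (.cons 9 (.negSucc 0x1de41b84d8) (.cons 10 (.ofNat 0x25b3ab52) (.cons 11 (.negSucc 0x1e2da3cd) .nil)))))),
   .cons 5 (.negSucc 0x40cd8719df) (.cons 6 (.ofNat 0xff2ad5f) (.cons 7 (.ofNat 0xa2856302ed) (.cons 8 (.negSucc 0x1759b341) (.cons 9 (.negSucc 0x151f1b1) (.cons 10 (.negSucc 0x2e44c9b) (.cons 11 (.negSucc 0x6a9bbb9ca7) .nil)))))),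
   .cons 5 (.ofNat 0x483b6bb6) (.cons 6 (.ofNat 0xaf7470b216) (.cons 7 (.negSucc 0x1759b341) (.cons 8 (.ofNat 0x15734716dca) (.cons 9 (.ofNat 0x781aae7a59) (.cons 10 (.ofNat 0x6f262a75) (.cons 11 (.negSucc 0x126c2455) .nil)))))),
   .cons 5 (.negSucc 0x49f8f738) (.cons 6 (.negSucc 0x1de41b84d8) (.cons 7 (.negSucc 0x151f1b1) (.cons 8 (.ofNat 0x781aae7a59) (.cons 9 (.ofNat 0x1adb6bf5768) (.cons 10 (.negSucc 0x761a42fe) (.cons 11 (.ofNat 0x116ac342) .nil)))))),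
   .cons 5 (.negSucc 0x5b8db5) (.cons 6 (.ofNat 0x25b3ab52) (.cons 7 (.negSucc 0x2e44c9b) (.cons 8 (.ofNat 0x6f262a75) (.cons 9 (.negSucc 0x761a42fe) (.cons 10 (.ofNat 0x28b40d33abc) (.cons 11 (.negSucc 0x133c4ee2) .nil)))))),
   .cons 5 (.ofNat 0x1198acc549) (.cons 6 (.negSucc 0x1e2da3cd) (.cons 7 (.negSucc 0x6a9bbb9ca7) (.cons 8 (.negSucc 0x126c2455) (.cons 9 (.ofNat 0x116ac342) (.cons 10 (.negSucc 0x133c4ee2) (.cons 11 (.ofNat 0x15db1833174) .nil)))))),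
   .cons 12 (.negSucc 0x8a8d552639) (.cons 13 (.ofNat 0x3fa312e7) (.cons 14 (.ofNat 0x406957a508) (.cons 15 (.negSucc 0x49ea76a5) (.cons 16 (.ofNat 0x465ad545) (.cons 17 (.ofNat 0x2c71c46) (.cons 18 (.ofNat 0x1242fb87f9) .nil)))))),
   .cons 12 (.ofNat 0x3fa312e7) (.cons 13 (.ofNat 0xdbb11928c1) (.cons 14 (.ofNat 0x16b872dd) (.cons 15 (.ofNat 0xaf62272c6e) (.cons 16 (.negSucc 0x1dfd03bb5a) (.cons 17 (.ofNat 0x27569729) (.cons 18 (.ofNat 0x97c06f6) .nil)))))),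
   .cons 12 (.ofNat 0x406957a508) (.cons 13 (.ofNat 0x16b872dd) (.cons 14 (.ofNat 0xa2703def43) (.cons 15 (.ofNat 0x70bd862) (.cons 16 (.negSucc 0xd24496c) (.cons 17 (.negSucc 0x319bd58) (.cons 18 (.ofNat 0x6ae1d7e039) .nil)))))),
   .cons 12 (.negSucc 0x49ea76a5) (.cons 13 (.ofNat 0xaf62272c6e) (.cons 14 (.ofNat 0x70bd862) (.cons 15 (.ofNat 0x15692e1f9ab) (.cons 16 (.ofNat 0x77faaf601e) (.cons 17 (.ofNat 0xaa876fb9) (.cons 18 (.negSucc 0x38cdc5a4) .nil)))))),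
   .cons 12 (.ofNat 0x465ad545) (.cons 13 (.negSucc 0x1dfd03bb5a) (.cons 14 (.negSucc 0xd24496c) (.cons 15 (.ofNat 0x77faaf601e) (.cons 16 (.ofNat 0x1ada59941f0) (.cons 17 (.negSucc 0xb1d4c101) (.cons 18 (.negSucc 0x1f5d7a90) .nil)))))),
   .cons 12 (.ofNat 0x2c71c46) (.cons 13 (.ofNat 0x27569729) (.cons 14 (.negSucc 0x319bd58) (.cons 15 (.ofNat 0xaa876fb9) (.cons 16 (.negSucc 0xb1d4c101) (.cons 17 (.ofNat 0x28b0e1f0832) (.cons 18 (.negSucc 0x16e1b234) .nil)))))),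
   .cons 12 (.ofNat 0x1242fb87f9) (.cons 13 (.ofNat 0x97c06f6) (.cons 14 (.ofNat 0x6ae1d7e039) (.cons 15 (.negSucc 0x38cdc5a4) (.cons 16 (.negSucc 0x1f5d7a90) (.cons 17 (.negSucc 0x16e1b234) (.cons 18 (.ofNat 0x15d2372a188) .nil)))))),
   .cons 19 (.ofNat 0xdbb0184d78) (.cons 20 (.ofNat 0xaf59b2ee6f) (.cons 21 (.ofNat 0x1e1ce6c713) (.cons 22 (.ofNat 0x18f1774c) .nil))),
   .cons 19 (.ofNat 0xaf59b2ee6f) (.cons 20 (.ofNat 0x156bab5b8f7) (.cons 21 (.negSucc 0x785cd74082) (.cons 22 (.ofNat 0x75f7bfc4) .nil))),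
   .cons 19 (.ofNat 0x1e1ce6c713) (.cons 20 (.negSucc 0x785cd74082) (.cons 21 (.ofNat 0x1ad6a7b70da) (.cons 22 (.ofNat 0xd0b9bd52) .nil))),
   .cons 19 (.ofNat 0x18f1774c) (.cons 20 (.ofNat 0x75f7bfc4) (.cons 21 (.ofNat 0xd0b9bd52) (.cons 22 (.ofNat 0x28b05c01c1c) .nil))),
   .cons 23 (.ofNat 0x28b095ac871) .nil]

noncomputable def X33 : List SL :=
  [.cons 0 (.ofNat 0x28a90760e77) .nil,
   .cons 1 (.ofNat 0xdba1ac5e28) (.cons 2 (.negSucc 0xaf509d4948) (.cons 3 (.negSucc 0x1e39f68200) (.cons 4 (.ofNat 0x6875f6c8) .nil))),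
   .cons 1 (.negSucc 0xaf509d4948) (.cons 2 (.ofNat 0x157003eab8a) (.cons 3 (.negSucc 0x78130b17c6) (.cons 4 (.ofNat 0x5f07dd1d) .nil))),
   .cons 1 (.negSucc 0x1e39f68200) (.cons 2 (.negSucc 0x78130b17c6) (.cons 3 (.ofNat 0x1adce3e443a) (.cons 4 (.ofNat 0xad3c1daa) .nil))),
   .cons 1 (.ofNat 0x6875f6c8) (.cons 2 (.ofNat 0x5f07dd1d) (.cons 3 (.ofNat 0xad3c1daa) (.cons 4 (.ofNat 0x28ad9f49914) .nil))),
   .cons 5 (.negSucc 0x8a98f0705b) (.cons 6 (.ofNat 0x1c178e83) (.cons 7 (.negSucc 0x40653cc323) (.cons 8 (.negSucc 0x5e4d97fc) (.cons 9 (.ofNat 0x160c26fe) (.cons 10 (.negSucc 0x2b350d) (.cons 11 (.ofNat 0x121f6fcc0d) .nil)))))),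
   .cons 5 (.ofNat 0x1c178e83) (.cons 6 (.ofNat 0xdba9ce4ef8) (.cons 7 (.negSucc 0x124e727f) (.cons 8 (.ofNat 0xaf63d98ade) (.cons 9 (.negSucc 0x1e128f9974) (.cons 10 (.negSucc 0x72aaffd6) (.cons 11 (.ofNat 0x17e8986f) .nil)))))),
   .cons 5 (.negSucc 0x40653cc323) (.cons 6 (.negSucc 0x124e727f) (.cons 7 (.ofNat 0xa274a85250) (.cons 8 (.negSucc 0xdf18568) (.cons 9 (.ofNat 0xc5387c7) (.cons 10 (.negSucc 0x2f37eba) (.cons 11 (.negSucc 0x6abef7cf2b) .nil)))))),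
   .cons 5 (.negSucc 0x5e4d97fc) (.cons 6 (.ofNat 0xaf63d98ade) (.cons 7 (.negSucc 0xdf18568) (.cons 8 (.ofNat 0x1572878387f) (.cons 9 (.ofNat 0x781151d064) (.cons 10 (.ofNat 0x31c33074) (.cons 11 (.ofNat 0x1e0d150c) .nil)))))),
   .cons 5 (.ofNat 0x160c26fe) (.cons 6 (.negSucc 0x1e128f9974) (.cons 7 (.ofNat 0xc5387c7) (.cons 8 (.ofNat 0x781151d064) (.cons 9 (.ofNat 0x1adc809edb1) (.cons 10 (.negSucc 0x5c64bd02) (.cons 11 (.negSucc 0x2848a76) .nil)))))),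
   .cons 5 (.negSucc 0x2b350d) (.cons 6 (.negSucc 0x72aaffd6) (.cons 7 (.negSucc 0x2f37eba) (.cons 8 (.ofNat 0x31c33074) (.cons 9 (.negSucc 0x5c64bd02) (.cons 10 (.ofNat 0x28b435b5646) (.cons 11 (.negSucc 0x134cbe8e) .nil)))))),
   .cons 5 (.ofNat 0x121f6fcc0d) (.cons 6 (.ofNat 0x17e8986f) (.cons 7 (.negSucc 0x6abef7cf2b) (.cons 8 (.ofNat 0x1e0d150c) (.cons 9 (.negSucc 0x2848a76) (.cons 10 (.negSucc 0x134cbe8e) (.cons 11 (.ofNat 0x15db0a0a619) .nil)))))),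
   .cons 12 (.negSucc 0x8ab3b901ae) (.cons 13 (.negSucc 0x1c392545) (.cons 14 (.ofNat 0x40d1af77cc) (.cons 15 (.ofNat 0x5cd38fd7) (.cons 16 (.negSucc 0x1969510d) (.cons 17 (.ofNat 0x28961ec) (.cons 18 (.ofNat 0x11bc4b17a3) .nil)))))),
   .cons 12 (.negSucc 0x1c392545) (.cons 13 (.ofNat 0xdbb814cd92) (.cons 14 (.negSucc 0xb792a6a) (.cons 15 (.ofNat 0xaf72b4478d) (.cons 16 (.negSucc 0x1dce1dd64c) (.cons 17 (.negSucc 0x711c2aea) (.cons 18 (.negSucc 0x2ca7bff8) .nil)))))),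
   .cons 12 (.ofNat 0x40d1af77cc) (.cons 13 (.negSucc 0xb792a6a) (.cons 14 (.ofNat 0xa2808cc1b9) (.cons 15 (.ofNat 0x10685c5b) (.cons 16 (.ofNat 0x1048a83) (.cons 17 (.negSucc 0x2e3305d) (.cons 18 (.ofNat 0x6abef3e79c) .nil)))))),
   .cons 12 (.ofNat 0x5cd38fd7) (.cons 13 (.ofNat 0xaf72b4478d) (.cons 14 (.ofNat 0x10685c5b) (.cons 15 (.ofNat 0x1569e0de753) (.cons 16 (.ofNat 0x7803c90760) (.cons 17 (.ofNat 0x6d081f34) (.cons 18 (.negSucc 0x6911366c) .nil)))))),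
   .cons 12 (.negSucc 0x1969510d) (.cons 13 (.negSucc 0x1dce1dd64c) (.cons 14 (.ofNat 0x1048a83) (.cons 15 (.ofNat 0x7803c90760) (.cons 16 (.ofNat 0x1ad94a64f17) (.cons 17 (.negSucc 0x982b164b) (.cons 18 (.negSucc 0xb1dbfe5) .nil)))))),
   .cons 12 (.ofNat 0x28961ec) (.cons 13 (.negSucc 0x711c2aea) (.cons 14 (.negSucc 0x2e3305d) (.cons 15 (.ofNat 0x6d081f34) (.cons 16 (.negSucc 0x982b164b) (.cons 17 (.ofNat 0x28b0bd7438c) (.cons 18 (.negSucc 0x16d911d0) .nil)))))),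
   .cons 12 (.ofNat 0x11bc4b17a3) (.cons 13 (.negSucc 0x2ca7bff8) (.cons 14 (.ofNat 0x6abef3e79c) (.cons 15 (.negSucc 0x6911366c) (.cons 16 (.negSucc 0xb1dbfe5) (.cons 17 (.negSucc 0x16d911d0) (.cons 18 (.ofNat 0x15d24ba9c3d) .nil)))))),
   .cons 19 (.ofNat 0xdbc50cb796) (.cons 20 (.ofNat 0xaf8b46a775) (.cons 21 (.ofNat 0x1d90e10621) (.cons 22 (.negSucc 0x632c161d) .nil))),
   .cons 19 (.ofNat 0xaf8b46a775) (.cons 20 (.ofNat 0x156dd5129d9) (.cons 21 (.negSucc 0x78785c0e72) (.cons 22 (.ofNat 0x43c8d32a) .nil))),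
   .cons 19 (.ofNat 0x1d90e10621) (.cons 20 (.negSucc 0x78785c0e72) (.cons 21 (.ofNat 0x1ad379d6267) (.cons 22 (.ofNat 0xbc3d0066) .nil))),
   .cons 19 (.negSucc 0x632c161d) (.cons 20 (.ofNat 0x43c8d32a) (.cons 21 (.ofNat 0xbc3d0066) (.cons 22 (.ofNat (Nat.shiftLeft 0x1457f4cd9 9)) .nil))),
   .cons 23 (.ofNat 0x28afd9145af) .nil]

noncomputable def X34 : List SL :=
  [.cons 0 (.ofNat 0x28a86ff173d) .nil,
   .cons 1 (.ofNat 0xdbb296a00b) (.cons 2 (.negSucc 0xaf78cb55ec) (.cons 3 (.negSucc 0x1dc9214469) (.cons 4 (.ofNat 0x3338cae) .nil))),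
   .cons 1 (.negSucc 0xaf78cb55ec) (.cons 2 (.ofNat 0x1571c6b3709) (.cons 3 (.negSucc 0x7829840d69) (.cons 4 (.ofNat 0x879efa08) .nil))),
   .cons 1 (.negSucc 0x1dc9214469) (.cons 2 (.negSucc 0x7829840d69) (.cons 3 (.ofNat 0x1ada514b26a) (.cons 4 (.ofNat 0xbe5618ce) .nil))),
   .cons 1 (.ofNat 0x3338cae) (.cons 2 (.ofNat 0x879efa08) (.cons 3 (.ofNat 0xbe5618ce) (.cons 4 (.ofNat 0x28ad432fd18) .nil))),
   .cons 5 (.negSucc 0x8ab7fb7a77) (.cons 6 (.negSucc 0x2e4072f0) (.cons 7 (.negSucc 0x40b9a39080) (.cons 8 (.ofNat 0x28918eb1) (.cons 9 (.negSucc 0x37c0b398) (.cons 10 (.negSucc 0x4e1031) (.cons 11 (.ofNat 0x11b23bb81e) .nil)))))),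
   .cons 5 (.negSucc 0x2e4072f0) (.cons 6 (.ofNat 0xdbaf680917) (.cons 7 (.ofNat 0x95989b9) (.cons 8 (.ofNat 0xaf714de432) (.cons 9 (.negSucc 0x1decfae337) (.cons 10 (.ofNat 0x8a971ef) (.cons 11 (.negSucc 0x13f87289) .nil)))))),
   .cons 5 (.negSucc 0x40b9a39080) (.cons 6 (.ofNat 0x95989b9) (.cons 7 (.ofNat 0xa28234a61c) (.cons 8 (.negSucc 0x15730dd7) (.cons 9 (.ofNat 0x13d743c) (.cons 10 (.negSucc 0x2eb7814) (.cons 11 (.negSucc 0x6aa26ea9f4) .nil)))))),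
   .cons 5 (.ofNat 0x28918eb1) (.cons 6 (.ofNat 0xaf714de432) (.cons 7 (.negSucc 0x15730dd7) (.cons 8 (.ofNat 0x15732116f4c) (.cons 9 (.ofNat 0x7818f53646) (.cons 10 (.ofNat 0x63665a88) (.cons 11 (.negSucc 0x9012a86) .nil)))))),
   .cons 5 (.negSucc 0x37c0b398) (.cons 6 (.negSucc 0x1decfae337) (.cons 7 (.ofNat 0x13d743c) (.cons 8 (.ofNat 0x7818f53646) (.cons 9 (.ofNat 0x1adba09fc3a) (.cons 10 (.negSucc 0x7141e1e7) (.cons 11 (.ofNat 0xd7eaf3d) .nil)))))),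
   .cons 5 (.negSucc 0x4e1031) (.cons 6 (.ofNat 0x8a971ef) (.cons 7 (.negSucc 0x2eb7814) (.cons 8 (.ofNat 0x63665a88) (.cons 9 (.negSucc 0x7141e1e7) (.cons 10 (.ofNat 0x28b413c951a) (.cons 11 (.negSucc 0x133326a9) .nil)))))),
   .cons 5 (.ofNat 0x11b23bb81e) (.cons 6 (.negSucc 0x13f87289) (.cons 7 (.negSucc 0x6aa26ea9f4) (.cons 8 (.negSucc 0x9012a86) (.cons 9 (.ofNat 0xd7eaf3d) (.cons 10 (.negSucc 0x133326a9) (.cons 11 (.ofNat 0x15db160cba4) .nil)))))),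
   .cons 12 (.negSucc 0x8a94aef10a) (.cons 13 (.ofNat 0x2e160d16) (.cons 14 (.ofNat 0x407d3f3295) (.cons 15 (.negSucc 0x2a2d56cb) (.cons 16 (.ofNat 0x342bdab1) (.cons 17 (.ofNat 0x2b707b5) (.cons 18 (.ofNat 0x12296b7e91) .nil)))))),
   .cons 12 (.ofNat 0x2e160d16) (.cons 13 (.ofNat 0xdbb2682271) (.cons 14 (.ofNat 0x1033827d) (.cons 15 (.ofNat 0xaf655ec452) (.cons 16 (.negSucc 0x1df41b7884) (.cons 17 (.ofNat 0xa4a1ff9) (.cons 18 (.negSucc 0xd7419a) .nil)))))),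
   .cons 12 (.ofNat 0x407d3f3295) (.cons 13 (.ofNat 0x1033827d) (.cons 14 (.ofNat 0xa273495ad2) (.cons 15 (.ofNat 0x8c82144) (.cons 16 (.negSucc 0xa605282) (.cons 17 (.negSucc 0x3138c09) (.cons 18 (.ofNat 0x6adb4791a2) .nil)))))),
   .cons 12 (.negSucc 0x2a2d56cb) (.cons 13 (.ofNat 0xaf655ec452) (.cons 14 (.ofNat 0x8c82144) (.cons 15 (.ofNat 0x15694e263cc) (.cons 16 (.ofNat 0x77fc8013da) (.cons 17 (.ofNat 0x9ec7adc3) (.cons 18 (.negSucc 0x41ebc088) .nil)))))),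
   .cons 12 (.ofNat 0x342bdab1) (.cons 13 (.negSucc 0x1df41b7884) (.cons 14 (.negSucc 0xa605282) (.cons 15 (.ofNat 0x77fc8013da) (.cons 16 (.ofNat 0x1ada250495c) (.cons 17 (.negSucc 0xaced4379) (.cons 18 (.negSucc 0x1b815260) .nil)))))),
   .cons 12 (.ofNat 0x2b707b5) (.cons 13 (.ofNat 0xa4a1ff9) (.cons 14 (.negSucc 0x3138c09) (.cons 15 (.ofNat 0x9ec7adc3) (.cons 16 (.negSucc 0xaced4379) (.cons 17 (.ofNat 0x28b0d950971) (.cons 18 (.negSucc 0x16ec7661) .nil)))))),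
   .cons 12 (.ofNat 0x12296b7e91) (.cons 13 (.negSucc 0xd7419a) (.cons 14 (.ofNat 0x6adb4791a2) (.cons 15 (.negSucc 0x41ebc088) (.cons 16 (.negSucc 0x1b815260) (.cons 17 (.negSucc 0x16ec7661) (.cons 18 (.ofNat 0x15d237f7f97) .nil)))))),
   .cons 19 (.ofNat 0xdbb4171be7) (.cons 20 (.ofNat 0xaf632f5c4f) (.cons 21 (.ofNat 0x1e023a8988) (.cons 22 (.ofNat 0x14c4d7a) .nil))),
   .cons 19 (.ofNat 0xaf632f5c4f) (.cons 20 (.ofNat 0x156c146df0c) (.cons 21 (.negSucc 0x7862137330) (.cons 22 (.ofNat 0x6c65aa92) .nil))),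
   .cons 19 (.ofNat 0x1e023a8988) (.cons 20 (.negSucc 0x7862137330) (.cons 21 (.ofNat 0x1ad60a70206) (.cons 22 (.ofNat 0xccc134c9) .nil))),
   .cons 19 (.ofNat 0x14c4d7a) (.cons 20 (.ofNat 0x6c65aa92) (.cons 21 (.ofNat 0xccc134c9) (.cons 22 (.ofNat 0x28b0449f0c2) .nil))),
   .cons 23 (.ofNat 0x28b070d5d42) .nil]

noncomputable def X35 : List SL :=
  [.cons 0 (.ofNat 0x28a8eb64d29) .nil,
   .cons 1 (.ofNat 0xdba4ea2e6b) (.cons 2 (.negSucc 0xaf58418464) (.cons 3 (.negSucc 0x1e246c69ea) (.cons 4 (.ofNat 0x5528379b) .nil))),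
   .cons 1 (.negSucc 0xaf58418464) (.cons 2 (.ofNat 0x15705b22342) (.cons 3 (.negSucc 0x78174686ed) (.cons 4 (.ofNat 0x66c2f0e8) .nil))),
   .cons 1 (.negSucc 0x1e246c69ea) (.cons 2 (.negSucc 0x78174686ed) (.cons 3 (.ofNat 0x1adc660b228) (.cons 4 (.ofNat 0xb092a615) .nil))),
   .cons 1 (.ofNat 0x5528379b) (.cons 2 (.ofNat 0x66c2f0e8) (.cons 3 (.ofNat 0xb092a615) (.cons 4 (.ofNat 0x28ad8da100d) .nil))),
   .cons 5 (.negSucc 0x8a9ee12d13) (.cons 6 (.ofNat 0xde2f928) (.cons 7 (.negSucc 0x407555a846) (.cons 8 (.negSucc 0x44983f3b) (.cons 9 (.ofNat 0x739cfe9) (.cons 10 (.negSucc 0x2f5d59) (.cons 11 (.ofNat 0x120aac4965) .nil)))))),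
   .cons 5 (.ofNat 0xde2f928) (.cons 6 (.ofNat 0xdbaadd3552) (.cons 7 (.negSucc 0xd0c1d34) (.cons 8 (.ofNat 0xaf666feadd) (.cons 9 (.negSucc 0x1e0b66f1eb) (.cons 10 (.negSucc 0x5b274469) (.cons 11 (.ofNat 0xf813ee7) .nil)))))),
   .cons 5 (.negSucc 0x407555a846) (.cons 6 (.negSucc 0xd0c1d34) (.cons 7 (.ofNat 0xa2773e65ea) (.cons 8 (.negSucc 0xf4e8e68) (.cons 9 (.ofNat 0xa2a2a46) (.cons 10 (.negSucc 0x2f46dda) (.cons 11 (.negSucc 0x6ab981941a) .nil)))))),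
   .cons 5 (.negSucc 0x44983f3b) (.cons 6 (.ofNat 0xaf666feadd) (.cons 7 (.negSucc 0xf4e8e68) (.cons 8 (.ofNat 0x1572a41cdfa) (.cons 9 (.ofNat 0x7812ce7321) (.cons 10 (.ofNat 0x3b3a9725) (.cons 11 (.ofNat 0x16b1ba7f) .nil)))))),
   .cons 5 (.ofNat 0x739cfe9) (.cons 6 (.negSucc 0x1e0b66f1eb) (.cons 7 (.ofNat 0xa2a2a46) (.cons 8 (.ofNat 0x7812ce7321) (.cons 9 (.ofNat 0x1adc55b5bf5) (.cons 10 (.negSucc 0x606d4c03) (.cons 11 (.ofNat 0x78ade5) .nil)))))),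
   .cons 5 (.negSucc 0x2f5d59) (.cons 6 (.negSucc 0x5b274469) (.cons 7 (.negSucc 0x2f46dda) (.cons 8 (.ofNat 0x3b3a9725) (.cons 9 (.negSucc 0x606d4c03) (.cons 10 (.ofNat 0x28b42e88a3e) (.cons 11 (.negSucc 0x1340ca25) .nil)))))),
   .cons 5 (.ofNat 0x120aac4965) (.cons 6 (.ofNat 0xf813ee7) (.cons 7 (.negSucc 0x6ab981941a) (.cons 8 (.ofNat 0x16b1ba7f) (.cons 9 (.ofNat 0x78ade5) (.cons 10 (.negSucc 0x1340ca25) (.cons 11 (.ofNat 0x15db0c008eb) .nil)))))),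
   .cons 12 (.negSucc 0x8aadcbe837) (.cons 13 (.negSucc 0xe07f724) (.cons 14 (.ofNat 0x40c1958d51) (.cons 15 (.ofNat 0x431d2027) (.cons 16 (.negSucc 0xaa35685) (.cons 17 (.ofNat 0x28f9a9f) (.cons 18 (.ofNat 0x11d10865ed) .nil)))))),
   .cons 12 (.negSucc 0xe07f724) (.cons 13 (.ofNat 0xdbb6fa33a5) (.cons 14 (.negSucc 0x62bf93f) (.cons 15 (.ofNat 0xaf703097c1) (.cons 16 (.negSucc 0x1dd561d742) (.cons 17 (.negSucc 0x59943cba) (.cons 18 (.negSucc 0x24537d32) .nil)))))),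
   .cons 12 (.ofNat 0x40c1958d51) (.cons 13 (.negSucc 0x62bf93f) (.cons 14 (.ofNat 0xa27dfb3133) (.cons 15 (.ofNat 0xeee4cc1) (.cons 16 (.negSucc 0x123e7ea) (.cons 17 (.negSucc 0x2eedc89) (.cons 18 (.ofNat 0x6ac469b2f1) .nil)))))),
   .cons 12 (.ofNat 0x431d2027) (.cons 13 (.ofNat 0xaf703097c1) (.cons 14 (.ofNat 0xeee4cc1) (.cons 15 (.ofNat 0x1569c37cb57) (.cons 16 (.ofNat 0x7802723098) (.cons 17 (.ofNat 0x76880d84) (.cons 18 (.negSucc 0x618adf00) .nil)))))),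
   .cons 12 (.negSucc 0xaa35685) (.cons 13 (.negSucc 0x1dd561d742) (.cons 14 (.negSucc 0x123e7ea) (.cons 15 (.ofNat 0x7802723098) (.cons 16 (.ofNat 0x1ad973b14ff) (.cons 17 (.negSucc 0x9c247753) (.cons 18 (.negSucc 0xe3f5b52) .nil)))))),
   .cons 12 (.ofNat 0x28f9a9f) (.cons 13 (.negSucc 0x59943cba) (.cons 14 (.negSucc 0x2eedc89) (.cons 15 (.ofNat 0x76880d84) (.cons 16 (.negSucc 0x9c247753) (.cons 17 (.ofNat (Nat.shiftLeft 0x145860e57 9)) (.cons 18 (.negSucc 0x16e3ef56) .nil)))))),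
   .cons 12 (.ofNat 0x11d10865ed) (.cons 13 (.negSucc 0x24537d32) (.cons 14 (.ofNat 0x6ac469b2f1) (.cons 15 (.negSucc 0x618adf00) (.cons 16 (.negSucc 0xe3f5b52) (.cons 17 (.negSucc 0x16e3ef56) (.cons 18 (.ofNat 0x15d246c0e15) .nil)))))),
   .cons 19 (.ofNat 0xdbc1cb976b) (.cons 20 (.ofNat 0xaf83a16089) (.cons 21 (.ofNat 0x1da682e8b8) (.cons 22 (.negSucc 0x5002cabe) .nil))),
   .cons 19 (.ofNat 0xaf83a16089) (.cons 20 (.ofNat 0x156d7ea0fd2) (.cons 21 (.negSucc 0x78741dcc86) (.cons 22 (.ofNat 0x4b8cbab2) .nil))),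
   .cons 19 (.ofNat 0x1da682e8b8) (.cons 20 (.negSucc 0x78741dcc86) (.cons 21 (.ofNat 0x1ad3f6310a8) (.cons 22 (.ofNat 0xbf5e6815) .nil))),
   .cons 19 (.negSucc 0x5002cabe) (.cons 20 (.ofNat 0x4b8cbab2) (.cons 21 (.ofNat 0xbf5e6815) (.cons 22 (.ofNat 0x28affa13da6) .nil))),
   .cons 23 (.ofNat 0x28aff593243) .nil]

noncomputable def X36 : List SL :=
  [.cons 0 (.ofNat 0x28a8880be9e) .nil,
   .cons 1 (.ofNat 0xdbaff9f267) (.cons 2 (.negSucc 0xaf728fd47c) (.cons 3 (.negSucc 0x1dda8a9465) (.cons 4 (.ofNat 0x12d76d06) .nil))),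
   .cons 1 (.negSucc 0xaf728fd47c) (.cons 2 (.ofNat 0x157181bb32c) (.cons 3 (.negSucc 0x7826028eb2) (.cons 4 (.ofNat 0x81554048) .nil))),
   .cons 1 (.negSucc 0x1dda8a9465) (.cons 2 (.negSucc 0x7826028eb2) (.cons 3 (.ofNat 0x1adab6fd1df) (.cons 4 (.ofNat 0xbbbec248) .nil))),
   .cons 1 (.ofNat 0x12d76d06) (.cons 2 (.ofNat 0x81554048) (.cons 3 (.ofNat 0xbbbec248) (.cons 4 (.ofNat 0x28ad5157ae5) .nil))),
   .cons 5 (.negSucc 0x8ab3312576) (.cons 6 (.negSucc 0x22c4ddcc) (.cons 7 (.negSucc 0x40ac9a09c0) (.cons 8 (.ofNat 0x13c29f1d) (.cons 9 (.negSucc 0x2bc2232a) (.cons 10 (.negSucc 0x46c776) (.cons 11 (.ofNat 0x11c3139619) .nil)))))),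
   .cons 5 (.negSucc 0x22c4ddcc) (.cons 6 (.ofNat 0xdbae8732ea) (.cons 7 (.ofNat 0x50de974) (.cons 8 (.ofNat 0xaf6f3d3631) (.cons 9 (.negSucc 0x1df2ca69aa) (.cons 10 (.negSucc 0xa627ea6) (.cons 11 (.negSucc 0xd3bcf30) .nil)))))),
   .cons 5 (.negSucc 0x40ac9a09c0) (.cons 6 (.ofNat 0x50de974) (.cons 7 (.ofNat 0xa2801cfb90) (.cons 8 (.negSucc 0x143d8c04) (.cons 9 (.ofNat 0x2ed7ca2) (.cons 10 (.negSucc 0x2ee9a65) (.cons 11 (.negSucc 0x6aa6d3ade9) .nil)))))),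
   .cons 5 (.ofNat 0x13c29f1d) (.cons 6 (.ofNat 0xaf6f3d3631) (.cons 7 (.negSucc 0x143d8c04) (.cons 8 (.ofNat 0x157308b7862) (.cons 9 (.ofNat 0x7817cd9c17) (.cons 10 (.ofNat 0x5bb8452f) (.cons 11 (.negSucc 0x2e57436) .nil)))))),
   .cons 5 (.negSucc 0x2bc2232a) (.cons 6 (.negSucc 0x1df2ca69aa) (.cons 7 (.ofNat 0x2ed7ca2) (.cons 8 (.ofNat 0x7817cd9c17) (.cons 9 (.ofNat 0x1adbc31a6e7) (.cons 10 (.negSucc 0x6e10f1c6) (.cons 11 (.ofNat 0xaf7e860) .nil)))))),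
   .cons 5 (.negSucc 0x46c776) (.cons 6 (.negSucc 0xa627ea6) (.cons 7 (.negSucc 0x2ee9a65) (.cons 8 (.ofNat 0x5bb8452f) (.cons 9 (.negSucc 0x6e10f1c6) (.cons 10 (.ofNat 0x28b41875ac8) (.cons 11 (.negSucc 0x1331a887) .nil)))))),
   .cons 5 (.ofNat 0x11c3139619) (.cons 6 (.negSucc 0xd3bcf30) (.cons 7 (.negSucc 0x6aa6d3ade9) (.cons 8 (.negSucc 0x2e57436) (.cons 9 (.ofNat 0xaf7e860) (.cons 10 (.negSucc 0x1331a887) (.cons 11 (.ofNat 0x15db14446a1) .nil)))))),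
   .cons 12 (.negSucc 0x8a997d40c3) (.cons 13 (.ofNat 0x229a8137) (.cons 14 (.ofNat 0x408a4ac2c1) (.cons 15 (.negSucc 0x15551d65) (.cons 16 (.ofNat 0x283486f5) (.cons 17 (.ofNat 0x2ae11cb) (.cons 18 (.ofNat 0x121894d6c2) .nil)))))),
   .cons 12 (.ofNat 0x229a8137) (.cons 13 (.ofNat 0xdbb3443f3a) (.cons 14 (.ofNat 0xbeecf36) (.cons 15 (.ofNat 0xaf67746bf7) (.cons 16 (.negSucc 0x1dee4134ba) (.cons 17 (.negSucc 0x8c3e610) (.cons 18 (.negSucc 0x79d8d8d) .nil)))))),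
   .cons 12 (.ofNat 0x408a4ac2c1) (.cons 13 (.ofNat 0xbeecf36) (.cons 14 (.ofNat 0xa2754d4640) (.cons 15 (.ofNat 0x9f0930c) (.cons 16 (.negSucc 0x897e5ad) (.cons 17 (.negSucc 0x30df323) (.cons 18 (.ofNat 0x6ad6f1f2b9) .nil)))))),
   .cons 12 (.negSucc 0x15551d65) (.cons 13 (.ofNat 0xaf67746bf7) (.cons 14 (.ofNat 0x9f0930c) (.cons 15 (.ofNat 0x156963ca121) (.cons 16 (.ofNat 0x77fda963ce) (.cons 17 (.ofNat 0x97179f1a) (.cons 18 (.negSucc 0x47ed6ee4) .nil)))))),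
   .cons 12 (.ofNat 0x283486f5) (.cons 13 (.negSucc 0x1dee4134ba) (.cons 14 (.negSucc 0x897e5ad) (.cons 15 (.ofNat 0x77fda963ce) (.cons 16 (.ofNat 0x1ada02d865c) (.cons 17 (.negSucc 0xa9b8c886) (.cons 18 (.negSucc 0x18f985a6) .nil)))))),
   .cons 12 (.ofNat 0x2ae11cb) (.cons 13 (.negSucc 0x8c3e610) (.cons 14 (.negSucc 0x30df323) (.cons 15 (.ofNat 0x97179f1a) (.cons 16 (.negSucc 0xa9b8c886) (.cons 17 (.ofNat 0x28b0d43693a) (.cons 18 (.negSucc 0x16eef90f) .nil)))))),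
   .cons 12 (.ofNat 0x121894d6c2) (.cons 13 (.negSucc 0x79d8d8d) (.cons 14 (.ofNat 0x6ad6f1f2b9) (.cons 15 (.negSucc 0x47ed6ee4) (.cons 16 (.negSucc 0x18f985a6) (.cons 17 (.negSucc 0x16eef90f) (.cons 18 (.ofNat 0x15d239c0037) .nil)))))),
   .cons 19 (.ofNat 0xdbb6b33ad4) (.cons 20 (.ofNat 0xaf6963133e) (.cons 21 (.ofNat 0x1df0bb9291) (.cons 22 (.negSucc 0xe36c7da) .nil))),
   .cons 19 (.ofNat 0xaf6963133e) (.cons 20 (.ofNat 0x156c594791c) (.cons 21 (.negSucc 0x7865841c14) (.cons 22 (.ofNat 0x6620f3a8) .nil))),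
   .cons 19 (.ofNat 0x1df0bb9291) (.cons 20 (.negSucc 0x7865841c14) (.cons 21 (.ofNat 0x1ad5a41f5a1) (.cons 22 (.ofNat 0xca2e1de0) .nil))),
   .cons 19 (.negSucc 0xe36c7da) (.cons 20 (.ofNat 0x6620f3a8) (.cons 21 (.ofNat 0xca2e1de0) (.cons 22 (.ofNat 0x28b035cf2bf) .nil))),
   .cons 23 (.ofNat 0x28b058f3d87) .nil]

noncomputable def X37 : List SL :=
  [.cons 0 (.ofNat 0x28a8d8aec1b) .nil,
   .cons 1 (.ofNat 0xdba706b6d6) (.cons 2 (.negSucc 0xaf5d44b02d) (.cons 3 (.negSucc 0x1e1650ab23) (.cons 4 (.ofNat 0x48809e4f) .nil))),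
   .cons 1 (.negSucc 0xaf5d44b02d) (.cons 2 (.ofNat 0x157093b5841) (.cons 3 (.negSucc 0x781a11cf20) (.cons 4 (.ofNat 0x6bd422a5) .nil))),
   .cons 1 (.negSucc 0x1e1650ab23) (.cons 2 (.negSucc 0x781a11cf20) (.cons 3 (.ofNat 0x1adc13a6d91) (.cons 4 (.ofNat 0xb2bafaac) .nil))),
   .cons 1 (.ofNat 0x48809e4f) (.cons 2 (.ofNat 0x6bd422a5) (.cons 3 (.ofNat 0xb2bafaac) (.cons 4 (.ofNat 0x28ad8209921) .nil))),
   .cons 5 (.negSucc 0x8aa2c4457b) (.cons 6 (.ofNat 0x497b56b) (.cons 7 (.negSucc 0x407fe20208) (.cons 8 (.negSucc 0x33bbcc41) (.cons 9 (.negSucc 0x2808817) (.cons 10 (.negSucc 0x330123) (.cons 11 (.ofNat 0x11fd06473a) .nil)))))),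
   .cons 5 (.ofNat 0x497b56b) (.cons 6 (.ofNat 0xdbab8e3506) (.cons 7 (.negSucc 0x99934d5) (.cons 8 (.ofNat 0xaf681fa7f8) (.cons 9 (.negSucc 0x1e06b51229) (.cons 10 (.negSucc 0x4bbd5404) (.cons 11 (.ofNat 0xa01c9b1) .nil)))))),
   .cons 5 (.negSucc 0x407fe20208) (.cons 6 (.negSucc 0x99934d5) (.cons 7 (.ofNat 0xa278ef0094) (.cons 8 (.negSucc 0x1039c608) (.cons 9 (.ofNat 0x8c4b521) (.cons 10 (.negSucc 0x2f4238b) (.cons 11 (.negSucc 0x6ab5eef637) .nil)))))),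
   .cons 5 (.negSucc 0x33bbcc41) (.cons 6 (.ofNat 0xaf681fa7f8) (.cons 7 (.negSucc 0x1039c608) (.cons 8 (.ofNat 0x1572b705938) (.cons 9 (.ofNat 0x7813c51542) (.cons 10 (.ofNat 0x416dd53b) (.cons 11 (.ofNat 0x11d76110) .nil)))))),
   .cons 5 (.negSucc 0x2808817) (.cons 6 (.negSucc 0x1e06b51229) (.cons 7 (.ofNat 0x8c4b521) (.cons 8 (.ofNat 0x7813c51542) (.cons 9 (.ofNat 0x1adc399c9a1) (.cons 10 (.negSucc 0x630c41d4) (.cons 11 (.ofNat 0x273dac6) .nil)))))),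
   .cons 5 (.negSucc 0x330123) (.cons 6 (.negSucc 0x4bbd5404) (.cons 7 (.negSucc 0x2f4238b) (.cons 8 (.ofNat 0x416dd53b) (.cons 9 (.negSucc 0x630c41d4) (.cons 10 (.ofNat 0x28b42a0696d) (.cons 11 (.negSucc 0x133b8b03) .nil)))))),
   .cons 5 (.ofNat 0x11fd06473a) (.cons 6 (.ofNat 0xa01c9b1) (.cons 7 (.negSucc 0x6ab5eef637) (.cons 8 (.ofNat 0x11d76110) (.cons 9 (.ofNat 0x273dac6) (.cons 10 (.negSucc 0x133b8b03) (.cons 11 (.ofNat 0x15db0d75055) .nil)))))),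
   .cons 12 (.negSucc 0x8aa9ec8b24) (.cons 13 (.negSucc 0x4be4cce) (.cons 14 (.ofNat 0x40b708355d) (.cons 15 (.ofNat 0x323dfef3) (.cons 16 (.negSucc 0xf076b1) (.cons 17 (.ofNat 0x2949734) (.cons 18 (.ofNat 0x11deab585b) .nil)))))),
   .cons 12 (.negSucc 0x4be4cce) (.cons 13 (.ofNat 0xdbb641f066) (.cons 14 (.negSucc 0x2b5999f) (.cons 15 (.ofNat 0xaf6e883f2c) (.cons 16 (.negSucc 0x1dda22cbf9) (.cons 17 (.negSucc 0x4a27d25f) (.cons 18 (.negSucc 0x1edab311) .nil)))))),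
   .cons 12 (.ofNat 0x40b708355d) (.cons 13 (.negSucc 0x2b5999f) (.cons 14 (.ofNat 0xa27c4ea65b) (.cons 15 (.ofNat 0xdf88b85) (.cons 16 (.negSucc 0x28e9b28) (.cons 17 (.negSucc 0x2f59c68) (.cons 18 (.ofNat 0x6ac7f7fffb) .nil)))))),
   .cons 12 (.ofNat 0x323dfef3) (.cons 13 (.ofNat 0xaf6e883f2c) (.cons 14 (.ofNat 0xdf88b85) (.cons 15 (.ofNat 0x1569b0b299f) (.cons 16 (.ofNat 0x78018c9e08) (.cons 17 (.ofNat 0x7cbfbfce) (.cons 18 (.negSucc 0x5ca278aa) .nil)))))),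
   .cons 12 (.negSucc 0xf076b1) (.cons 13 (.negSucc 0x1dda22cbf9) (.cons 14 (.negSucc 0x28e9b28) (.cons 15 (.ofNat 0x78018c9e08) (.cons 16 (.ofNat 0x1ad98ed0d11) (.cons 17 (.negSucc 0x9ebd2795) (.cons 18 (.negSucc 0x104bc99b) .nil)))))),
   .cons 12 (.ofNat 0x2949734) (.cons 13 (.negSucc 0x4a27d25f) (.cons 14 (.negSucc 0x2f59c68) (.cons 15 (.ofNat 0x7cbfbfce) (.cons 16 (.negSucc 0x9ebd2795) (.cons 17 (.ofNat 0x28b0c4eaf86) (.cons 18 (.negSucc 0x16e86e4e) .nil)))))),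
   .cons 12 (.ofNat 0x11deab585b) (.cons 13 (.negSucc 0x1edab311) (.cons 14 (.ofNat 0x6ac7f7fffb) (.cons 15 (.negSucc 0x5ca278aa) (.cons 16 (.negSucc 0x104bc99b) (.cons 17 (.negSucc 0x16e86e4e) (.cons 18 (.ofNat 0x15d243cdd56) .nil)))))),
   .cons 19 (.ofNat 0xdbbfaac080) (.cons 20 (.ofNat 0xaf7e9f519d) (.cons 21 (.ofNat 0x1db4aea190) (.cons 22 (.negSucc 0x4373d80e) .nil))),
   .cons 19 (.ofNat 0xaf7e9f519d) (.cons 20 (.ofNat 0x156d464b120) (.cons 21 (.negSucc 0x787154e3c7) (.cons 22 (.ofNat 0x50a0dd53) .nil))),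
   .cons 19 (.ofNat 0x1db4aea190) (.cons 20 (.negSucc 0x787154e3c7) (.cons 21 (.ofNat 0x1ad447e0b3a) (.cons 22 (.ofNat 0xc16ce964) .nil))),
   .cons 19 (.negSucc 0x4373d80e) (.cons 20 (.ofNat 0x50a0dd53) (.cons 21 (.ofNat 0xc16ce964) (.cons 22 (.ofNat 0x28b0051c8ec) .nil))),
   .cons 23 (.ofNat 0x28b00851039) .nil]

noncomputable def X38 : List SL :=
  [.cons 0 (.ofNat 0x28a8978f37f) .nil,
   .cons 1 (.ofNat 0xdbae433da7) (.cons 2 (.negSucc 0xaf6e7d2e35) (.cons 3 (.negSucc 0x1de5f2f743) (.cons 4 (.ofNat 0x1d161642) .nil))),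
   .cons 1 (.negSucc 0xaf6e7d2e35) (.cons 2 (.ofNat 0x15715460aa4) (.cons 3 (.negSucc 0x7823b8b225) (.cons 4 (.ofNat 0x7d38ddb2) .nil))),
   .cons 1 (.negSucc 0x1de5f2f743) (.cons 2 (.negSucc 0x7823b8b225) (.cons 3 (.ofNat 0x1adaf97e7c5) (.cons 4 (.ofNat 0xba095084) .nil))),
   .cons 1 (.ofNat 0x1d161642) (.cons 2 (.ofNat 0x7d38ddb2) (.cons 3 (.ofNat 0xba095084) (.cons 4 (.ofNat 0x28ad5a8ea9a) .nil))),
   .cons 5 (.negSucc 0x8ab00fae3b) (.cons 6 (.negSucc 0x1b40c7b8) (.cons 7 (.negSucc 0x40a41043b4) (.cons 8 (.ofNat 0x61e36a9) (.cons 9 (.negSucc 0x23e39325) (.cons 10 (.negSucc 0x42873e) (.cons 11 (.ofNat 0x11ce217691) .nil)))))),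
   .cons 5 (.negSucc 0x1b40c7b8) (.cons 6 (.ofNat 0xdbadf3d1bd) (.cons 7 (.ofNat 0x2400d5b) (.cons 8 (.ofNat 0xaf6de22b02) (.cons 9 (.negSucc 0x1df69832c3) (.cons 10 (.negSucc 0x16dc8a5f) (.cons 11 (.negSucc 0x8ceb2a6) .nil)))))),
   .cons 5 (.negSucc 0x40a41043b4) (.cons 6 (.ofNat 0x2400d5b) (.cons 7 (.ofNat 0xa27ebcfbb5) (.cons 8 (.negSucc 0x13761fa8) (.cons 9 (.ofNat 0x4098103) (.cons 10 (.negSucc 0x2f02279) (.cons 11 (.negSucc 0x6aa9b50986) .nil)))))),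
   .cons 5 (.ofNat 0x61e36a9) (.cons 6 (.ofNat 0xaf6de22b02) (.cons 7 (.negSucc 0x13761fa8) (.cons 8 (.ofNat 0x1572f8e2b07) (.cons 9 (.ofNat 0x78170a0afa) (.cons 10 (.ofNat 0x56b240ed) (.cons 11 (.ofNat 0x1151c06) .nil)))))),
   .cons 5 (.negSucc 0x23e39325) (.cons 6 (.negSucc 0x1df69832c3) (.cons 7 (.ofNat 0x4098103) (.cons 8 (.ofNat 0x78170a0afa) (.cons 9 (.ofNat 0x1adbd9a2a73) (.cons 10 (.negSucc 0x6bf8599a) (.cons 11 (.ofNat 0x95426f4) .nil)))))),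
   .cons 5 (.negSucc 0x42873e) (.cons 6 (.negSucc 0x16dc8a5f) (.cons 7 (.negSucc 0x2f02279) (.cons 8 (.ofNat 0x56b240ed) (.cons 9 (.negSucc 0x6bf8599a) (.cons 10 (.ofNat 0x28b41b9a637) (.cons 11 (.negSucc 0x13322e41) .nil)))))),
   .cons 5 (.ofNat 0x11ce217691) (.cons 6 (.negSucc 0x8ceb2a6) (.cons 7 (.negSucc 0x6aa9b50986) (.cons 8 (.ofNat 0x1151c06) (.cons 9 (.ofNat 0x95426f4) (.cons 10 (.negSucc 0x13322e41) (.cons 11 (.ofNat 0x15db12f2ac5) .nil)))))),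
   .cons 12 (.negSucc 0x8a9ca2aa82) (.cons 13 (.ofNat 0x1b16ce79) (.cons 14 (.ofNat 0x4092d5b186) (.cons 15 (.negSucc 0x7abbca4) (.cons 16 (.ofNat 0x205b15c0) (.cons 17 (.ofNat 0x2a8b9ff) (.cons 18 (.ofNat 0x120d8851b2) .nil)))))),
   .cons 12 (.ofNat 0x1b16ce79) (.cons 13 (.ofNat 0xdbb3d42f2e) (.cons 14 (.ofNat 0x9236220) (.cons 15 (.ofNat 0xaf68cff55f) (.cons 16 (.negSucc 0x1dea6ad5bc) (.cons 17 (.negSucc 0x153f821f) (.cons 18 (.negSucc 0xc0da32f) .nil)))))),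
   .cons 12 (.ofNat 0x4092d5b186) (.cons 13 (.ofNat 0x9236220) (.cons 14 (.ofNat 0xa276a05372) (.cons 15 (.ofNat 0xab4567a) (.cons 16 (.negSucc 0x76f423b) (.cons 17 (.negSucc 0x309c57e) (.cons 18 (.ofNat 0x6ad4188148) .nil)))))),
   .cons 12 (.negSucc 0x7abbca4) (.cons 13 (.ofNat 0xaf68cff55f) (.cons 14 (.ofNat 0xab4567a) (.cons 15 (.ofNat 0x15697226674) (.cons 16 (.ofNat 0x77fe69a9ce) (.cons 17 (.ofNat 0x920fa51b) (.cons 18 (.negSucc 0x4bdf1665) .nil)))))),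
   .cons 12 (.ofNat 0x205b15c0) (.cons 13 (.negSucc 0x1dea6ad5bc) (.cons 14 (.negSucc 0x76f423b) (.cons 15 (.ofNat 0x77fe69a9ce) (.cons 16 (.ofNat 0x1ad9ec8492d) (.cons 17 (.negSucc 0xa79ffcbe) (.cons 18 (.negSucc 0x17514836) .nil)))))),
   .cons 12 (.ofNat 0x2a8b9ff) (.cons 13 (.negSucc 0x153f821f) (.cons 14 (.negSucc 0x309c57e) (.cons 15 (.ofNat 0x920fa51b) (.cons 16 (.negSucc 0xa79ffcbe) (.cons 17 (.ofNat 0x28b0d10551f) (.cons 18 (.negSucc 0x16ef1a79) .nil)))))),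
   .cons 12 (.ofNat 0x120d8851b2) (.cons 13 (.negSucc 0xc0da32f) (.cons 14 (.ofNat 0x6ad4188148) (.cons 15 (.negSucc 0x4bdf1665) (.cons 16 (.negSucc 0x17514836) (.cons 17 (.negSucc 0x16ef1a79) (.cons 18 (.ofNat 0x15d23b44b30) .nil)))))),
   .cons 19 (.ofNat 0xdbb867c0ca) (.cons 20 (.ofNat 0xaf6d71b7ca) (.cons 21 (.ofNat 0x1de54547de) (.cons 22 (.negSucc 0x18606662) .nil))),
   .cons 19 (.ofNat 0xaf6d71b7ca) (.cons 20 (.ofNat 0x156c865b2a9) (.cons 21 (.negSucc 0x7867c56b40) (.cons 22 (.ofNat 0x62063d07) .nil))),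
   .cons 19 (.ofNat 0x1de54547de) (.cons 20 (.negSucc 0x7867c56b40) (.cons 21 (.ofNat 0x1ad561539fc) (.cons 22 (.ofNat 0xc880a674) .nil))),
   .cons 19 (.negSucc 0x18606662) (.cons 20 (.ofNat 0x62063d07) (.cons 21 (.ofNat 0xc880a674) (.cons 22 (.ofNat 0x28b02c3f3c7) .nil))),
   .cons 23 (.ofNat 0x28b0495dde4) .nil]

noncomputable def X39 : List SL :=
  [.cons 0 (.ofNat 0x28a8cc44746) .nil,
   .cons 1 (.ofNat 0xdba8673b7a) (.cons 2 (.negSucc 0xaf608d8d23) (.cons 3 (.negSucc 0x1e0d141cca) (.cons 4 (.ofNat 0x4036d02b) .nil))),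
   .cons 1 (.negSucc 0xaf608d8d23) (.cons 2 (.ofNat 0x1570b88a154) (.cons 3 (.negSucc 0x781be7f982) (.cons 4 (.ofNat 0x6f25d3cd) .nil))),
   .cons 1 (.negSucc 0x1e0d141cca) (.cons 2 (.negSucc 0x781be7f982) (.cons 3 (.ofNat 0x1adbddadd04) (.cons 4 (.ofNat 0xb422326b) .nil))),
   .cons 1 (.ofNat 0x4036d02b) (.cons 2 (.ofNat 0x6f25d3cd) (.cons 3 (.ofNat 0xb422326b) (.cons 4 (.ofNat 0x28ad7a67818) .nil))),
   .cons 5 (.negSucc 0x8aa550069c) (.cons 6 (.negSucc 0x17d50bd) (.cons 7 (.negSucc 0x4086ca54cb) (.cons 8 (.negSucc 0x28b05323) (.cons 9 (.negSucc 0x8e03d95) (.cons 10 (.negSucc 0x35b12e) (.cons 11 (.ofNat 0x11f4136d71) .nil)))))),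
   .cons 5 (.negSucc 0x17d50bd) (.cons 6 (.ofNat 0xdbac0183e3) (.cons 7 (.negSucc 0x756acfb) (.cons 8 (.ofNat 0xaf6939aedc) (.cons 9 (.negSucc 0x1e03a1beda) (.cons 10 (.negSucc 0x41a50270) (.cons 11 (.ofNat (Nat.shiftLeft 0x33487 9)) .nil)))))),
   .cons 5 (.negSucc 0x4086ca54cb) (.cons 6 (.negSucc 0x756acfb) (.cons 7 (.ofNat 0xa27a09594e) (.cons 8 (.negSucc 0x10d5f6ac) (.cons 9 (.ofNat 0x7dc39c6) (.cons 10 (.negSucc 0x2f3a5f7) (.cons 11 (.negSucc 0x6ab398aaa6) .nil)))))),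
   .cons 5 (.negSucc 0x28b05323) (.cons 6 (.ofNat 0xaf6939aedc) (.cons 7 (.negSucc 0x10d5f6ac) (.cons 8 (.ofNat 0x1572c36dfe4) (.cons 9 (.ofNat 0x781465ae5a) (.cons 10 (.ofNat 0x457d1ead) (.cons 11 (.ofNat 0xea701c7) .nil)))))),
   .cons 5 (.negSucc 0x8e03d95) (.cons 6 (.negSucc 0x1e03a1beda) (.cons 7 (.ofNat 0x7dc39c6) (.cons 8 (.ofNat 0x781465ae5a) (.cons 9 (.ofNat 0x1adc272e93b) (.cons 10 (.negSucc 0x64c1d4a9) (.cons 11 (.ofNat 0x3c1f86f) .nil)))))),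
   .cons 5 (.negSucc 0x35b12e) (.cons 6 (.negSucc 0x41a50270) (.cons 7 (.negSucc 0x2f3a5f7) (.cons 8 (.ofNat 0x457d1ead) (.cons 9 (.negSucc 0x64c1d4a9) (.cons 10 (.ofNat 0x28b4271adda) (.cons 11 (.negSucc 0x1338f81b) .nil)))))),
   .cons 5 (.ofNat 0x11f4136d71) (.cons 6 (.ofNat (Nat.shiftLeft 0x33487 9)) (.cons 7 (.negSucc 0x6ab398aaa6) (.cons 8 (.ofNat 0xea701c7) (.cons 9 (.ofNat 0x3c1f86f) (.cons 10 (.negSucc 0x1338f81b) (.cons 11 (.ofNat 0x15db0e68a3f) .nil)))))),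
   .cons 12 (.negSucc 0x8aa764920b) (.cons 13 (.ofNat 0x155e305) (.cons 14 (.ofNat 0x40b01f23cd) (.cons 15 (.ofNat 0x27301d39) (.cons 16 (.ofNat 0x56a90ad) (.cons 17 (.ofNat 0x29828b3) (.cons 18 (.ofNat 0x11e79c7c8b) .nil)))))),
   .cons 12 (.ofNat 0x155e305) (.cons 13 (.ofNat 0xdbb5c919dc) (.cons 14 (.negSucc 0x7203cc) (.cons 15 (.ofNat 0xaf6d71810d) (.cons 16 (.negSucc 0x1ddd3f1a81) (.cons 17 (.negSucc 0x400df9be) (.cons 18 (.negSucc 0x1b4463b6) .nil)))))),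
   .cons 12 (.ofNat 0x40b01f23cd) (.cons 13 (.negSucc 0x7203cc) (.cons 14 (.ofNat 0xa27b365860) (.cons 15 (.ofNat 0xd58478a) (.cons 16 (.negSucc 0x37c775a) (.cons 17 (.negSucc 0x2f9bb5a) (.cons 18 (.ofNat 0x6aca4a4938) .nil)))))),
   .cons 12 (.ofNat 0x27301d39) (.cons 13 (.ofNat 0xaf6d71810d) (.cons 14 (.ofNat 0xd58478a) (.cons 15 (.ofNat 0x1569a483355) (.cons 16 (.ofNat 0x7800f4b12d) (.cons 17 (.ofNat 0x80d192e9) (.cons 18 (.negSucc 0x596d99b2) .nil)))))),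
   .cons 12 (.ofNat 0x56a90ad) (.cons 13 (.negSucc 0x1ddd3f1a81) (.cons 14 (.negSucc 0x37c775a) (.cons 15 (.ofNat 0x7800f4b12d) (.cons 16 (.ofNat 0x1ad9a091652) (.cons 17 (.negSucc 0xa06fd84a) (.cons 18 (.negSucc (Nat.sub (Nat.shiftLeft 0x8d181 9) 1)) .nil)))))),
   .cons 12 (.ofNat 0x29828b3) (.cons 13 (.negSucc 0x400df9be) (.cons 14 (.negSucc 0x2f9bb5a) (.cons 15 (.ofNat 0x80d192e9) (.cons 16 (.negSucc 0xa06fd84a) (.cons 17 (.ofNat 0x28b0c7071a3) (.cons 18 (.negSucc 0x16ea8056) .nil)))))),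
   .cons 12 (.ofNat 0x11e79c7c8b) (.cons 13 (.negSucc 0x1b4463b6) (.cons 14 (.ofNat 0x6aca4a4938) (.cons 15 (.negSucc 0x596d99b2) (.cons 16 (.negSucc (Nat.sub (Nat.shiftLeft 0x8d181 9) 1)) (.cons 17 (.negSucc 0x16ea8056) (.cons 18 (.ofNat 0x15d241f1826) .nil)))))),
   .cons 19 (.ofNat 0xdbbe45cb5c) (.cons 20 (.ofNat 0xaf7b57d80e) (.cons 21 (.ofNat 0x1dbdf5d39e) (.cons 22 (.negSucc 0x3b3a6f60) .nil))),
   .cons 19 (.ofNat 0xaf7b57d80e) (.cons 20 (.ofNat 0x156d21770d0) (.cons 21 (.negSucc 0x786f81c089) (.cons 22 (.ofNat 0x53f38999) .nil))),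
   .cons 19 (.ofNat 0x1dbdf5d39e) (.cons 20 (.negSucc 0x786f81c089) (.cons 21 (.ofNat 0x1ad47d69d62) (.cons 22 (.ofNat 0xc2c6362d) .nil))),
   .cons 19 (.negSucc 0x3b3a6f60) (.cons 20 (.ofNat 0x53f38999) (.cons 21 (.ofNat 0xc2c6362d) (.cons 22 (.ofNat 0x28b00c63853) .nil))),
   .cons 23 (.ofNat 0x28b0149622a) .nil]

noncomputable def X40 : List SL :=
  [.cons 0 (.ofNat 0x28a8a197f19) .nil,
   .cons 1 (.ofNat 0xdbad234387) (.cons 2 (.negSucc 0xaf6bd34f9e) (.cons 3 (.negSucc 0x1ded6b524e) (.cons 4 (.ofNat 0x23cb371b) .nil))),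
   .cons 1 (.negSucc 0xaf6bd34f9e) (.cons 2 (.ofNat 0x15713695ae0) (.cons 3 (.negSucc 0x782239dcc1) (.cons 4 (.ofNat 0x7a8872f8) .nil))),
   .cons 1 (.negSucc 0x1ded6b524e) (.cons 2 (.negSucc 0x782239dcc1) (.cons 3 (.ofNat 0x1adb24f945f) (.cons 4 (.ofNat 0xb8e9dbc8) .nil))),
   .cons 1 (.ofNat 0x23cb371b) (.cons 2 (.ofNat 0x7a8872f8) (.cons 3 (.ofNat 0xb8e9dbc8) (.cons 4 (.ofNat 0x28ad608a6ec) .nil))),
   .cons 5 (.negSucc 0x8aae03e694) (.cons 6 (.negSucc 0x16555c33) (.cons 7 (.negSucc 0x409e7948bd) (.cons 8 (.negSucc 0x2d140d8) (.cons 9 (.negSucc 0x1ebbaa2c) (.cons 10 (.negSucc 0x3feb2e) (.cons 11 (.ofNat 0x11d55fb2a0) .nil)))))),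
   .cons 5 (.negSucc 0x16555c33) (.cons 6 (.ofNat 0xdbad92d22b) (.cons 7 (.ofNat 0x6ac989) (.cons 8 (.ofNat 0xaf6cfeb35d) (.cons 9 (.negSucc 0x1df9159853) (.cons 10 (.negSucc 0x1f07d2d2) (.cons 11 (.negSucc 0x5e7ba2b) .nil)))))),
   .cons 5 (.negSucc 0x409e7948bd) (.cons 6 (.ofNat 0x6ac989) (.cons 7 (.ofNat 0xa27dd5a852) (.cons 8 (.negSucc 0x12f4b065) (.cons 9 (.ofNat 0x4c3df87) (.cons 10 (.negSucc 0x2f0f6bc) (.cons 11 (.negSucc 0x6aab980d32) .nil)))))),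
   .cons 5 (.negSucc 0x2d140d8) (.cons 6 (.ofNat 0xaf6cfeb35d) (.cons 7 (.negSucc 0x12f4b065) (.cons 8 (.ofNat 0x1572ee87f3e) (.cons 9 (.ofNat 0x78168963f7) (.cons 10 (.ofNat 0x5368c965) (.cons 11 (.ofNat 0x3ae1c0a) .nil)))))),
   .cons 5 (.negSucc 0x1ebbaa2c) (.cons 6 (.negSucc 0x1df9159853) (.cons 7 (.ofNat 0x4c3df87) (.cons 8 (.ofNat 0x78168963f7) (.cons 9 (.ofNat 0x1adbe857342) (.cons 10 (.negSucc 0x6a987304) (.cons 11 (.ofNat 0x842a191) .nil)))))),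
   .cons 5 (.negSucc 0x3feb2e) (.cons 6 (.negSucc 0x1f07d2d2) (.cons 7 (.negSucc 0x2f0f6bc) (.cons 8 (.ofNat 0x5368c965) (.cons 9 (.negSucc 0x6a987304) (.cons 10 (.ofNat 0x28b41da88ae) (.cons 11 (.negSucc 0x133305a9) .nil)))))),
   .cons 5 (.ofNat 0x11d55fb2a0) (.cons 6 (.negSucc 0x5e7ba2b) (.cons 7 (.negSucc 0x6aab980d32) (.cons 8 (.ofNat 0x3ae1c0a) (.cons 9 (.ofNat 0x842a191) (.cons 10 (.negSucc 0x133305a9) (.cons 11 (.ofNat 0x15db120150c) .nil)))))),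
   .cons 12 (.negSucc 0x8a9eb25db6) (.cons 13 (.ofNat 0x162bc30b) (.cons 14 (.ofNat 0x40986d619b) (.cons 15 (.ofNat 0x1469cb3) (.cons 16 (.ofNat 0x1b36a746) (.cons 17 (.ofNat 0x2a5674e) (.cons 18 (.ofNat 0x12064b235f) .nil)))))),
   .cons 12 (.ofNat 0x162bc30b) (.cons 13 (.ofNat 0xdbb431e9e8) (.cons 14 (.ofNat 0x74f02df) (.cons 15 (.ofNat 0xaf69b2dc5f) (.cons 16 (.negSucc 0x1de7e75319) (.cons 17 (.negSucc 0x1d6be149) (.cons 18 (.negSucc 0xef56fdf) .nil)))))),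
   .cons 12 (.ofNat 0x40986d619b) (.cons 13 (.ofNat 0x74f02df) (.cons 14 (.ofNat 0xa2777e3a74) (.cons 15 (.ofNat 0xb3501db) (.cons 16 (.negSucc 0x6adbe9f) (.cons 17 (.negSucc 0x306dd72) (.cons 18 (.ofNat 0x6ad23a08fe) .nil)))))),
   .cons 12 (.ofNat 0x1469cb3) (.cons 13 (.ofNat 0xaf69b2dc5f) (.cons 14 (.ofNat 0xb3501db) (.cons 15 (.ofNat 0x15697b96312) (.cons 16 (.ofNat 0x77fee6ba3d) (.cons 17 (.ofNat 0x8ec4ac4e) (.cons 18 (.negSucc 0x4e74f79c) .nil)))))),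
   .cons 12 (.ofNat 0x1b36a746) (.cons 13 (.negSucc 0x1de7e75319) (.cons 14 (.negSucc 0x6adbe9f) (.cons 15 (.ofNat 0x77fee6ba3d) (.cons 16 (.ofNat 0x1ad9dde2f38) (.cons 17 (.negSucc 0xa640a910) (.cons 18 (.negSucc 0x163b8df6) .nil)))))),
   .cons 12 (.ofNat 0x2a5674e) (.cons 13 (.negSucc 0x1d6be149) (.cons 14 (.negSucc 0x306dd72) (.cons 15 (.ofNat 0x8ec4ac4e) (.cons 16 (.negSucc 0xa640a910) (.cons 17 (.ofNat 0x28b0cef3510) (.cons 18 (.negSucc 0x16eeaf3e) .nil)))))),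
   .cons 12 (.ofNat 0x12064b235f) (.cons 13 (.negSucc 0xef56fdf) (.cons 14 (.ofNat 0x6ad23a08fe) (.cons 15 (.negSucc 0x4e74f79c) (.cons 16 (.negSucc 0x163b8df6) (.cons 17 (.negSucc 0x16eeaf3e) (.cons 18 (.ofNat 0x15d23c575dc) .nil)))))),
   .cons 19 (.ofNat 0xdbb984cbe5) (.cons 20 (.ofNat 0xaf70195caa) (.cons 21 (.ofNat 0x1dddc3f03b) (.cons 22 (.negSucc 0x1f07e5bf) .nil))),
   .cons 19 (.ofNat 0xaf70195caa) (.cons 20 (.ofNat 0x156ca3d7129) (.cons 21 (.negSucc 0x78693f841b) (.cons 22 (.ofNat 0x5f5660dc) .nil))),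
   .cons 19 (.ofNat 0x1dddc3f03b) (.cons 20 (.negSucc 0x78693f841b) (.cons 21 (.ofNat 0x1ad535a2502) (.cons 22 (.ofNat 0xc76825df) .nil))),
   .cons 19 (.negSucc 0x1f07e5bf) (.cons 20 (.ofNat 0x5f5660dc) (.cons 21 (.ofNat 0xc76825df) (.cons 22 (.ofNat 0x28b02600e12) .nil))),
   .cons 23 (.ofNat 0x28b03f26f88) .nil]

noncomputable def X41 : List SL :=
  [.cons 0 (.ofNat 0x28a8c40dfcb) .nil,
   .cons 1 (.ofNat 0xdba94d1af7) (.cons 2 (.negSucc 0xaf62b4467f) (.cons 3 (.negSucc 0x1e0708535f) (.cons 4 (.ofNat 0x3ac9a273) .nil))),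
   .cons 1 (.negSucc 0xaf62b4467f) (.cons 2 (.ofNat 0x1570d08cfcb) (.cons 3 (.negSucc 0x781d1c5dab) (.cons 4 (.ofNat 0x71523380) .nil))),
   .cons 1 (.negSucc 0x1e0708535f) (.cons 2 (.negSucc 0x781d1c5dab) (.cons 3 (.ofNat 0x1adbba4e621) (.cons 4 (.ofNat 0xb50c8e99) .nil))),
   .cons 1 (.ofNat 0x3ac9a273) (.cons 2 (.ofNat 0x71523380) (.cons 3 (.ofNat 0xb50c8e99) (.cons 4 (.ofNat 0x28ad755cea7) .nil))),
   .cons 5 (.negSucc 0x8aa6fb3b59) (.cons 6 (.negSucc 0x5785cb2) (.cons 7 (.negSucc 0x408b5000ad) (.cons 8 (.negSucc 0x217515f4) (.cons 9 (.negSucc 0xd0caabb) (.cons 10 (.negSucc 0x378d85) (.cons 11 (.ofNat 0x11ee36f329) .nil)))))),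
   .cons 5 (.negSucc 0x5785cb2) (.cons 6 (.ofNat 0xdbac4c5d13) (.cons 7 (.negSucc 0x5dbc5f6) (.cons 8 (.ofNat 0xaf69f21b0c) (.cons 9 (.negSucc 0x1e019e39c7) (.cons 10 (.negSucc 0x3b090d6b) (.cons 11 (.ofNat 0x40ea361) .nil)))))),
   .cons 5 (.negSucc 0x408b5000ad) (.cons 6 (.negSucc 0x5dbc5f6) (.cons 7 (.ofNat 0xa27ac16882) (.cons 8 (.negSucc 0x113cef8f) (.cons 9 (.ofNat 0x744876f) (.cons 10 (.negSucc 0x2f33a1f) (.cons 11 (.negSucc 0x6ab21139a2) .nil)))))),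
   .cons 5 (.negSucc 0x217515f4) (.cons 6 (.ofNat 0xaf69f21b0c) (.cons 7 (.negSucc 0x113cef8f) (.cons 8 (.ofNat 0x1572cb88492) (.cons 9 (.ofNat 0x7814ce8608) (.cons 10 (.ofNat 0x4825823b) (.cons 11 (.ofNat 0xc8f96c3) .nil)))))),
   .cons 5 (.negSucc 0xd0caabb) (.cons 6 (.negSucc 0x1e019e39c7) (.cons 7 (.ofNat 0x744876f) (.cons 8 (.ofNat 0x7814ce8608) (.cons 9 (.ofNat 0x1adc1b138b1) (.cons 10 (.negSucc 0x65dfb70d) (.cons 11 (.ofNat 0x49d64b5) .nil)))))),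
   .cons 5 (.negSucc 0x378d85) (.cons 6 (.negSucc 0x3b090d6b) (.cons 7 (.negSucc 0x2f33a1f) (.cons 8 (.ofNat 0x4825823b) (.cons 9 (.negSucc 0x65dfb70d) (.cons 10 (.ofNat 0x28b4252c804) (.cons 11 (.negSucc 0x1337924a) .nil)))))),
   .cons 5 (.ofNat 0x11ee36f329) (.cons 6 (.ofNat 0x40ea361) (.cons 7 (.negSucc 0x6ab21139a2) (.cons 8 (.ofNat 0xc8f96c3) (.cons 9 (.ofNat 0x49d64b5) (.cons 10 (.negSucc 0x1337924a) (.cons 11 (.ofNat 0x15db0efed0f) .nil)))))),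
   .cons 12 (.negSucc 0x8aa5bd2cc1) (.cons 13 (.ofNat 0x5507494) (.cons 14 (.ofNat 0x40ab98f3de) (.cons 15 (.ofNat 0x1ff314bc) (.cons 16 (.ofNat 0x993ff8c) (.cons 17 (.ofNat 0x29a9890) (.cons 18 (.ofNat 0x11ed77ee9a) .nil)))))),
   .cons 12 (.ofNat 0x5507494) (.cons 13 (.ofNat 0xdbb5797ae0) (.cons 14 (.ofNat 0x1092c58) (.cons 15 (.ofNat 0xaf6cbabaf2) (.cons 16 (.negSucc 0x1ddf48383e) (.cons 17 (.negSucc 0x39710cec) (.cons 18 (.negSucc 0x18eae97e) .nil)))))),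
   .cons 12 (.ofNat 0x40ab98f3de) (.cons 13 (.ofNat 0x1092c58) (.cons 14 (.ofNat 0xa27a7e7fcc) (.cons 15 (.ofNat 0xcef949a) (.cons 16 (.negSucc 0x41854f1) (.cons 17 (.negSucc 0x2fc5483) (.cons 18 (.ofNat 0x6acbcec158) .nil)))))),
   .cons 12 (.ofNat 0x1ff314bc) (.cons 13 (.ofNat 0xaf6cbabaf2) (.cons 14 (.ofNat 0xcef949a) (.cons 15 (.ofNat 0x15699c8b8d8) (.cons 16 (.ofNat 0x780090b6dd) (.cons 17 (.ofNat 0x837b7f66) (.cons 18 (.negSucc 0x5754cdd4) .nil)))))),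
   .cons 12 (.ofNat 0x993ff8c) (.cons 13 (.negSucc 0x1ddf48383e) (.cons 14 (.negSucc 0x41854f1) (.cons 15 (.ofNat 0x780090b6dd) (.cons 16 (.ofNat 0x1ad9ac288ae) (.cons 17 (.negSucc 0xa18c3fd5) (.cons 18 (.negSucc 0x1283a8cb) .nil)))))),
   .cons 12 (.ofNat 0x29a9890) (.cons 13 (.negSucc 0x39710cec) (.cons 14 (.negSucc 0x2fc5483) (.cons 15 (.ofNat 0x837b7f66) (.cons 16 (.negSucc 0xa18c3fd5) (.cons 17 (.ofNat 0x28b0c866c4b) (.cons 18 (.negSucc 0x16eb90cc) .nil)))))),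
   .cons 12 (.ofNat 0x11ed77ee9a) (.cons 13 (.negSucc 0x18eae97e) (.cons 14 (.ofNat 0x6acbcec158) (.cons 15 (.negSucc 0x5754cdd4) (.cons 16 (.negSucc 0x1283a8cb) (.cons 17 (.negSucc 0x16eb90cc) (.cons 18 (.ofNat 0x15d240b92b2) .nil)))))),
   .cons 19 (.ofNat 0xdbbd5b94ab) (.cons 20 (.ofNat 0xaf79324433) (.cons 21 (.ofNat 0x1dc408a6e6) (.cons 22 (.negSucc 0x35d81337) .nil))),
   .cons 19 (.ofNat 0xaf79324433) (.cons 20 (.ofNat 0x156d095845f) (.cons 21 (.negSucc 0x786e4fdaaa) (.cons 22 (.ofNat 0x56203d35) .nil))),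
   .cons 19 (.ofNat 0x1dc408a6e6) (.cons 20 (.negSucc 0x786e4fdaaa) (.cons 21 (.ofNat 0x1ad4a073217) (.cons 22 (.ofNat 0xc3a8753b) .nil))),
   .cons 19 (.negSucc 0x35d81337) (.cons 20 (.ofNat 0x56203d35) (.cons 21 (.ofNat 0xc3a8753b) (.cons 22 (.ofNat 0x28b01124642) .nil))),
   .cons 23 (.ofNat 0x28b01c974fe) .nil]

noncomputable def Xs : List SL :=
  [.cons 0 (.ofNat 0x3152de1ccf1) .nil,
   .cons 1 (.ofNat 0x1664d9b643b) (.cons 2 (.negSucc 0xaf66c84699) (.cons 3 (.negSucc 0x1dfb93ba41) (.cons 4 (.ofNat 0x308121c7) .nil))),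
   .cons 1 (.negSucc 0xaf66c84699) (.cons 2 (.ofNat 0x1e1b27a73c8) (.cons 3 (.negSucc 0x781f659b4d) (.cons 4 (.ofNat 0x7570b18d) .nil))),
   .cons 1 (.negSucc 0x1dfb93ba41) (.cons 2 (.negSucc 0x781f659b4d) (.cons 3 (.ofNat 0x2385a0f68d7) (.cons 4 (.ofNat 0xb6c78021) .nil))),
   .cons 1 (.ofNat 0x308121c7) (.cons 2 (.ofNat 0x7570b18d) (.cons 3 (.ofNat 0xb6c78021) (.cons 4 (.ofNat 0x3157957d9cc) .nil))),
   .cons 5 (.negSucc 0x78995b9) (.cons 6 (.negSucc 0xd030c44) (.cons 7 (.negSucc 0x4093e1b887) (.cons 8 (.negSucc 0x13c105d0) (.cons 9 (.negSucc 0x14f56045) (.cons 10 (.negSucc 0x3b3994) (.cons 11 (.ofNat 0x11e31ae947) .nil)))))),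
   .cons 5 (.negSucc 0xd030c44) (.cons 6 (.ofNat 0x1664f7542b7) (.cons 7 (.negSucc 0x30d7f1e) (.cons 8 (.ofNat 0xaf6b4f4d6f) (.cons 9 (.negSucc 0x1dfdcd4122) (.cons 10 (.negSucc 0x2e82d564) (.cons 11 (.negSucc 0x664d64) .nil)))))),
   .cons 5 (.negSucc 0x4093e1b887) (.cons 6 (.negSucc 0x30d7f1e) (.cons 7 (.ofNat 0x12d1eb8fd9a) (.cons 8 (.negSucc 0x12011bc0) (.cons 9 (.ofNat 0x625c180) (.cons 10 (.negSucc 0x2f248ab) (.cons 11 (.negSucc 0x6aaf2be357) .nil)))))),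
   .cons 5 (.negSucc 0x13c105d0) (.cons 6 (.ofNat 0xaf6b4f4d6f) (.cons 7 (.negSucc 0x12011bc0) (.cons 8 (.ofNat 0x1e1d049a96f) (.cons 9 (.ofNat 0x781594c791) (.cons 10 (.ofNat 0x4d2edb8c) (.cons 11 (.ofNat 0x897927b) .nil)))))),
   .cons 5 (.negSucc 0x14f56045) (.cons 6 (.negSucc 0x1dfdcd4122) (.cons 7 (.ofNat 0x625c180) (.cons 8 (.ofNat 0x781594c791) (.cons 9 (.ofNat 0x23862dd2dc7) (.cons 10 (.negSucc 0x67fca044) (.cons 11 (.ofNat 0x63e3957) .nil)))))),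
   .cons 5 (.negSucc 0x3b3994) (.cons 6 (.negSucc 0x2e82d564) (.cons 7 (.negSucc 0x2f248ab) (.cons 8 (.ofNat 0x4d2edb8c) (.cons 9 (.negSucc 0x67fca044) (.cons 10 (.ofNat 0x315e4b3bba8) (.cons 11 (.negSucc 0x133556b9) .nil)))))),
   .cons 5 (.ofNat 0x11e31ae947) (.cons 6 (.negSucc 0x664d64) (.cons 7 (.negSucc 0x6aaf2be357) (.cons 8 (.ofNat 0x897927b) (.cons 9 (.ofNat 0x63e3957) (.cons 10 (.negSucc 0x133556b9) (.cons 11 (.ofNat 0x1e8539ca149) .nil)))))),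
   .cons 13 (.ofNat 0xcda5625) (.cons 14 (.ofNat 0x40a3063930) (.cons 15 (.ofNat 0x123b4de2) (.cons 16 (.ofNat 0x11772356) (.cons 17 (.ofNat 0x29f5c1c) (.cons 18 (.ofNat 0x11f8921eb0) .nil))))),
   .cons 12 (.ofNat 0xcda5625) (.cons 13 (.ofNat 0x166577dd5d9) (.cons 14 (.ofNat 0x3d767cc) (.cons 15 (.ofNat 0xaf6b5ff6b7) (.cons 16 (.negSucc 0x1de3236972) (.cons 17 (.negSucc 0x2ce90b7d) (.cons 18 (.negSucc 0x1476d092) .nil)))))),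
   .cons 12 (.ofNat 0x40a3063930) (.cons 13 (.ofNat 0x3d767cc) (.cons 14 (.ofNat 0x12d1bbd9e24) (.cons 15 (.ofNat 0xc297f8d) (.cons 16 (.negSucc 0x53ff139) (.cons 17 (.negSucc 0x3011c1b) (.cons 18 (.ofNat 0x6aceae0a8a) .nil)))))),
   .cons 12 (.ofNat 0x123b4de2) (.cons 13 (.ofNat 0xaf6b5ff6b7) (.cons 14 (.ofNat 0xc297f8d) (.cons 15 (.ofNat 0x1e13b73521f) (.cons 16 (.ofNat 0x77ffd28915) (.cons 17 (.ofNat 0x8887925a) (.cons 18 (.negSucc 0x535c716a) .nil)))))),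
   .cons 12 (.ofNat 0x11772356) (.cons 13 (.negSucc 0x1de3236972) (.cons 14 (.negSucc 0x53ff139) (.cons 15 (.ofNat 0x77ffd28915) (.cons 16 (.ofNat 0x2383ebd2ed0) (.cons 17 (.negSucc 0xa3a6f238) (.cons 18 (.negSucc 0x142d56a3) .nil)))))),
   .cons 12 (.ofNat 0x29f5c1c) (.cons 13 (.negSucc 0x2ce90b7d) (.cons 14 (.negSucc 0x3011c1b) (.cons 15 (.ofNat 0x8887925a) (.cons 16 (.negSucc 0xa3a6f238) (.cons 17 (.ofNat 0x315af4bdbe9) (.cons 18 (.negSucc 0x16ed2936) .nil)))))),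
   .cons 12 (.ofNat 0x11f8921eb0) (.cons 13 (.negSucc 0x1476d092) (.cons 14 (.ofNat 0x6aceae0a8a) (.cons 15 (.negSucc 0x535c716a) (.cons 16 (.negSucc 0x142d56a3) (.cons 17 (.negSucc 0x16ed2936) (.cons 18 (.ofNat 0x1e7c6829361) .nil)))))),
   .cons 19 (.ofNat 0x1665e3af516) (.cons 20 (.ofNat 0xaf7520d096) (.cons 21 (.ofNat 0x1dcf8ab80c) (.cons 22 (.negSucc 0x2ba431dd) .nil))),
   .cons 19 (.ofNat 0xaf7520d096) (.cons 20 (.ofNat 0x1e17055e7f7) (.cons 21 (.negSucc 0x786c0c1d20) (.cons 22 (.ofNat 0x5a3ee5ef) .nil))),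
   .cons 19 (.ofNat 0x1dcf8ab80c) (.cons 20 (.negSucc 0x786c0c1d20) (.cons 21 (.ofNat 0x237f0c93450) (.cons 22 (.ofNat 0xc5557888) .nil))),
   .cons 19 (.negSucc 0x2ba431dd) (.cons 20 (.ofNat 0x5a3ee5ef) (.cons 21 (.ofNat 0xc5557888) (.cons 22 (.ofNat 0x315a43e20e6) .nil))),
   .cons 23 (.ofNat 0x315a55780d1) .nil]

noncomputable def X43 : List SL :=
  [.cons 0 (.ofNat 0x323461d6b4c) .nil,
   .cons 1 (.ofNat 0x163cfc65bdc) (.cons 2 (.negSucc 0xaab802638f) (.cons 3 (.ofNat 0x2890202979) (.cons 4 (.negSucc 0x3dc92db1) .nil))),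
   .cons 1 (.negSucc 0xaab802638f) (.cons 2 (.ofNat 0x1f400efeecf) (.cons 3 (.ofNat 0x82a595e6cb) (.cons 4 (.negSucc 0x7aea3c669) .nil))),
   .cons 1 (.ofNat 0x2890202979) (.cons 2 (.ofNat 0x82a595e6cb) (.cons 3 (.ofNat 0x2437092bd92) (.cons 4 (.ofNat 0x3b9ea1e962) .nil))),
   .cons 1 (.negSucc 0x3dc92db1) (.cons 2 (.negSucc 0x7aea3c669) (.cons 3 (.ofNat 0x3b9ea1e962) (.cons 4 (.ofNat 0x312d8b1983d) .nil))),
   .cons 5 (.negSucc 0x1049756b1) (.cons 6 (.negSucc 0x1c7c688fd5) (.cons 7 (.negSucc 0x3829558ae5) (.cons 8 (.ofNat 0x95325c4a4) (.cons 9 (.ofNat 0x2d8eec806) (.cons 10 (.negSucc 0x394703ab1) (.cons 11 (.ofNat 0xd4f77a3aa) .nil)))))),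
   .cons 5 (.negSucc 0x1c7c688fd5) (.cons 6 (.ofNat 0x1698149ead3) (.cons 7 (.negSucc 0x1153ad8fda) (.cons 8 (.negSucc 0xaabc807af7) (.cons 9 (.negSucc 0x2c26e5cfc8) (.cons 10 (.ofNat 0x1aa7b43c8d) (.cons 11 (.ofNat 0xc632dbbf7) .nil)))))),
   .cons 5 (.negSucc 0x3829558ae5) (.cons 6 (.negSucc 0x1153ad8fda) (.cons 7 (.ofNat 0x13ae417a910) (.cons 8 (.ofNat 0x10043898a1) (.cons 9 (.negSucc 0x57b9f697b) (.cons 10 (.ofNat 0x16fc68fe50) (.cons 11 (.negSucc 0x68ad02c542) .nil)))))),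
   .cons 5 (.ofNat 0x95325c4a4) (.cons 6 (.negSucc 0xaabc807af7) (.cons 7 (.ofNat 0x10043898a1) (.cons 8 (.ofNat 0x2033d6b8279) (.cons 9 (.negSucc 0x5f8b5fdaae) (.cons 10 (.ofNat 0x4f23320634) (.cons 11 (.ofNat 0x7566ebb35) .nil)))))),
   .cons 5 (.ofNat 0x2d8eec806) (.cons 6 (.negSucc 0x2c26e5cfc8) (.cons 7 (.negSucc 0x57b9f697b) (.cons 8 (.negSucc 0x5f8b5fdaae) (.cons 9 (.ofNat 0x262c0f5905a) (.cons 10 (.ofNat 0x71ab0eea21) (.cons 11 (.ofNat 0xb82631f66) .nil)))))),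
   .cons 5 (.negSucc 0x394703ab1) (.cons 6 (.ofNat 0x1aa7b43c8d) (.cons 7 (.ofNat 0x16fc68fe50) (.cons 8 (.ofNat 0x4f23320634) (.cons 9 (.ofNat 0x71ab0eea21) (.cons 10 (.ofNat 0x2d8ab8fc09e) (.cons 11 (.ofNat 0x205302b037) .nil)))))),
   .cons 5 (.ofNat 0xd4f77a3aa) (.cons 6 (.ofNat 0xc632dbbf7) (.cons 7 (.negSucc 0x68ad02c542) (.cons 8 (.ofNat 0x7566ebb35) (.cons 9 (.ofNat 0xb82631f66) (.cons 10 (.ofNat 0x205302b037) (.cons 11 (.ofNat 0x20f9bd34955) .nil)))))),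
   .cons 12 (.ofNat 0x6e4b97712) (.cons 13 (.ofNat 0x2043e80d06) (.cons 14 (.ofNat 0x48e488b9a4) (.cons 15 (.ofNat 0x24829debf) (.cons 16 (.negSucc 0x312519593) (.cons 17 (.ofNat 0x63cb4dc4) (.cons 18 (.ofNat 0x137d88fbeb) .nil)))))),
   .cons 12 (.ofNat 0x2043e80d06) (.cons 13 (.ofNat 0x16e75ab6a46) (.cons 14 (.ofNat 0x6d95388ae) (.cons 15 (.ofNat 0xb0b43ff7cd) (.cons 16 (.ofNat 0x1f89de4881) (.cons 17 (.negSucc 0x1b22c8432f) (.cons 18 (.ofNat 0x11904d73e6) .nil)))))),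
   .cons 12 (.ofNat 0x48e488b9a4) (.cons 13 (.ofNat 0x6d95388ae) (.cons 14 (.ofNat 0x12a3899e522) (.cons 15 (.ofNat 0x400f92222) (.cons 16 (.negSucc 0x1310a3ecf5) (.cons 17 (.ofNat 0xcca1dbdc5) (.cons 18 (.ofNat 0x6b4ff31d98) .nil)))))),
   .cons 12 (.ofNat 0x24829debf) (.cons 13 (.ofNat 0xb0b43ff7cd) (.cons 14 (.ofNat 0x400f92222) (.cons 15 (.ofNat 0x1f81b27084a) (.cons 16 (.negSucc 0x4a4a4b8064) (.cons 17 (.ofNat 0x5fb99fde3a) (.cons 18 (.negSucc 0xac2bd2a08) .nil)))))),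
   .cons 12 (.negSucc 0x312519593) (.cons 13 (.ofNat 0x1f89de4881) (.cons 14 (.negSucc 0x1310a3ecf5) (.cons 15 (.negSucc 0x4a4a4b8064) (.cons 16 (.ofNat 0x29552f204a9) (.cons 17 (.ofNat 0x7dd37fc9fe) (.cons 18 (.ofNat 0x1883739712) .nil)))))),
   .cons 12 (.ofNat 0x63cb4dc4) (.cons 13 (.negSucc 0x1b22c8432f) (.cons 14 (.ofNat 0xcca1dbdc5) (.cons 15 (.ofNat 0x5fb99fde3a) (.cons 16 (.ofNat 0x7dd37fc9fe) (.cons 17 (.ofNat 0x2ab1776b01b) (.cons 18 (.ofNat 0x72bec7dff) .nil)))))),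
   .cons 12 (.ofNat 0x137d88fbeb) (.cons 13 (.ofNat 0x11904d73e6) (.cons 14 (.ofNat 0x6b4ff31d98) (.cons 15 (.negSucc 0xac2bd2a08) (.cons 16 (.ofNat 0x1883739712) (.cons 17 (.ofNat 0x72bec7dff) (.cons 18 (.ofNat 0x1d947a1fdb2) .nil)))))),
   .cons 19 (.ofNat 0x16d676e4f1f) (.cons 20 (.negSucc 0xb4da3f8bac) (.cons 21 (.ofNat 0xb603dfefb) (.cons 22 (.ofNat 0xc9c066653) .nil))),
   .cons 19 (.negSucc 0xb4da3f8bac) (.cons 20 (.ofNat 0x1d6b605ff2e) (.cons 21 (.ofNat 0x3d4b01e5f7) (.cons 22 (.ofNat 0x73183fbd5d) .nil))),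
   .cons 19 (.ofNat 0xb603dfefb) (.cons 20 (.ofNat 0x3d4b01e5f7) (.cons 21 (.ofNat 0x2c31f70f2cf) (.cons 22 (.negSucc 0x6cd7c7dc4e) .nil))),
   .cons 19 (.ofNat 0xc9c066653) (.cons 20 (.ofNat 0x73183fbd5d) (.cons 21 (.negSucc 0x6cd7c7dc4e) (.cons 22 (.ofNat 0x29206a75060) .nil))),
   .cons 23 (.ofNat 0x3114f6799e7) .nil]

noncomputable def X44 : List SL :=
  [.cons 0 (.ofNat 0x3224781b392) .nil,
   .cons 1 (.ofNat 0x175625e5f25) (.cons 2 (.negSucc 0xb723ba7ab3) (.cons 3 (.negSucc 0xe2993a636) (.cons 4 (.negSucc 0x180f0a89de) .nil))),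
   .cons 1 (.negSucc 0xb723ba7ab3) (.cons 2 (.ofNat 0x1eb8c823d53) (.cons 3 (.negSucc 0x2c952244af) (.cons 4 (.negSucc 0x72d0e29905) .nil))),
   .cons 1 (.negSucc 0xe2993a636) (.cons 2 (.negSucc 0x2c952244af) (.cons 3 (.ofNat 0x2e6f19ec899) (.cons 4 (.negSucc 0x6b97ad7b42) .nil))),
   .cons 1 (.negSucc 0x180f0a89de) (.cons 2 (.negSucc 0x72d0e29905) (.cons 3 (.negSucc 0x6b97ad7b42) (.cons 4 (.ofNat 0x275d0f189e5) .nil))),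
   .cons 5 (.ofNat 0x97242c294) (.cons 6 (.negSucc 0x26f463d463) (.cons 7 (.negSucc 0x4b553fc4bd) (.cons 8 (.negSucc 0x63506b873) (.cons 9 (.negSucc 0x23b68108e) (.cons 10 (.ofNat 0x54a294480) (.cons 11 (.ofNat 0xf8e14069b) .nil)))))),
   .cons 5 (.negSucc 0x26f463d463) (.cons 6 (.ofNat 0x1726d772cb6) (.cons 7 (.negSucc 0x1cc89a1d7) (.cons 8 (.ofNat 0xb19d0cf925) (.cons 9 (.ofNat 0x2b5c11a496) (.cons 10 (.negSucc 0x1a8cd9e295) (.cons 11 (.ofNat 0x5a189f7f6) .nil)))))),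
   .cons 5 (.negSucc 0x4b553fc4bd) (.cons 6 (.negSucc 0x1cc89a1d7) (.cons 7 (.ofNat 0x12f92110a91) (.cons 8 (.negSucc 0x1d46d6979) (.cons 9 (.ofNat 0x1f9e19a44) (.cons 10 (.negSucc 0x111f095c50) (.cons 11 (.negSucc 0x548016d691) .nil)))))),
   .cons 5 (.negSucc 0x63506b873) (.cons 6 (.ofNat 0xb19d0cf925) (.cons 7 (.negSucc 0x1d46d6979) (.cons 8 (.ofNat 0x209f3ccf50e) (.cons 9 (.negSucc 0x54d2bb53dd) (.cons 10 (.ofNat 0x459d31d57a) (.cons 11 (.negSucc 0x24f7f582dc) .nil)))))),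
   .cons 5 (.negSucc 0x23b68108e) (.cons 6 (.ofNat 0x2b5c11a496) (.cons 7 (.ofNat 0x1f9e19a44) (.cons 8 (.negSucc 0x54d2bb53dd) (.cons 9 (.ofNat 0x2690cc3f226) (.cons 10 (.ofNat 0x7010663d65) (.cons 11 (.negSucc 0x25ea515c31) .nil)))))),
   .cons 5 (.ofNat 0x54a294480) (.cons 6 (.negSucc 0x1a8cd9e295) (.cons 7 (.negSucc 0x111f095c50) (.cons 8 (.ofNat 0x459d31d57a) (.cons 9 (.ofNat 0x7010663d65) (.cons 10 (.ofNat 0x2d89e72c7d2) (.cons 11 (.negSucc 0x224f3b673d) .nil)))))),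
   .cons 5 (.ofNat 0xf8e14069b) (.cons 6 (.ofNat 0x5a189f7f6) (.cons 7 (.negSucc 0x548016d691) (.cons 8 (.negSucc 0x24f7f582dc) (.cons 9 (.negSucc 0x25ea515c31) (.cons 10 (.negSucc 0x224f3b673d) (.cons 11 (.ofNat 0x23b9e6e4d08) .nil)))))),
   .cons 12 (.negSucc 0x12fb76ef4) (.cons 13 (.ofNat 0x21af231647) (.cons 14 (.ofNat 0x33615a0262) (.cons 15 (.ofNat 0x10469eecb0) (.cons 16 (.negSucc 0x7269d9116) (.cons 17 (.negSucc 0xc1a5d503) (.cons 18 (.ofNat 0xb5c70b557) .nil)))))),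
   .cons 12 (.ofNat 0x21af231647) (.cons 13 (.ofNat 0x16632cd449e) (.cons 14 (.negSucc 0x24faaa32e4) (.cons 15 (.ofNat 0xa86c42bfb2) (.cons 16 (.negSucc 0x22f64e43cc) (.cons 17 (.ofNat 0x11299044) (.cons 18 (.negSucc 0x2174f48717) .nil)))))),
   .cons 12 (.ofNat 0x33615a0262) (.cons 13 (.negSucc 0x24faaa32e4) (.cons 14 (.ofNat 0x13fe1adeda7) (.cons 15 (.negSucc 0x1c242250b4) (.cons 16 (.negSucc 0x34e3b85a9f) (.cons 17 (.negSucc 0xa65e9571c) (.cons 18 (.ofNat 0x6de68a3b6d) .nil)))))),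
   .cons 12 (.ofNat 0x10469eecb0) (.cons 13 (.ofNat 0xa86c42bfb2) (.cons 14 (.negSucc 0x1c242250b4) (.cons 15 (.ofNat 0x1f1206d6ce3) (.cons 16 (.ofNat 0x76aa152807) (.cons 17 (.ofNat 0x5444d0996) (.cons 18 (.ofNat 0xd23b11df4) .nil)))))),
   .cons 12 (.negSucc 0x7269d9116) (.cons 13 (.negSucc 0x22f64e43cc) (.cons 14 (.negSucc 0x34e3b85a9f) (.cons 15 (.ofNat 0x76aa152807) (.cons 16 (.ofNat 0x229756b562a) (.cons 17 (.ofNat 0x1924508b51) (.cons 18 (.ofNat 0x159dbd77cf) .nil)))))),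
   .cons 12 (.negSucc 0xc1a5d503) (.cons 13 (.ofNat 0x11299044) (.cons 14 (.negSucc 0xa65e9571c) (.cons 15 (.ofNat 0x5444d0996) (.cons 16 (.ofNat 0x1924508b51) (.cons 17 (.ofNat 0x31f3a223c74) (.cons 18 (.ofNat 0x12ebe0fa0b) .nil)))))),
   .cons 12 (.ofNat 0xb5c70b557) (.cons 13 (.negSucc 0x2174f48717) (.cons 14 (.ofNat 0x6de68a3b6d) (.cons 15 (.ofNat 0xd23b11df4) (.cons 16 (.ofNat 0x159dbd77cf) (.cons 17 (.ofNat 0x12ebe0fa0b) (.cons 18 (.ofNat 0x1f41ab54e2a) .nil)))))),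
   .cons 19 (.ofNat 0x15defa4d582) (.cons 20 (.ofNat 0xaa23f224b1) (.cons 21 (.ofNat 0x1c5c287ed9) (.cons 22 (.negSucc 0x60b77237f) .nil))),
   .cons 19 (.ofNat 0xaa23f224b1) (.cons 20 (.ofNat 0x1da65e8cd40) (.cons 21 (.negSucc 0x810abdfc5a) (.cons 22 (.negSucc 0x191a245575) .nil))),
   .cons 19 (.ofNat 0x1c5c287ed9) (.cons 20 (.negSucc 0x810abdfc5a) (.cons 21 (.ofNat 0x26932977caa) (.cons 22 (.negSucc 0x4bf8fb4af7) .nil))),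
   .cons 19 (.negSucc 0x60b77237f) (.cons 20 (.negSucc 0x191a245575) (.cons 21 (.negSucc 0x4bf8fb4af7) (.cons 22 (.ofNat 0x2fea65bddc9) .nil))),
   .cons 23 (.ofNat 0x3173976eae7) .nil]

noncomputable def X45 : List SL :=
  [.cons 0 (.ofNat 0x3329c2c8981) .nil,
   .cons 1 (.ofNat 0x1662f8c7c9d) (.cons 2 (.negSucc 0xa682901ee6) (.cons 3 (.ofNat 0x334deb10af) (.cons 4 (.negSucc 0x13e5cd6e30) .nil))),
   .cons 1 (.negSucc 0xa682901ee6) (.cons 2 (.ofNat 0x213dfd249a4) (.cons 3 (.ofNat 0x7f9afdc436) (.cons 4 (.negSucc 0x2de7ded825) .nil))),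
   .cons 1 (.ofNat 0x334deb10af) (.cons 2 (.ofNat 0x7f9afdc436) (.cons 3 (.ofNat 0x28af9707bd8) (.cons 4 (.ofNat 0x7c7c6f9f24) .nil))),
   .cons 1 (.negSucc 0x13e5cd6e30) (.cons 2 (.negSucc 0x2de7ded825) (.cons 3 (.ofNat 0x7c7c6f9f24) (.cons 4 (.ofNat 0x2d231cebdb2) .nil))),
   .cons 5 (.negSucc (Nat.sub (Nat.shiftLeft 0x2f131 13) 1)) (.cons 6 (.negSucc 0x275011363e) (.cons 7 (.negSucc 0x33fa605227) (.cons 8 (.ofNat 0xae003c48f) (.cons 9 (.ofNat 0x3f05ec2ad) (.cons 10 (.negSucc 0x55349e7b2) (.cons 11 (.ofNat 0xa40a8c154) .nil)))))),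
   .cons 5 (.negSucc 0x275011363e) (.cons 6 (.ofNat 0x16d0f0937bf) (.cons 7 (.negSucc 0x1712c80956) (.cons 8 (.negSucc 0xa33898693a) (.cons 9 (.negSucc 0x3ac98e295c) (.cons 10 (.ofNat 0x2dc644a308) (.cons 11 (.ofNat 0xf9345315f) .nil)))))),
   .cons 5 (.negSucc 0x33fa605227) (.cons 6 (.negSucc 0x1712c80956) (.cons 7 (.ofNat 0x145957eeabb) (.cons 8 (.ofNat 0x1563924151) (.cons 9 (.ofNat 0x995387487) (.cons 10 (.ofNat 0x1f8b4b9f12) (.cons 11 (.negSucc 0x611c974bbe) .nil)))))),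
   .cons 5 (.ofNat 0xae003c48f) (.cons 6 (.negSucc 0xa33898693a) (.cons 7 (.ofNat 0x1563924151) (.cons 8 (.ofNat 0x228a15f7f1d) (.cons 9 (.negSucc 0x457242d2e0) (.cons 10 (.ofNat 0x5a3febd485) (.cons 11 (.negSucc 0x1ef2a607) .nil)))))),
   .cons 5 (.ofNat 0x3f05ec2ad) (.cons 6 (.negSucc 0x3ac98e295c) (.cons 7 (.ofNat 0x995387487) (.cons 8 (.negSucc 0x457242d2e0) (.cons 9 (.ofNat 0x297336806bc) (.cons 10 (.ofNat 0x9055140ac5) (.cons 11 (.ofNat 0x1cf94f8c52) .nil)))))),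
   .cons 5 (.negSucc 0x55349e7b2) (.cons 6 (.ofNat 0x2dc644a308) (.cons 7 (.ofNat 0x1f8b4b9f12) (.cons 8 (.ofNat 0x5a3febd485) (.cons 9 (.ofNat 0x9055140ac5) (.cons 10 (.ofNat 0x29950630de2) (.cons 11 (.ofNat 0x265f214f99) .nil)))))),
   .cons 5 (.ofNat 0xa40a8c154) (.cons 6 (.ofNat 0xf9345315f) (.cons 7 (.negSucc 0x611c974bbe) (.cons 8 (.negSucc 0x1ef2a607) (.cons 9 (.ofNat 0x1cf94f8c52) (.cons 10 (.ofNat 0x265f214f99) (.cons 11 (.ofNat 0x24981ccd696) .nil)))))),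
   .cons 12 (.ofNat 0xc9c0c6faa) (.cons 13 (.ofNat 0x2f034d267e) (.cons 14 (.ofNat 0x4d6f2d6a9d) (.cons 15 (.negSucc 0x1bd321cd0) (.cons 16 (.negSucc 0x5747d0ca8) (.cons 17 (.ofNat 0x90f4371fd) (.cons 18 (.ofNat 0x11b1e2a17f) .nil)))))),
   .cons 12 (.ofNat 0x2f034d267e) (.cons 13 (.ofNat 0x173320d65eb) (.cons 14 (.ofNat 0xd92ee86a6) (.cons 15 (.negSucc 0xae9620630e) (.cons 16 (.ofNat 0x2cf8735198) (.cons 17 (.negSucc 0xefdc06fa6) (.cons 18 (.ofNat 0x291f97da6d) .nil)))))),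
   .cons 12 (.ofNat 0x4d6f2d6a9d) (.cons 13 (.ofNat 0xd92ee86a6) (.cons 14 (.ofNat 0x129a6f892d7) (.cons 15 (.negSucc 0xad02c3b50) (.cons 16 (.negSucc 0x1ae56b8d71) (.cons 17 (.ofNat 0x4225806faf) (.cons 18 (.ofNat 0x575984ffa4) .nil)))))),
   .cons 12 (.negSucc 0x1bd321cd0) (.cons 13 (.negSucc 0xae9620630e) (.cons 14 (.negSucc 0xad02c3b50) (.cons 15 (.ofNat 0x211a5859a6f) (.cons 16 (.ofNat 0x45b5305024) (.cons 17 (.negSucc 0x4d8e8d0478) (.cons 18 (.ofNat 0x2f90958939) .nil)))))),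
   .cons 12 (.negSucc 0x5747d0ca8) (.cons 13 (.ofNat 0x2cf8735198) (.cons 14 (.negSucc 0x1ae56b8d71) (.cons 15 (.ofNat 0x45b5305024) (.cons 16 (.ofNat 0x28ec0436ddf) (.cons 17 (.ofNat 0x926e3ab7c8) (.cons 18 (.negSucc 0x13bf22e266) .nil)))))),
   .cons 12 (.ofNat 0x90f4371fd) (.cons 13 (.negSucc 0xefdc06fa6) (.cons 14 (.ofNat 0x4225806faf) (.cons 15 (.negSucc 0x4d8e8d0478) (.cons 16 (.ofNat 0x926e3ab7c8) (.cons 17 (.ofNat 0x2850579a20b) (.cons 18 (.negSucc 0x467e8d9a38) .nil)))))),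
   .cons 12 (.ofNat 0x11b1e2a17f) (.cons 13 (.ofNat 0x291f97da6d) (.cons 14 (.ofNat 0x575984ffa4) (.cons 15 (.ofNat 0x2f90958939) (.cons 16 (.negSucc 0x13bf22e266) (.cons 17 (.negSucc 0x467e8d9a38) (.cons 18 (.ofNat 0x1f854000a19) .nil)))))),
   .cons 19 (.ofNat 0x16f6db3dba4) (.cons 20 (.ofNat 0xb703e5bfe9) (.cons 21 (.ofNat 0x69285d3f4) (.cons 22 (.ofNat 0x3bb5b56a2) .nil))),
   .cons 19 (.ofNat 0xb703e5bfe9) (.cons 20 (.ofNat 0x1cdf9571b9e) (.cons 21 (.negSucc 0x37fe11d6bb) (.cons 22 (.negSucc 0x87b5492d97) .nil))),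
   .cons 19 (.ofNat 0x69285d3f4) (.cons 20 (.negSucc 0x37fe11d6bb) (.cons 21 (.ofNat (Nat.shiftLeft 0x2c15c7bb5 8)) (.cons 22 (.negSucc 0x6f56e0174b) .nil))),
   .cons 19 (.ofNat 0x3bb5b56a2) (.cons 20 (.negSucc 0x87b5492d97) (.cons 21 (.negSucc 0x6f56e0174b) (.cons 22 (.ofNat 0x29af7da198f) .nil))),
   .cons 23 (.ofNat 0x30eab881828) .nil]

noncomputable def X46 : List SL :=
  [.cons 0 (.ofNat 0x33114da1106) .nil,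
   .cons 1 (.ofNat 0x1810c358efc) (.cons 2 (.negSucc 0xbbd1b4b3e1) (.cons 3 (.negSucc 0xf2473ef61) (.cons 4 (.negSucc 0x1808db34a6) .nil))),
   .cons 1 (.negSucc 0xbbd1b4b3e1) (.cons 2 (.ofNat 0x1f6cb9e9ae6) (.cons 3 (.negSucc 0x20a09782b8) (.cons 4 (.negSucc 0x759305cb58) .nil))),
   .cons 1 (.negSucc 0xf2473ef61) (.cons 2 (.negSucc 0x20a09782b8) (.cons 3 (.ofNat 0x2fef75df37b) (.cons 4 (.negSucc 0x6c6a8015ca) .nil))),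
   .cons 1 (.negSucc 0x1808db34a6) (.cons 2 (.negSucc 0x759305cb58) (.cons 3 (.negSucc 0x6c6a8015ca) (.cons 4 (.ofNat 0x271b00d2b70) .nil))),
   .cons 5 (.ofNat 0x11fabdb362) (.cons 6 (.negSucc 0x38e932644b) (.cons 7 (.negSucc 0x51cd4e6ea4) (.cons 8 (.negSucc 0x8414994d8) (.cons 9 (.negSucc 0x65f8e0405) (.cons 10 (.ofNat 0x4f7c946da) (.cons 11 (.negSucc 0xaec15cdb5) .nil)))))),
   .cons 5 (.negSucc 0x38e932644b) (.cons 6 (.ofNat 0x17b1d9cb9e4) (.cons 7 (.negSucc 0x4b7965eb4) (.cons 8 (.ofNat 0xb160309cfa) (.cons 9 (.ofNat 0x42daba12f5) (.cons 10 (.negSucc 0x61a57b1c1) (.cons 11 (.negSucc 0xdecb85f5a) .nil)))))),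
   .cons 5 (.negSucc 0x51cd4e6ea4) (.cons 6 (.negSucc 0x4b7965eb4) (.cons 7 (.ofNat 0x134d5f1af54) (.cons 8 (.negSucc 0x33b909ff5) (.cons 9 (.ofNat 0xc5deec072) (.cons 10 (.negSucc 0x113b97deaf) (.cons 11 (.ofNat 0x3969e7c1db) .nil)))))),
   .cons 5 (.negSucc 0x8414994d8) (.cons 6 (.ofNat 0xb160309cfa) (.cons 7 (.negSucc 0x33b909ff5) (.cons 8 (.ofNat 0x226cf208eca) (.cons 9 (.negSucc (Nat.sub (Nat.shiftLeft 0x58232c21 8) 1)) (.cons 10 (.ofNat 0x1c70738d19) (.cons 11 (.ofNat 0x394f65b0da) .nil)))))),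
   .cons 5 (.negSucc 0x65f8e0405) (.cons 6 (.ofNat 0x42daba12f5) (.cons 7 (.ofNat 0xc5deec072) (.cons 8 (.negSucc (Nat.sub (Nat.shiftLeft 0x58232c21 8) 1)) (.cons 9 (.ofNat 0x22a7eb060ed) (.cons 10 (.ofNat 0x2f04f2d5e8) (.cons 11 (.ofNat 0x378d6086a7) .nil)))))),
   .cons 5 (.ofNat 0x4f7c946da) (.cons 6 (.negSucc 0x61a57b1c1) (.cons 7 (.negSucc 0x113b97deaf) (.cons 8 (.ofNat 0x1c70738d19) (.cons 9 (.ofNat 0x2f04f2d5e8) (.cons 10 (.ofNat 0x31ba7f959e1) (.cons 11 (.ofNat 0x3419c26d90) .nil)))))),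
   .cons 5 (.negSucc 0xaec15cdb5) (.cons 6 (.negSucc 0xdecb85f5a) (.cons 7 (.ofNat 0x3969e7c1db) (.cons 8 (.ofNat 0x394f65b0da) (.cons 9 (.ofNat 0x378d6086a7) (.cons 10 (.ofNat 0x3419c26d90) (.cons 11 (.ofNat 0x28a001d8a04) .nil)))))),
   .cons 12 (.negSucc 0xbda68ce0) (.cons 13 (.ofNat 0x2e05bfceec) (.cons 14 (.negSucc 0x28b3262bf5) (.cons 15 (.ofNat 0x1713d477b1) (.cons 16 (.ofNat 0x75d90d76c) (.cons 17 (.ofNat 0x109d6cc) (.cons 18 (.negSucc 0x772bde0d6) .nil)))))),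
   .cons 12 (.ofNat 0x2e05bfceec) (.cons 13 (.ofNat 0x162642364fa) (.cons 14 (.ofNat 0x3ec9d780cb) (.cons 15 (.ofNat 0x9e37897d79) (.cons 16 (.ofNat 0x255fb60bfa) (.cons 17 (.ofNat 0x1418766c8) (.cons 18 (.ofNat 0x29a3256bef) .nil)))))),
   .cons 12 (.negSucc 0x28b3262bf5) (.cons 13 (.ofNat 0x3ec9d780cb) (.cons 14 (.ofNat 0x15914e29a6a) (.cons 15 (.ofNat 0x334a0713d2) (.cons 16 (.negSucc 0x4977bc368c) (.cons 17 (.negSucc 0x4209cf7b0) (.cons 18 (.ofNat 0x7a21b79b59) .nil)))))),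
   .cons 12 (.ofNat 0x1713d477b1) (.cons 13 (.ofNat 0x9e37897d79) (.cons 14 (.ofNat 0x334a0713d2) (.cons 15 (.ofNat 0x1ed767f36c9) (.cons 16 (.negSucc 0x7099149ae1) (.cons 17 (.negSucc 0x24b72b2f5) (.cons 18 (.ofNat 0x49a1d5fb6) .nil)))))),
   .cons 12 (.ofNat 0x75d90d76c) (.cons 13 (.ofNat 0x255fb60bfa) (.cons 14 (.negSucc 0x4977bc368c) (.cons 15 (.negSucc 0x7099149ae1) (.cons 16 (.ofNat 0x22bb545750d) (.cons 17 (.ofNat 0x2c010cf8e2) (.cons 18 (.ofNat 0x14c8c08599) .nil)))))),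
   .cons 12 (.ofNat 0x109d6cc) (.cons 13 (.ofNat 0x1418766c8) (.cons 14 (.negSucc 0x4209cf7b0) (.cons 15 (.negSucc 0x24b72b2f5) (.cons 16 (.ofNat 0x2c010cf8e2) (.cons 17 (.ofNat 0x32553dd5ef6) (.cons 18 (.negSucc 0xe40d14f23) .nil)))))),
   .cons 12 (.negSucc 0x772bde0d6) (.cons 13 (.ofNat 0x29a3256bef) (.cons 14 (.ofNat 0x7a21b79b59) (.cons 15 (.ofNat 0x49a1d5fb6) (.cons 16 (.ofNat 0x14c8c08599) (.cons 17 (.negSucc 0xe40d14f23) (.cons 18 (.ofNat 0x202eb612c25) .nil)))))),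
   .cons 19 (.ofNat 0x159cb22c9af) (.cons 20 (.ofNat 0xa4ec14fbf3) (.cons 21 (.ofNat 0x2908fee1a0) (.cons 22 (.negSucc 0xd02bbe659) .nil))),
   .cons 19 (.ofNat 0xa4ec14fbf3) (.cons 20 (.ofNat 0x1ec44f2b56e) (.cons 21 (.negSucc 0x8eaa19996b) (.cons 22 (.negSucc 0x11959dc643) .nil))),
   .cons 19 (.ofNat 0x2908fee1a0) (.cons 20 (.negSucc 0x8eaa19996b) (.cons 21 (.ofNat 0x26196d59d29) (.cons 22 (.negSucc 0x4df4c85306) .nil))),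
   .cons 19 (.negSucc 0xd02bbe659) (.cons 20 (.negSucc 0x11959dc643) (.cons 21 (.negSucc 0x4df4c85306) (.cons 22 (.ofNat 0x303bbd821cf) .nil))),
   .cons 23 (.ofNat 0x317e1bbe9ce) .nil]

noncomputable def X47 : List SL :=
  [.cons 0 (.ofNat 0x34f9bfbff6c) .nil,
   .cons 1 (.ofNat 0x16d70f0d824) (.cons 2 (.negSucc 0x9c7192a83b) (.cons 3 (.ofNat 0x1fc958e012) .nil)),
   .cons 1 (.negSucc 0x9c7192a83b) (.cons 2 (.ofNat 0x254d083c25f) (.cons 3 (.ofNat 0x500f0c9ed2) .nil)),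
   .cons 1 (.ofNat 0x1fc958e012) (.cons 2 (.ofNat 0x500f0c9ed2) (.cons 3 (.ofNat 0x33b6de6224c) .nil)),
   .cons 4 (.ofNat 0x1da04d8f9) (.cons 5 (.negSucc 0x3716fc990b) (.cons 6 (.negSucc 0x2db60ab2be) (.cons 7 (.ofNat 0x8b3e0c655) (.cons 8 (.ofNat 0x4f971a04a) (.cons 9 (.negSucc 0x439eedcc3) .nil))))),
   .cons 4 (.negSucc 0x3716fc990b) (.cons 5 (.ofNat 0x174bf888a03) (.cons 6 (.negSucc 0x18532983cf) (.cons 7 (.negSucc 0x9193592351) (.cons 8 (.negSucc 0x44926f0e1b) (.cons 9 (.ofNat 0x4ed5c520cd) .nil))))),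
   .cons 4 (.negSucc 0x2db60ab2be) (.cons 5 (.negSucc 0x18532983cf) (.cons 6 (.ofNat 0x1581a9e5f79) (.cons 7 (.ofNat 0xb290a0654) (.cons 8 (.ofNat 0x326ef73ca4) (.cons 9 (.negSucc 0xf0a52ba5c) .nil))))),
   .cons 4 (.ofNat 0x8b3e0c655) (.cons 5 (.negSucc 0x9193592351) (.cons 6 (.ofNat 0xb290a0654) (.cons 7 (.ofNat 0x25b9986a5a1) (.cons 8 (.negSucc 0x22b4b3e7ee) (.cons 9 (.ofNat 0x3913fc2ce7) .nil))))),
   .cons 4 (.ofNat 0x4f971a04a) (.cons 5 (.negSucc 0x44926f0e1b) (.cons 6 (.ofNat 0x326ef73ca4) (.cons 7 (.negSucc 0x22b4b3e7ee) (.cons 8 (.ofNat 0x3025b605021) (.cons 9 (.ofNat 0x84288b76ee) .nil))))),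
   .cons 4 (.negSucc 0x439eedcc3) (.cons 5 (.ofNat 0x4ed5c520cd) (.cons 6 (.negSucc 0xf0a52ba5c) (.cons 7 (.ofNat 0x3913fc2ce7) (.cons 8 (.ofNat 0x84288b76ee) (.cons 9 (.ofNat 0x28aba0147e7) .nil))))),
   .cons 10 (.ofNat 0x1953e4c1a0) (.cons 11 (.negSucc 0x45d3123080) (.cons 12 (.negSucc 0x56999db60c) (.cons 13 (.ofNat 0x40d00f7af) (.cons 14 (.negSucc 0x5f50fc86e) (.cons 15 (.ofNat 0xb63987b3d) (.cons 16 (.ofNat 0xfb41aba7e) .nil)))))),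
   .cons 10 (.negSucc 0x45d3123080) (.cons 11 (.ofNat 0x179b101d112) (.cons 12 (.ofNat 0x15d1448ed5) (.cons 13 (.negSucc 0x9085e96be8) (.cons 14 (.negSucc 0x6cc81e65a1) (.cons 15 (.ofNat 0xad03a1261) (.cons 16 (.negSucc 0x36587c05da) .nil)))))),
   .cons 10 (.negSucc 0x56999db60c) (.cons 11 (.ofNat 0x15d1448ed5) (.cons 12 (.ofNat 0x12d0c07f73b) (.cons 13 (.negSucc 0x1d7e8e0110) (.cons 14 (.ofNat 0x956cea52f) (.cons 15 (.negSucc 0x4a7dbee255) (.cons 16 (.negSucc 0x596219f09e) .nil)))))),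
   .cons 10 (.ofNat 0x40d00f7af) (.cons 11 (.negSucc 0x9085e96be8) (.cons 12 (.negSucc 0x1d7e8e0110) (.cons 13 (.ofNat 0x25745159d2a) (.cons 14 (.negSucc 0x4e12968a3e) (.cons 15 (.ofNat 0x4df78f32c) (.cons 16 (.negSucc 0x83902247c) .nil)))))),
   .cons 10 (.negSucc 0x5f50fc86e) (.cons 11 (.negSucc 0x6cc81e65a1) (.cons 12 (.ofNat 0x956cea52f) (.cons 13 (.negSucc 0x4e12968a3e) (.cons 14 (.ofNat 0x27466825f75) (.cons 15 (.ofNat 0xa4f0c02dfd) (.cons 16 (.negSucc 0x2c43625e70) .nil)))))),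
   .cons 10 (.ofNat 0xb63987b3d) (.cons 11 (.ofNat 0xad03a1261) (.cons 12 (.negSucc 0x4a7dbee255) (.cons 13 (.ofNat 0x4df78f32c) (.cons 14 (.ofNat 0xa4f0c02dfd) (.cons 15 (.ofNat 0x29649d6b487) (.cons 16 (.negSucc 0x6e12bc8d09) .nil)))))),
   .cons 10 (.ofNat 0xfb41aba7e) (.cons 11 (.negSucc 0x36587c05da) (.cons 12 (.negSucc 0x596219f09e) (.cons 13 (.negSucc 0x83902247c) (.cons 14 (.negSucc 0x2c43625e70) (.cons 15 (.negSucc 0x6e12bc8d09) (.cons 16 (.ofNat 0x24bc2d58936) .nil)))))),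
   .cons 17 (.ofNat 0x17168887872) (.cons 18 (.ofNat 0xba3c9e0916) (.cons 19 (.ofNat 0x406b6ed9) (.cons 20 (.ofNat 0x2532876b3) (.cons 21 (.ofNat 0x7c4b60971) .nil)))),
   .cons 17 (.ofNat 0xba3c9e0916) (.cons 18 (.ofNat 0x1cde973cf4c) (.cons 19 (.negSucc 0x29d39b7aa9) (.cons 20 (.ofNat 0x9e66551222) (.cons 21 (.ofNat 0x5478a592c2) .nil)))),
   .cons 17 (.ofNat 0x406b6ed9) (.cons 18 (.negSucc 0x29d39b7aa9) (.cons 19 (.ofNat 0x2cac453b0a3) (.cons 20 (.ofNat 0x741ace5953) (.cons 21 (.negSucc 0x56a0f53919) .nil)))),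
   .cons 17 (.ofNat 0x2532876b3) (.cons 18 (.ofNat 0x9e66551222) (.cons 19 (.ofNat 0x741ace5953) (.cons 20 (.ofNat 0x29cdd874cff) (.cons 21 (.negSucc 0x442ffb2747) .nil)))),
   .cons 17 (.ofNat 0x7c4b60971) (.cons 18 (.ofNat 0x5478a592c2) (.cons 19 (.negSucc 0x56a0f53919) (.cons 20 (.negSucc 0x442ffb2747) (.cons 21 (.ofNat 0x33a37b063ab) .nil)))),
   .cons 22 (.ofNat 0x30ff3c54d4a) (.cons 23 (.ofNat 0xd35f95b6b3) .nil),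
   .cons 22 (.ofNat 0xd35f95b6b3) (.cons 23 (.ofNat 0x3e3cc53b783) .nil)]

noncomputable def X48 : List SL :=
  [.cons 0 (.ofNat 0x19a45653060) .nil,
   .cons 1 (.ofNat 0x25f9cf56f2) (.cons 2 (.ofNat 0x539330cc35) .nil),
   .cons 1 (.ofNat 0x539330cc35) (.cons 2 (.ofNat 0x18e45e0ffde) .nil),
   .cons 3 (.ofNat 0x552eb805) (.cons 4 (.ofNat 0x3cca8bdc68) (.cons 5 (.ofNat 0x14ad5e1690) .nil)),
   .cons 3 (.ofNat 0x3cca8bdc68) (.cons 4 (.ofNat 0x157f927bd23) (.cons 5 (.negSucc 0x59b488ca14) .nil)),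
   .cons 3 (.ofNat 0x14ad5e1690) (.cons 4 (.negSucc 0x59b488ca14) (.cons 5 (.ofNat 0x1a4c3dd3127) .nil)),
   .cons 6 (.ofNat 0x155733795bd) (.cons 7 (.ofNat 0x89b7cb9f21) (.cons 8 (.ofNat 0x8cf12) .nil)),
   .cons 6 (.ofNat 0x89b7cb9f21) (.cons 7 (.ofNat 0x26367d0e99f) (.cons 8 (.negSucc 0x2cd0c1) .nil)),
   .cons 6 (.ofNat 0x8cf12) (.cons 7 (.negSucc 0x2cd0c1) (.cons 8 (.ofNat 0x326429a4094) .nil))]

noncomputable def X49 : List SL :=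
  [.cons 0 (.ofNat 0xa2f0ac7d1) .nil,
   .cons 1 (.ofNat 0x3d1a21c7d2) (.cons 2 (.ofNat 0x422) .nil),
   .cons 1 (.ofNat 0x422) (.cons 2 (.ofNat 0x17ac0789c41) .nil)]

noncomputable def X50 : List SL :=
  [.cons 0 (.ofNat 0xf5e5878b) .nil]


end Crest.Agent.R347.Dat
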