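import Crest.Agent.R347.MFast
import Crest.Agent.R347.MT0
import Crest.Agent.R347.MT1
import Crest.Agent.R347.MT2
import Crest.Agent.R347.MX

/-! Steps of the energy recursion. -/

set_option autoImplicit false
set_option maxRecDepth 100000
set_option Elab.async false

namespace Crest.Agent.R347.Dat

open Crest.Agent.R347 Crest.Agent.R347.K

theorem st0 : stepChk2 9 171 40 (-1540944985460) A0 A1 X0 X1 = true := by decide +kernel

theorem st1 : stepChk2 27 171 40 (-1540944985460) A1 A2 X1 X2 = true := by decide +kernel

theorem st2 : stepChk2 24 171 40 (-1540944985457) A2 A3 X2 X3 = true := by decide +kernel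

theorem st3 : stepChk2 24 171 40 (-1540944985458) A3 A4 X3 X4 = true := by decide +kernel

theorem st4 : stepChk2 24 171 40 (-1540944985457) A4 A5 X4 X5 = true := by decide +kernel

theorem st5 : stepChk2 24 171 40 (-1540944985457) A5 A6 X5 X6 = true := by decide +kernel

theorem st6 : stepChk2 24 171 40 (-1540944985457) A6 A7 X6 X7 = true := by decide +kernel

theorem st7 : stepChk2 24 171 40 (-1540944985457) A7 A8 X7 X8 = true := by decide +kernel

theorem st8 : stepChk2 24 171 40 (-1540944985457) A8 A9 X8 X9 = true := by decide +kernel

theorem st9 : stepChk2 24 171 40 (-1540944985457) A9 A10 X9 X10 = true := by decide +kernel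

theorem st10 : stepChk2 24 171 40 (-1540944985457) A10 A11 X10 X11 = true := by decide +kernel

theorem st11 : stepChk2 24 171 40 (-1540944985457) A11 A12 X11 X12 = true := by decide +kernel

theorem st12 : stepChk2 24 171 40 (-1540944985457) A12 A13 X12 X13 = true := by decide +kernel

theorem st13 : stepChk2 24 171 40 (-1540944985457) A13 A14 X13 X14 = true := by decide +kernel

theorem st14 : stepChk2 24 171 40 (-1540944985457) A14 A15 X14 X15 = true := by decide +kernel

theorem st15 : stepChk2 24 171 40 (-1540944985457) A15 A16 X15 X16 = true := by decide +kernel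

theorem st16 : stepChk2 24 171 40 (-1540944985457) A16 A17 X16 X17 = true := by decide +kernel


end Crest.Agent.R347.Dat
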