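import Crest.Agent.R347.MFast
import Crest.Agent.R347.MT2
import Crest.Agent.R347.MX

/-! Steps of the energy recursion. -/

set_option autoImplicit false
set_option maxRecDepth 100000
set_option Elab.async false

namespace Crest.Agent.R347.Dat

open Crest.Agent.R347 Crest.Agent.R347.K

theorem st17 : stepChk2 24 171 40 (-1540944985457) A17 A18 X17 X18 = true := by decide +kernel

theorem st18 : stepChk2 24 171 40 (-1540944985457) A18 A18 X18 X19 = true := by decide +kernel

theorem st19 : stepChk2 24 171 40 (-1540944985457) A18 A18 X19 X20 = true := by decide +kernel

theorem st20 : stepChk2 24 171 40 (-1540944985457) A18 A18 X20 X21 = true := by decide +kernel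

theorem st21 : stepChk2 24 171 40 (-1540944985457) A18 A18 X21 X22 = true := by decide +kernel

theorem st22 : stepChk2 24 171 40 (-1540944985457) A18 A18 X22 X23 = true := by decide +kernel

theorem st23 : stepChk2 24 171 40 (-1540944985457) A18 A18 X23 X24 = true := by decide +kernel

theorem st24 : stepChk2 24 171 40 (-1540944985458) A18 A18 X24 X25 = true := by decide +kernel

theorem st25 : stepChk2 24 171 40 (-1540944985457) A18 A18 X25 X26 = true := by decide +kernel

theorem st26 : stepChk2 24 171 40 (-1540944985457) A18 A18 X26 X27 = true := by decide +kernel

theorem st27 : stepChk2 24 171 40 (-1540944985457) A18 A18 X27 X28 = true := by decide +kernel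

theorem st28 : stepChk2 24 171 40 (-1540944985457) A18 A18 X28 X29 = true := by decide +kernel

theorem st29 : stepChk2 24 171 40 (-1540944985457) A18 A18 X29 X30 = true := by decide +kernel

theorem st30 : stepChk2 24 171 40 (-1540944985457) A18 A18 X30 X31 = true := by decide +kernel

theorem st31 : stepChk2 24 171 40 (-1540944985457) A18 A18 X31 X32 = true := by decide +kernel

theorem st32 : stepChk2 24 171 40 (-1540944985457) A18 A18 X32 X33 = true := by decide +kernel

theorem st33 : stepChk2 24 171 40 (-1540944985457) A18 A18 X33 X34 = true := by decide +kernel


end Crest.Agent.R347.Dat
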