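import Crest.Agent.R347.CDefs

/-! Isometric tensors. -/

set_option autoImplicit false
set_option maxRecDepth 100000
set_option Elab.async false

namespace Crest.Agent.R347.Dat

open Crest.Agent.R347 Crest.Agent.R347.K

noncomputable def A21 : Tn :=
  ⟨[.cons 1 (.ofNat (Nat.shiftLeft 0x797 160)) (.cons 2 (.ofNat (Nat.shiftLeft 0x12b 161)) (.cons 3 (.negSucc (Nat.sub (Nat.shiftLeft 0x6f 160) 1)) (.cons 4 (.ofNat (Nat.shiftLeft 0x59 160)) .nil))),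
    .cons 5 (.ofNat (Nat.shiftLeft 0x772bd49 144)) (.cons 6 (.negSucc (Nat.sub (Nat.shiftLeft 0xa552c3 145) 1)) (.cons 7 (.ofNat (Nat.shiftLeft 0xa35bab 145)) (.cons 8 (.ofNat (Nat.shiftLeft 0x34d0a5 144)) (.cons 9 (.negSucc (Nat.sub (Nat.shiftLeft 0xc8739 144) 1)) (.cons 10 (.negSucc (Nat.sub (Nat.shiftLeft 0x5289f 144) 1)) (.cons 11 (.negSucc (Nat.sub (Nat.shiftLeft 0xbca9 144) 1)) .nil)))))),
    .cons 5 (.negSucc (Nat.sub (Nat.shiftLeft 0x16b26878fae3 125) 1)) (.cons 6 (.negSucc (Nat.sub (Nat.shiftLeft 0xb8b6e46695f 126) 1)) (.cons 7 (.ofNat (Nat.shiftLeft 0xb433d6f0967 126)) (.cons 8 (.ofNat (Nat.shiftLeft 0x914e71c3329 125)) (.cons 9 (.ofNat (Nat.shiftLeft 0x1d4e022fc33 125)) (.cons 10 (.negSucc (Nat.sub (Nat.shiftLeft 0x106b3b55beb 125) 1)) (.cons 11 (.ofNat (Nat.shiftLeft 0x3e01d2f3c03 125)) .nil)))))),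
    .cons 5 (.ofNat (Nat.shiftLeft 0x274a584268acce1 107)) (.cons 6 (.ofNat (Nat.shiftLeft 0x2ae5ff69962abab5 108)) (.cons 7 (.negSucc (Nat.sub (Nat.shiftLeft 0x5772a5c10ab01e0d 108) 1)) (.cons 8 (.negSucc (Nat.sub (Nat.shiftLeft 0x42158eec9bff3223 107) 1)) (.cons 9 (.ofNat (Nat.shiftLeft 0xf264865a6ada6af 107)) (.cons 10 (.ofNat (Nat.shiftLeft 0xbec5d8af4a1db39 107)) (.cons 11 (.negSucc (Nat.sub (Nat.shiftLeft 0xc8036b5a6320541 107) 1)) .nil)))))),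
    .cons 5 (.ofNat (Nat.shiftLeft 0x2073df79301e4e9657 96)) (.cons 6 (.ofNat (Nat.shiftLeft 0x3406494c7b4663296e3 97)) (.cons 7 (.ofNat (Nat.shiftLeft 0x20a0a3ef9214886e135 97)) (.cons 8 (.negSucc (Nat.sub (Nat.shiftLeft 0xbbd661ce00e4387b85 96) 1)) (.cons 9 (.negSucc (Nat.sub (Nat.shiftLeft 0x44a6cd83fbffa1a267 96) 1)) (.cons 10 (.ofNat (Nat.shiftLeft 0x9d644d8ef2d026db3f 96)) (.cons 11 (.ofNat (Nat.shiftLeft 0x6c66e04d830058d09 96)) .nil)))))),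
    .cons 12 (.ofNat (Nat.shiftLeft 0x6d31d0b9 140)) (.cons 13 (.ofNat (Nat.shiftLeft 0x1669e183 138)) (.cons 14 (.ofNat (Nat.shiftLeft 0x16239d 138)) (.cons 15 (.ofNat (Nat.shiftLeft 0x6eb211 138)) (.cons 16 (.ofNat (Nat.shiftLeft 0xf66b 139)) (.cons 17 (.negSucc (Nat.sub (Nat.shiftLeft 0xf66b 138) 1)) (.cons 18 (.negSucc (Nat.sub (Nat.shiftLeft 0xf66b 139) 1)) .nil)))))),
    .cons 12 (.negSucc (Nat.sub (Nat.shiftLeft 0x1f25954efb42aad 113) 1)) (.cons 13 (.negSucc (Nat.sub (Nat.shiftLeft 0x2a9681cf89bb63f 111) 1)) (.cons 14 (.ofNat (Nat.shiftLeft 0x14f15d84520da9f 111)) (.cons 15 (.ofNat (Nat.shiftLeft 0x8a950959a4451b 111)) (.cons 16 (.ofNat (Nat.shiftLeft 0xb7e7445c9c6b9 112)) (.cons 17 (.negSucc (Nat.sub (Nat.shiftLeft 0x262b2245c9c6b9 111) 1)) (.cons 18 (.ofNat (Nat.shiftLeft 0x205ba363947 112)) .nil)))))),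
    .cons 12 (.negSucc (Nat.sub (Nat.shiftLeft 0x17c7c4cd08160f6b5fe3 90) 1)) (.cons 13 (.ofNat (Nat.shiftLeft 0x33d72b5d77022bf88390f 88)) (.cons 14 (.negSucc (Nat.sub (Nat.shiftLeft 0xa328f5e72a5d2cff8f6f 88) 1)) (.cons 15 (.negSucc (Nat.sub (Nat.shiftLeft 0x6989f7a6c2a1e0fdcd2b 88) 1)) (.cons 16 (.ofNat (Nat.shiftLeft 0x1c460d06e05ad1859597 89)) (.cons 17 (.negSucc (Nat.sub (Nat.shiftLeft 0x11f8401b750cd1859597 88) 1)) (.cons 18 (.ofNat (Nat.shiftLeft 0x1b5520b47e4b2e7a6a69 89)) .nil)))))),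
    .cons 12 (.ofNat (Nat.shiftLeft 0xb2e3d6b25881629258c23a53 73)) (.cons 13 (.negSucc (Nat.sub (Nat.shiftLeft 0x9e13343bfe33e1f966ad90f3f 71) 1)) (.cons 14 (.ofNat (Nat.shiftLeft 0x16f8564ada97bb1697940d39f 71)) (.cons 15 (.ofNat (Nat.shiftLeft 0x2c4a62778564e4edf5e44221b 71)) (.cons 16 (.negSucc (Nat.sub (Nat.shiftLeft 0x77164317b265df6405dbca47 72) 1)) (.cons 17 (.negSucc (Nat.sub (Nat.shiftLeft 0x6f60a2a39922cf49fa2435b9 71) 1)) (.cons 18 (.negSucc (Nat.sub (Nat.shiftLeft 0x6e53f77427618a21fa2435b9 72) 1)) .nil)))))),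
    .cons 12 (.ofNat (Nat.shiftLeft 0xf694b79fc2cd69b7927799188e7 58)) (.cons 13 (.ofNat (Nat.shiftLeft 0x479f3d0ae4327a4ab79120acf525d 56)) (.cons 14 (.ofNat (Nat.shiftLeft 0x348ae5c430029510af007e3449c83 56)) (.cons 15 (.ofNat (Nat.shiftLeft 0x595d99c420e3abb1cab770570e8f 56)) (.cons 16 (.ofNat (Nat.shiftLeft 0x7a144084b8350873d9d8c7193e75 57)) (.cons 17 (.ofNat (Nat.shiftLeft 0x34793ccf95ae87741d7138e6c18b 56)) (.cons 18 (.negSucc (Nat.sub (Nat.shiftLeft 0x50043e75d30dfad9906c7193e75 57) 1)) .nil)))))),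
    .cons 12 (.negSucc (Nat.sub (Nat.shiftLeft 0xd041cb08b6f4ebcd20693812f6e7a9 45) 1)) (.cons 13 (.ofNat (Nat.shiftLeft 0x398c46c66c590559721beca20697932d 43)) (.cons 14 (.negSucc (Nat.sub (Nat.shiftLeft 0x38b421a47b0d82c7011824e35706964d 43) 1)) (.cons 15 (.negSucc (Nat.sub (Nat.shiftLeft 0x34912be5c3bc374adf4d04e0b320ef81 43) 1)) (.cons 16 (.negSucc (Nat.sub (Nat.shiftLeft 0x5aabfd5f24506de4e31f0943b6f973b 44) 1)) (.cons 17 (.ofNat (Nat.shiftLeft 0x19e21ec6c77cf2257b46827e3b6f973b 43)) (.cons 18 (.ofNat (Nat.shiftLeft 0x1ec2f25fb2b0d671ce29c863b6f973b 44)) .nil)))))),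
    .cons 12 (.ofNat (Nat.shiftLeft 0x31f95c9f53db9a41b44d5fdb3830fb45 36)) (.cons 13 (.ofNat (Nat.shiftLeft 0x18ee82a013bf6376e47b9fd92ed3800647 34)) (.cons 14 (.negSucc (Nat.sub (Nat.shiftLeft 0x157864a59a704f9611b0a870ff37a2347a7 34) 1)) (.cons 15 (.negSucc (Nat.sub (Nat.shiftLeft 0x9343056eb23fa44972f311991162b06643 34) 1)) (.cons 16 (.negSucc (Nat.sub (Nat.shiftLeft 0xa3dc30c467f1502985b290a5626b39ef1 35) 1)) (.cons 17 (.ofNat (Nat.shiftLeft 0x75912628412b8a42e68b9f59426b39ef1 34)) (.cons 18 (.ofNat (Nat.shiftLeft 0x257e4b9163c4f7cd08b2e381ac26b39ef1 35)) .nil)))))),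
    .cons 19 (.ofNat (Nat.shiftLeft 0x402f75f7 138)) (.cons 20 (.ofNat (Nat.shiftLeft 0x19e450d 138)) (.cons 21 (.negSucc (Nat.sub (Nat.shiftLeft 0x146f51 138) 1)) (.cons 22 (.negSucc (Nat.sub (Nat.shiftLeft 0xd0105 138) 1)) .nil))),
    .cons 19 (.ofNat (Nat.shiftLeft 0xc9459522ceaf7f 113)) (.cons 20 (.negSucc (Nat.sub (Nat.shiftLeft 0x1546ecd59e499b 113) 1)) (.cons 21 (.negSucc (Nat.sub (Nat.shiftLeft 0x1896b1c7e8189 113) 1)) (.cons 22 (.ofNat (Nat.shiftLeft 0xd28937980f363 113)) .nil))),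
    .cons 19 (.negSucc (Nat.sub (Nat.shiftLeft 0x2e8a7d1bb3bd058606a09 89) 1)) (.cons 20 (.ofNat (Nat.shiftLeft 0x836df5312063c3f1a50d 89)) (.cons 21 (.ofNat (Nat.shiftLeft 0x40e04dd47fb9d87cb0af 89)) (.cons 22 (.ofNat (Nat.shiftLeft 0xeb3a000566815669efb 89)) .nil))),
    .cons 19 (.ofNat (Nat.shiftLeft 0x1c9d7474d401aa3459976cc83 73)) (.cons 20 (.negSucc (Nat.sub (Nat.shiftLeft 0xbb8a3a467f0978ee59b40a2f 73) 1)) (.cons 21 (.negSucc (Nat.sub (Nat.shiftLeft 0x51f4a77a2246e68b450bc865 73) 1)) (.cons 22 (.ofNat (Nat.shiftLeft 0x2b43d5d4d735e937bcc9f4d7 73)) .nil))),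
    .cons 19 (.ofNat (Nat.shiftLeft 0x35f6668910d0e6a9e1e4bcc537b2f 56)) (.cons 20 (.ofNat (Nat.shiftLeft 0x144c3e42118dedeaead6d087371f5 56)) (.cons 21 (.negSucc (Nat.sub (Nat.shiftLeft 0x6758efa8cff2827a4be76fc56859 56) 1)) (.cons 22 (.ofNat (Nat.shiftLeft 0x1ecb3fbae9174f75b31ba199a653 56)) .nil))),
    .cons 19 (.ofNat (Nat.shiftLeft 0x59f3e16943afe00ee4dd8471caa39f1 41)) (.cons 20 (.negSucc (Nat.sub (Nat.shiftLeft 0x1cd9dcb919a81853acb4c7a06ccdbd795 41) 1)) (.cons 21 (.negSucc (Nat.sub (Nat.shiftLeft 0x9da632895c2846f7704a4f7fe6f89987 41) 1)) (.cons 22 (.ofNat (Nat.shiftLeft 0x2f5546b2214bf0f6f60d6196f8a79e4d 41)) .nil))),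
    .cons 19 (.negSucc (Nat.sub (Nat.shiftLeft 0x22b26706e56b09dc8bc5daa94a9ba7e147 34) 1)) (.cons 20 (.negSucc (Nat.sub (Nat.shiftLeft 0xc8eebdc2a0943f18d46283b9a10e15567d 34) 1)) (.cons 21 (.negSucc (Nat.sub (Nat.shiftLeft 0x601e0bc100d37dfa152ba8374486c4667f 34) 1)) (.cons 22 (.negSucc (Nat.sub (Nat.shiftLeft 0x32487eacbc60db3e36d2137c8bf8ab870b 34) 1)) .nil))),
    .cons 23 (.ofNat (Nat.shiftLeft 0x3ea7 151)) .nil,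
    .cons 23 (.negSucc (Nat.sub (Nat.shiftLeft 0x4ff2846865 129) 1)) .nil,
    .cons 23 (.ofNat (Nat.shiftLeft 0x7f0695aa22153 116)) .nil,
    .cons 23 (.negSucc (Nat.sub (Nat.shiftLeft 0xc1c102f9fdf89b7 108) 1)) .nil,
    .nil],
   [.cons 0 (.ofNat (Nat.shiftLeft 0xcb 160)) .nil,
    .cons 1 (.ofNat (Nat.shiftLeft 0x47f9cf 147)) (.cons 2 (.ofNat (Nat.shiftLeft 0x514f81 144)) (.cons 3 (.negSucc (Nat.sub (Nat.shiftLeft 0xbca9 149) 1)) (.cons 4 (.ofNat (Nat.shiftLeft 0xbca9 144)) .nil))),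
    .cons 1 (.ofNat (Nat.shiftLeft 0x5adc1501adb 128)) (.cons 2 (.ofNat (Nat.shiftLeft 0x122f814f22b5 125)) (.cons 3 (.negSucc (Nat.sub (Nat.shiftLeft 0x75d10c3fd 130) 1)) (.cons 4 (.ofNat (Nat.shiftLeft 0x3a1e2d0c3fd 125)) .nil))),
    .cons 1 (.ofNat (Nat.shiftLeft 0x129893d5ea155677 110)) (.cons 2 (.negSucc (Nat.sub (Nat.shiftLeft 0x8af8472f47111a7 107) 1)) (.cons 3 (.ofNat (Nat.shiftLeft 0xab637e728dfabf 112)) (.cons 4 (.ofNat (Nat.shiftLeft 0x268f35fa6320541 107)) .nil))),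
    .cons 1 (.ofNat (Nat.shiftLeft 0x1994060280ae373191 99)) (.cons 2 (.ofNat (Nat.shiftLeft 0x1c379c64b123846371f 96)) (.cons 3 (.negSucc (Nat.sub (Nat.shiftLeft 0x1a0a0ca8feba72f7 101) 1)) (.cons 4 (.negSucc (Nat.sub (Nat.shiftLeft 0x6e6bf2085230058d09 96) 1)) .nil))),
    .cons 5 (.ofNat (Nat.shiftLeft 0x103120c77 138)) (.cons 6 (.negSucc (Nat.sub (Nat.shiftLeft 0xffdcf9f 139) 1)) (.cons 7 (.negSucc (Nat.sub (Nat.shiftLeft 0x6eb211 139) 1)) (.cons 8 (.negSucc (Nat.sub (Nat.shiftLeft 0x426ad7 139) 1)) (.cons 9 (.negSucc (Nat.sub (Nat.shiftLeft 0xf66b 139) 1)) (.cons 10 (.ofNat (Nat.shiftLeft 0xf66b 139)) (.cons 11 (.ofNat (Nat.shiftLeft 0xf66b 139)) .nil)))))),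
    .cons 5 (.ofNat (Nat.shiftLeft 0xc8957c91bfa1dbd 111)) (.cons 6 (.ofNat (Nat.shiftLeft 0x91ae2296d5908b 112)) (.cons 7 (.ofNat (Nat.shiftLeft 0x103d29ea65bbae5 112)) (.cons 8 (.negSucc (Nat.sub (Nat.shiftLeft 0x1151cacf628fdd 112) 1)) (.cons 9 (.ofNat (Nat.shiftLeft 0x11620fba363947 112)) (.cons 10 (.ofNat (Nat.shiftLeft 0xfa77a45c9c6b9 112)) (.cons 11 (.negSucc (Nat.sub (Nat.shiftLeft 0x235dbba363947 112) 1)) .nil)))))),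
    .cons 5 (.negSucc (Nat.sub (Nat.shiftLeft 0x14ba881eccd7c5981b62d 88) 1)) (.cons 6 (.negSucc (Nat.sub (Nat.shiftLeft 0x22e34d9633938d8462d9b 89) 1)) (.cons 7 (.ofNat (Nat.shiftLeft 0x3834d1c50379e0fdcd2b 89)) (.cons 8 (.ofNat (Nat.shiftLeft 0x436e4172adb986feae4d 89)) (.cons 9 (.ofNat (Nat.shiftLeft 0x2da6410602612e7a6a69 89)) (.cons 10 (.negSucc (Nat.sub (Nat.shiftLeft 0x105c6c796fcb2e7a6a69 89) 1)) (.cons 11 (.ofNat (Nat.shiftLeft 0x15652c5333aad1859597 89)) .nil)))))),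
    .cons 5 (.negSucc (Nat.sub (Nat.shiftLeft 0x4eb58a3591b99b5f6cc50d743 71) 1)) (.cons 6 (.ofNat (Nat.shiftLeft 0x256222da85915a283546f7d8b 72)) (.cons 7 (.ofNat (Nat.shiftLeft 0x18b3bce302364b0c8a1bbdde5 72)) (.cons 8 (.negSucc (Nat.sub (Nat.shiftLeft 0x7e9991326fcdb27e6bc27add 72) 1)) (.cons 9 (.negSucc (Nat.sub (Nat.shiftLeft 0x2f3290e35d02417fa2435b9 72) 1)) (.cons 10 (.ofNat (Nat.shiftLeft 0x98c661a5eda3b3a1fa2435b9 72)) (.cons 11 (.ofNat (Nat.shiftLeft 0x3bb4405c73203c4bfa2435b9 72)) .nil)))))),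
    .cons 5 (.negSucc (Nat.sub (Nat.shiftLeft 0x5c74dbc79d91316bb3a7b2b90817 56) 1)) (.cons 6 (.ofNat (Nat.shiftLeft 0x1d6ee626d8eb491e13cf2519d623f 57)) (.cons 7 (.ofNat (Nat.shiftLeft 0x1d89454253952c3b9df508fa8f171 57)) (.cons 8 (.negSucc (Nat.sub (Nat.shiftLeft 0xbf9cc4abd28915603691a9cdd589 57) 1)) (.cons 9 (.ofNat (Nat.shiftLeft 0x1acddbb35d9946c4b31b38e6c18b 57)) (.cons 10 (.negSucc (Nat.sub (Nat.shiftLeft 0x46d735a097273dcf37938e6c18b 57) 1)) (.cons 11 (.ofNat (Nat.shiftLeft 0xf09428e5cf8b88d14c8c7193e75 57)) .nil)))))),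
    .cons 5 (.negSucc (Nat.sub (Nat.shiftLeft 0x104f0fdaece02c30dc51232d909da87 43) 1)) (.cons 6 (.ofNat (Nat.shiftLeft 0x45092c0000a0b8aaaf3aa1556ce36f2f 44)) (.cons 7 (.negSucc (Nat.sub (Nat.shiftLeft 0x4e57a6cea84ad7b5fa27f8974cdf107f 44) 1)) (.cons 8 (.negSucc (Nat.sub (Nat.shiftLeft 0x15870bfbbd9af4a6148bd56ffaec3d19 44) 1)) (.cons 9 (.negSucc (Nat.sub (Nat.shiftLeft 0x792a821b72d739b8b8fc737c49068c5 44) 1)) (.cons 10 (.negSucc (Nat.sub (Nat.shiftLeft 0x188b519e4fc90b5d29571063b6f973b 44) 1)) (.cons 11 (.negSucc (Nat.sub (Nat.shiftLeft 0x632f76a48590197383576a43b6f973b 44) 1)) .nil)))))),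
    .cons 5 (.ofNat (Nat.shiftLeft 0x155689c89547631726cf62806baa06ca2b 34)) (.cons 6 (.ofNat (Nat.shiftLeft 0x3587889689d6c4d1e87221d3e2f61789cd 35)) (.cons 7 (.ofNat (Nat.shiftLeft 0x4d6ff3f2365fdaca6ef7c9bea962b06643 35)) (.cons 8 (.ofNat (Nat.shiftLeft 0x4598b1ee32aad1613e773b3a0c6e69d6f5 35)) (.cons 9 (.ofNat (Nat.shiftLeft 0xae8a0e456de81af82dc2e35f226b39ef1 35)) (.cons 10 (.negSucc (Nat.sub (Nat.shiftLeft 0x40ec353741f6ff6b64162df2c26b39ef1 35) 1)) (.cons 11 (.ofNat (Nat.shiftLeft 0x19acd5a003d26cfd4066866779d94c610f 35)) .nil)))))),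
    .cons 12 (.ofNat (Nat.shiftLeft 0xa9d0504b 139)) (.cons 13 (.negSucc (Nat.sub (Nat.shiftLeft 0x34f3b913 138) 1)) (.cons 14 (.ofNat (Nat.shiftLeft 0x1ad21a5 139)) (.cons 15 (.negSucc (Nat.sub (Nat.shiftLeft 0x410519 140) 1)) (.cons 16 (.negSucc (Nat.sub (Nat.shiftLeft 0x10b82b 138) 1)) (.cons 17 (.ofNat (Nat.shiftLeft 0x1db93 138)) (.cons 18 (.ofNat (Nat.shiftLeft 0x592b9 139)) .nil)))))),
    .cons 12 (.ofNat (Nat.shiftLeft 0x15f5f425515b633 114)) (.cons 13 (.ofNat (Nat.shiftLeft 0x3108869e5f1145 113)) (.cons 14 (.negSucc (Nat.sub (Nat.shiftLeft 0x396f50299f5fc3 114) 1)) (.cons 15 (.negSucc (Nat.sub (Nat.shiftLeft 0x5fac4e07b3f11 115) 1)) (.cons 16 (.negSucc (Nat.sub (Nat.shiftLeft 0x41f60d17ec713 113) 1)) (.cons 17 (.negSucc (Nat.sub (Nat.shiftLeft 0x9b1815a8022c5 113) 1)) (.cons 18 (.negSucc (Nat.sub (Nat.shiftLeft 0x71e48f80684f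 114) 1)) .nil)))))),
    .cons 12 (.ofNat (Nat.shiftLeft 0x48fa1b6e4f7288e9f04b 90)) (.cons 13 (.ofNat (Nat.shiftLeft 0x22d925db05bed6e03a6ed 89)) (.cons 14 (.ofNat (Nat.shiftLeft 0x21f6e007e39bbdc581a5 90)) (.cons 15 (.negSucc (Nat.sub (Nat.shiftLeft 0x123b86a0a92fd4fee519 91) 1)) (.cons 16 (.ofNat (Nat.shiftLeft 0x3d78b852b0f3f6f1a7d5 89)) (.cons 17 (.ofNat (Nat.shiftLeft 0x6de9abd2228f3a7b93 89)) (.cons 18 (.ofNat (Nat.shiftLeft 0xea4604b3432daf72b9 90)) .nil)))))),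
    .cons 12 (.negSucc (Nat.sub (Nat.shiftLeft 0x7f8d1f98b52c9c1051444399 74) 1)) (.cons 13 (.ofNat (Nat.shiftLeft 0x1073d02191e1a5cc92ca64531 73)) (.cons 14 (.negSucc (Nat.sub (Nat.shiftLeft 0x67c2af9e34a266c6d6088fb7 74) 1)) (.cons 15 (.negSucc (Nat.sub (Nat.shiftLeft 0x14c2640cdb29c836900e37cd 75) 1)) (.cons 16 (.negSucc (Nat.sub (Nat.shiftLeft 0x13b90fada3f09acac420e9c7 73) 1)) (.cons 17 (.negSucc (Nat.sub (Nat.shiftLeft 0x3b5b843e2149570c3f8a90b1 73) 1)) (.cons 18 (.ofNat (Nat.shiftLeft 0x189025f8a0c1e07cc1604ded 74)) .nil)))))),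
    .cons 12 (.ofNat (Nat.shiftLeft 0x10fb2cf3d8a233be44deba8d0a23 57)) (.cons 13 (.ofNat (Nat.shiftLeft 0x49612eee64758f364c546765fb2d5 56)) (.cons 14 (.ofNat (Nat.shiftLeft 0x23e21be681a866e16baeaab318f4d 57)) (.cons 15 (.negSucc (Nat.sub (Nat.shiftLeft 0x563c80917fe93247d51017ffc061 58) 1)) (.cons 16 (.ofNat (Nat.shiftLeft 0xb377ab6c28657a699c1518ea1efd 56)) (.cons 17 (.ofNat (Nat.shiftLeft 0x2ddc2299e308308d356fc457c3ab 56)) (.cons 18 (.negSucc (Nat.sub (Nat.shiftLeft 0x25cd4da36f25e2cf713932f8b4ff 57) 1)) .nil)))))),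
    .cons 12 (.ofNat (Nat.shiftLeft 0x1161790eda5ec378e2b93694eb23d07d 42)) (.cons 13 (.ofNat (Nat.shiftLeft 0x1ea8271c99709a3b6abad187df28a2b8b 41)) (.cons 14 (.negSucc (Nat.sub (Nat.shiftLeft 0xfd8cce0d5fd9115bfd7128c08d9b67ed 42) 1)) (.cons 15 (.negSucc (Nat.sub (Nat.shiftLeft 0xabfb8a2b4d407f6d6cc76ae4b9e87f 43) 1)) (.cons 16 (.negSucc (Nat.sub (Nat.shiftLeft 0xa163e07e0afba2f4dbde17cf77287d9d 41) 1)) (.cons 17 (.ofNat (Nat.shiftLeft 0xe384ab08f9d0a9685779bb6b7e80df5 41)) (.cons 18 (.ofNat (Nat.shiftLeft 0x24712d030d86bd244a01033ca7b829df 42)) .nil)))))),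
    .cons 12 (.ofNat (Nat.shiftLeft 0xac75ca6ddcae2626f56604ad247e878a5 35)) (.cons 13 (.negSucc (Nat.sub (Nat.shiftLeft 0x17d18de9d7aebb9d45d8357bd94be525d 34) 1)) (.cons 14 (.ofNat (Nat.shiftLeft 0x1755c5114887f5116bb27ad64c8e1c686b 35)) (.cons 15 (.ofNat (Nat.shiftLeft 0x37f848b212e4d8b37e4cb50bc864a65cc9 36)) (.cons 16 (.negSucc (Nat.sub (Nat.shiftLeft 0x425a5890fd74f69f9f5b07cb5b3fb7f6c5 34) 1)) (.cons 17 (.ofNat (Nat.shiftLeft 0x50f14a5d31a7ae37845f4ee7238637dd 34)) (.cons 18 (.ofNat (Nat.shiftLeft 0x35e7162c44a563c8a94cc9031ea92a797 35)) .nil)))))),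
    .cons 19 (.ofNat (Nat.shiftLeft 0x218b497 144)) (.cons 20 (.negSucc (Nat.sub (Nat.shiftLeft 0x8271b3 143) 1)) (.cons 21 (.ofNat (Nat.shiftLeft 0x2a56db 143)) (.cons 22 (.negSucc (Nat.sub (Nat.shiftLeft 0x79639 143) 1)) .nil))),
    .cons 19 (.negSucc (Nat.sub (Nat.shiftLeft 0x1133bc0224935 122) 1)) (.cons 20 (.ofNat (Nat.shiftLeft 0x109ea250d5a49 121)) (.cons 21 (.ofNat (Nat.shiftLeft 0xb07e82573bf 121)) (.cons 22 (.ofNat (Nat.shiftLeft 0x22740828a43b 121)) .nil))),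
    .cons 19 (.ofNat (Nat.shiftLeft 0x2fc74a1cbbff7803 109)) (.cons 20 (.negSucc (Nat.sub (Nat.shiftLeft 0x94b63dda52f61cf 108) 1)) (.cons 21 (.negSucc (Nat.sub (Nat.shiftLeft 0xb2f5cced3cf7ae9 108) 1)) (.cons 22 (.ofNat (Nat.shiftLeft 0x204949fd57df6f3 108)) .nil))),
    .cons 19 (.negSucc (Nat.sub (Nat.shiftLeft 0x386cee8060c8ab8a7 101) 1)) (.cons 20 (.ofNat (Nat.shiftLeft 0x284c8eb33a1189ba03 100)) (.cons 21 (.negSucc (Nat.sub (Nat.shiftLeft 0x3249365f47e3010ab 100) 1)) (.cons 22 (.negSucc (Nat.sub (Nat.shiftLeft 0x6d3a70ddc588e52d7 100) 1)) .nil))),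
    .cons 23 (.ofNat (Nat.shiftLeft 0x1e1 159)) .nil],
   [.nil,
    .cons 0 (.ofNat (Nat.shiftLeft 0x1db94b 144)) .nil,
    .cons 0 (.ofNat (Nat.shiftLeft 0x575d4398b87 125)) .nil,
    .cons 0 (.ofNat (Nat.shiftLeft 0x3a06712d1e17e93 107)) .nil,
    .cons 0 (.ofNat (Nat.shiftLeft 0x5e6d3fffb261cac795 96)) .nil,
    .cons 1 (.ofNat (Nat.shiftLeft 0x6860f2d 141)) (.cons 2 (.negSucc (Nat.sub (Nat.shiftLeft 0xf57495 138) 1)) (.cons 3 (.ofNat (Nat.shiftLeft 0xf66b 138)) (.cons 4 (.ofNat (Nat.shiftLeft 0x2e341 138)) .nil))),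
    .cons 1 (.ofNat (Nat.shiftLeft 0x9a0caffa81cfcf 114)) (.cons 2 (.ofNat (Nat.shiftLeft 0xa4ff907c030db9 111)) (.cons 3 (.ofNat (Nat.shiftLeft 0x21c37645c9c6b9 111)) (.cons 4 (.negSucc (Nat.sub (Nat.shiftLeft 0x1494892ea2abd5 111) 1)) .nil))),
    .cons 1 (.ofNat (Nat.shiftLeft 0xb053fb9c9dc70058d261 91)) (.cons 2 (.ofNat (Nat.shiftLeft 0xe60297905bc74beffe97 88)) (.cons 3 (.ofNat (Nat.shiftLeft 0x4251ea2ad8f8d1859597 88)) (.cons 4 (.ofNat (Nat.shiftLeft 0x5609e4d502167490c0c5 88)) .nil))),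
    .cons 1 (.ofNat (Nat.shiftLeft 0x106d33abfc427d4c74b6818cf 74)) (.cons 2 (.ofNat (Nat.shiftLeft 0x37e33b15b18b7e803d5ee7cb9 71)) (.cons 3 (.ofNat (Nat.shiftLeft 0x117b76f1220a0339dfa2435b9 71)) (.cons 4 (.ofNat (Nat.shiftLeft 0x1dad9304966dc7edee6ca12b 71)) .nil))),
    .cons 1 (.ofNat (Nat.shiftLeft 0x598e1ad13e1f50a200c5c164af3 59)) (.cons 2 (.ofNat (Nat.shiftLeft 0x17c42ef38ef32d97acc2baddac975 56)) (.cons 3 (.ofNat (Nat.shiftLeft 0x55f99db7b9fd5a4ada12c7193e75 56)) (.cons 4 (.negSucc (Nat.sub (Nat.shiftLeft 0x500c7fbeb3a490d15c83aab444a1 56) 1)) .nil))),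
    .cons 1 (.ofNat (Nat.shiftLeft 0xb1fc764cfcd0fe30753be302eb60f23 46)) (.cons 2 (.negSucc (Nat.sub (Nat.shiftLeft 0x268877f2d460f76e7c53099ecbd85c3b 43) 1)) (.cons 3 (.ofNat (Nat.shiftLeft 0xbc565dc9f98b3a97e13c945c49068c5 43)) (.cons 4 (.negSucc (Nat.sub (Nat.shiftLeft 0x42fce33e7ce0efaedad1eaab24ec5b1 43) 1)) .nil))),
    .cons 1 (.negSucc (Nat.sub (Nat.shiftLeft 0x5f36c2658f3e9ceb7a03c09334b5a3357 37) 1)) (.cons 2 (.ofNat (Nat.shiftLeft 0xe52ca82d6c2a6855ae6000c57e8ceb520f 34)) (.cons 3 (.ofNat (Nat.shiftLeft 0x1b40c9653d3d881da55a19dcb7d94c610f 34)) (.cons 4 (.ofNat (Nat.shiftLeft 0x29c19a478213e4c66861dca5b38be5232d 34)) .nil))),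
    .cons 5 (.ofNat (Nat.shiftLeft 0x1737ad669 138)) (.cons 6 (.ofNat (Nat.shiftLeft 0x2b18f349 138)) (.cons 7 (.negSucc (Nat.sub (Nat.shiftLeft 0x75092d 140) 1)) (.cons 8 (.ofNat (Nat.shiftLeft 0xc6c671 138)) (.cons 9 (.ofNat (Nat.shiftLeft 0x1db93 138)) (.cons 10 (.ofNat (Nat.shiftLeft 0x1db93 138)) .nil))))),
    .cons 5 (.negSucc (Nat.sub (Nat.shiftLeft 0x27bfe81b8177e1f 113) 1)) (.cons 6 (.negSucc (Nat.sub (Nat.shiftLeft 0x12285298aa6a03f 113) 1)) (.cons 7 (.negSucc (Nat.sub (Nat.shiftLeft 0x14f2b33a777185 115) 1)) (.cons 8 (.ofNat (Nat.shiftLeft 0x24b8d82c7177a9 113)) (.cons 9 (.ofNat (Nat.shiftLeft 0xbb07a57fdd3b 113)) (.cons 10 (.ofNat (Nat.shiftLeft 0x69df7a57fdd3b 113)) (.cons 11 (.negSucc (Nat.sub (Nat.shiftLeft 0x9cf9 145) 1)) .nil)))))),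
    .cons 5 (.ofNat (Nat.shiftLeft 0x6fa685c16652c1deb669 89)) (.cons 6 (.negSucc (Nat.sub (Nat.shiftLeft 0x14c07b7ee3c1a363f2cb7 89) 1)) (.cons 7 (.negSucc (Nat.sub (Nat.shiftLeft 0x798c47d3b0dbf64692d 91) 1)) (.cons 8 (.ofNat (Nat.shiftLeft 0x1f06a78edf22dd71a671 89)) (.cons 9 (.ofNat (Nat.shiftLeft 0x204a5c96e4738f3a7b93 89)) (.cons 10 (.negSucc (Nat.sub (Nat.shiftLeft 0x1ac33780f91c70c5846d 89) 1)) (.cons 11 (.negSucc (Nat.sub (Nat.shiftLeft 0xa50a4682e41 121) 1)) .nil)))))),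
    .cons 5 (.ofNat (Nat.shiftLeft 0x11002495d58f089fe68f67f5d 73)) (.cons 6 (.negSucc (Nat.sub (Nat.shiftLeft 0x2a8cebca23650045d1b9aba43 73) 1)) (.cons 7 (.negSucc (Nat.sub (Nat.shiftLeft 0x1f9e7445f196a9e2dce66471 75) 1)) (.cons 8 (.ofNat (Nat.shiftLeft 0xd216b93344500d2671158605 73)) (.cons 9 (.ofNat (Nat.shiftLeft 0x4eaaf1345595b058c0756f4f 73)) (.cons 10 (.negSucc (Nat.sub (Nat.shiftLeft 0xce8e12cacd748773f8a90b1 73) 1)) (.cons 11 (.negSucc (Nat.sub (Nat.shiftLeft 0x17be948cf594a615 105) 1)) .nil)))))),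
    .cons 5 (.negSucc (Nat.sub (Nat.shiftLeft 0x48b130d5406551782a82698c5bcf 56) 1)) (.cons 6 (.ofNat (Nat.shiftLeft 0x1acac25f38728f1df1db500105811 56)) (.cons 7 (.ofNat (Nat.shiftLeft 0x61986a8be2b40acd574e2e66d8eb 58)) (.cons 8 (.negSucc (Nat.sub (Nat.shiftLeft 0x14a868d282f7f780cbb8fef513787 56) 1)) (.cons 9 (.ofNat (Nat.shiftLeft 0x2d99d77f0e34229bf8c8c457c3ab 56)) (.cons 10 (.negSucc (Nat.sub (Nat.shiftLeft 0x93cc9859c2bfdda3f9473ba83c55 56) 1)) (.cons 11 (.ofNat (Nat.shiftLeft 0x1906e5fdc75fd86a937 88)) .nil)))))),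
    .cons 5 (.negSucc (Nat.sub (Nat.shiftLeft 0xb3d2d0c91deb65d99ff1ef9d3da6551 41) 1)) (.cons 6 (.ofNat (Nat.shiftLeft 0x1d46081c9f8aa372e533bd97f7c7bcacf 41)) (.cons 7 (.negSucc (Nat.sub (Nat.shiftLeft 0x29f3a08203e3edbc08cf6436c21b6f4b 43) 1)) (.cons 8 (.negSucc (Nat.sub (Nat.shiftLeft 0x73c12156568c03ac8c14c37a22022a99 41) 1)) (.cons 9 (.negSucc (Nat.sub (Nat.shiftLeft 0x7d5020b28cf957343b4d85c24817f20b 41) 1)) (.cons 10 (.ofNat (Nat.shiftLeft 0x16049bc05c61a9dc92795e4db7e80df5 41)) (.cons 11 (.ofNat (Nat.shiftLeft 0x182dfcf2bcf3e14ad265f2e9 73)) .nil)))))),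
    .cons 5 (.ofNat (Nat.shiftLeft 0x28209a20293d88afd4f9bcb3a6fb922e7 34)) (.cons 6 (.negSucc (Nat.sub (Nat.shiftLeft 0x73db4b045fbae575bcb699ddd7dd3e03f9 34) 1)) (.cons 7 (.ofNat (Nat.shiftLeft 0x552e77b4bde956bc01fc2d3582c1f8409d 36)) (.cons 8 (.negSucc (Nat.sub (Nat.shiftLeft 0x8a9d44ec1af62a6eab1c3a9c4526e6a6a1 34) 1)) (.cons 9 (.negSucc (Nat.sub (Nat.shiftLeft 0xb7dd75620f91678432ee99d99dc79c823 34) 1)) (.cons 10 (.ofNat (Nat.shiftLeft 0x1f63d005fc49d625799fb3faf6238637dd 34)) (.cons 11 (.ofNat (Nat.shiftLeft 0x299619f8b95d1ac323464f9571 66)) .nil)))))),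
    .cons 12 (.ofNat (Nat.shiftLeft 0x75550f1 144)) (.cons 13 (.negSucc (Nat.sub (Nat.shiftLeft 0x8bbe7d 146) 1)) (.cons 14 (.negSucc (Nat.sub (Nat.shiftLeft 0x7d0f59 145) 1)) (.cons 15 (.ofNat (Nat.shiftLeft 0x1065b5 145)) (.cons 16 (.ofNat (Nat.shiftLeft 0x173ff9 143)) (.cons 17 (.ofNat (Nat.shiftLeft 0x32e7b 144)) (.cons 18 (.negSucc (Nat.sub (Nat.shiftLeft 0xbbf5 145) 1)) .nil)))))),
    .cons 12 (.ofNat (Nat.shiftLeft 0xc2b6b137701d 122)) (.cons 13 (.ofNat (Nat.shiftLeft 0x453ecff4d947 124)) (.cons 14 (.ofNat (Nat.shiftLeft 0x644b6c6c619b 123)) (.cons 15 (.negSucc (Nat.sub (Nat.shiftLeft 0x32c2de47526f 123) 1)) (.cons 16 (.ofNat (Nat.shiftLeft 0x3ec65ebd4285 121)) (.cons 17 (.negSucc (Nat.sub (Nat.shiftLeft 0x68a49194d21 122) 1)) (.cons 18 (.negSucc (Nat.sub (Nat.shiftLeft 0xc17c2d2c6d1 123) 1)) .nil)))))),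
    .cons 12 (.negSucc (Nat.sub (Nat.shiftLeft 0x227972f224a28db 109) 1)) (.cons 13 (.ofNat (Nat.shiftLeft 0x62dfe1af3ffabdf 111)) (.cons 14 (.ofNat (Nat.shiftLeft 0xf3a4e27717f7b53 110)) (.cons 15 (.negSucc (Nat.sub (Nat.shiftLeft 0x6c75358de314747 110) 1)) (.cons 16 (.negSucc (Nat.sub (Nat.shiftLeft 0x3853dd4e4f5a233 108) 1)) (.cons 17 (.negSucc (Nat.sub (Nat.shiftLeft 0x263f329dd244ec9 109) 1)) (.cons 18 (.negSucc (Nat.sub (Nat.shiftLeft 0x164b6de794663f9 110) 1)) .nil)))))),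
    .cons 12 (.negSucc (Nat.sub (Nat.shiftLeft 0x4ffd0f9aeee8d2861 101) 1)) (.cons 13 (.negSucc (Nat.sub (Nat.shiftLeft 0xa72619a25bf87d4d3 103) 1)) (.cons 14 (.ofNat (Nat.shiftLeft 0x15286838c94e93e449 102)) (.cons 15 (.negSucc (Nat.sub (Nat.shiftLeft 0x29450525c1610ae5 102) 1)) (.cons 16 (.ofNat (Nat.shiftLeft 0x31552eb00b8abe517 100)) (.cons 17 (.ofNat (Nat.shiftLeft 0x32e03de54818601b5 101)) (.cons 18 (.negSucc (Nat.sub (Nat.shiftLeft 0x39e9f7e8c368162db 102) 1)) .nil)))))),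
    .cons 19 (.ofNat (Nat.shiftLeft 0xf0d 159)) (.cons 20 (.negSucc (Nat.sub (Nat.shiftLeft 0x287 160) 1)) (.cons 21 (.ofNat (Nat.shiftLeft 0x5d 159)) (.cons 22 (.negSucc (Nat.sub (Nat.shiftLeft 0x83 159) 1)) .nil)))]⟩

noncomputable def A22 : Tn :=
  ⟨[.cons 1 (.ofNat (Nat.shiftLeft 0xf55 159)) (.cons 2 (.ofNat (Nat.shiftLeft 0x43f 159)) (.cons 3 (.negSucc (Nat.sub (Nat.shiftLeft 0x17 159) 1)) (.cons 4 (.ofNat (Nat.shiftLeft 0xa7 159)) .nil))),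
    .cons 5 (.ofNat (Nat.shiftLeft 0x1dc1221 146)) (.cons 6 (.ofNat (Nat.shiftLeft 0x106a475 145)) (.cons 7 (.ofNat (Nat.shiftLeft 0x6b3187 145)) (.cons 8 (.ofNat (Nat.shiftLeft 0x153e03 145)) (.cons 9 (.ofNat (Nat.shiftLeft 0x11ae7 144)) (.cons 10 (.ofNat (Nat.shiftLeft 0x2941b 145)) (.cons 11 (.negSucc (Nat.sub (Nat.shiftLeft 0x5e4d 144) 1)) .nil)))))),
    .cons 5 (.negSucc (Nat.sub (Nat.shiftLeft 0xb75e57c9fc5 126) 1)) (.cons 6 (.ofNat (Nat.shiftLeft 0x256bc1946617 125)) (.cons 7 (.ofNat (Nat.shiftLeft 0x13545561307d 125)) (.cons 8 (.ofNat (Nat.shiftLeft 0xb657cd06691 125)) (.cons 9 (.ofNat (Nat.shiftLeft 0x7ac77f9159d 124)) (.cons 10 (.negSucc (Nat.sub (Nat.shiftLeft 0x2a1381022e7 125) 1)) (.cons 11 (.ofNat (Nat.shiftLeft 0x4fa58024e21 124)) .nil)))))),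
    .cons 5 (.ofNat (Nat.shiftLeft 0x600eeed978cc27 107)) (.cons 6 (.ofNat (Nat.shiftLeft 0x10bcb848f43818573 106)) (.cons 7 (.ofNat (Nat.shiftLeft 0xb601cf4d0a3a3f71 106)) (.cons 8 (.ofNat (Nat.shiftLeft 0x6e5db87317eda1d5 106)) (.cons 9 (.ofNat (Nat.shiftLeft 0x3080edaf92e8d911 105)) (.cons 10 (.ofNat (Nat.shiftLeft 0xf02009cc6c9fa7d 106)) (.cons 11 (.ofNat (Nat.shiftLeft 0xc9a9cf34f07b7a5 105)) .nil)))))),
    .cons 5 (.ofNat (Nat.shiftLeft 0x24a69cf8b4e06c9597 97)) (.cons 6 (.negSucc (Nat.sub (Nat.shiftLeft 0x40a98323259d4e4505d 96) 1)) (.cons 7 (.ofNat (Nat.shiftLeft 0x686dd77bfedfd65c781 96)) (.cons 8 (.ofNat (Nat.shiftLeft 0x3be9e4a9d01fa63425 96)) (.cons 9 (.negSucc (Nat.sub (Nat.shiftLeft 0x13513741b33c6f464df 95) 1)) (.cons 10 (.negSucc (Nat.sub (Nat.shiftLeft 0xed5589829603a40b3 96) 1)) (.cons 11 (.ofNat (Nat.shiftLeft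 0xc643f9f5f1c25176f5 95)) .nil)))))),
    .cons 12 (.ofNat (Nat.shiftLeft 0x5b08c29 144)) (.cons 13 (.negSucc (Nat.sub (Nat.shiftLeft 0x5b8f30d 141) 1)) (.cons 14 (.ofNat (Nat.shiftLeft 0x16e4b9 142)) (.cons 15 (.ofNat (Nat.shiftLeft 0x1a2183 141)) (.cons 16 (.negSucc (Nat.sub (Nat.shiftLeft 0x19e65 141) 1)) (.cons 17 (.negSucc (Nat.sub (Nat.shiftLeft 0x3b33 141) 1)) .nil))))),
    .cons 12 (.ofNat (Nat.shiftLeft 0x51280c6a9eaf53 116)) (.cons 13 (.negSucc (Nat.sub (Nat.shiftLeft 0x1268d0a190ee55f 113) 1)) (.cons 14 (.negSucc (Nat.sub (Nat.shiftLeft 0x2c03744fcd897d 114) 1)) (.cons 15 (.negSucc (Nat.sub (Nat.shiftLeft 0x28115d7dff4a2f 113) 1)) (.cons 16 (.ofNat (Nat.shiftLeft 0x5fbcc5718e059 113)) (.cons 17 (.ofNat (Nat.shiftLeft 0x4a9ff0c71449f 113)) (.cons 18 (.negSucc (Nat.sub (Nat.shiftLeft 0x15a07 145) 1)) .nil)))))),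
    .cons 12 (.negSucc (Nat.sub (Nat.shiftLeft 0x49c73545c70c03fb0b5 94) 1)) (.cons 13 (.negSucc (Nat.sub (Nat.shiftLeft 0x5e641bbbd3926524a337 91) 1)) (.cons 14 (.negSucc (Nat.sub (Nat.shiftLeft 0x3e841b56cc13aef1a05 92) 1)) (.cons 15 (.negSucc (Nat.sub (Nat.shiftLeft 0x9cdf8ca4e8987cb1887 91) 1)) (.cons 16 (.ofNat (Nat.shiftLeft 0x5d76660a131e66dff41 91)) (.cons 17 (.negSucc (Nat.sub (Nat.shiftLeft 0x2fcaea06815df14db89 91) 1)) (.cons 18 (.ofNat (Nat.shiftLeft 0x7e1a2a345e1 123)) .nil)))))),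
    .cons 12 (.ofNat (Nat.shiftLeft 0x8434e53afd8efa170933961 78)) (.cons 13 (.ofNat (Nat.shiftLeft 0xb13515719e8fdb71ba79bcdb 75)) (.cons 14 (.ofNat (Nat.shiftLeft 0xa7f6675f4514c21551eb571 76)) (.cons 15 (.ofNat (Nat.shiftLeft 0x354a124f64997959f34214eb 75)) (.cons 16 (.negSucc (Nat.sub (Nat.shiftLeft 0x161e9aefd520af530f11afbd 75) 1)) (.cons 17 (.negSucc (Nat.sub (Nat.shiftLeft 0x1a8ffd2ec3b612c0227191b 75) 1)) (.cons 18 (.negSucc (Nat.sub (Nat.shiftLeft 0xe19c807adc34bdd 107) 1)) .nil)))))),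
    .cons 12 (.ofNat (Nat.shiftLeft 0x395fb9153e2eccf2f7db3f497ef 60)) (.cons 13 (.negSucc (Nat.sub (Nat.shiftLeft 0x6dbc88a6763df3792d1552e8e76b 57) 1)) (.cons 14 (.ofNat (Nat.shiftLeft 0x16dcecd95ffa054abfc491d9010df 58)) (.cons 15 (.ofNat (Nat.shiftLeft 0x1007cdb0af103e6a0cb378d0e7585 57)) (.cons 16 (.ofNat (Nat.shiftLeft 0x40203e0bf934b19483e38840cdad 57)) (.cons 17 (.negSucc (Nat.sub (Nat.shiftLeft 0x4f9c39302a9320ed865d111b5055 57) 1)) (.cons 18 (.negSucc (Nat.sub (Nat.shiftLeft 0x1cb143d68230649ac033 89) 1)) .nil)))))),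
    .cons 12 (.ofNat (Nat.shiftLeft 0xb782e19de40c89b3de2cae7fb7580d3 41)) (.cons 13 (.ofNat (Nat.shiftLeft 0xdecc0e8e11d053c507acb1fcfa058a321 38)) (.cons 14 (.negSucc (Nat.sub (Nat.shiftLeft 0x4e60e1d532f1f3334119a8edbf1309ffd 39) 1)) (.cons 15 (.ofNat (Nat.shiftLeft 0x1db29020e8f8f3974e5da4e2e29785651 38)) (.cons 16 (.negSucc (Nat.sub (Nat.shiftLeft 0x2ffbd409e0dffe1bb2d6a9bcd4d547b27 38) 1)) (.cons 17 (.negSucc (Nat.sub (Nat.shiftLeft 0x704fd62d70fb072b8fea00725430a3e1 38) 1)) (.cons 18 (.ofNat (Nat.shiftLeft 0xff2d43fa7d933df0e10f1a79 70)) .nil)))))),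
    .cons 12 (.negSucc (Nat.sub (Nat.shiftLeft 0xa6e3a736a2f27d3643f6f3d4d66965b77 32) 1)) (.cons 13 (.ofNat (Nat.shiftLeft 0xb17cdfa62ff0f55671ab93efce0e486fb13 29)) (.cons 14 (.ofNat (Nat.shiftLeft 0xebf18d6d8d8a616075e8f2e4218164fc319 30)) (.cons 15 (.ofNat (Nat.shiftLeft 0x795f73c9e47e418bd53b45ee28d2cdc55a3 29)) (.cons 16 (.ofNat (Nat.shiftLeft 0xdef25b77eab1990e1c58234b80b4b9b6bb 29)) (.cons 17 (.negSucc (Nat.sub (Nat.shiftLeft 0x2c93a350d1a70b54d71bfb8dc137877c153 29) 1)) (.cons 18 (.negSucc (Nat.sub (Nat.shiftLeft 0x57ed12c7351521009a61326ca65 61) 1)) .nil)))))),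
    .cons 19 (.ofNat (Nat.shiftLeft 0x1aa71735 139)) (.cons 20 (.ofNat (Nat.shiftLeft 0xbdd321 139)) (.cons 21 (.negSucc (Nat.sub (Nat.shiftLeft 0x2e407 139) 1)) (.cons 22 (.negSucc (Nat.sub (Nat.shiftLeft 0xf6ad 141) 1)) .nil))),
    .cons 19 (.negSucc (Nat.sub (Nat.shiftLeft 0x5dc56e4c94ab19 115) 1)) (.cons 20 (.ofNat (Nat.shiftLeft 0xdffbceb49698b 115)) (.cons 21 (.ofNat (Nat.shiftLeft 0x25e7de506add3 115)) (.cons 22 (.negSucc (Nat.sub (Nat.shiftLeft 0x55e308fdc60f 117) 1)) .nil))),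
    .cons 19 (.ofNat (Nat.shiftLeft 0xbe34bf91a5ebc80de59 95)) (.cons 20 (.negSucc (Nat.sub (Nat.shiftLeft 0x2ebaf2650baa64d534b 95) 1)) (.cons 21 (.negSucc (Nat.sub (Nat.shiftLeft 0xcebe70877b54889193 95) 1)) (.cons 22 (.negSucc (Nat.sub (Nat.shiftLeft 0x211abb6e317182db31 97) 1)) .nil))),
    .cons 19 (.ofNat (Nat.shiftLeft 0x4e15605f56771191e9c29f 83)) (.cons 20 (.negSucc (Nat.sub (Nat.shiftLeft 0x520f3640e34dd48ded3d9d 83) 1)) (.cons 21 (.negSucc (Nat.sub (Nat.shiftLeft 0x14780b3232145d20eccb15 83) 1)) (.cons 22 (.negSucc (Nat.sub (Nat.shiftLeft 0x7553a064b4140af99907 85) 1)) .nil))),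
    .cons 19 (.negSucc (Nat.sub (Nat.shiftLeft 0xc7914ee2b2d36f7328ab941871 66) 1)) (.cons 20 (.negSucc (Nat.sub (Nat.shiftLeft 0x8c2c8a22464fc4e36e3237c86d 66) 1)) (.cons 21 (.ofNat (Nat.shiftLeft 0xba8bf6813f3604ca48fb57a9b 66)) (.cons 22 (.negSucc (Nat.sub (Nat.shiftLeft 0x26e64c6ee6b017c0e256e2c77 68) 1)) .nil))),
    .cons 19 (.negSucc (Nat.sub (Nat.shiftLeft 0xd188316526bf24ff8d67dd456ffe9 52) 1)) (.cons 20 (.ofNat (Nat.shiftLeft 0x12f332eba1e96cc767241089423bfb 52)) (.cons 21 (.ofNat (Nat.shiftLeft 0xa2112c1b2cac4f3a8911a82753ec3 52)) (.cons 22 (.negSucc (Nat.sub (Nat.shiftLeft 0x7da593b288821d4414bed48395bf 54) 1)) .nil))),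
    .cons 19 (.ofNat (Nat.shiftLeft 0x4c9e9fbf0f64a7317c462b870644d8b 46)) (.cons 20 (.ofNat (Nat.shiftLeft 0x13aad7a8b18f9649a49209ddf5c94e9f 46)) (.cons 21 (.ofNat (Nat.shiftLeft 0x5ca5b677ab9651f687ca00d25d73fc7 46)) (.cons 22 (.ofNat (Nat.shiftLeft 0x195f34ee2df4e6ba11b96c0b747bfed 48)) .nil))),
    .cons 23 (.ofNat (Nat.shiftLeft 0x8fa25b 142)) .nil,
    .cons 23 (.negSucc (Nat.sub (Nat.shiftLeft 0x30606dca64b 126) 1)) .nil,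
    .cons 23 (.ofNat (Nat.shiftLeft 0x4e83f8191d811f9 107)) .nil,
    .cons 23 (.negSucc (Nat.sub (Nat.shiftLeft 0x6241ebb47a6c692117 96) 1)) .nil,
    .nil],
   [.cons 0 (.negSucc (Nat.sub (Nat.shiftLeft 0xc9 160) 1)) .nil,
    .cons 1 (.negSucc (Nat.sub (Nat.shiftLeft 0x1ea8935 144) 1)) (.cons 2 (.negSucc (Nat.sub (Nat.shiftLeft 0x6c0d9 147) 1)) (.cons 3 (.negSucc (Nat.sub (Nat.shiftLeft 0xb2c75 144) 1)) (.cons 4 (.negSucc (Nat.sub (Nat.shiftLeft 0x9d2b 146) 1)) .nil))),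
    .cons 1 (.negSucc (Nat.sub (Nat.shiftLeft 0x4ba7b1579657 124) 1)) (.cons 2 (.negSucc (Nat.sub (Nat.shiftLeft 0x350128067a3 127) 1)) (.cons 3 (.ofNat (Nat.shiftLeft 0x3118d9b41e9 124)) (.cons 4 (.negSucc (Nat.sub (Nat.shiftLeft 0x1934d517dc9 126) 1)) .nil))),
    .cons 1 (.ofNat (Nat.shiftLeft 0x2ed1f5ca7447a494d 105)) (.cons 2 (.ofNat (Nat.shiftLeft 0x90c10d81e3826d1 108)) (.cons 3 (.negSucc (Nat.sub (Nat.shiftLeft 0x568a1104ad6b3d73 105) 1)) (.cons 4 (.ofNat (Nat.shiftLeft 0x16361aece623213 107)) .nil))),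
    .cons 1 (.negSucc (Nat.sub (Nat.shiftLeft 0x3621ce492b063c34e3 95) 1)) (.cons 2 (.negSucc (Nat.sub (Nat.shiftLeft 0x7cd2369417a02a7b1f 98) 1)) (.cons 3 (.negSucc (Nat.sub (Nat.shiftLeft 0x31793732cf0458e7a3 95) 1)) (.cons 4 (.ofNat (Nat.shiftLeft 0x49914f8f8b8e87c643 97)) .nil))),
    .cons 5 (.negSucc (Nat.sub (Nat.shiftLeft 0xaddab67 143) 1)) (.cons 6 (.negSucc (Nat.sub (Nat.shiftLeft 0x3490b8f 142) 1)) (.cons 7 (.ofNat (Nat.shiftLeft 0x21fe49 142)) (.cons 8 (.ofNat (Nat.shiftLeft 0xe1b27 142)) (.cons 9 (.ofNat (Nat.shiftLeft 0xb199 142)) (.cons 10 (.ofNat (Nat.shiftLeft 0x3b33 141)) (.cons 11 (.negSucc (Nat.sub (Nat.shiftLeft 0x3b33 142) 1)) .nil)))))),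
    .cons 5 (.ofNat (Nat.shiftLeft 0xae5b2226456323 115)) (.cons 6 (.negSucc (Nat.sub (Nat.shiftLeft 0x1ca186bacc1915 114) 1)) (.cons 7 (.ofNat (Nat.shiftLeft 0x3541acdaf598b3 114)) (.cons 8 (.negSucc (Nat.sub (Nat.shiftLeft 0x7e7fef6fd59e3 114) 1)) (.cons 9 (.negSucc (Nat.sub (Nat.shiftLeft 0x4589ca553cddd 114) 1)) (.cons 10 (.negSucc (Nat.sub (Nat.shiftLeft 0x662650c71449f 113) 1)) (.cons 11 (.negSucc (Nat.sub (Nat.shiftLeft 0x5fbdf38ebb61 114) 1)) .nil)))))),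
    .cons 5 (.ofNat (Nat.shiftLeft 0x6c5e9d7062748f06b9b 93)) (.cons 6 (.negSucc (Nat.sub (Nat.shiftLeft 0x470117f8a3a0d352f15d 92) 1)) (.cons 7 (.negSucc (Nat.sub (Nat.shiftLeft 0x496776fe627e705f055 92) 1)) (.cons 8 (.negSucc (Nat.sub (Nat.shiftLeft 0x708333382ead807b05b 92) 1)) (.cons 9 (.negSucc (Nat.sub (Nat.shiftLeft 0x55d9a94aec9e2c16d65 92) 1)) (.cons 10 (.ofNat (Nat.shiftLeft 0xaa25141a9bfdf14db89 91)) (.cons 11 (.negSucc (Nat.sub (Nat.shiftLeft 0xee24114c5adf14db89 92) 1)) .nil)))))),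
    .cons 5 (.ofNat (Nat.shiftLeft 0xf842c0ad31f1eee58d95651 77)) (.cons 6 (.ofNat (Nat.shiftLeft 0x146bda5ab7e652d1ea885369 76)) (.cons 7 (.negSucc (Nat.sub (Nat.shiftLeft 0x16ad27ed269d4d5fc38c957f 76) 1)) (.cons 8 (.ofNat (Nat.shiftLeft 0x5c8759e5288b4998350fb6f 76)) (.cons 9 (.ofNat (Nat.shiftLeft 0x7db8fe5cee9a9a186754b51 76)) (.cons 10 (.ofNat (Nat.shiftLeft 0x7bc393372b72f2a0227191b 75)) (.cons 11 (.negSucc (Nat.sub (Nat.shiftLeft 0x4277c75d787aa7b0227191b 76) 1)) .nil)))))),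
    .cons 5 (.ofNat (Nat.shiftLeft 0xa35d152a3368ac0ec7baf9255ff 59)) (.cons 6 (.negSucc (Nat.sub (Nat.shiftLeft 0x7d6d6f7d91af179ae7d8890c4799 58) 1)) (.cons 7 (.negSucc (Nat.sub (Nat.shiftLeft 0x108f117ed6611412b717a2d50df31 58) 1)) (.cons 8 (.ofNat (Nat.shiftLeft 0x36b0e12278e7d04ca72013822441 58)) (.cons 9 (.negSucc (Nat.sub (Nat.shiftLeft 0xd56f2ce2ad3d2e7114e4cae0f01 58) 1)) (.cons 10 (.ofNat (Nat.shiftLeft 0x28e046215fc2602891bf111b5055 57)) (.cons 11 (.negSucc (Nat.sub (Nat.shiftLeft 0x7913f665c58572e52be111b5055 58) 1)) .nil)))))),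
    .cons 5 (.negSucc (Nat.sub (Nat.shiftLeft 0x76c0a50dce385407c591f077184635d 40) 1)) (.cons 6 (.negSucc (Nat.sub (Nat.shiftLeft 0xb43a79dc6d15b2e3e60ad2b8897083b95 39) 1)) (.cons 7 (.negSucc (Nat.sub (Nat.shiftLeft 0xe6e74e1d6ac5cbe240f916b8a811e5cd 39) 1)) (.cons 8 (.negSucc (Nat.sub (Nat.shiftLeft 0x4423bd51fcde7e1a28767df7af068f363 39) 1)) (.cons 9 (.negSucc (Nat.sub (Nat.shiftLeft 0x3aa42cfb44cdeebfd1450d08836e145d 39) 1)) (.cons 10 (.ofNat (Nat.shiftLeft 0x146ad086c38231632fc2bc50c5430a3e1 38)) (.cons 11 (.ofNat (Nat.shiftLeft 0x46cf4ec8eebb2ed691fbf50abcf5c1f 39)) .nil)))))),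
    .cons 5 (.ofNat (Nat.shiftLeft 0x511f1da62cdde018ac54a8cf57ece906f9 31)) (.cons 6 (.negSucc (Nat.sub (Nat.shiftLeft 0x6abb1b2db8e75fa5d1b7a44739dfd5d902f 30) 1)) (.cons 7 (.ofNat (Nat.shiftLeft 0x17096e0d02c656e8756dec11ffc12cc402a9 30)) (.cons 8 (.ofNat (Nat.shiftLeft 0x42cf96968461bcb94c9a625ae48b48910c7 30)) (.cons 9 (.negSucc (Nat.sub (Nat.shiftLeft 0x3e5fd3723d8e05b9bf8029530c1698bc07 30) 1)) (.cons 10 (.negSucc (Nat.sub (Nat.shiftLeft 0x37ed0ec6febe43556efc0a70e3e87883ead 29) 1)) (.cons 11 (.ofNat (Nat.shiftLeft 0x2afbc71c42659f9df3560e51a4587883ead 30)) .nil)))))),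
    .cons 12 (.negSucc (Nat.sub (Nat.shiftLeft 0x100433b37 138) 1)) (.cons 13 (.negSucc (Nat.sub (Nat.shiftLeft 0x1ba38c43 138) 1)) (.cons 14 (.negSucc (Nat.sub (Nat.shiftLeft 0x1998535 138) 1)) (.cons 15 (.ofNat (Nat.shiftLeft 0x6ce25d 138)) (.cons 16 (.negSucc (Nat.sub (Nat.shiftLeft 0x2e407 138) 1)) (.cons 17 (.negSucc (Nat.sub (Nat.shiftLeft 0x2e407 138) 1)) (.cons 18 (.negSucc (Nat.sub (Nat.shiftLeft 0xf6ad 139) 1)) .nil)))))),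
    .cons 12 (.ofNat (Nat.shiftLeft 0x18736f8c51778c3 114)) (.cons 13 (.negSucc (Nat.sub (Nat.shiftLeft 0x1356d1e7240841 114) 1)) (.cons 14 (.negSucc (Nat.sub (Nat.shiftLeft 0x487d20ed4dcee7 114) 1)) (.cons 15 (.negSucc (Nat.sub (Nat.shiftLeft 0x6d2c007fb9361 114) 1)) (.cons 16 (.negSucc (Nat.sub (Nat.shiftLeft 0x6255a1af9522d 114) 1)) (.cons 17 (.negSucc (Nat.sub (Nat.shiftLeft 0x202921af9522d 114) 1)) (.cons 18 (.negSucc (Nat.sub (Nat.shiftLeft 0x4008fdc60f 115) 1)) .nil)))))),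
    .cons 12 (.ofNat (Nat.shiftLeft 0x91928642787cbe4377d 94)) (.cons 13 (.negSucc (Nat.sub (Nat.shiftLeft 0xef3b66088d3e86d327f 94) 1)) (.cons 14 (.ofNat (Nat.shiftLeft 0x32f8196e7e18dc21ba7 94)) (.cons 15 (.negSucc (Nat.sub (Nat.shiftLeft 0x1852adfbf75e53d3f5f 94) 1)) (.cons 16 (.ofNat (Nat.shiftLeft 0x1c791e2aa5cab776e6d 94)) (.cons 17 (.negSucc (Nat.sub (Nat.shiftLeft 0xca6b87926b54889193 94) 1)) (.cons 18 (.ofNat (Nat.shiftLeft 0x3cbb6546b8e7d24cf 95)) .nil)))))),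
    .cons 12 (.ofNat (Nat.shiftLeft 0x8797612419232e35ab7f5b 82)) (.cons 13 (.ofNat (Nat.shiftLeft 0xe9e78d7b4a7bde32a3a037 82)) (.cons 14 (.ofNat (Nat.shiftLeft 0x9b25cd09c86b4ac7a0f361 82)) (.cons 15 (.ofNat (Nat.shiftLeft 0x27c2f3950b42a9d82c8c17 82)) (.cons 16 (.ofNat (Nat.shiftLeft 0x18e407c7b7a50adf1334eb 82)) (.cons 17 (.ofNat (Nat.shiftLeft 0x2aa2c4cf5aa12df1334eb 82)) (.cons 18 (.negSucc (Nat.sub (Nat.shiftLeft 0x113ef42270a0d90af99907 83) 1)) .nil)))))),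
    .cons 12 (.negSucc (Nat.sub (Nat.shiftLeft 0x30906fbe19bb98868b939b63f5 65) 1)) (.cons 13 (.negSucc (Nat.sub (Nat.shiftLeft 0x105c0c119938003adaea32d6959 65) 1)) (.cons 14 (.ofNat (Nat.shiftLeft 0x3022dd77ed097366b24dc182e71 65)) (.cons 15 (.negSucc (Nat.sub (Nat.shiftLeft 0x48d0428867b9a1e5e07a5e5f79 65) 1)) (.cons 16 (.ofNat (Nat.shiftLeft 0x5b93262301c1a9a48c8fb57a9b 65)) (.cons 17 (.negSucc (Nat.sub (Nat.shiftLeft 0x503ce140bf86a5ddeb704a8565 65) 1)) (.cons 18 (.negSucc (Nat.sub (Nat.shiftLeft 0x1358be5f4f9bcbae23256e2c77 66) 1)) .nil)))))),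
    .cons 12 (.ofNat (Nat.shiftLeft 0x2302e96dd73708c246279111624b3 51)) (.cons 13 (.negSucc (Nat.sub (Nat.shiftLeft 0xa37af4309cb8182b8dcb44aa544191 51) 1)) (.cons 14 (.negSucc (Nat.sub (Nat.shiftLeft 0x6c85f8a9bf0ce08454c35ce739a17 51) 1)) (.cons 15 (.negSucc (Nat.sub (Nat.shiftLeft 0x3554d560ebd1eabe76c3eb31eae6b1 51) 1)) (.cons 16 (.ofNat (Nat.shiftLeft 0x20cfe264eaa692dd2a1c282753ec3 51)) (.cons 17 (.ofNat (Nat.shiftLeft 0x601d611326f48053a8b0a82753ec3 51)) (.cons 18 (.ofNat (Nat.shiftLeft 0xa2c933393683666452d42b7c6a41 52)) .nil)))))),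
    .cons 12 (.ofNat (Nat.shiftLeft 0x5d05d0aebb8c8fca0fa390c3ec782f7 45)) (.cons 13 (.negSucc (Nat.sub (Nat.shiftLeft 0x38bf5c40f10b1acf311708ddcf5e0fd 45) 1)) (.cons 14 (.ofNat (Nat.shiftLeft 0x836d05a83b9307bbb8a2355461da075 45)) (.cons 15 (.ofNat (Nat.shiftLeft 0x12b3bf0e813a5015422d809419544863 45)) (.cons 16 (.negSucc (Nat.sub (Nat.shiftLeft 0x89bcdf70957654756b34e6ada28c039 45) 1)) (.cons 17 (.ofNat (Nat.shiftLeft 0x7388cc29d36ef08153f673d25d73fc7 45)) (.cons 18 (.ofNat (Nat.shiftLeft 0x471ca9ec56b37ad3220b17b747bfed 46)) .nil)))))),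
    .cons 19 (.negSucc (Nat.sub (Nat.shiftLeft 0x99b6de7 142) 1)) (.cons 20 (.ofNat (Nat.shiftLeft 0x179f57d 142)) (.cons 21 (.negSucc (Nat.sub (Nat.shiftLeft 0x3f3cff 143) 1)) (.cons 22 (.ofNat (Nat.shiftLeft 0x36e79 142)) .nil))),
    .cons 19 (.ofNat (Nat.shiftLeft 0x153e128bfb97 126)) (.cons 20 (.negSucc (Nat.sub (Nat.shiftLeft 0xaf73ae7210d 126) 1)) (.cons 21 (.ofNat (Nat.shiftLeft 0x5bc8745e2f 127)) (.cons 22 (.negSucc (Nat.sub (Nat.shiftLeft 0x16397972ec9 126) 1)) .nil))),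
    .cons 19 (.negSucc (Nat.sub (Nat.shiftLeft 0x9b3736fdff85373d 107) 1)) (.cons 20 (.negSucc (Nat.sub (Nat.shiftLeft 0x8dceb013afbdb31 107) 1)) (.cons 21 (.ofNat (Nat.shiftLeft 0xadc5ee368b7963b 108)) (.cons 22 (.ofNat (Nat.shiftLeft 0x279fba2fa4172e3 107)) .nil))),
    .cons 19 (.ofNat (Nat.shiftLeft 0xd5522d0a4a1385ee13 96)) (.cons 20 (.negSucc (Nat.sub (Nat.shiftLeft 0x1d52e80d690a39b30a1 96) 1)) (.cons 21 (.negSucc (Nat.sub (Nat.shiftLeft 0x15852ba336be0edff5 97) 1)) (.cons 22 (.ofNat (Nat.shiftLeft 0x4384ebe2f7b7e50633 96)) .nil))),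
    .cons 23 (.negSucc (Nat.sub (Nat.shiftLeft 0x1c9 159) 1)) .nil],
   [.nil,
    .cons 0 (.ofNat (Nat.shiftLeft 0xc66cb 145)) .nil,
    .cons 0 (.ofNat (Nat.shiftLeft 0x47d9d07b9a9 125)) .nil,
    .cons 0 (.negSucc (Nat.sub (Nat.shiftLeft 0x1bfc6abe1f5926b3 106) 1)) .nil,
    .cons 0 (.ofNat (Nat.shiftLeft 0x823896e9cfb7495b1d 96)) .nil,
    .cons 1 (.ofNat (Nat.shiftLeft 0x7af37c1 141)) (.cons 2 (.negSucc (Nat.sub (Nat.shiftLeft 0x3b33 148) 1)) (.cons 3 (.negSucc (Nat.sub (Nat.shiftLeft 0x3b33 141) 1)) (.cons 4 (.ofNat (Nat.shiftLeft 0xb199 141)) .nil))),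
    .cons 1 (.negSucc (Nat.sub (Nat.shiftLeft 0xaa772e77f34fa5 113) 1)) (.cons 2 (.negSucc (Nat.sub (Nat.shiftLeft 0x224d6f8ebb61 120) 1)) (.cons 3 (.ofNat (Nat.shiftLeft 0x527d30c71449f 113)) (.cons 4 (.ofNat (Nat.shiftLeft 0xa370bdaac3223 113)) .nil))),
    .cons 1 (.ofNat (Nat.shiftLeft 0xb530b3349a201a1b4193 91)) (.cons 2 (.ofNat (Nat.shiftLeft 0x2bf615590e44eb2477 98)) (.cons 3 (.negSucc (Nat.sub (Nat.shiftLeft 0xde3fbf30d21df14db89 91) 1)) (.cons 4 (.ofNat (Nat.shiftLeft 0x91d09baf7b29d3e929b 91)) .nil))),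
    .cons 1 (.ofNat (Nat.shiftLeft 0x7f0f7ece3e8f8567893f4439 75)) (.cons 2 (.ofNat (Nat.shiftLeft 0x438d192239eb5a69d8e6e5 82)) (.cons 3 (.negSucc (Nat.sub (Nat.shiftLeft 0x14573c1a6f3a2e500227191b 75) 1)) (.cons 4 (.negSucc (Nat.sub (Nat.shiftLeft 0x29f83aa54d2d3a8f98ab4af 75) 1)) .nil))),
    .cons 1 (.negSucc (Nat.sub (Nat.shiftLeft 0xedbbeefb264ce6c04a9489598769 57) 1)) (.cons 2 (.ofNat (Nat.shiftLeft 0x88013cedcf3c0d276242e4afab 64)) (.cons 3 (.ofNat (Nat.shiftLeft 0x14295ef17a04174abf86eee4afab 57)) (.cons 4 (.negSucc (Nat.sub (Nat.shiftLeft 0x2b82c730301bc663facbccae0f01 57) 1)) .nil))),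
    .cons 1 (.negSucc (Nat.sub (Nat.shiftLeft 0xb4a7ca166676a007f2365979853aa3a25 38) 1)) (.cons 2 (.negSucc (Nat.sub (Nat.shiftLeft 0x7c0e7f75ac101383da921cd030a3e1 45) 1)) (.cons 3 (.ofNat (Nat.shiftLeft 0x270e08d4bb15b04612927c761abcf5c1f 38)) (.cons 4 (.ofNat (Nat.shiftLeft 0x14a74f8bc2f44545bb869b2dffc91eba3 38)) .nil))),
    .cons 1 (.ofNat (Nat.shiftLeft 0x319e7482484688fe61064c4fe6033854121 29)) (.cons 2 (.negSucc (Nat.sub (Nat.shiftLeft 0x2f1053b3eba7584f1bb1645f9c2c77c153 36) 1)) (.cons 3 (.ofNat (Nat.shiftLeft 0x400ea90ee6f2164e289ff3df92887883ead 29)) (.cons 4 (.ofNat (Nat.shiftLeft 0x3ba45b96e2dfd77c3bca6271a05696743f9 29)) .nil))),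
    .cons 5 (.ofNat (Nat.shiftLeft 0x6db0f0e9 140)) (.cons 6 (.negSucc (Nat.sub (Nat.shiftLeft 0x955abf 143) 1)) (.cons 7 (.negSucc (Nat.sub (Nat.shiftLeft 0x21b9a7 139) 1)) (.cons 8 (.ofNat (Nat.shiftLeft 0x23a701 139)) (.cons 9 (.ofNat (Nat.shiftLeft 0x2e407 138)) (.cons 10 (.negSucc (Nat.sub (Nat.shiftLeft 0xf6ad 138) 1)) .nil))))),
    .cons 5 (.ofNat (Nat.shiftLeft 0x3db3e9efd14223 116)) (.cons 6 (.negSucc (Nat.sub (Nat.shiftLeft 0x22628a1a6eb15 119) 1)) (.cons 7 (.ofNat (Nat.shiftLeft 0x136dbec54debf3 115)) (.cons 8 (.negSucc (Nat.sub (Nat.shiftLeft 0x76a1bb3525fd5 115) 1)) (.cons 9 (.ofNat (Nat.shiftLeft 0x404641af9522d 114)) (.cons 10 (.ofNat (Nat.shiftLeft 0x12795f70239f1 114)) (.cons 11 (.ofNat (Nat.shiftLeft 0x175b 147)) .nil)))))),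
    .cons 5 (.ofNat (Nat.shiftLeft 0x46fca99864740f361d 96)) (.cons 6 (.negSucc (Nat.sub (Nat.shiftLeft 0x4ccbbc65c18a3ab6ab 99) 1)) (.cons 7 (.ofNat (Nat.shiftLeft 0xee1653f4347b1c084d 95)) (.cons 8 (.negSucc (Nat.sub (Nat.shiftLeft 0x349d1167ee981651eb 95) 1)) (.cons 9 (.negSucc (Nat.sub (Nat.shiftLeft 0xffd1cddde6ab776e6d 94) 1)) (.cons 10 (.ofNat (Nat.shiftLeft 0x56659c69158e7d24cf 94)) (.cons 11 (.ofNat (Nat.shiftLeft 0x392df07ae5 127)) .nil)))))),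
    .cons 5 (.ofNat (Nat.shiftLeft 0x162054c4ad433843b923bb 84)) (.cons 6 (.ofNat (Nat.shiftLeft 0x93b12100a2f91aae058c3 87)) (.cons 7 (.negSucc (Nat.sub (Nat.shiftLeft 0x29c51aa933132c801febf5 83) 1)) (.cons 8 (.ofNat (Nat.shiftLeft 0x24967b56f3c19996131e03 83)) (.cons 9 (.ofNat (Nat.shiftLeft 0xdb9b66ac2c94f20eccb15 82)) (.cons 10 (.negSucc (Nat.sub (Nat.shiftLeft 0x1a1274675401530af99907 82) 1)) (.cons 11 (.negSucc (Nat.sub (Nat.shiftLeft 0x8601e7fa6294d 115) 1)) .nil)))))),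
    .cons 5 (.negSucc (Nat.sub (Nat.shiftLeft 0x64ebbc547a058c47d5d19995 67) 1)) (.cons 6 (.negSucc (Nat.sub (Nat.shiftLeft 0x67b37c190e7ddea0759b4ec0d 70) 1)) (.cons 7 (.negSucc (Nat.sub (Nat.shiftLeft 0x76ece8ff4b6612bc4e1e101445 66) 1)) (.cons 8 (.ofNat (Nat.shiftLeft 0x3ba41817d97af057ff68ec6d33 66)) (.cons 9 (.negSucc (Nat.sub (Nat.shiftLeft 0x6175acb8319a174e928fb57a9b 65) 1)) (.cons 10 (.ofNat (Nat.shiftLeft 0x198e10ae04cf4b47c2da91d389 65)) (.cons 11 (.ofNat (Nat.shiftLeft 0x52dea3645eae020e3 98)) .nil)))))),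
    .cons 5 (.ofNat (Nat.shiftLeft 0x6280418c1698ca9c24d50ed1bc13 53)) (.cons 6 (.ofNat (Nat.shiftLeft 0x57da35e57c2652cd1f6242454555b 56)) (.cons 7 (.ofNat (Nat.shiftLeft 0xf95142246964afda05181f20286e3 52)) (.cons 8 (.ofNat (Nat.shiftLeft 0xdbf984cda7690b864d5e8b704a49b 52)) (.cons 9 (.ofNat (Nat.shiftLeft 0xd4f1b2681aeaf4b7e2677d8ac13d 51)) (.cons 10 (.negSucc (Nat.sub (Nat.shiftLeft 0x1a931a5b370c1a5c3ea475d48395bf 51) 1)) (.cons 11 (.negSucc (Nat.sub (Nat.shiftLeft 0x20481dedc5551a55db535 84) 1)) .nil)))))),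
    .cons 5 (.ofNat (Nat.shiftLeft 0x6f514a0956aebd2f55b6da32158ed7 47)) (.cons 6 (.negSucc (Nat.sub (Nat.shiftLeft 0x16153f7a9e34bea6e1198e778ecb81 50) 1)) (.cons 7 (.negSucc (Nat.sub (Nat.shiftLeft 0x1149d63a78bd20deff0f7f41f130c299 46) 1)) (.cons 8 (.ofNat (Nat.shiftLeft 0x8f14522c0281b3d7eca74e982a142bf 46)) (.cons 9 (.ofNat (Nat.shiftLeft 0x225d8b6ef966ef22ae752ccda28c039 45)) (.cons 10 (.negSucc (Nat.sub (Nat.shiftLeft 0x1ebfba96c00e102923c05ea48b84013 45) 1)) (.cons 11 (.negSucc (Nat.sub (Nat.shiftLeft 0x30f38c83f5692cddf440ed1 78) 1)) .nil)))))),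
    .cons 12 (.ofNat (Nat.shiftLeft 0x1d854501 142)) (.cons 13 (.ofNat (Nat.shiftLeft 0x50cb533 142)) (.cons 14 (.negSucc (Nat.sub (Nat.shiftLeft 0x16754a3 144) 1)) (.cons 15 (.ofNat (Nat.shiftLeft 0xa4b6b 146)) (.cons 16 (.ofNat (Nat.shiftLeft 0x4037fd 142)) (.cons 17 (.ofNat (Nat.shiftLeft 0x7d7f 143)) (.cons 18 (.negSucc (Nat.sub (Nat.shiftLeft 0x36e79 142) 1)) .nil)))))),
    .cons 12 (.ofNat (Nat.shiftLeft 0xbcb3f2a3c2f 126)) (.cons 13 (.negSucc (Nat.sub (Nat.shiftLeft 0x87bb5c1d8a3 126) 1)) (.cons 14 (.ofNat (Nat.shiftLeft 0x399ef202313 128)) (.cons 15 (.negSucc (Nat.sub (Nat.shiftLeft 0x3e0a458c5b 130) 1)) (.cons 16 (.ofNat (Nat.shiftLeft 0x17f67a99473 126)) (.cons 17 (.negSucc (Nat.sub (Nat.shiftLeft 0xed67f106af 127) 1)) (.cons 18 (.negSucc (Nat.sub (Nat.shiftLeft 0x1473868d137 126) 1)) .nil)))))),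
    .cons 12 (.negSucc (Nat.sub (Nat.shiftLeft 0x62dd9e3053473c5 107) 1)) (.cons 13 (.negSucc (Nat.sub (Nat.shiftLeft 0x23d87a87b7675e3f 107) 1)) (.cons 14 (.ofNat (Nat.shiftLeft 0x2fb9f00aeef16f6f 109)) (.cons 15 (.negSucc (Nat.sub (Nat.shiftLeft 0x31639214abba757 111) 1)) (.cons 16 (.negSucc (Nat.sub (Nat.shiftLeft 0xcf11d420eee07b1 107) 1)) (.cons 17 (.negSucc (Nat.sub (Nat.shiftLeft 0x8222a06531b38bb 108) 1)) (.cons 18 (.negSucc (Nat.sub (Nat.shiftLeft 0xef940380a4172e3 107) 1)) .nil)))))),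
    .cons 12 (.negSucc (Nat.sub (Nat.shiftLeft 0x77e65313bb2b9f49f5 96) 1)) (.cons 13 (.ofNat (Nat.shiftLeft 0x73ba3b9498dd84dd631 96)) (.cons 14 (.ofNat (Nat.shiftLeft 0x90dfc824f2bd08bfff 98)) (.cons 15 (.ofNat (Nat.shiftLeft 0x13f053903bc62f1299 100)) (.cons 16 (.ofNat (Nat.shiftLeft 0x2966a9a1284e072adf 96)) (.cons 17 (.ofNat (Nat.shiftLeft 0x1d6fba6611c7fc2575 97)) (.cons 18 (.negSucc (Nat.sub (Nat.shiftLeft 0xa3f7d6ffc3c7e50633 96) 1)) .nil)))))),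
    .cons 19 (.ofNat (Nat.shiftLeft 0x779 160)) (.cons 20 (.negSucc (Nat.sub (Nat.shiftLeft 0x545 159) 1)) (.cons 21 (.ofNat (Nat.shiftLeft 0x119 159)) (.cons 22 (.negSucc (Nat.sub (Nat.shiftLeft 0xb1 159) 1)) .nil)))]⟩

noncomputable def A23 : Tn :=
  ⟨[.cons 1 (.ofNat (Nat.shiftLeft 0xf59 159)) (.cons 2 (.ofNat (Nat.shiftLeft 0x435 159)) (.cons 3 (.negSucc (Nat.sub (Nat.shiftLeft 0xcb 159) 1)) (.cons 4 (.ofNat (Nat.shiftLeft 0x8b 159)) .nil))),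
    .cons 5 (.ofNat (Nat.shiftLeft 0x1e17b19 146)) (.cons 6 (.negSucc (Nat.sub (Nat.shiftLeft 0x419fe9 146) 1)) (.cons 7 (.ofNat (Nat.shiftLeft 0x12d67d 148)) (.cons 8 (.ofNat (Nat.shiftLeft 0xbb25b 146)) (.cons 9 (.negSucc (Nat.sub (Nat.shiftLeft 0xdca3 147) 1)) (.cons 10 (.negSucc (Nat.sub (Nat.shiftLeft 0x217d5 146) 1)) (.cons 11 (.ofNat (Nat.shiftLeft 0x1f85 146)) .nil)))))),
    .cons 5 (.negSucc (Nat.sub (Nat.shiftLeft 0x2a22acd395 132) 1)) (.cons 6 (.negSucc (Nat.sub (Nat.shiftLeft 0x271a3bb4db 132) 1)) (.cons 7 (.ofNat (Nat.shiftLeft 0x7ddf80b17 134)) (.cons 8 (.ofNat (Nat.shiftLeft 0xb8a40ea71 132)) (.cons 9 (.ofNat (Nat.shiftLeft 0x1d78b8db7 133)) (.cons 10 (.ofNat (Nat.shiftLeft 0x14ad9c5e1 132)) (.cons 11 (.negSucc (Nat.sub (Nat.shiftLeft 0x54d1638d1 132) 1)) .nil)))))),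
    .cons 5 (.ofNat (Nat.shiftLeft 0x1efd7ee22e77 121)) (.cons 6 (.ofNat (Nat.shiftLeft 0x3814d6da62959 121)) (.cons 7 (.negSucc (Nat.sub (Nat.shiftLeft 0x1f6a6d4196ad 123) 1)) (.cons 8 (.negSucc (Nat.sub (Nat.shiftLeft 0xe732022924ab 121) 1)) (.cons 9 (.negSucc (Nat.sub (Nat.shiftLeft 0x131c64f8158d 122) 1)) (.cons 10 (.ofNat (Nat.shiftLeft 0x4de0f1b58285 121)) (.cons 11 (.ofNat (Nat.shiftLeft 0x2a7348f370cb 121)) .nil)))))),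
    .cons 12 (.ofNat (Nat.shiftLeft 0x6f7f01d199 132)) (.cons 13 (.ofNat (Nat.shiftLeft 0x12dd5fb45 134)) (.cons 14 (.ofNat (Nat.shiftLeft 0xf893ec5 133)) (.cons 15 (.ofNat (Nat.shiftLeft 0xeee7d13 132)) (.cons 16 (.negSucc (Nat.sub (Nat.shiftLeft 0xf79c5 134) 1)) (.cons 17 (.ofNat (Nat.shiftLeft 0xf79c5 134)) (.cons 18 (.ofNat (Nat.shiftLeft 0x8b47ed 132)) .nil)))))),
    .cons 12 (.negSucc (Nat.sub (Nat.shiftLeft 0xede1a0f8a01ccc43 106) 1)) (.cons 13 (.negSucc (Nat.sub (Nat.shiftLeft 0x10423220b2df4ee7 108) 1)) (.cons 14 (.negSucc (Nat.sub (Nat.shiftLeft 0x126447cde950dd67 107) 1)) (.cons 15 (.ofNat (Nat.shiftLeft 0x11d08048ab37c29f 106)) (.cons 16 (.negSucc (Nat.sub (Nat.shiftLeft 0xc3cd40f1258999 108) 1)) (.cons 17 (.ofNat (Nat.shiftLeft 0x10a4fe0f1258999 108)) (.cons 18 (.negSucc (Nat.sub (Nat.shiftLeft 0x10359785ae299f 106)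 1)) .nil)))))),
    .cons 12 (.negSucc (Nat.sub (Nat.shiftLeft 0x70054fd467a72208153 91) 1)) (.cons 13 (.ofNat (Nat.shiftLeft 0x1d7b8b0f4cbefdf25749 93)) (.cons 14 (.ofNat (Nat.shiftLeft 0x984cc6b12e7d32250c9 92)) (.cons 15 (.negSucc (Nat.sub (Nat.shiftLeft 0xecb8de3d35062e6fd11 91) 1)) (.cons 16 (.negSucc (Nat.sub (Nat.shiftLeft 0x1ec674fd9af389a87c9 93) 1)) (.cons 17 (.ofNat (Nat.shiftLeft 0x87fa964a4f389a87c9 93)) (.cons 18 (.negSucc (Nat.sub (Nat.shiftLeft 0x670ba21ffb7029139ef 91) 1)) .nil)))))),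
    .cons 12 (.ofNat (Nat.shiftLeft 0x11f919dde1ed92b9c6c97ff83 72)) (.cons 13 (.negSucc (Nat.sub (Nat.shiftLeft 0x1603a459069f3000c0b10f6d9 74) 1)) (.cons 14 (.ofNat (Nat.shiftLeft 0xe8dcdf27d883059d61af7a7 73)) (.cons 15 (.ofNat (Nat.shiftLeft 0x10501d28a0c8490ad6033d121 72)) (.cons 16 (.ofNat (Nat.shiftLeft 0x2a5108f3d86bf3b1f435af59 74)) (.cons 17 (.ofNat (Nat.shiftLeft 0xa9ef9eff412b1ae0bca50a7 74)) (.cons 18 (.ofNat (Nat.shiftLeft 0x560680a557ba239e6a1cd5df 72)) .nil)))))),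
    .cons 12 (.ofNat (Nat.shiftLeft 0xcba6722e01774027da4fe17a9617 55)) (.cons 13 (.ofNat (Nat.shiftLeft 0x1f2d11694e13eebd7f096f77700ab 57)) (.cons 14 (.negSucc (Nat.sub (Nat.shiftLeft 0x28941a4542ab5bef4bccec9fd1ad5 56) 1)) (.cons 15 (.ofNat (Nat.shiftLeft 0x4416e8a5127687b85869f12b9f7d 55)) (.cons 16 (.negSucc (Nat.sub (Nat.shiftLeft 0x5eb49a003ede2dc24143ed48ba2b 57) 1)) (.cons 17 (.negSucc (Nat.sub (Nat.shiftLeft 0x2e0222faf55c94babadc12b745d5 57) 1)) (.cons 18 (.ofNat (Nat.shiftLeft 0x3ec9d19671eb3224b0c3578e8b83 55)) .nil)))))),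
    .cons 12 (.negSucc (Nat.sub (Nat.shiftLeft 0x456812ce9c736c7637124ba68c3e3 52) 1)) (.cons 13 (.ofNat (Nat.shiftLeft 0x3df42e8ad4cb22af0bec9e2a30df9 54)) (.cons 14 (.ofNat (Nat.shiftLeft 0x3030237908b585f3e41df055234f79 53)) (.cons 15 (.negSucc (Nat.sub (Nat.shiftLeft 0x1f69d3aa5671ef11a6a07ffddd1141 52) 1)) (.cons 16 (.ofNat (Nat.shiftLeft 0x4aba328b34d76bf9d3417f7b32987 54)) (.cons 17 (.negSucc (Nat.sub (Nat.shiftLeft 0x2a9871eaa254c57570577f7b32987 54) 1)) (.cons 18 (.negSucc (Nat.sub (Nat.shiftLeft 0xa3a7c81446dde2a1ba5b7b54c75bf 52) 1)) .nil)))))),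
    .cons 19 (.ofNat (Nat.shiftLeft 0x10f23f27 140)) (.cons 20 (.ofNat (Nat.shiftLeft 0xd8a275 139)) (.cons 21 (.negSucc (Nat.sub (Nat.shiftLeft 0x1da01 141) 1)) (.cons 22 (.negSucc (Nat.sub (Nat.shiftLeft 0x94205 138) 1)) .nil))),
    .cons 19 (.negSucc (Nat.sub (Nat.shiftLeft 0xd2faa2714bfc8b 113) 1)) (.cons 20 (.ofNat (Nat.shiftLeft 0x26f715b653b95f 112)) (.cons 21 (.ofNat (Nat.shiftLeft 0x289874ff227fd 114)) (.cons 22 (.negSucc (Nat.sub (Nat.shiftLeft 0x2a1b9bb045380f 111) 1)) .nil))),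
    .cons 19 (.ofNat (Nat.shiftLeft 0x178e41e8e13f1d05a21 98)) (.cons 20 (.negSucc (Nat.sub (Nat.shiftLeft 0x7bd5bf346f56c07e9d 97) 1)) (.cons 21 (.negSucc (Nat.sub (Nat.shiftLeft 0x1189815ace2848bf77 99) 1)) (.cons 22 (.negSucc (Nat.sub (Nat.shiftLeft 0x13a6f5b4e6096bbd53 96) 1)) .nil))),
    .cons 19 (.negSucc (Nat.sub (Nat.shiftLeft 0x4653a2e9d2798224106e8f 84) 1)) (.cons 20 (.ofNat (Nat.shiftLeft 0x18765c8236386b98181753 83)) (.cons 21 (.ofNat (Nat.shiftLeft 0x6bf97a3b0d41e1750c059 85)) (.cons 22 (.negSucc (Nat.sub (Nat.shiftLeft 0x11dc02aec83e4ccb6c3e43 82) 1)) .nil))),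
    .cons 19 (.ofNat (Nat.shiftLeft 0x3d8a9e32fd3ab6c2518b9e6b1d 67)) (.cons 20 (.ofNat (Nat.shiftLeft 0x684c12251585ad7d286a746857 66)) (.cons 21 (.negSucc (Nat.sub (Nat.shiftLeft 0x3aca447834421d5f4a8d76c1b 68) 1)) (.cons 22 (.negSucc (Nat.sub (Nat.shiftLeft 0x8407b258dd7963a098c351c87 65) 1)) .nil))),
    .cons 19 (.ofNat (Nat.shiftLeft 0x36ee731192ca2fccae948f5420850f 48)) (.cons 20 (.negSucc (Nat.sub (Nat.shiftLeft 0x777c8a37e5202cdd5bbc74a133c53d3 47) 1)) (.cons 21 (.negSucc (Nat.sub (Nat.shiftLeft 0x6d1db6c7bfe172ba99f30db19d05d9 49) 1)) (.cons 22 (.ofNat (Nat.shiftLeft 0x13c858f701ba4116bd0a87ec7eee2c3 46)) .nil))),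
    .cons 19 (.negSucc (Nat.sub (Nat.shiftLeft 0x1f1952d2701fdd3d0726ec43f793cf8a5 39) 1)) (.cons 20 (.negSucc (Nat.sub (Nat.shiftLeft 0x128f273747b62709f18f9cc85597c128ef 38) 1)) (.cons 21 (.negSucc (Nat.sub (Nat.shiftLeft 0x203540b956464b5aa57541d3f35f368ad 40) 1)) (.cons 22 (.negSucc (Nat.sub (Nat.shiftLeft 0x8bb1150ebf4d5021b8b57005fcdc10b61 37) 1)) .nil))),
    .cons 23 (.ofNat (Nat.shiftLeft 0x1faced 144)) .nil,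
    .cons 23 (.negSucc (Nat.sub (Nat.shiftLeft 0x26bbbf221f 130) 1)) .nil,
    .cons 23 (.ofNat (Nat.shiftLeft 0x23d1e5f5af32805d 106)) .nil,
    .cons 23 (.ofNat (Nat.shiftLeft 0x13bc77d06c4370ca8ed91 88)) .nil,
    .cons 23 (.ofNat (Nat.shiftLeft 0xa7785b37c5de815152291e3 79)) .nil,
    .nil,
    .nil],
   [.cons 0 (.ofNat (Nat.shiftLeft 0xad 160)) .nil,
    .cons 1 (.ofNat (Nat.shiftLeft 0x464da7 147)) (.cons 2 (.ofNat (Nat.shiftLeft 0x12d67d 146)) (.cons 3 (.negSucc (Nat.sub (Nat.shiftLeft 0x50c4d 146) 1)) (.cons 4 (.ofNat (Nat.shiftLeft 0x1f85 146)) .nil))),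
    .cons 1 (.ofNat (Nat.shiftLeft 0x33b1cf45d5 133)) (.cons 2 (.ofNat (Nat.shiftLeft 0x20e6f80b17 132)) (.cons 3 (.negSucc (Nat.sub (Nat.shiftLeft 0x8210e687 132) 1)) (.cons 4 (.ofNat (Nat.shiftLeft 0x640e9c72f 132)) .nil))),
    .cons 1 (.ofNat (Nat.shiftLeft 0xc1de8edc94c9 122)) (.cons 2 (.ofNat (Nat.shiftLeft 0x5f04dfbe6953 121)) (.cons 3 (.ofNat (Nat.shiftLeft 0x33ad17e2ef7d 121)) (.cons 4 (.negSucc (Nat.sub (Nat.shiftLeft 0x1fe3310c8f35 121) 1)) .nil))),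
    .cons 5 (.ofNat (Nat.shiftLeft 0x3d37b51a97 132)) (.cons 6 (.negSucc (Nat.sub (Nat.shiftLeft 0x60bde54d9 132) 1)) (.cons 7 (.negSucc (Nat.sub (Nat.shiftLeft 0x1f9dc577 132) 1)) (.cons 8 (.negSucc (Nat.sub (Nat.shiftLeft 0x78e7531 133) 1)) (.cons 9 (.negSucc (Nat.sub (Nat.shiftLeft 0x126099f 132) 1)) (.cons 10 (.ofNat (Nat.shiftLeft 0xf79c5 134)) (.cons 11 (.negSucc (Nat.sub (Nat.shiftLeft 0xf79c5 132) 1)) .nil)))))),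
    .cons 5 (.ofNat (Nat.shiftLeft 0x199422f097803bd33 106)) (.cons 6 (.ofNat (Nat.shiftLeft 0x20531428a0848c03 106)) (.cons 7 (.ofNat (Nat.shiftLeft 0x3ca7fd73584fe46d 106)) (.cons 8 (.negSucc (Nat.sub (Nat.shiftLeft 0x1bee4d5bf542fb5 107) 1)) (.cons 9 (.ofNat (Nat.shiftLeft 0x2258dce1a36c9a5 106)) (.cons 10 (.ofNat (Nat.shiftLeft 0x11de5f0f1258999 108)) (.cons 11 (.ofNat (Nat.shiftLeft 0x5e12df0eda7667 106)) .nil)))))),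
    .cons 5 (.negSucc (Nat.sub (Nat.shiftLeft 0x2b65303eded25000b8bd 91) 1)) (.cons 6 (.negSucc (Nat.sub (Nat.shiftLeft 0x896399d3efe8780f2aed 91) 1)) (.cons 7 (.ofNat (Nat.shiftLeft 0xbef7f14fe275c4c985d 91)) (.cons 8 (.ofNat (Nat.shiftLeft 0x684d8c713515c8bb2db 92)) (.cons 9 (.ofNat (Nat.shiftLeft 0xbdfecbc5f9ecc87ec15 91)) (.cons 10 (.ofNat (Nat.shiftLeft 0x201029db5f389a87c9 93)) (.cons 11 (.negSucc (Nat.sub (Nat.shiftLeft 0x4d9032e438f389a87c9 91) 1)) .nil)))))),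
    .cons 5 (.negSucc (Nat.sub (Nat.shiftLeft 0x256bae0ef268044a25907f473 72) 1)) (.cons 6 (.ofNat (Nat.shiftLeft 0x1a2428bf146e3793ebd8b30bd 72)) (.cons 7 (.ofNat (Nat.shiftLeft 0x9ed7a3a897f9536de9ad3ad3 72)) (.cons 8 (.negSucc (Nat.sub (Nat.shiftLeft 0x110ea7899ab3ddfbc1c9618b 73) 1)) (.cons 9 (.negSucc (Nat.sub (Nat.shiftLeft 0x4f4e013c1207cb6ae003fc65 72) 1)) (.cons 10 (.ofNat (Nat.shiftLeft 0x1dbbb3b92035df9e0bca50a7 74)) (.cons 11 (.negSucc (Nat.sub (Nat.shiftLeft 0x15e5d55da58b646e0bca50a7 72) 1)) .nil)))))),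
    .cons 5 (.negSucc (Nat.sub (Nat.shiftLeft 0x1a2fb309e6cfc59c80b7d0079a947 55) 1)) (.cons 6 (.ofNat (Nat.shiftLeft 0xb2d592010ea456842cadbf4db9129 55)) (.cons 7 (.ofNat (Nat.shiftLeft 0x2c325fd711b659590899a3c6baa27 55)) (.cons 8 (.negSucc (Nat.sub (Nat.shiftLeft 0x1cf2c5705a1760839ee8adc82e6ff 56) 1)) (.cons 9 (.negSucc (Nat.sub (Nat.shiftLeft 0x2fbe98a909f5f0fb5f2a9c65d131 55) 1)) (.cons 10 (.ofNat (Nat.shiftLeft 0x5e98ee9dece54228d53ed48ba2b 57)) (.cons 11 (.ofNat (Nat.shiftLeft 0x269e4ae28e686a3beb1c12b745d5 55)) .nil)))))),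
    .cons 5 (.ofNat (Nat.shiftLeft 0x6fd17b30a87ceb6e7642d4b2996d3 52)) (.cons 6 (.ofNat (Nat.shiftLeft 0x2ca6830bfc0e63ca2041d9d2b88ba3 52)) (.cons 7 (.negSucc (Nat.sub (Nat.shiftLeft 0x33cc6b69180d7048a465e8f4fa2933 52) 1)) (.cons 8 (.ofNat (Nat.shiftLeft 0x184e7a1f791ece844793f27b46eb 53)) (.cons 9 (.negSucc (Nat.sub (Nat.shiftLeft 0xabfd433a28d9e38108c989db3eafb 52) 1)) (.cons 10 (.negSucc (Nat.sub (Nat.shiftLeft 0x904888cef187fbee3167f7b32987 54) 1)) (.cons 11 (.negSucc (Nat.sub (Nat.shiftLeft 0xdc040954767485ecefc8084cd679 52) 1)) .nil)))))),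
    .cons 12 (.ofNat (Nat.shiftLeft 0x16da7b401 138)) (.cons 13 (.negSucc (Nat.sub (Nat.shiftLeft 0x358b3aeb 138) 1)) (.cons 14 (.negSucc (Nat.sub (Nat.shiftLeft 0x4a69083 138) 1)) (.cons 15 (.negSucc (Nat.sub (Nat.shiftLeft 0x2a9617 140) 1)) (.cons 16 (.ofNat (Nat.shiftLeft 0x94205 139)) (.cons 17 (.negSucc (Nat.sub (Nat.shiftLeft 0x1da01 138) 1)) (.cons 18 (.negSucc (Nat.sub (Nat.shiftLeft 0x94205 138) 1)) .nil)))))),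
    .cons 12 (.negSucc (Nat.sub (Nat.shiftLeft 0xa2f23066dfc99fd 111) 1)) (.cons 13 (.negSucc (Nat.sub (Nat.shiftLeft 0x2f1c9ae0559ec1 111) 1)) (.cons 14 (.negSucc (Nat.sub (Nat.shiftLeft 0x198d419f2c58f89 111) 1)) (.cons 15 (.ofNat (Nat.shiftLeft 0x1cb8306ec197bb 113)) (.cons 16 (.negSucc (Nat.sub (Nat.shiftLeft 0xf14414fbac7f1 112) 1)) (.cons 17 (.negSucc (Nat.sub (Nat.shiftLeft 0x1fe2a9f00dd803 111) 1)) (.cons 18 (.ofNat (Nat.shiftLeft 0x992a4fbac7f1 111)) .nil)))))),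
    .cons 12 (.negSucc (Nat.sub (Nat.shiftLeft 0x179231afe10e534ea89 96) 1)) (.cons 13 (.negSucc (Nat.sub (Nat.shiftLeft 0x46144eca557afb8c63d 96) 1)) (.cons 14 (.ofNat (Nat.shiftLeft 0x75cb2779b81147181b 96)) (.cons 15 (.ofNat (Nat.shiftLeft 0x1ef56f8501a176cc4f 98)) (.cons 16 (.ofNat (Nat.shiftLeft 0x3c51d7dbfd096bbd53 97)) (.cons 17 (.negSucc (Nat.sub (Nat.shiftLeft 0x1e250815a6848bf77 96) 1)) (.cons 18 (.ofNat (Nat.shiftLeft 0xa4e8a9bc7f69442ad 96)) .nil)))))),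
    .cons 12 (.ofNat (Nat.shiftLeft 0x614c1e8c062db4a48a75a7 82)) (.cons 13 (.negSucc (Nat.sub (Nat.shiftLeft 0xf08977a0ab848083d5b24d 82) 1)) (.cons 14 (.ofNat (Nat.shiftLeft 0x10d0fcb867e59fcfd31f8b 82)) (.cons 15 (.ofNat (Nat.shiftLeft 0xdef816ad04cbf584147ff 84)) (.cons 16 (.ofNat (Nat.shiftLeft 0x2a21cda006793cb6c3e43 83)) (.cons 17 (.negSucc (Nat.sub (Nat.shiftLeft 0x1569f632f8d58228af3fa7 82) 1)) (.cons 18 (.ofNat (Nat.shiftLeft 0xfc895e6b55ec13493c1bd 82)) .nil)))))),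
    .cons 12 (.ofNat (Nat.shiftLeft 0x5fe6012033ed7c7654c7016a1b 65)) (.cons 13 (.ofNat (Nat.shiftLeft 0x1e7f65f8c8b03878fe3b26ccf37 65)) (.cons 14 (.negSucc (Nat.sub (Nat.shiftLeft 0x23c9a4ed4b49708f939d51487d1 65) 1)) (.cons 15 (.negSucc (Nat.sub (Nat.shiftLeft 0x19374974929ae72cb0eb5ab66d 67) 1)) (.cons 16 (.negSucc (Nat.sub (Nat.shiftLeft 0x2453bdf6daa1be20bb73cae379 66) 1)) (.cons 17 (.negSucc (Nat.sub (Nat.shiftLeft 0x22896ead9d244d66afe8d76c1b 65) 1)) (.cons 18 (.ofNat (Nat.shiftLeft 0x2bc65bef5a16c4c8ec73cae379 65)) .nil)))))),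
    .cons 12 (.ofNat (Nat.shiftLeft 0x12058e06f3be7569db4278c2e70cfd9 46)) (.cons 13 (.ofNat (Nat.shiftLeft 0xe279a78312ee4ac304e3ccd8837e5cd 46)) (.cons 14 (.ofNat (Nat.shiftLeft 0x136931625203d884905aa5afa29a4ff5 46)) (.cons 15 (.ofNat (Nat.shiftLeft 0x6e1917936ce33ba3592ad9cae47981 48)) (.cons 16 (.ofNat (Nat.shiftLeft 0x1eaf9af2358b4bd230d03ba38111d3d 47)) (.cons 17 (.negSucc (Nat.sub (Nat.shiftLeft 0xe7b4952d62e53b71d5690d719d05d9 46) 1)) (.cons 18 (.negSucc (Nat.sub (Nat.shiftLeft 0x2b8d9b9f77688bfb3d1098f38111d3d 46) 1)) .nil)))))),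
    .cons 12 (.ofNat (Nat.shiftLeft 0x37fec749bf977a60ca769baf0a5c3baad 37)) (.cons 13 (.negSucc (Nat.sub (Nat.shiftLeft 0x55844c3e2f7bfd922b9c395f965e402cf 37) 1)) (.cons 14 (.negSucc (Nat.sub (Nat.shiftLeft 0x19b25e5c4e3a9a49e98fd290e8c25fea87 37) 1)) (.cons 15 (.ofNat (Nat.shiftLeft 0x649e07c234ef8010f2823a42de7219875 39)) (.cons 16 (.ofNat (Nat.shiftLeft 0x379c4714c8cbf63377a87a2eccdc10b61 38)) (.cons 17 (.negSucc (Nat.sub (Nat.shiftLeft 0x1451e888045dde4e1275bb701f5f368ad 37) 1)) (.cons 18 (.ofNat (Nat.shiftLeft 0x27ff8eaa06c6ae855fb37383a323ef49f 37)) .nil)))))),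
    .cons 19 (.ofNat (Nat.shiftLeft 0x210746f 144)) (.cons 20 (.negSucc (Nat.sub (Nat.shiftLeft 0x3efbed 144) 1)) (.cons 21 (.ofNat (Nat.shiftLeft 0x117d21 144)) (.cons 22 (.negSucc (Nat.sub (Nat.shiftLeft 0x5ded 145) 1)) .nil))),
    .cons 19 (.negSucc (Nat.sub (Nat.shiftLeft 0x107d8f24815 130) 1)) (.cons 20 (.ofNat (Nat.shiftLeft 0x7bb438d71f 130)) (.cons 21 (.ofNat (Nat.shiftLeft 0x7396803e5 130)) (.cons 22 (.ofNat (Nat.shiftLeft 0x4f7456d1f 131)) .nil))),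
    .cons 19 (.ofNat (Nat.shiftLeft 0x189c4cb9a3ffb763f 106)) (.cons 20 (.negSucc (Nat.sub (Nat.shiftLeft 0x25a7ddbfcafd9f5d 106) 1)) (.cons 21 (.negSucc (Nat.sub (Nat.shiftLeft 0x2f6f4fa4a31589af 106) 1)) (.cons 22 (.ofNat (Nat.shiftLeft 0x237e4c2d0989ea3 107)) .nil))),
    .cons 19 (.ofNat (Nat.shiftLeft 0x4aa40608ecaa4ebb207b 88)) (.cons 20 (.negSucc (Nat.sub (Nat.shiftLeft 0x2c5d083302c539359c891 88) 1)) (.cons 21 (.ofNat (Nat.shiftLeft 0x662b52b1e6578730ca55 88)) (.cons 22 (.ofNat (Nat.shiftLeft 0x2ca9c74506106e07ed6f 89)) .nil))),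
    .cons 19 (.negSucc (Nat.sub (Nat.shiftLeft 0x367d9c2ffda7386f00b5d7f 79) 1)) (.cons 20 (.negSucc (Nat.sub (Nat.shiftLeft 0x93d40585769db7b9ac832e3 79) 1)) (.cons 21 (.ofNat (Nat.shiftLeft 0x2a158eb1a51bc3d224384ef 79)) (.cons 22 (.negSucc (Nat.sub (Nat.shiftLeft 0xe19536685fa087f37cf0e3 80) 1)) .nil))),
    .cons 23 (.ofNat (Nat.shiftLeft 0xf695 152)) .nil,
    .cons 23 (.negSucc (Nat.sub (Nat.shiftLeft 0xbad57715 138) 1)) .nil],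
   [.nil,
    .cons 0 (.ofNat (Nat.shiftLeft 0x199c1 148)) .nil,
    .cons 0 (.ofNat (Nat.shiftLeft 0x285171d63 134)) .nil,
    .cons 0 (.ofNat (Nat.shiftLeft 0x73abf74ba4f 123)) .nil,
    .cons 1 (.ofNat (Nat.shiftLeft 0x60b817a3b 133)) (.cons 2 (.negSucc (Nat.sub (Nat.shiftLeft 0x82936e3 134) 1)) (.cons 3 (.negSucc (Nat.sub (Nat.shiftLeft 0xf79c5 133) 1)) (.cons 4 (.ofNat (Nat.shiftLeft 0xf79c5 134)) .nil))),
    .cons 1 (.ofNat (Nat.shiftLeft 0x52128a51b89a3a67 107)) (.cons 2 (.ofNat (Nat.shiftLeft 0x518b610d5347051 108)) (.cons 3 (.ofNat (Nat.shiftLeft 0x1fd4cff0eda7667 107)) (.cons 4 (.negSucc (Nat.sub (Nat.shiftLeft 0x4e679f0eda7667 108) 1)) .nil))),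
    .cons 1 (.ofNat (Nat.shiftLeft 0x54f6a8d2e3cd246ffc37 92)) (.cons 2 (.ofNat (Nat.shiftLeft 0x666dca27ee926826501 93)) (.cons 3 (.ofNat (Nat.shiftLeft 0x37b79708c90c7657837 92)) (.cons 4 (.ofNat (Nat.shiftLeft 0x232ed3deacf389a87c9 93)) .nil))),
    .cons 1 (.ofNat (Nat.shiftLeft 0x23afd932ead5b4eecfbb6eb59 73)) (.cons 2 (.ofNat (Nat.shiftLeft 0x572527c8378aa387c84f77ef 74)) (.cons 3 (.ofNat (Nat.shiftLeft 0x375a86e3b55e6971f435af59 73)) (.cons 4 (.ofNat (Nat.shiftLeft 0x86f689cc9a7892e0bca50a7 74)) .nil))),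
    .cons 1 (.ofNat (Nat.shiftLeft 0x1ca590d8820b86e46378c7b7011d5 56)) (.cons 2 (.ofNat (Nat.shiftLeft 0x7c09641ddf41537fed1ddea5d353 57)) (.cons 3 (.ofNat (Nat.shiftLeft 0x761ca9aded9c995be57c12b745d5 56)) (.cons 4 (.negSucc (Nat.sub (Nat.shiftLeft 0x1e854aa07e3b3257b15c12b745d5 57) 1)) .nil))),
    .cons 1 (.ofNat (Nat.shiftLeft 0x9be112646ccab5dfda4b5fb7a6d87 53)) (.cons 2 (.negSucc (Nat.sub (Nat.shiftLeft 0x1d847ae2aa0f09795fe0c608519cf 54) 1)) (.cons 3 (.ofNat (Nat.shiftLeft 0x8eb2087d3858f25b0657f7b32987 53)) (.cons 4 (.negSucc (Nat.sub (Nat.shiftLeft 0x37a61fffe6364b58ccf7f7b32987 54) 1)) .nil))),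
    .cons 5 (.ofNat (Nat.shiftLeft 0x159021c55 138)) (.cons 6 (.ofNat (Nat.shiftLeft 0xaf523eb 140)) (.cons 7 (.negSucc (Nat.sub (Nat.shiftLeft 0x145e0b 142) 1)) (.cons 8 (.ofNat (Nat.shiftLeft 0x7c0e43 138)) (.cons 9 (.ofNat (Nat.shiftLeft 0x1da01 140)) .nil)))),
    .cons 5 (.ofNat (Nat.shiftLeft 0xad6db56c38ae6ff 111)) (.cons 6 (.ofNat (Nat.shiftLeft 0x11861f8a1ed59c1 113)) (.cons 7 (.ofNat (Nat.shiftLeft 0x13a8164f67b7df 115)) (.cons 8 (.negSucc (Nat.sub (Nat.shiftLeft 0x86777a2c607737 111) 1)) (.cons 9 (.ofNat (Nat.shiftLeft 0xd669700dd803 113)) (.cons 10 (.negSucc (Nat.sub (Nat.shiftLeft 0xa8dc7 144) 1)) (.cons 11 (.negSucc (Nat.sub (Nat.shiftLeft 0x3ed5 146) 1)) .nil)))))),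
    .cons 5 (.negSucc (Nat.sub (Nat.shiftLeft 0x9047cb7eb684bbf77d 96) 1)) (.cons 6 (.ofNat (Nat.shiftLeft 0x977389fdac2685153d 98)) (.cons 7 (.ofNat (Nat.shiftLeft 0x270f8f202a4dfc5e3 100)) (.cons 8 (.negSucc (Nat.sub (Nat.shiftLeft 0x2104f1a97ab4f5e3db 96) 1)) (.cons 9 (.negSucc (Nat.sub (Nat.shiftLeft 0x12b6af5b2417b74089 98) 1)) (.cons 10 (.ofNat (Nat.shiftLeft 0xd17a3f7d5 129)) (.cons 11 (.negSucc (Nat.sub (Nat.shiftLeft 0x10d781801 131) 1)) .nil)))))),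
    .cons 5 (.negSucc (Nat.sub (Nat.shiftLeft 0x7a20daa830a3b92990878d 82) 1)) (.cons 6 (.ofNat (Nat.shiftLeft 0x4921f5d96ee97bc51db14d 84)) (.cons 7 (.ofNat (Nat.shiftLeft 0x8d55329e8a87607843d3 86)) (.cons 8 (.negSucc (Nat.sub (Nat.shiftLeft 0x3796b0aeac42535a22574b 82) 1)) (.cons 9 (.negSucc (Nat.sub (Nat.shiftLeft 0xbdd6c89f94b045750c059 84) 1)) (.cons 10 (.ofNat (Nat.shiftLeft 0x1e38aa4261b65 115)) (.cons 11 (.negSucc (Nat.sub (Nat.shiftLeft 0x5e89397b0551 117) 1)) .nil)))))),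
    .cons 5 (.negSucc (Nat.sub (Nat.shiftLeft 0x948b715fa12948f3eb2bed7d09 65) 1)) (.cons 6 (.ofNat (Nat.shiftLeft 0x8212014d0683241f97f2dcc3c9 67)) (.cons 7 (.ofNat (Nat.shiftLeft 0x8093e78b0b8f7bc719ebe5ad7 69)) (.cons 8 (.negSucc (Nat.sub (Nat.shiftLeft 0xc2540e63d9e53fe98a0f9eb4ef 65) 1)) (.cons 9 (.negSucc (Nat.sub (Nat.shiftLeft 0x3566cc37f830ad594972893e5 67) 1)) (.cons 10 (.negSucc (Nat.sub (Nat.shiftLeft 0x194822f9322d893fff 98) 1)) (.cons 11 (.negSucc (Nat.sub (Nat.shiftLeft 0x53a82eae99cb017d 100) 1)) .nil)))))),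
    .cons 5 (.negSucc (Nat.sub (Nat.shiftLeft 0x64882d837276c9991a007d309d64f3 46) 1)) (.cons 6 (.ofNat (Nat.shiftLeft 0x31761df41140cbf696042da5c419b33 48)) (.cons 7 (.ofNat (Nat.shiftLeft 0x317b23ce637dc29299e9cfe40bfad 50)) (.cons 8 (.negSucc (Nat.sub (Nat.shiftLeft 0x4693ff42ff36caddcf5481743e77835 46) 1)) (.cons 9 (.negSucc (Nat.sub (Nat.shiftLeft 0xc11a0fb60dd19371344cac0e62fa27 48) 1)) (.cons 10 (.negSucc (Nat.sub (Nat.shiftLeft 0x606c0f65e757bcb28ff2e5 79) 1)) (.cons 11 (.negSucc (Nat.sub (Nat.shiftLeft 0x16922540a71f38bc9f412f 81) 1)) .nil)))))),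
    .cons 5 (.negSucc (Nat.sub (Nat.shiftLeft 0x17fa48ec8b18eda0acb9928267c208c8f 37) 1)) (.cons 6 (.negSucc (Nat.sub (Nat.shiftLeft 0x2ff3496dedc5a92730be86f9e78838831 39) 1)) (.cons 7 (.ofNat (Nat.shiftLeft 0x1934fbf932c698f72ee0901b0ce8a8091 41)) (.cons 8 (.negSucc (Nat.sub (Nat.shiftLeft 0xc2990cca36a9192317584edc8a14b9ab9 37) 1)) (.cons 9 (.negSucc (Nat.sub (Nat.shiftLeft 0x551f98699be75a06cff2ab858a0c9753 39) 1)) (.cons 10 (.ofNat (Nat.shiftLeft 0x7fc127df117f82aac66ffad7 70)) (.cons 11 (.negSucc (Nat.sub (Nat.shiftLeft 0xb570bd070c176273ef711fb 72) 1)) .nil)))))),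
    .cons 12 (.ofNat (Nat.shiftLeft 0x1d43a61 146)) (.cons 13 (.negSucc (Nat.sub (Nat.shiftLeft 0x255ebb7 144) 1)) (.cons 14 (.ofNat (Nat.shiftLeft 0x690e15 145)) (.cons 15 (.ofNat (Nat.shiftLeft 0xecc57 144)) (.cons 16 (.negSucc (Nat.sub (Nat.shiftLeft 0x252dd 146) 1)) (.cons 17 (.negSucc (Nat.sub (Nat.shiftLeft 0xdb29 144) 1)) (.cons 18 (.ofNat (Nat.shiftLeft 0x119c7 144)) .nil)))))),
    .cons 12 (.ofNat (Nat.shiftLeft 0x3159c98625 132)) (.cons 13 (.ofNat (Nat.shiftLeft 0x12ae5a051ad 130)) (.cons 14 (.negSucc (Nat.sub (Nat.shiftLeft 0x6361fc6257 131) 1)) (.cons 15 (.negSucc (Nat.sub (Nat.shiftLeft 0x50d145868d 130) 1)) (.cons 16 (.negSucc (Nat.sub (Nat.shiftLeft 0x75df2f791 132) 1)) (.cons 17 (.ofNat (Nat.shiftLeft 0x6c0f753f3 130)) (.cons 18 (.ofNat (Nat.shiftLeft 0x11ba2fb8a3 130)) .nil)))))),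
    .cons 12 (.negSucc (Nat.sub (Nat.shiftLeft 0x4bf9020b76f906f 108) 1)) (.cons 13 (.ofNat (Nat.shiftLeft 0xd3c9a8a38239dcf9 106)) (.cons 14 (.negSucc (Nat.sub (Nat.shiftLeft 0x709dfcdae0096efb 107) 1)) (.cons 15 (.negSucc (Nat.sub (Nat.shiftLeft 0x4a261e854960fe59 106) 1)) (.cons 16 (.ofNat (Nat.shiftLeft 0x3d641439d1becb3 108)) (.cons 17 (.ofNat (Nat.shiftLeft 0xd6f402a66b97227 106)) (.cons 18 (.ofNat (Nat.shiftLeft 0x10205395ae362417 106)) .nil)))))),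
    .cons 12 (.ofNat (Nat.shiftLeft 0x2e5bd05bd93bddef1895 90)) (.cons 13 (.ofNat (Nat.shiftLeft 0x4ce3f650ae26d7dcc799d 88)) (.cons 14 (.ofNat (Nat.shiftLeft 0x2b80e261eae4b1e776ed9 89)) (.cons 15 (.ofNat (Nat.shiftLeft 0x2d6bac3245cd8e159783 88)) (.cons 16 (.ofNat (Nat.shiftLeft 0xb27e600908ffcdcdfbf 90)) (.cons 17 (.ofNat (Nat.shiftLeft 0x2ede485bfff980bd2a03 88)) (.cons 18 (.negSucc (Nat.sub (Nat.shiftLeft 0x11135df63d282aa17c84d 88) 1)) .nil)))))),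
    .cons 12 (.ofNat (Nat.shiftLeft 0x22bdae222c9498dae89baf 81)) (.cons 13 (.negSucc (Nat.sub (Nat.shiftLeft 0x193a22561d48f55a05c1fb9 79) 1)) (.cons 14 (.negSucc (Nat.sub (Nat.shiftLeft 0x2c345ba0c137e2519413cc5 80) 1)) (.cons 15 (.ofNat (Nat.shiftLeft 0x1b00d0e1d970f1ac8af4919 79)) (.cons 16 (.negSucc (Nat.sub (Nat.shiftLeft 0x62394b72267e707a174af3 81) 1)) (.cons 17 (.negSucc (Nat.sub (Nat.shiftLeft 0xc514902960152bb8238767 79) 1)) (.cons 18 (.ofNat (Nat.shiftLeft 0x9728770406b021ba76d2a9 79)) .nil)))))),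
    .cons 19 (.ofNat (Nat.shiftLeft 0x1e431 154)) (.cons 20 (.negSucc (Nat.sub (Nat.shiftLeft 0x26971 152) 1)) (.cons 21 (.ofNat (Nat.shiftLeft 0x11c1 152)) (.cons 22 (.negSucc (Nat.sub (Nat.shiftLeft 0x1d97 152) 1)) (.cons 23 (.negSucc (Nat.sub (Nat.shiftLeft 0x1f9 153) 1)) .nil)))),
    .cons 19 (.ofNat (Nat.shiftLeft 0x2993854f 140)) (.cons 20 (.ofNat (Nat.shiftLeft 0x1bc9b1ff1 138)) (.cons 21 (.negSucc (Nat.sub (Nat.shiftLeft 0x17225041 138) 1)) (.cons 22 (.ofNat (Nat.shiftLeft 0x2503db17 138)) (.cons 23 (.negSucc (Nat.sub (Nat.shiftLeft 0x51387 139) 1)) .nil))))]⟩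

noncomputable def A24 : Tn :=
  ⟨[.cons 4 (.ofNat (Nat.shiftLeft 0x3c6b 157)) (.cons 5 (.ofNat (Nat.shiftLeft 0x7c5 158)) (.cons 6 (.ofNat (Nat.shiftLeft 0x261 158)) (.cons 7 (.ofNat (Nat.shiftLeft 0x5 163)) (.cons 8 (.ofNat (Nat.shiftLeft 0x41 156)) (.cons 9 (.ofNat (Nat.shiftLeft 0x3 156)) .nil))))),
    .cons 10 (.negSucc (Nat.sub (Nat.shiftLeft 0x14f3c0829 138) 1)) (.cons 11 (.negSucc (Nat.sub (Nat.shiftLeft 0x17c96b9b 139) 1)) (.cons 12 (.ofNat (Nat.shiftLeft 0x6de765 138)) (.cons 13 (.ofNat (Nat.shiftLeft 0x755ae1 138)) (.cons 14 (.ofNat (Nat.shiftLeft 0x9505b 140)) (.cons 15 (.ofNat (Nat.shiftLeft 0x1dcdf 138)) .nil))))),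
    .cons 10 (.ofNat (Nat.shiftLeft 0x16444c3be34d 126)) (.cons 11 (.ofNat (Nat.shiftLeft 0x44905b09987 127)) (.cons 12 (.ofNat (Nat.shiftLeft 0x2ed84707a87 126)) (.cons 13 (.ofNat (Nat.shiftLeft 0x100b021531b 126)) (.cons 14 (.ofNat (Nat.shiftLeft 0x22f69d0eb9 128)) (.cons 15 (.ofNat (Nat.shiftLeft 0x140aec3625 126)) (.cons 16 (.negSucc (Nat.sub (Nat.shiftLeft 0x1 158) 1)) .nil)))))),
    .cons 17 (.ofNat (Nat.shiftLeft 0x34f96f73 138)) (.cons 18 (.ofNat (Nat.shiftLeft 0x5cdf9 144)) (.cons 19 (.negSucc (Nat.sub (Nat.shiftLeft 0x1ef53 139) 1)) (.cons 20 (.ofNat (Nat.shiftLeft 0x5cdf9 137)) .nil))),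
    .cons 17 (.negSucc (Nat.sub (Nat.shiftLeft 0x3a69e0d7b3fbdf 116) 1)) (.cons 18 (.ofNat (Nat.shiftLeft 0x22dacb7a2243 122)) (.cons 19 (.ofNat (Nat.shiftLeft 0xb312122c9f3f 117)) (.cons 20 (.ofNat (Nat.shiftLeft 0x835f897a2243 115)) .nil))),
    .cons 17 (.negSucc (Nat.sub (Nat.shiftLeft 0xc67a31fdf71abd2c5 103) 1)) (.cons 18 (.ofNat (Nat.shiftLeft 0xd0d8dc6c8ce9e51 109)) (.cons 19 (.ofNat (Nat.shiftLeft 0x70a833454f1075e5 104)) (.cons 20 (.negSucc (Nat.sub (Nat.shiftLeft 0xc3ebb8f4ad3161af 102) 1)) (.cons 21 (.ofNat (Nat.shiftLeft 0x1 162)) .nil)))),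
    .cons 22 (.ofNat (Nat.shiftLeft 0x4a0845 143)) (.cons 23 (.ofNat (Nat.shiftLeft 0x7d83 143)) .nil),
    .cons 22 (.negSucc (Nat.sub (Nat.shiftLeft 0x17a0866d9 135) 1)) (.cons 23 (.ofNat (Nat.shiftLeft 0x2017adf1 135)) .nil),
    .nil],
   [.cons 1 (.negSucc (Nat.sub (Nat.shiftLeft 0x1ab1 156) 1)) (.cons 2 (.negSucc (Nat.sub (Nat.shiftLeft 0x27d 156) 1)) (.cons 3 (.negSucc (Nat.sub (Nat.shiftLeft 0x1f 157) 1)) .nil)),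
    .cons 4 (.ofNat (Nat.shiftLeft 0x1784e0a41 138)) (.cons 5 (.ofNat (Nat.shiftLeft 0x326ee98d 138)) (.cons 6 (.negSucc (Nat.sub (Nat.shiftLeft 0x1819851 138) 1)) (.cons 7 (.negSucc (Nat.sub (Nat.shiftLeft 0x53d333 139) 1)) (.cons 8 (.negSucc (Nat.sub (Nat.shiftLeft 0x5969d 139) 1)) (.cons 9 (.ofNat (Nat.shiftLeft 0x1dcdf 139)) .nil))))),
    .cons 4 (.ofNat (Nat.shiftLeft 0x1458b86ff63b 126)) (.cons 5 (.negSucc (Nat.sub (Nat.shiftLeft 0x10646c21441 126) 1)) (.cons 6 (.ofNat (Nat.shiftLeft 0x2c42b003815 126)) (.cons 7 (.negSucc (Nat.sub (Nat.shiftLeft 0x216b858481 127) 1)) (.cons 8 (.negSucc (Nat.sub (Nat.shiftLeft 0x2ca0c4a26f 127) 1)) (.cons 9 (.negSucc (Nat.sub (Nat.shiftLeft 0x3f513c9db 127) 1)) .nil))))),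
    .cons 10 (.negSucc (Nat.sub (Nat.shiftLeft 0x7a21680d 139) 1)) (.cons 11 (.ofNat (Nat.shiftLeft 0x84a8aab 139)) (.cons 12 (.ofNat (Nat.shiftLeft 0x1bb153f 138)) (.cons 13 (.negSucc (Nat.sub (Nat.shiftLeft 0x9ac9f 140) 1)) (.cons 14 (.negSucc (Nat.sub (Nat.shiftLeft 0x1169eb 137) 1)) .nil)))),
    .cons 10 (.ofNat (Nat.shiftLeft 0x2f5b036e97c9a1 117)) (.cons 11 (.ofNat (Nat.shiftLeft 0x2c8b5ec99b09 117)) (.cons 12 (.ofNat (Nat.shiftLeft 0x126cb97e158ca5 116)) (.cons 13 (.ofNat (Nat.shiftLeft 0x8dfd9adf1c3b 118)) (.cons 14 (.negSucc (Nat.sub (Nat.shiftLeft 0x21c8d9c6e66c9 115) 1)) (.cons 15 (.negSucc (Nat.sub (Nat.shiftLeft 0x54c7 147) 1)) .nil))))),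
    .cons 10 (.negSucc (Nat.sub (Nat.shiftLeft 0x34e5de8b19ffe5e45 104) 1)) (.cons 11 (.negSucc (Nat.sub (Nat.shiftLeft 0x2bf9e08d00d89324d 104) 1)) (.cons 12 (.ofNat (Nat.shiftLeft 0x11132f19586468a27 103)) (.cons 13 (.ofNat (Nat.shiftLeft 0x43b6424b524d79 105)) (.cons 14 (.negSucc (Nat.sub (Nat.shiftLeft 0x1cbde4516f86bdaf3 102) 1)) (.cons 15 (.ofNat (Nat.shiftLeft 0x968796c3 134)) (.cons 16 (.negSucc (Nat.sub (Nat.shiftLeft 0x3 161) 1)) .nil)))))),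
    .cons 17 (.negSucc (Nat.sub (Nat.shiftLeft 0xa24088d 142) 1)) (.cons 18 (.ofNat (Nat.shiftLeft 0xc0ae1b 143)) (.cons 19 (.negSucc (Nat.sub (Nat.shiftLeft 0x1128e9 145) 1)) (.cons 20 (.negSucc (Nat.sub (Nat.shiftLeft 0x7d83 144) 1)) (.cons 21 (.ofNat (Nat.shiftLeft 0x17889 142)) .nil)))),
    .cons 17 (.ofNat (Nat.shiftLeft 0x1a96394441 134)) (.cons 18 (.negSucc (Nat.sub (Nat.shiftLeft 0x4eba5f907 135) 1)) (.cons 19 (.ofNat (Nat.shiftLeft 0x4c3380d 137)) (.cons 20 (.ofNat (Nat.shiftLeft 0x43e8520f 136)) (.cons 21 (.ofNat (Nat.shiftLeft 0x504709d3 134)) .nil)))),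
    .cons 22 (.negSucc (Nat.sub (Nat.shiftLeft 0x6b 161) 1)) (.cons 23 (.ofNat (Nat.shiftLeft 0x7 161)) .nil)],
   [.cons 0 (.ofNat (Nat.shiftLeft 0x91 157)) .nil,
    .cons 1 (.negSucc (Nat.sub (Nat.shiftLeft 0x1cec8a99 139) 1)) (.cons 2 (.ofNat (Nat.shiftLeft 0x3d78bf 139)) (.cons 3 (.negSucc (Nat.sub (Nat.shiftLeft 0x1dcdf 138) 1)) .nil)),
    .cons 1 (.negSucc (Nat.sub (Nat.shiftLeft 0x25519bcb883 127) 1)) (.cons 2 (.negSucc (Nat.sub (Nat.shiftLeft 0x30978d053b 127) 1)) (.cons 3 (.ofNat (Nat.shiftLeft 0x45f513c9db 126)) .nil)),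
    .cons 4 (.ofNat (Nat.shiftLeft 0x1be6214e9 138)) (.cons 5 (.negSucc (Nat.sub (Nat.shiftLeft 0x1758c883 137) 1)) (.cons 6 (.negSucc (Nat.sub (Nat.shiftLeft 0x1169eb 138) 1)) (.cons 7 (.ofNat (Nat.shiftLeft 0x3bfb0d 137)) (.cons 8 (.ofNat (Nat.shiftLeft 0x1ef53 138)) .nil)))),
    .cons 4 (.ofNat (Nat.shiftLeft 0x3a6464939d8d93 116)) (.cons 5 (.negSucc (Nat.sub (Nat.shiftLeft 0x13937df39278d1 115) 1)) (.cons 6 (.ofNat (Nat.shiftLeft 0x7f94d63919937 116)) (.cons 7 (.negSucc (Nat.sub (Nat.shiftLeft 0x5f256736748a1 115) 1)) (.cons 8 (.ofNat (Nat.shiftLeft 0x6fdeadd360c1 116)) (.cons 9 (.ofNat (Nat.shiftLeft 0x7b5 148)) .nil))))),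
    .cons 4 (.negSucc (Nat.sub (Nat.shiftLeft 0x1df59c969364c043f 103) 1)) (.cons 5 (.ofNat (Nat.shiftLeft 0x6725907ef459e9035 102)) (.cons 6 (.negSucc (Nat.sub (Nat.shiftLeft 0xbee84bbdf86bdaf3 103) 1)) (.cons 7 (.negSucc (Nat.sub (Nat.shiftLeft 0x1695665d52fe46bb 102) 1)) (.cons 8 (.ofNat (Nat.shiftLeft 0x48a9646ef0ef8a1b 103)) (.cons 9 (.negSucc (Nat.sub (Nat.shiftLeft 0x343adf29 135) 1)) .nil))))),
    .cons 10 (.ofNat (Nat.shiftLeft 0x1d893109 142)) (.cons 11 (.negSucc (Nat.sub (Nat.shiftLeft 0x3ee8b8f 142) 1)) (.cons 12 (.ofNat (Nat.shiftLeft 0x57da219 142)) (.cons 13 (.negSucc (Nat.sub (Nat.shiftLeft 0x88c9c5 142) 1)) (.cons 14 (.ofNat (Nat.shiftLeft 0xf32dd 143)) (.cons 15 (.ofNat (Nat.shiftLeft 0x2738f 142)) (.cons 16 (.negSucc (Nat.sub (Nat.shiftLeft 0x7d83 142) 1)) .nil)))))),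
    .cons 10 (.ofNat (Nat.shiftLeft 0xb9c0caf53 134)) (.cons 11 (.ofNat (Nat.shiftLeft 0x4e21a124b 134)) (.cons 12 (.negSucc (Nat.sub (Nat.shiftLeft 0x6d6cefdfd 134) 1)) (.cons 13 (.ofNat (Nat.shiftLeft 0x46316e59 134)) (.cons 14 (.ofNat (Nat.shiftLeft 0xf2de102f 135)) (.cons 15 (.negSucc (Nat.sub (Nat.shiftLeft 0xff899a4b 134) 1)) (.cons 16 (.negSucc (Nat.sub (Nat.shiftLeft 0x7017adf1 134) 1)) .nil)))))),
    .cons 17 (.ofNat (Nat.shiftLeft 0x79 164)) (.cons 18 (.negSucc (Nat.sub (Nat.shiftLeft 0x13 165) 1)) (.cons 19 (.ofNat (Nat.shiftLeft 0x4d 161)) (.cons 20 (.ofNat (Nat.shiftLeft 0x23 161)) (.cons 21 (.ofNat (Nat.shiftLeft 0xb 162)) .nil))))]⟩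

noncomputable def A25 : Tn :=
  ⟨[.cons 3 (.ofNat (Nat.shiftLeft 0x1ce29 154)) (.cons 4 (.ofNat (Nat.shiftLeft 0x7b55 151)) (.cons 5 (.negSucc (Nat.sub (Nat.shiftLeft 0x629 151) 1)) .nil)),
    .cons 6 (.ofNat (Nat.shiftLeft 0x951 157)) (.cons 7 (.ofNat (Nat.shiftLeft 0x669 152)) .nil),
    .cons 8 (.ofNat (Nat.shiftLeft 0x73d 154)) .nil],
   [.cons 1 (.negSucc (Nat.sub (Nat.shiftLeft 0x35fa3 152) 1)) (.cons 2 (.negSucc (Nat.sub (Nat.shiftLeft 0x68a3 151) 1)) .nil),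
    .cons 3 (.ofNat (Nat.shiftLeft 0x33895 153)) (.cons 4 (.negSucc (Nat.sub (Nat.shiftLeft 0xd6d1 152) 1)) (.cons 5 (.ofNat (Nat.shiftLeft 0x183b 152)) .nil)),
    .cons 6 (.ofNat (Nat.shiftLeft 0x1edf 156)) (.cons 7 (.negSucc (Nat.sub (Nat.shiftLeft 0x6ad 155) 1)) .nil)],
   [.cons 0 (.ofNat (Nat.shiftLeft 0x271 158)) (.cons 7 (.negSucc (Nat.sub (Nat.shiftLeft 0x3 151) 1)) .nil),
    .cons 1 (.negSucc (Nat.sub (Nat.shiftLeft 0x47b21 152) 1)) (.cons 2 (.ofNat (Nat.shiftLeft 0x25eb 154)) .nil),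
    .cons 3 (.ofNat (Nat.shiftLeft 0x1d677 154)) (.cons 4 (.negSucc (Nat.sub (Nat.shiftLeft 0x9bb1 154) 1)) (.cons 5 (.negSucc (Nat.sub (Nat.shiftLeft 0x83f 156) 1)) (.cons 8 (.negSucc (Nat.sub (Nat.shiftLeft 0x1 154) 1)) .nil)))]⟩

noncomputable def A26 : Tn :=
  ⟨[.cons 2 (.negSucc (Nat.sub (Nat.shiftLeft 0x1f07ba3 143) 1)) .nil],
   [.cons 0 (.ofNat (Nat.shiftLeft 0x70b 143)) (.cons 1 (.ofNat (Nat.shiftLeft 0xe6bc81 146)) (.cons 2 (.ofNat (Nat.shiftLeft 0x1d 149)) .nil))],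
   [.cons 0 (.negSucc (Nat.sub (Nat.shiftLeft 0xe269fdd 143) 1)) (.cons 1 (.ofNat (Nat.shiftLeft 0x381 144)) (.cons 2 (.ofNat (Nat.shiftLeft 0x739 143)) .nil))]⟩

theorem iso21 : isoChk 24 24 (4 ^ 171) A21 = true := by decide +kernel

theorem iso22 : isoChk 24 24 (4 ^ 171) A22 = true := by decide +kernel

theorem iso23 : isoChk 24 24 (4 ^ 171) A23 = true := by decide +kernel

theorem iso24 : isoChk 24 9 (4 ^ 171) A24 = true := by decide +kernel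

theorem iso25 : isoChk 9 3 (4 ^ 171) A25 = true := by decide +kernel

theorem iso26 : isoChk 3 1 (4 ^ 171) A26 = true := by decide +kernel


end Crest.Agent.R347.Dat
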