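import Crest.Agent.R347.MFast
import Crest.Agent.R347.MT2
import Crest.Agent.R347.MT3
import Crest.Agent.R347.MX

/-! Steps of the energy recursion. -/

set_option autoImplicit false
set_option maxRecDepth 100000
set_option Elab.async false

namespace Crest.Agent.R347.Dat

open Crest.Agent.R347 Crest.Agent.R347.K

theorem st34 : stepChk2 24 171 40 (-1540944985457) A18 A18 X34 X35 = true := by decide +kernel

theorem st35 : stepChk2 24 171 40 (-1540944985457) A18 A18 X35 X36 = true := by decide +kernel

theorem st36 : stepChk2 24 171 40 (-1540944985457) A18 A18 X36 X37 = true := by decide +kernel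

theorem st37 : stepChk2 24 171 40 (-1540944985457) A18 A18 X37 X38 = true := by decide +kernel

theorem st38 : stepChk2 24 171 40 (-1540944985457) A18 A18 X38 X39 = true := by decide +kernel

theorem st39 : stepChk2 24 171 40 (-1540944985457) A18 A18 X39 X40 = true := by decide +kernel

theorem st40 : stepChk2 24 171 40 (-1540944985458) A18 A18 X40 X41 = true := by decide +kernel

theorem st41 : stepChk2 24 171 40 (-2135672719836) A18 A18 X41 Xs = true := by decide +kernel

theorem st42 : stepChk2 24 171 40 (-1540944985457) A18 A19 Xs X43 = true := by decide +kernel

theorem st43 : stepChk2 24 171 40 (-1540944985457) A19 A20 X43 X44 = true := by decide +kernel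

theorem st44 : stepChk2 24 171 40 (-1540944985457) A20 A21 X44 X45 = true := by decide +kernel

theorem st45 : stepChk2 24 171 40 (-1540944985457) A21 A22 X45 X46 = true := by decide +kernel

theorem st46 : stepChk2 24 171 40 (-1540944985457) A22 A23 X46 X47 = true := by decide +kernel

theorem st47 : stepChk2 9 171 40 (-1540944985458) A23 A24 X47 X48 = true := by decide +kernel

theorem st48 : stepChk2 3 171 40 (-1540944985459) A24 A25 X48 X49 = true := by decide +kernel

theorem st49 : stepChk2 1 171 40 (-1540944985460) A25 A26 X49 X50 = true := by decide +kernel

theorem stB : stepChk2 24 171 40 (-1540945048716) A18 A18 Xs Xs = true := by decide +kernel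


end Crest.Agent.R347.Dat
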