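import Crest.Agent.R347.MPSChk
import Crest.Agent.R347.Final
import Crest.Agent.R347.MS0
import Crest.Agent.R347.MS1
import Crest.Agent.R347.MS2

/-! The variational bound. -/

set_option autoImplicit false
set_option maxRecDepth 100000
set_option Elab.async false

namespace Crest.Agent.R347.Dat

open Crest.Agent.R347 Crest.Agent.R347.K

theorem MI.stepZ {n D0 D D' b r : ℕ} {A' A : Tn} {X X' : List SL} {u : ℝ} {C e : ℤ} (C' : ℤ)
    (H : MI n D0 D b r A' X (u + C / 2 ^ r)) (hA : isoChk D D' (4 ^ b) A = true)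
    (hS : stepChk2 D' b r e A' A X X' = true) (hC : C + e = C') :
    MI (n + 1) D D' b r A X' (u + C' / 2 ^ r) := by
  rw [stepChk2_eq] at hS
  have := H.step hA hS
  rw [← hC]; push_cast
  rwa [add_div, ← add_assoc]

theorem MI.cast {n n' D0 D b r : ℕ} {A : Tn} {X : List SL} {c c' : ℝ} (H : MI n D0 D b r A X c)
    (h : n = n') (hc : c = c') : MI n' D0 D b r A X c' := by
  subst h hc; exact H

theorem MI.init' {b r B : ℕ} {x0 x2 : ℤ} (hB : 2 ^ b = B) (h0 : -3 * 2 ^ r ≤ 5 * x0)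
    (h2 : 3 * 2 ^ r ≤ 5 * x2) :
    MI 0 1 3 b r
      ⟨[SL.cons 0 (Int.ofNat B) SL.nil, SL.nil, SL.nil],
        [SL.nil, SL.cons 0 (Int.ofNat B) SL.nil, SL.nil],
        [SL.nil, SL.nil, SL.cons 0 (Int.ofNat B) SL.nil]⟩
      [SL.cons 0 x0 SL.nil, SL.nil, SL.cons 2 x2 SL.nil] (0 + (0 : ℤ) / 2 ^ r) := by
  subst hB
  exact MI.cast (MI.init b r x0 x2 h0 h2) rfl (by simp)

theorem mi0 : MI 0 1 3 171 40 A0 X0 (0 + (0 : ℤ) / 2 ^ 40) := by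
  unfold A0 X0
  exact MI.init' (by decide +kernel) (by decide +kernel) (by decide +kernel)

theorem mi1 : MI 1 3 9 171 40 A1 X1 (0 + (-1540944985460 : ℤ) / 2 ^ 40) :=
  MI.stepZ _ mi0 iso1 st0 (by norm_num)

theorem mi2 : MI 2 9 27 171 40 A2 X2 (0 + (-3081889970920 : ℤ) / 2 ^ 40) :=
  MI.stepZ _ mi1 iso2 st1 (by norm_num)

theorem mi3 : MI 3 27 24 171 40 A3 X3 (0 + (-4622834956377 : ℤ) / 2 ^ 40) :=
  MI.stepZ _ mi2 iso3 st2 (by norm_num)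

theorem mi4 : MI 4 24 24 171 40 A4 X4 (0 + (-6163779941835 : ℤ) / 2 ^ 40) :=
  MI.stepZ _ mi3 iso4 st3 (by norm_num)

theorem mi5 : MI 5 24 24 171 40 A5 X5 (0 + (-7704724927292 : ℤ) / 2 ^ 40) :=
  MI.stepZ _ mi4 iso5 st4 (by norm_num)

theorem mi6 : MI 6 24 24 171 40 A6 X6 (0 + (-9245669912749 : ℤ) / 2 ^ 40) :=
  MI.stepZ _ mi5 iso6 st5 (by norm_num)

theorem mi7 : MI 7 24 24 171 40 A7 X7 (0 + (-10786614898206 : ℤ) / 2 ^ 40) :=
  MI.stepZ _ mi6 iso7 st6 (by norm_num)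

theorem mi8 : MI 8 24 24 171 40 A8 X8 (0 + (-12327559883663 : ℤ) / 2 ^ 40) :=
  MI.stepZ _ mi7 iso8 st7 (by norm_num)

theorem mi9 : MI 9 24 24 171 40 A9 X9 (0 + (-13868504869120 : ℤ) / 2 ^ 40) :=
  MI.stepZ _ mi8 iso9 st8 (by norm_num)

theorem mi10 : MI 10 24 24 171 40 A10 X10 (0 + (-15409449854577 : ℤ) / 2 ^ 40) :=
  MI.stepZ _ mi9 iso10 st9 (by norm_num)

theorem mi11 : MI 11 24 24 171 40 A11 X11 (0 + (-16950394840034 : ℤ) / 2 ^ 40) :=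
  MI.stepZ _ mi10 iso11 st10 (by norm_num)

theorem mi12 : MI 12 24 24 171 40 A12 X12 (0 + (-18491339825491 : ℤ) / 2 ^ 40) :=
  MI.stepZ _ mi11 iso12 st11 (by norm_num)

theorem mi13 : MI 13 24 24 171 40 A13 X13 (0 + (-20032284810948 : ℤ) / 2 ^ 40) :=
  MI.stepZ _ mi12 iso13 st12 (by norm_num)

theorem mi14 : MI 14 24 24 171 40 A14 X14 (0 + (-21573229796405 : ℤ) / 2 ^ 40) :=
  MI.stepZ _ mi13 iso14 st13 (by norm_num)

theorem mi15 : MI 15 24 24 171 40 A15 X15 (0 + (-23114174781862 : ℤ) / 2 ^ 40) :=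
  MI.stepZ _ mi14 iso15 st14 (by norm_num)

theorem mi16 : MI 16 24 24 171 40 A16 X16 (0 + (-24655119767319 : ℤ) / 2 ^ 40) :=
  MI.stepZ _ mi15 iso16 st15 (by norm_num)

theorem mi17 : MI 17 24 24 171 40 A17 X17 (0 + (-26196064752776 : ℤ) / 2 ^ 40) :=
  MI.stepZ _ mi16 iso17 st16 (by norm_num)

theorem mi18 : MI 18 24 24 171 40 A18 X18 (0 + (-27737009738233 : ℤ) / 2 ^ 40) :=
  MI.stepZ _ mi17 iso18 st17 (by norm_num)

theorem mi19 : MI 19 24 24 171 40 A18 X19 (0 + (-29277954723690 : ℤ) / 2 ^ 40) :=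
  MI.stepZ _ mi18 iso18 st18 (by norm_num)

theorem mi20 : MI 20 24 24 171 40 A18 X20 (0 + (-30818899709147 : ℤ) / 2 ^ 40) :=
  MI.stepZ _ mi19 iso18 st19 (by norm_num)

theorem mi21 : MI 21 24 24 171 40 A18 X21 (0 + (-32359844694604 : ℤ) / 2 ^ 40) :=
  MI.stepZ _ mi20 iso18 st20 (by norm_num)

theorem mi22 : MI 22 24 24 171 40 A18 X22 (0 + (-33900789680061 : ℤ) / 2 ^ 40) :=
  MI.stepZ _ mi21 iso18 st21 (by norm_num)

theorem mi23 : MI 23 24 24 171 40 A18 X23 (0 + (-35441734665518 : ℤ) / 2 ^ 40) :=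
  MI.stepZ _ mi22 iso18 st22 (by norm_num)

theorem mi24 : MI 24 24 24 171 40 A18 X24 (0 + (-36982679650975 : ℤ) / 2 ^ 40) :=
  MI.stepZ _ mi23 iso18 st23 (by norm_num)

theorem mi25 : MI 25 24 24 171 40 A18 X25 (0 + (-38523624636433 : ℤ) / 2 ^ 40) :=
  MI.stepZ _ mi24 iso18 st24 (by norm_num)

theorem mi26 : MI 26 24 24 171 40 A18 X26 (0 + (-40064569621890 : ℤ) / 2 ^ 40) :=
  MI.stepZ _ mi25 iso18 st25 (by norm_num)

theorem mi27 : MI 27 24 24 171 40 A18 X27 (0 + (-41605514607347 : ℤ) / 2 ^ 40) :=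
  MI.stepZ _ mi26 iso18 st26 (by norm_num)

theorem mi28 : MI 28 24 24 171 40 A18 X28 (0 + (-43146459592804 : ℤ) / 2 ^ 40) :=
  MI.stepZ _ mi27 iso18 st27 (by norm_num)

theorem mi29 : MI 29 24 24 171 40 A18 X29 (0 + (-44687404578261 : ℤ) / 2 ^ 40) :=
  MI.stepZ _ mi28 iso18 st28 (by norm_num)

theorem mi30 : MI 30 24 24 171 40 A18 X30 (0 + (-46228349563718 : ℤ) / 2 ^ 40) :=
  MI.stepZ _ mi29 iso18 st29 (by norm_num)

theorem mi31 : MI 31 24 24 171 40 A18 X31 (0 + (-47769294549175 : ℤ) / 2 ^ 40) :=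
  MI.stepZ _ mi30 iso18 st30 (by norm_num)

theorem mi32 : MI 32 24 24 171 40 A18 X32 (0 + (-49310239534632 : ℤ) / 2 ^ 40) :=
  MI.stepZ _ mi31 iso18 st31 (by norm_num)

theorem mi33 : MI 33 24 24 171 40 A18 X33 (0 + (-50851184520089 : ℤ) / 2 ^ 40) :=
  MI.stepZ _ mi32 iso18 st32 (by norm_num)

theorem mi34 : MI 34 24 24 171 40 A18 X34 (0 + (-52392129505546 : ℤ) / 2 ^ 40) :=
  MI.stepZ _ mi33 iso18 st33 (by norm_num)

theorem mi35 : MI 35 24 24 171 40 A18 X35 (0 + (-53933074491003 : ℤ) / 2 ^ 40) :=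
  MI.stepZ _ mi34 iso18 st34 (by norm_num)

theorem mi36 : MI 36 24 24 171 40 A18 X36 (0 + (-55474019476460 : ℤ) / 2 ^ 40) :=
  MI.stepZ _ mi35 iso18 st35 (by norm_num)

theorem mi37 : MI 37 24 24 171 40 A18 X37 (0 + (-57014964461917 : ℤ) / 2 ^ 40) :=
  MI.stepZ _ mi36 iso18 st36 (by norm_num)

theorem mi38 : MI 38 24 24 171 40 A18 X38 (0 + (-58555909447374 : ℤ) / 2 ^ 40) :=
  MI.stepZ _ mi37 iso18 st37 (by norm_num)

theorem mi39 : MI 39 24 24 171 40 A18 X39 (0 + (-60096854432831 : ℤ) / 2 ^ 40) :=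
  MI.stepZ _ mi38 iso18 st38 (by norm_num)

theorem mi40 : MI 40 24 24 171 40 A18 X40 (0 + (-61637799418288 : ℤ) / 2 ^ 40) :=
  MI.stepZ _ mi39 iso18 st39 (by norm_num)

theorem mi41 : MI 41 24 24 171 40 A18 X41 (0 + (-63178744403746 : ℤ) / 2 ^ 40) :=
  MI.stepZ _ mi40 iso18 st40 (by norm_num)

theorem mi42 : MI 42 24 24 171 40 A18 Xs (0 + (-65314417123582 : ℤ) / 2 ^ 40) :=
  MI.stepZ _ mi41 iso18 st41 (by norm_num)

theorem mr0 (t : ℕ) : MI (42 + t) 24 24 171 40 A18 Xs (t * ((-1540945048716 : ℤ) / 2 ^ 40) + (-65314417123582 : ℤ) / 2 ^ 40) :=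
  MI.cast (mi42.iter (stepChk2_eq ▸ stB) t) rfl (by ring)

theorem mr1 (t : ℕ) : MI (42 + t + 1) 24 24 171 40 A19 X43
    (t * ((-1540945048716 : ℤ) / 2 ^ 40) + (-66855362109039 : ℤ) / 2 ^ 40) :=
  MI.stepZ _ (mr0 t) iso19 st42 (by norm_num)

theorem mr2 (t : ℕ) : MI (42 + t + 2) 24 24 171 40 A20 X44
    (t * ((-1540945048716 : ℤ) / 2 ^ 40) + (-68396307094496 : ℤ) / 2 ^ 40) :=
  MI.stepZ _ (mr1 t) iso20 st43 (by norm_num)

theorem mr3 (t : ℕ) : MI (42 + t + 3) 24 24 171 40 A21 X45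
    (t * ((-1540945048716 : ℤ) / 2 ^ 40) + (-69937252079953 : ℤ) / 2 ^ 40) :=
  MI.stepZ _ (mr2 t) iso21 st44 (by norm_num)

theorem mr4 (t : ℕ) : MI (42 + t + 4) 24 24 171 40 A22 X46
    (t * ((-1540945048716 : ℤ) / 2 ^ 40) + (-71478197065410 : ℤ) / 2 ^ 40) :=
  MI.stepZ _ (mr3 t) iso22 st45 (by norm_num)

theorem mr5 (t : ℕ) : MI (42 + t + 5) 24 24 171 40 A23 X47
    (t * ((-1540945048716 : ℤ) / 2 ^ 40) + (-73019142050867 : ℤ) / 2 ^ 40) :=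
  MI.stepZ _ (mr4 t) iso23 st46 (by norm_num)

theorem mr6 (t : ℕ) : MI (42 + t + 6) 24 9 171 40 A24 X48
    (t * ((-1540945048716 : ℤ) / 2 ^ 40) + (-74560087036325 : ℤ) / 2 ^ 40) :=
  MI.stepZ _ (mr5 t) iso24 st47 (by norm_num)

theorem mr7 (t : ℕ) : MI (42 + t + 7) 9 3 171 40 A25 X49
    (t * ((-1540945048716 : ℤ) / 2 ^ 40) + (-76101032021784 : ℤ) / 2 ^ 40) :=
  MI.stepZ _ (mr6 t) iso25 st48 (by norm_num)

theorem mr8 (t : ℕ) : MI (42 + t + 8) 3 1 171 40 A26 X50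
    (t * ((-1540945048716 : ℤ) / 2 ^ 40) + (-77641977007244 : ℤ) / 2 ^ 40) :=
  MI.stepZ _ (mr7 t) iso26 st49 (by norm_num)

theorem xlast : xval X50 0 0 = 4125460363 := by decide +kernel

theorem wlast : wzI A26 0 0 = -6876229646007163681661974526618490209141804347583439489172709235079462747967358227586578642089675849728 := by decide +kernel

theorem var : Var := by
  intro m hm
  obtain ⟨t, rfl⟩ : ∃ t, m = t + 49 := ⟨m - 49, by omega⟩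
  obtain ⟨ψ, h0, h⟩ := (MI.cast (n' := t + 49 + 1) (mr8 t) (by omega) rfl).final (-1 * (3 / 5))
  refine ⟨ψ, h0, h.trans (mul_le_mul_of_nonneg_right ?_ ?_)⟩
  · have ht : (15 : ℝ) ≤ t := by exact_mod_cast (by omega : 15 ≤ t)
    rw [xlast, wlast]
    unfold fh eh
    push_cast
    linarith
  · rw [dotProduct, Complex.re_sum]
    refine Finset.sum_nonneg fun i _ => ?_
    rw [Pi.star_apply, Complex.star_def, ← Complex.normSq_eq_conj_mul_self, Complex.ofReal_re]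
    exact Complex.normSq_nonneg _

end Crest.Agent.R347.Dat
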