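import Crest.Agent.R347.Defs

/-! Normalised partition functions at `β = 8 a`. -/

set_option autoImplicit false

namespace Crest.Agent.R347

open Matrix Crest.MathPhysics.SpinChain Filter Topology

noncomputable def ZN (a L : ℕ) : ℝ := zr 1 (8 * a) L * nr a L
noncomputable def AN (a L : ℕ) : ℝ := (zr 1 (8 * a) L + 3 * gr 1 (8 * a) L) / 4 * nr a L
noncomputable def BN (a L : ℕ) : ℝ := (zr 1 (8 * a) L - gr 1 (8 * a) L) / 4 * nr a L
noncomputable def YN (a m : ℕ) : ℝ := zo (-1) (8 * a) m * no a m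
noncomputable def YpN (a m : ℕ) : ℝ := zo 1 (8 * a) m * no a m
noncomputable def ON (a m : ℕ) : ℝ := (zo (-1) (8 * a) m + go (-1) (8 * a) m) / 2 * no a m
noncomputable def QN (a m : ℕ) : ℝ := (zo (-1) (8 * a) m - go (-1) (8 * a) m) / 4 * no a m

theorem ZN_split (a L : ℕ) : ZN a L = AN a L + 3 * BN a L := by
  unfold ZN AN BN; ring

theorem YN_split (a m : ℕ) : YN a m = ON a m + 2 * QN a m := by
  unfold YN ON QN; ring

/-- `r` bounds the relative rest when the inverse purity is at most `τ`. -/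
def Psi (τ r : ℝ) : Prop := 0 ≤ r ∧ r ≤ 1 ∧ τ * (1 + r ^ 2) ≤ (1 + r) ^ 2

/-- `∑ c λ^e (λ - r₁)² (λ - r₂)²` in terms of the moments `y`. -/
noncomputable def qf (y : ℕ → ℝ) (e : ℕ) (r1 r2 : ℝ) : ℝ :=
  (r1 * r2) ^ 2 * y e - 2 * (r1 + r2) * (r1 * r2) * y (e + 1)
    + ((r1 + r2) ^ 2 + 2 * (r1 * r2)) * y (e + 2) - 2 * (r1 + r2) * y (e + 3) + y (e + 4)

/-- The three gaps. -/
noncomputable def γ1 : ℝ := 4 / 105 * Real.log (80 / 79)
noncomputable def γ2 : ℝ := Real.log 20 / 784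
noncomputable def γ3 : ℝ := Real.log 10 / 392

end Crest.Agent.R347
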