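import Crest.Agent.R347.KChunk
import Crest.Agent.R347.Gersh
import Crest.Agent.R347.Invar

/-! Bounds for the sector sums from the checks. -/

set_option autoImplicit false

namespace Crest.Agent.R347

open Matrix Crest.MathPhysics.SpinChain Filter Topology K

theorem sc_om : ‖om‖ = 1 := by
  have h : om ^ 3 = 1 := by linear_combination (om - 1) * br_om
  exact (pow_eq_one_iff_of_nonneg (norm_nonneg _) three_ne_zero).1 (by rw [← norm_pow, h, norm_one])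

theorem sc_card (h l k : ℕ) :
    (Sec (h + l + 1 + 1) k).card = sum2 (h + 1) (l + 1) k fun _ _ => 1 := by
  rw [← card_Sec, show h + 1 + (l + 1) = h + l + 1 + 1 by omega]

theorem sc_wsum_sub (n : ℕ) (c : List (ℕ × ℕ)) (F G : Cfg n → ℝ) :
    wsum n c (fun σ => F σ / 2 - G σ) = wsum n c F / 2 - wsum n c G := by
  induction c with
  | nil => simp [wsum]
  | cons p c ih =>
    simp only [wsum, List.map_cons, List.sum_cons] at ih ⊢
    rw [ih]
    ring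

theorem sc_wsum {n : ℕ} (c : List (ℕ × ℕ)) {F G T : Cfg n → ℝ} {a α β : ℝ}
    (h : ∀ p ∈ c, |a * F (dec n p.1) - G (dec n p.1)| ≤ α * T (dec n p.1) + β) :
    |a * wsum n c F - wsum n c G| ≤ α * wsum n c T + β * wtot c := by
  induction c with
  | nil => simp [wsum, wtot]
  | cons p c ih =>
    have h1 := abs_le.1 (ih fun r hr => h r (List.mem_cons_of_mem _ hr))
    have h2 := abs_le.1 (h p List.mem_cons_self)
    have h3 := mul_le_mul_of_nonneg_left h2.1 (Nat.cast_nonneg (α := ℝ) p.2)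
    have h4 := mul_le_mul_of_nonneg_left h2.2 (Nat.cast_nonneg (α := ℝ) p.2)
    simp only [wsum, wtot, List.map_cons, List.sum_cons, Nat.cast_add] at h1 ⊢
    rw [abs_le]
    constructor <;> linarith [h1.1, h1.2]

theorem sc_core (d : SD) {md n k B : ℕ} {c : List (ℕ × ℕ)} {F G T : Cfg n → ℝ}
    (ho : OrbF md n k c) (hF : OrbInv md F) (tr : wsum n c T = B - wtot c * 2 ^ (d.p.w - 1))
    (h : ∀ σ ∈ Sec n k, |((2 : ℝ) ^ d.b) ^ 2 * Real.exp (-(8 * (d.En / 10 ^ 6))) * F σ - G σ| ≤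
      2 * (d.en * 2 ^ d.b / 10 ^ 12) * T σ + 3 * (d.en * 2 ^ d.b / 10 ^ 12) ^ 2) :
    |(∑ σ ∈ Sec n k, F σ) * Real.exp (-(8 * (d.En / 10 ^ 6))) - wsum n c G / 4 ^ d.b| ≤
      polQ d (wtot c) B := by
  have h1 := sc_wsum c fun p hp => h _ (ho.1 p hp)
  have h2 : (4 : ℝ) ^ d.b = (2 ^ d.b) ^ 2 := by rw [← pow_mul, mul_comm, pow_mul]; norm_num
  have h3 : (0 : ℝ) < (2 ^ d.b) ^ 2 := by positivity
  rw [ho.2 F hF, h2, ← mul_le_mul_iff_left₀ h3, ← abs_of_pos h3, ← abs_mul, abs_of_pos h3, sub_mul,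
    div_mul_cancel₀ _ h3.ne', polQ]
  rw [tr] at h1
  refine Eq.trans_le (congrArg abs (by ring)) (h1.trans_eq ?_)
  push_cast
  field_simp

theorem sc_val (d : SD) {m W N A : ℕ} {F : ℝ} (hm : 0 < m) (hk : 0 < d.kap)
    (h : Appr (m * F / 4 ^ (d.p.w - d.p.u)) (YY d.p.u (m * W) N A) (m * W * N)) :
    |F / 4 ^ d.b - valQ d m W N A| ≤ rndQ d m W N A := by
  have h1 := h (1 / d.kap) (by positivity)
  have h2 : (0 : ℝ) < m * 4 ^ d.b / 4 ^ (d.p.w - d.p.u) := by positivity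
  have h3 : (yyQ d.p.u (m * W) N A : ℝ) = YY d.p.u (m * W) N A := by
    rw [yyQ, YY]
    push_cast
    rfl
  rw [← mul_le_mul_iff_left₀ h2, ← abs_of_pos h2, ← abs_mul, abs_of_pos h2, valQ, rndQ]
  push_cast
  rw [h3]
  refine Eq.trans_le (congrArg abs ?_) (h1.trans_eq ?_) <;> field_simp

theorem sc_pre {ι : Type} [Fintype ι] [DecidableEq ι] {H : Matrix ι ι ℂ} {S : Finset ι} {d : SD}
    {s m W N A B : ℕ} {c : ℤ} {hq : ℚ} {hi : ℝ} (hhi : (hq : ℝ) = hi)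
    (hB : 0 < d.den → Blk H S (-(d.lon / d.den : ℝ)) hi)
    (he : PCert s c d.p.q d.p.cs d.b d.En d.en) (hn : numOK d s c hq m W N A B = true) :
    0 < d.kap ∧ Blk H S (-(d.lon / d.den : ℝ)) hi ∧ PApx s c d.p.q d.p.cs (2 ^ d.b) (d.En / 10 ^ 6)
      (d.en * 2 ^ d.b / 10 ^ 12) (-(d.lon / d.den : ℝ)) hi ∧
      ∀ σ ∈ S, ∀ τ, ‖PM H s c d.p.q d.p.cs τ σ‖ < 2 ^ (d.p.w - 2) := by
  obtain ⟨h1, h2, h3, h4, h5, h6, -⟩ := of_decide_eq_true hn
  have h3' : ((c : ℝ) + s * (d.lon / d.den)) ^ 2 ≤ 4 * d.p.q := by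
    have := (Rat.cast_le (K := ℝ)).2 h3
    push_cast at this
    exact this
  have h4' : ((c : ℝ) - s * hi) ^ 2 ≤ 4 * d.p.q := by rw [← hhi]; exact_mod_cast h4
  have h5' : 4 * ((d.lon : ℝ) / d.den - d.En / 10 ^ 6) ≤ 693 / 1000 * d.j := by
    have := (Rat.cast_le (K := ℝ)).2 h5
    push_cast at this
    exact this
  have h6' : (2 : ℝ) ^ (d.b + d.j) + d.en * 2 ^ d.b / 10 ^ 12 < 2 ^ (d.p.w - 2) := by
    have := (Rat.cast_lt (K := ℝ)).2 h6
    push_cast at this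
    exact this
  have hP : PApx s c d.p.q d.p.cs (2 ^ d.b) (d.En / 10 ^ 6) (d.en * 2 ^ d.b / 10 ^ 12)
      (-(d.lon / d.den : ℝ)) hi := fun x x1 x2 => he x (by
    have y1 := mul_le_mul_of_nonneg_left x1 (Nat.cast_nonneg (α := ℝ) s)
    have y2 := mul_le_mul_of_nonneg_left x2 (Nat.cast_nonneg (α := ℝ) s)
    rcases le_total 0 ((c : ℝ) - s * x) with y | y
    · exact (pow_le_pow_left₀ y (by linarith) 2).trans h3'
    · nlinarith)
  refine ⟨h2, hB h1, hP, fun σ hσ τ =>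
    (poly_entry (hB h1) (by positivity) hP hσ τ).trans_lt (lt_of_le_of_lt ?_ h6')⟩
  have h7 : Real.exp (-(4 * (-(d.lon / d.den : ℝ) + d.En / 10 ^ 6))) ≤ 2 ^ d.j := by
    rw [← Real.exp_log two_pos, ← Real.exp_nat_mul, Real.exp_le_exp]
    nlinarith [Real.log_two_gt_d9, Nat.cast_nonneg (α := ℝ) d.j]
  rw [pow_add]
  gcongr

theorem sc_main {md n k s m N : ℕ} {H : Op n} {d : SD} {c : ℤ} {hq : ℚ} {hi : ℝ} {xs : List CD}
    {fA : CD → ℕ} (hm : 0 < m) (hN : (Sec n k).card = N) (hhi : (hq : ℝ) = hi)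
    (hB : 0 < d.den → Blk H (Sec n k) (-(d.lon / d.den : ℝ)) hi)
    (ho : OrbF md n k (xs.flatMap CD.c)) (hF : OrbInv md fun σ => (EX H 8 σ σ).re)
    (he : PCert s c d.p.q d.p.cs d.b d.En d.en)
    (hn : numOK d s c hq m (wtot (xs.flatMap CD.c)) N (xs.map fA).sum (xs.map CD.B).sum = true)
    (hx : ∀ x ∈ xs, (∀ r ∈ x.c, ∀ τ, ‖PM H s c d.p.q d.p.cs τ (dec _ r.1)‖ < 2 ^ (d.p.w - 2)) →
      Res (PM H s c d.p.q d.p.cs) k d.p.w d.p.u m x.c (fA x) x.B) :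
    Btw (ZS H 8 (Sec n k) * Real.exp (-(8 * (d.En / 10 ^ 6)))) d.zl d.zu := by
  obtain ⟨hk, B, hP, hb⟩ := sc_pre hhi hB he hn
  have h2 := Res.join _ _ _ _ _ xs fA fun x h' => hx x h' fun r hr =>
    hb _ (ho.1 r (List.mem_flatMap.2 ⟨x, h', hr⟩))
  have h4 := sc_core d ho hF h2.tr fun σ hσ => poly_diag B (by positivity) hP hσ
  have h5 := sc_val d hm hk h2.sq
  rw [hN] at h5
  obtain ⟨-, -, -, -, -, -, h7, h8⟩ := of_decide_eq_true hn
  replace h7 := (Rat.cast_le (K := ℝ)).2 h7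
  replace h8 := (Rat.cast_le (K := ℝ)).2 h8
  push_cast at h7 h8
  exact ⟨by linarith! [abs_le.1 h4, abs_le.1 h5], by linarith! [abs_le.1 h4, abs_le.1 h5]⟩

theorem secP (h l k : ℕ) (d : SD) (xs : List CD) (v : V2)
    (hx : ∀ x ∈ xs, okP h l k d.p x = true) (ho : OrbF 0 (h + l + 1 + 1) k (xs.flatMap CD.c))
    (hg : gershR h l k d.den d.lon v = true)
    (he : PCert 1 ((d.p.cb : ℤ) - (h + l + 2 : ℕ)) d.p.q d.p.cs d.b d.En d.en)
    (hn : numOK d 1 ((d.p.cb : ℤ) - (h + l + 2 : ℕ)) (h + l + 2 : ℕ) 1 (wtot (xs.flatMap CD.c))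
      (sum2 (h + 1) (l + 1) k fun _ _ => 1) (xs.map CD.A).sum (xs.map CD.B).sum = true) :
    Btw (ZS (HR 1 (h + l + 1)) 8 (Sec (h + l + 1 + 1) k) * Real.exp (-(8 * (d.En / 10 ^ 6))))
      d.zl d.zu :=
  sc_main one_pos (sc_card h l k) (Rat.cast_natCast _)
    (fun hd => gershR_sound 1 norm_one h l k _ _ v hd hg) ho
    (inv_ring 1 norm_one _ (by omega) 8) he hn fun x h' => okP_sound h l k d.p x (hx x h')

theorem secM (h l k : ℕ) (d : SD) (xs : List CD) (v : V2)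
    (hx : ∀ x ∈ xs, okM h l k d.p x = true) (ho : OrbF 0 (h + l + 1 + 1) k (xs.flatMap CD.c))
    (hg : gershR h l k d.den d.lon v = true)
    (he : PCert 1 ((d.p.cb : ℤ) - (h + l + 2 : ℕ)) d.p.q d.p.cs d.b d.En d.en)
    (hn : numOK d 1 ((d.p.cb : ℤ) - (h + l + 2 : ℕ)) (h + l + 2 : ℕ) 1 (wtot (xs.flatMap CD.c))
      (sum2 (h + 1) (l + 1) k fun _ _ => 1) (xs.map CD.A).sum (xs.map CD.B).sum = true) :
    Btw (ZS (HR (-1) (h + l + 1)) 8 (Sec (h + l + 1 + 1) k) * Real.exp (-(8 * (d.En / 10 ^ 6))))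
      d.zl d.zu :=
  sc_main one_pos (sc_card h l k) (Rat.cast_natCast _)
    (fun hd => gershR_sound (-1) (by simp) h l k _ _ v hd hg) ho
    (inv_ring (-1) (by simp) _ (by omega) 8) he hn fun x h' => okM_sound h l k d.p x (hx x h')

theorem secF (h l : ℕ) (d : SD) (xs : List CD) (v : V2)
    (hx : ∀ x ∈ xs, okF h l (h + l + 2) d.p x = true)
    (ho : OrbF 0 (h + l + 1 + 1) (h + l + 2) (xs.flatMap CD.c))
    (hg : gershR h l (h + l + 2) d.den d.lon v = true)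
    (he : PCert 1 ((d.p.cb : ℤ) - (h + l + 2 : ℕ)) d.p.q d.p.cs d.b d.En d.en)
    (hn : numOK d 1 ((d.p.cb : ℤ) - (h + l + 2 : ℕ)) (h + l + 2 : ℕ) 1 (wtot (xs.flatMap CD.c))
      (sum2 (h + 1) (l + 1) (h + l + 2) fun _ _ => 1) (xs.map CD.A).sum (xs.map CD.B).sum = true)
    (hn' : numG d (wtot (xs.flatMap CD.c)) (sum2 (h + 1) (l + 1) (h + l + 2) fun _ _ => 1)
      (xs.map CD.A).sum (xs.map CD.B).sum (xs.map CD.C).sum = true) :
    Btw (ZS (HR (-1) (h + l + 1)) 8 (Sec (h + l + 1 + 1) (h + l + 2))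
        * Real.exp (-(8 * (d.En / 10 ^ 6)))) d.zl d.zu ∧
      Btw (GS (HR (-1) (h + l + 1)) 8 * Real.exp (-(8 * (d.En / 10 ^ 6)))) d.gl d.gu := by
  have hB := fun hd => gershR_sound (-1) (by simp) h l (h + l + 2) _ _ v hd hg
  refine ⟨sc_main one_pos (sc_card h l _) (Rat.cast_natCast _) hB ho
    (inv_ring (-1) (by simp) _ (by omega) 8) he hn
    fun x h' hb => (okF_sound h l d.p x (hx x h') hb).1, ?_⟩
  obtain ⟨hk, B, hP, hb⟩ := sc_pre (Rat.cast_natCast _) hB he hn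
  have h1 := fun x h' => okF_sound h l d.p x (hx x h') fun r hr =>
    hb _ (ho.1 r (List.mem_flatMap.2 ⟨x, h', hr⟩))
  have h2 := Res.join _ _ _ _ _ xs CD.A fun x h' => (h1 x h').1
  have h3 := ResG.join _ _ _ _ xs fun x h' => (h1 x h').2
  have h4 := sc_core d ho (inv_ringG _ (by omega) 8) h2.tr fun σ hσ =>
    poly_flip B (by positivity) hP flp (fun σ => funext fun j => Fin.rev_rev _) (HR_flp _)
      (fun τ hτ => by
        have h5 := dsum_flp τ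
        simp only [Sec, Finset.mem_filter, Finset.mem_univ, true_and] at hτ ⊢
        omega) hσ
  have h5 := sc_val d one_pos hk h2.sq
  have h6 := sc_val d (m := 1) (W := wtot (xs.flatMap CD.c)) one_pos hk
    (by simpa only [ResG, Nat.cast_one, one_mul] using h3)
  rw [sc_card] at h5 h6
  obtain ⟨h7, h8⟩ := of_decide_eq_true hn'
  replace h7 := (Rat.cast_le (K := ℝ)).2 h7
  replace h8 := (Rat.cast_le (K := ℝ)).2 h8
  push_cast at h7 h8
  rw [sc_wsum_sub, sub_div, div_right_comm] at h4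
  norm_num only at h7 h8
  unfold Btw
  norm_num only
  exact ⟨by linarith! [abs_le.1 h4, abs_le.1 h5, abs_le.1 h6],
    by linarith! [abs_le.1 h4, abs_le.1 h5, abs_le.1 h6]⟩

theorem secW (h l k : ℕ) (d : SD) (xs : List CD) (v : V2)
    (hx : ∀ x ∈ xs, okW h l k d.p x = true) (ho : OrbF 0 (h + l + 1 + 1) k (xs.flatMap CD.c))
    (hg : gershR h l k d.den d.lon v = true)
    (he : PCert 1 ((d.p.cb : ℤ) - (h + l + 2 : ℕ)) d.p.q d.p.cs d.b d.En d.en)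
    (hn : numOK d 1 ((d.p.cb : ℤ) - (h + l + 2 : ℕ)) (h + l + 2 : ℕ) 4 (wtot (xs.flatMap CD.c))
      (sum2 (h + 1) (l + 1) k fun _ _ => 1) (xs.map fun x => x.A + 3 * x.C).sum
      (xs.map CD.B).sum = true) :
    Btw (ZS (HR om (h + l + 1)) 8 (Sec (h + l + 1 + 1) k) * Real.exp (-(8 * (d.En / 10 ^ 6))))
      d.zl d.zu :=
  sc_main four_pos (sc_card h l k) (Rat.cast_natCast _)
    (fun hd => gershR_sound om sc_om h l k _ _ v hd hg) ho
    (inv_ring om sc_om _ (by omega) 8) he hn fun x h' => okW_sound h l k d.p x (hx x h')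

theorem secO (sg : Bool) (h l k : ℕ) (d : SD) (xs : List CD) (v : V2)
    (hx : ∀ x ∈ xs, okO sg h l k d.p x = true)
    (ho : OrbF (if sg then 1 else 2) (h + l + 1 + 1) k (xs.flatMap CD.c))
    (hg : gershO sg h l k d.den d.lon v = true)
    (he : PCert 5 ((d.p.cb : ℤ) - (5 * (h + l + 1) + 6 : ℕ)) d.p.q d.p.cs d.b d.En d.en)
    (hn : numOK d 5 ((d.p.cb : ℤ) - (5 * (h + l + 1) + 6 : ℕ)) ((h + l + 1 : ℕ) + 6 / 5) 1
      (wtot (xs.flatMap CD.c)) (sum2 (h + 1) (l + 1) k fun _ _ => 1) (xs.map CD.A).sum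
      (xs.map CD.B).sum = true) :
    Btw (ZS (HO (3 / 5) (sgn sg * (3 / 5)) (h + l + 1)) 8 (Sec (h + l + 1 + 1) k)
      * Real.exp (-(8 * (d.En / 10 ^ 6)))) d.zl d.zu :=
  sc_main one_pos (sc_card h l k) (by push_cast; rfl)
    (fun hd => gershO_sound sg h l k _ _ v hd hg) ho
    (inv_open sg _ _ 8) he hn fun x h' => okO_sound sg h l k d.p x (hx x h')

/-- Numerical condition for the crude bound. -/
def numC (den lon En j N zu : ℕ) : Bool :=
  decide (0 < den ∧ 6932 / 10000 * (j : ℚ) ≤ 8 * ((En : ℚ) / 10 ^ 6 - lon / den) ∧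
    (N : ℚ) / 2 ^ j ≤ zu / 10 ^ 9)

theorem sc_crude {ι : Type} [Fintype ι] [DecidableEq ι] {H : Matrix ι ι ℂ} {S : Finset ι}
    {den lon En j N zu : ℕ} {hi : ℝ} (hN : S.card = N)
    (hB : 0 < den → Blk H S (-(lon / den : ℝ)) hi) (hn : numC den lon En j N zu = true) :
    Btw (ZS H 8 S * Real.exp (-(8 * (En / 10 ^ 6)))) 0 zu := by
  obtain ⟨h1, h2, h3⟩ := of_decide_eq_true hn
  replace h2 := (Rat.cast_le (K := ℝ)).2 h2
  replace h3 := (Rat.cast_le (K := ℝ)).2 h3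
  push_cast at h2 h3
  obtain ⟨h4, h5⟩ := crude (hB h1) (β := 8) (by norm_num)
  refine ⟨by rw [Int.cast_zero, zero_div]; positivity, ?_⟩
  refine (mul_le_mul_of_nonneg_right h5 (Real.exp_pos _).le).trans (le_trans ?_ h3)
  rw [hN, mul_assoc, ← Real.exp_add, div_eq_mul_inv (N : ℝ), ← Real.exp_log two_pos,
    ← Real.exp_nat_mul, ← Real.exp_neg]
  gcongr
  nlinarith [Real.log_two_lt_d9, Nat.cast_nonneg (α := ℝ) j]

theorem crudeR (φ : ℂ) (hφ : ‖φ‖ = 1) (h l k den lon En j zu : ℕ) (v : V2)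
    (hg : gershR h l k den lon v = true)
    (hn : numC den lon En j (sum2 (h + 1) (l + 1) k fun _ _ => 1) zu = true) :
    Btw (ZS (HR φ (h + l + 1)) 8 (Sec (h + l + 1 + 1) k) * Real.exp (-(8 * (En / 10 ^ 6))))
      0 zu :=
  sc_crude (sc_card h l k) (fun hd => gershR_sound φ hφ h l k _ _ v hd hg) hn

theorem crudeO (sg : Bool) (h l k den lon En j zu : ℕ) (v : V2)
    (hg : gershO sg h l k den lon v = true)
    (hn : numC den lon En j (sum2 (h + 1) (l + 1) k fun _ _ => 1) zu = true) :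
    Btw (ZS (HO (3 / 5) (sgn sg * (3 / 5)) (h + l + 1)) 8 (Sec (h + l + 1 + 1) k)
      * Real.exp (-(8 * (En / 10 ^ 6)))) 0 zu :=
  sc_crude (sc_card h l k) (fun hd => gershO_sound sg h l k _ _ v hd hg) hn

end Crest.Agent.R347
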