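import Crest.Agent.R347.Norm

set_option autoImplicit false

namespace Crest.Agent.R347

open Matrix Crest.MathPhysics.SpinChain Filter Topology

theorem step_le_of_pow {x y C : ℝ} (hy : 0 < y) (h : ∀ j : ℕ, x ^ j ≤ C * y ^ j) : x ≤ y := by
  by_contra hlt
  have h1 : 1 < x / y := (one_lt_div hy).2 (not_le.1 hlt)
  obtain ⟨j, hj⟩ := pow_unbounded_of_one_lt C h1
  rw [div_pow, lt_div_iff₀ (pow_pos hy j)] at hj
  exact absurd (h j) (not_le.2 hj)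

theorem step_root {K : ℝ} (hK : 0 ≤ K) {L : ℕ} (hL : L ≠ 0) : ∃ θ : ℝ, 0 ≤ θ ∧ θ ^ L = K :=
  ⟨K ^ ((L : ℝ)⁻¹), Real.rpow_nonneg hK _, Real.rpow_inv_natCast_pow hK hL⟩

theorem step_psi_two {τ r : ℝ} (h : Psi τ r) : τ ≤ 2 := by
  obtain ⟨h0, h1, h2⟩ := h
  have h3 : (1 + r) ^ 2 ≤ 2 * (1 + r ^ 2) := by nlinarith [sq_nonneg (1 - r)]
  exact le_of_mul_le_mul_right (h2.trans h3) (by positivity)

theorem step_pdec {p y yp : ℕ → ℝ} {Λ c K : ℝ} (h : SpaceTop p y yp Λ c) {L : ℕ} (hL : 4 ≤ L)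
    (hLe : Even L) (hK : 0 ≤ K) (hp : p L ≤ (1 + K) * Λ ^ L) (t : ℕ) :
    p ((t + 1) * L) ≤ (1 + K ^ (t + 1)) * Λ ^ ((t + 1) * L) := by
  obtain ⟨θ, hθ, hθL⟩ := step_root hK (L := L) (by omega)
  have := h.pdec L θ hL hLe hθ (by rwa [hθL]) (t * L) (hLe.mul_left t)
  rw [show L + t * L = (t + 1) * L by ring] at this
  rwa [mul_comm (t + 1) L, pow_mul θ, hθL, mul_comm L (t + 1)] at this

theorem step_pdec' {p y yp : ℕ → ℝ} {Λ c K : ℝ} (h : SpaceTop p y yp Λ c) {L : ℕ} (hL : 4 ≤ L)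
    (hLe : Even L) (hK : 0 ≤ K) (hK1 : K ≤ 1) (hp : p L ≤ (1 + K) * Λ ^ L) {L' : ℕ}
    (h3 : 3 * L ≤ L') (he : Even L') : p L' ≤ (1 + K ^ 3) * Λ ^ L' := by
  obtain ⟨θ, hθ, hθL⟩ := step_root hK (L := L) (by omega)
  have hθ1 : θ ≤ 1 := by
    by_contra hlt
    have := one_lt_pow₀ (not_le.1 hlt) (n := L) (by omega)
    linarith
  obtain ⟨j, rfl⟩ : ∃ j, L' = L + j := ⟨L' - L, by omega⟩
  have hj : Even j := by
    rw [Nat.even_add] at he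
    exact he.1 hLe
  refine (h.pdec L θ hL hLe hθ (by rwa [hθL]) j hj).trans ?_
  refine mul_le_mul_of_nonneg_right ?_ (pow_pos h.pos _).le
  have : θ ^ (L + j) ≤ θ ^ (L * 3) := pow_le_pow_of_le_one hθ hθ1 (by omega)
  rw [pow_mul, hθL] at this
  linarith

theorem Sys.one_le_Λ (S : Sys) {a : ℕ} (ha : 1 ≤ a) : 1 ≤ S.Λ a := by
  have sp := S.sp a ha
  have h1 : (1 : ℝ) ≤ S.Λ a ^ 2 := by
    refine step_le_of_pow (C := S.Y a 64) (pow_pos sp.pos 2) fun j => ?_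
    have e : Even (64 + 2 * j) := ⟨32 + j, by ring⟩
    have a1 := S.var a (64 + 2 * j) ha (by omega) e
    have a2 := sp.ymono 64 (2 * j) (by norm_num) ⟨32, rfl⟩ (even_two_mul j)
    rw [one_pow, ← pow_mul, mul_comm]
    exact a1.trans a2
  exact (one_le_sq_iff₀ sp.pos.le).1 h1

theorem Sys.one_le_X (S : Sys) {L : ℕ} (hL : 4 ≤ L) (hLe : Even L) : 1 ≤ S.X L := by
  refine (S.tZ L hL).grow 1 zero_le_one fun k hk => ?_
  rw [one_pow]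
  exact (one_le_pow₀ (S.one_le_Λ hk)).trans ((S.sp k hk).le L hL hLe)

theorem Sys.one_le_Xo (S : Sys) {m : ℕ} (hm : 64 ≤ m) (hme : Even m) : 1 ≤ S.Xo m := by
  refine (S.tY m (by omega)).grow 1 zero_le_one fun k hk => ?_
  rw [one_pow]
  exact S.var k m hk hm hme

theorem Sys.Λ_two (S : Sys) {a : ℕ} (ha : 1 ≤ a) : S.Λ (2 * a) ≤ S.Λ a ^ 2 := by
  have sp := S.sp a ha
  have sp2 := S.sp (2 * a) (by omega)
  have hp := sp.pos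
  have h1 : S.Λ (2 * a) ^ 2 ≤ (S.Λ a ^ 2) ^ 2 := by
    refine step_le_of_pow (C := S.Z a 4 ^ 2) (by positivity) fun j => ?_
    have e : Even (4 + 2 * j) := ⟨2 + j, by ring⟩
    have a1 := sp2.le (4 + 2 * j) (by omega) e
    have a2 : S.Z (2 * a) (4 + 2 * j) ≤ S.Z a (4 + 2 * j) ^ 2 :=
      (S.tZ (4 + 2 * j) (by omega)).sub a 2 ha (by norm_num)
    have a3 := sp.mono 4 (2 * j) le_rfl ⟨2, rfl⟩ (even_two_mul j)
    have a4 : 0 ≤ S.Z a (4 + 2 * j) := (pow_pos hp _).le.trans (sp.le _ (by omega) e)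
    have a5 : S.Z a (4 + 2 * j) ^ 2 ≤ (S.Λ a ^ (2 * j) * S.Z a 4) ^ 2 := pow_le_pow_left₀ a4 a3 2
    have a6 : S.Λ (2 * a) ^ (2 * j) ≤ S.Λ (2 * a) ^ (4 + 2 * j) :=
      pow_le_pow_right₀ (S.one_le_Λ (by omega)) (by omega)
    calc (S.Λ (2 * a) ^ 2) ^ j = S.Λ (2 * a) ^ (2 * j) := by rw [← pow_mul]
      _ ≤ (S.Λ a ^ (2 * j) * S.Z a 4) ^ 2 := a6.trans (a1.trans (a2.trans a5))
      _ = S.Z a 4 ^ 2 * ((S.Λ a ^ 2) ^ 2) ^ j := by ring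
  exact (pow_le_pow_iff_left₀ sp2.pos.le (by positivity) two_ne_zero).1 h1

theorem State.mono {S : Sys} {a L : ℕ} {g K K1 go' Ko Ko1 g' K' K1' go'' Ko' Ko1' : ℝ}
    (ha : 1 ≤ a) (hL : 4 ≤ L) (h : State S a L g K K1 go' Ko Ko1) (h1 : g ≤ g') (h2 : K ≤ K')
    (h3 : K1 ≤ K1') (h4 : go' ≤ go'') (h5 : Ko ≤ Ko') (h6 : Ko1 ≤ Ko1') :
    State S a L g' K' K1' go'' Ko' Ko1' := by
  have sp := S.sp a ha
  have sp2 := S.sp (2 * a) (by omega)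
  refine ⟨fun L' a1 a2 a3 => (h.hg L' a1 a2 a3).trans ?_, h.hK1.trans ?_, h.hK.trans ?_,
    h.hgo.trans ?_, h.hKo1.trans ?_, h.hKo.trans ?_⟩
  · exact mul_le_mul_of_nonneg_right (by linarith) (pow_pos (S.tZ L' (by omega)).pos _).le
  · exact mul_le_mul_of_nonneg_right (by linarith) (pow_pos sp.pos _).le
  · exact mul_le_mul_of_nonneg_right (by linarith) (pow_pos sp2.pos _).le
  · exact mul_le_mul_of_nonneg_right (by linarith) (pow_pos (S.tY _ (by omega)).pos _).le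
  · exact mul_le_mul_of_nonneg_right (by linarith) (mul_nonneg sp.cnn (pow_pos sp.pos _).le)
  · exact mul_le_mul_of_nonneg_right (by linarith) (mul_nonneg sp2.cnn (pow_pos sp2.pos _).le)

theorem step_key {S : Sys} {a L : ℕ} {g K K1 go' Ko Ko1 : ℝ} (ha : 1 ≤ a) (hL : 4 ≤ L)
    (hLe : Even L) (h : State S a L g K K1 go' Ko Ko1) (hK : 0 ≤ K) :
    (S.Λ a ^ (3 * L)) ^ 2 ≤ ((1 + g) ^ 2 * (1 + K ^ 3)) * S.Λ (2 * a) ^ (3 * L) := by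
  have sp := S.sp a ha
  have sp2 := S.sp (2 * a) (by omega)
  have e3 : Even (3 * L) := hLe.mul_left 3
  have a1 := (sp.le (3 * L) (by omega) e3).trans (h.hg (3 * L) (by omega) le_rfl e3)
  have a2 : S.X (3 * L) ^ (2 * a) ≤ S.Z (2 * a) (3 * L) :=
    (S.tZ (3 * L) (by omega)).le (2 * a) (by omega)
  have a3 : S.Z (2 * a) (3 * L) ≤ (1 + K ^ 3) * S.Λ (2 * a) ^ (3 * L) :=
    step_pdec sp2 hL hLe hK h.hK 2
  calc (S.Λ a ^ (3 * L)) ^ 2 ≤ ((1 + g) * S.X (3 * L) ^ a) ^ 2 :=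
        pow_le_pow_left₀ (pow_pos sp.pos _).le a1 2
    _ = (1 + g) ^ 2 * S.X (3 * L) ^ (2 * a) := by ring
    _ ≤ (1 + g) ^ 2 * ((1 + K ^ 3) * S.Λ (2 * a) ^ (3 * L)) :=
        mul_le_mul_of_nonneg_left (a2.trans a3) (sq_nonneg _)
    _ = _ := by ring

theorem step_key' {S : Sys} {a L : ℕ} {g K K1 go' Ko Ko1 : ℝ} (ha : 1 ≤ a) (hL : 4 ≤ L)
    (hLe : Even L) (h : State S a L g K K1 go' Ko Ko1) (hK : 0 ≤ K) {j : ℕ} (hj : j ≤ 6 * L) :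
    (S.Λ a ^ j) ^ 2 ≤ ((1 + g) ^ 2 * (1 + K ^ 3)) ^ 2 * S.Λ (2 * a) ^ j := by
  have p1 := (S.sp a ha).pos
  have p2 := (S.sp (2 * a) (by omega)).pos
  have h1 : 1 ≤ S.Λ a ^ 2 / S.Λ (2 * a) := (one_le_div p2).2 (S.Λ_two ha)
  have h2 : (S.Λ a ^ 2 / S.Λ (2 * a)) ^ (3 * L) ≤ (1 + g) ^ 2 * (1 + K ^ 3) := by
    rw [div_pow, div_le_iff₀ (pow_pos p2 _), ← pow_mul, mul_comm 2, pow_mul]
    exact step_key ha hL hLe h hK
  have h3 : (S.Λ a ^ 2 / S.Λ (2 * a)) ^ j ≤ ((1 + g) ^ 2 * (1 + K ^ 3)) ^ 2 := by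
    calc (S.Λ a ^ 2 / S.Λ (2 * a)) ^ j ≤ (S.Λ a ^ 2 / S.Λ (2 * a)) ^ (3 * L * 2) :=
          pow_le_pow_right₀ h1 (by omega)
      _ = ((S.Λ a ^ 2 / S.Λ (2 * a)) ^ (3 * L)) ^ 2 := pow_mul _ _ _
      _ ≤ _ := pow_le_pow_left₀ (by positivity) h2 2
  rwa [div_pow, div_le_iff₀ (pow_pos p2 _), ← pow_mul, mul_comm 2, pow_mul] at h3

theorem step_c2 {S : Sys} {a L : ℕ} {g K K1 go' Ko Ko1 : ℝ} (ha : 1 ≤ a) (hL : 4 ≤ L)
    (hLe : Even L) (h : State S a L g K K1 go' Ko Ko1) :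
    (S.c a * S.Λ a ^ (3 * L)) ^ 2 ≤
      (1 + go') ^ 2 * ((1 + Ko) * (S.c (2 * a) * S.Λ (2 * a) ^ (3 * L))) := by
  have sp := S.sp a ha
  have e3 : Even (3 * L) := hLe.mul_left 3
  have a1 := (sp.yle (3 * L) (by omega) e3).trans h.hgo
  have a2 : S.Xo (3 * L) ^ (2 * a) ≤ S.Y (2 * a) (3 * L) :=
    (S.tY (3 * L) (by omega)).le (2 * a) (by omega)
  calc (S.c a * S.Λ a ^ (3 * L)) ^ 2 ≤ ((1 + go') * S.Xo (3 * L) ^ a) ^ 2 :=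
        pow_le_pow_left₀ (mul_nonneg sp.cnn (pow_pos sp.pos _).le) a1 2
    _ = (1 + go') ^ 2 * S.Xo (3 * L) ^ (2 * a) := by ring
    _ ≤ _ := mul_le_mul_of_nonneg_left (a2.trans h.hKo) (sq_nonneg _)

/-- Ring purity on the window `[2L, 6L]`. -/
theorem step_G {S : Sys} {a L : ℕ} {g K K1 go' Ko Ko1 G : ℝ} (ha : 1 ≤ a) (hL : 4 ≤ L)
    (hLe : Even L) (h : State S a L g K K1 go' Ko Ko1) (hg : 0 ≤ g) (hK : 0 ≤ K)
    (hK1 : 0 ≤ K1) (hK1' : K1 ≤ 1) (hgG : g ≤ G)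
    (hG : Psi (((1 + g) ^ 2 * (1 + K ^ 3)) ^ 2 * (1 + K1 ^ 3) ^ 2) G)
    (L' : ℕ) (h1 : 2 * L ≤ L') (h2 : L' ≤ 6 * L) (he : Even L') :
    S.Z a L' ≤ (1 + G) * S.X L' ^ a := by
  have tz := S.tZ L' (by omega)
  have sp := S.sp a ha
  have sp2 := S.sp (2 * a) (by omega)
  by_cases h3 : L' ≤ 3 * L
  · exact (h.hg L' h1 h3 he).trans
      (mul_le_mul_of_nonneg_right (by linarith) (pow_pos tz.pos _).le)
  refine tz.inv a _ G ha hG.1 hG.2.1 (step_psi_two hG) hG.2.2 ?_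
  have a1 := step_pdec' sp hL hLe hK1 hK1' h.hK1 (L' := L') (by omega) he
  have a2 : 0 ≤ S.Z a L' := (pow_pos sp.pos _).le.trans (sp.le L' (by omega) he)
  have a3 := step_key' ha hL hLe h hK h2
  have a4 := sp2.le L' (by omega) he
  show S.Z a L' ^ 2 ≤ _ * S.Z (2 * a) L'
  calc S.Z a L' ^ 2 ≤ ((1 + K1 ^ 3) * S.Λ a ^ L') ^ 2 := pow_le_pow_left₀ a2 a1 2
    _ = (1 + K1 ^ 3) ^ 2 * (S.Λ a ^ L') ^ 2 := mul_pow _ _ _
    _ ≤ (1 + K1 ^ 3) ^ 2 * (((1 + g) ^ 2 * (1 + K ^ 3)) ^ 2 * S.Z (2 * a) L') :=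
        mul_le_mul_of_nonneg_left (a3.trans (mul_le_mul_of_nonneg_left a4 (sq_nonneg _)))
          (sq_nonneg _)
    _ = _ := by ring

/-- Purity of the chain with parallel fields on the window `[3L, 9L]`. -/
theorem step_Gp {S : Sys} {a L : ℕ} {g K K1 go' Ko Ko1 Gp : ℝ} (ha : 1 ≤ a) (hL : 4 ≤ L)
    (hLe : Even L) (h : State S a L g K K1 go' Ko Ko1) (hg : 0 ≤ g) (hK : 0 ≤ K)
    (hgo : 0 ≤ go') (hKo : 0 ≤ Ko) (hKo' : Ko < 1) (hKo1 : 0 ≤ Ko1)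
    (hG : Psi ((1 + Ko1) ^ 2 * (1 + go') ^ 2 * (1 + Ko) * ((1 + g) ^ 2 * (1 + K ^ 3)) ^ 2
      / (1 - Ko)) Gp)
    (m : ℕ) (h1 : 3 * L ≤ m) (h2 : m ≤ 9 * L) :
    S.Yp a m ≤ (1 + Gp) * S.Xp m ^ a := by
  have ty := S.tYp m (by omega)
  have sp := S.sp a ha
  have sp2 := S.sp (2 * a) (by omega)
  have e3 : Even (3 * L) := hLe.mul_left 3
  refine ty.inv a _ Gp ha hG.1 hG.2.1 (step_psi_two hG) hG.2.2 ?_
  have y1 : 0 < S.Yp a m := (pow_pos ty.pos _).trans_le (ty.le a ha)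
  have y2 : 0 < S.Yp (2 * a) m := (pow_pos ty.pos _).trans_le (ty.le (2 * a) (by omega))
  obtain ⟨j, rfl⟩ : ∃ j, m = 3 * L + j := ⟨m - 3 * L, by omega⟩
  have b1 := (abs_le.1 (sp.ypb (3 * L) j (by omega) e3)).2
  have b2 := (abs_le.1 (sp2.ypb (3 * L) j (by omega) e3)).1
  rw [abs_of_pos y1, pow_add] at b1
  rw [abs_of_pos y2, pow_add] at b2
  have c1 := mul_le_mul_of_nonneg_left h.hKo1 (pow_pos sp.pos j).le
  have c2 := mul_le_mul_of_nonneg_left h.hKo (pow_pos sp2.pos j).le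
  have a1 : S.Yp a (3 * L + j) ≤ (1 + Ko1) * ((S.c a * S.Λ a ^ (3 * L)) * S.Λ a ^ j) := by
    linarith
  have a2 : (1 - Ko) * ((S.c (2 * a) * S.Λ (2 * a) ^ (3 * L)) * S.Λ (2 * a) ^ j) ≤
      S.Yp (2 * a) (3 * L + j) := by linarith
  have a3 := step_key' ha hL hLe h hK (j := j) (by omega)
  have a4 := step_c2 ha hL hLe h
  have h1K : 0 < 1 - Ko := by linarith
  have a5 : (S.c (2 * a) * S.Λ (2 * a) ^ (3 * L)) * S.Λ (2 * a) ^ j ≤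
      S.Yp (2 * a) (3 * L + j) / (1 - Ko) := by
    rw [le_div_iff₀ h1K, mul_comm]; exact a2
  have cp2 := sp2.cnn
  have lp2 := sp2.pos
  show S.Yp a (3 * L + j) ^ 2 ≤ _ * S.Yp (2 * a) (3 * L + j)
  calc S.Yp a (3 * L + j) ^ 2
      ≤ ((1 + Ko1) * ((S.c a * S.Λ a ^ (3 * L)) * S.Λ a ^ j)) ^ 2 := pow_le_pow_left₀ y1.le a1 2
    _ = (1 + Ko1) ^ 2 * ((S.c a * S.Λ a ^ (3 * L)) ^ 2 * (S.Λ a ^ j) ^ 2) := by ring
    _ ≤ (1 + Ko1) ^ 2 * (((1 + go') ^ 2 * ((1 + Ko) * (S.c (2 * a) * S.Λ (2 * a) ^ (3 * L)))) *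
          (((1 + g) ^ 2 * (1 + K ^ 3)) ^ 2 * S.Λ (2 * a) ^ j)) :=
        mul_le_mul_of_nonneg_left (mul_le_mul a4 a3 (sq_nonneg _) (by positivity)) (sq_nonneg _)
    _ = ((1 + Ko1) ^ 2 * (1 + go') ^ 2 * (1 + Ko) * ((1 + g) ^ 2 * (1 + K ^ 3)) ^ 2) *
          ((S.c (2 * a) * S.Λ (2 * a) ^ (3 * L)) * S.Λ (2 * a) ^ j) := by ring
    _ ≤ ((1 + Ko1) ^ 2 * (1 + go') ^ 2 * (1 + Ko) * ((1 + g) ^ 2 * (1 + K ^ 3)) ^ 2) *
          (S.Yp (2 * a) (3 * L + j) / (1 - Ko)) := mul_le_mul_of_nonneg_left a5 (by positivity)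
    _ = _ := by ring

/-- The doubling step. -/
theorem step_state {S : Sys} {a L : ℕ} {g K K1 go' Ko Ko1 G Kn Go R s : ℝ} (ha : 1 ≤ a)
    (hL : 4 ≤ L) (hLe : Even L) (h : State S a L g K K1 go' Ko Ko1) (hg : 0 ≤ g) (hK : 0 ≤ K)
    (hK1 : 0 ≤ K1) (hK1' : K1 ≤ 1) (hgo : 0 ≤ go') (hKo : 0 ≤ Ko) (hKo1 : 0 ≤ Ko1) (hgG : g ≤ G)
    (hG : Psi (((1 + g) ^ 2 * (1 + K ^ 3)) ^ 2 * (1 + K1 ^ 3) ^ 2) G)
    (hKn : Psi ((1 + K ^ 2) ^ 4 * (1 + G ^ 2) ^ 2) Kn)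
    (hGo : Psi ((1 + Ko1) ^ 2 * (1 + go') ^ 2 * (1 + Ko) * ((1 + g) ^ 2 * (1 + K ^ 3))) Go)
    (hs0 : 0 ≤ s) (hs : Kn ^ 3 ≤ s ^ 2) (hR0 : 0 ≤ R)
    (hsE : s * ((1 + Ko) ^ 2 * (1 + Go ^ 2) ^ 2) < 1)
    (hR : (1 + Ko) ^ 2 * (1 + Go ^ 2) ^ 2 - 1 ≤ R * (1 - s * ((1 + Ko) ^ 2 * (1 + Go ^ 2) ^ 2))) :
    State S (2 * a) (2 * L) (G ^ 2) Kn (K ^ 2) (Go ^ 2) (R * s) (Ko * K ^ 3) := by
  have sp := S.sp a ha
  have sp2 := S.sp (2 * a) (by omega)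
  have sp4 := S.sp (2 * (2 * a)) (by omega)
  have l1 := sp.pos
  have l2 := sp2.pos
  have l4 := sp4.pos
  have c1 := sp.cnn
  have c2 := sp2.cnn
  have c4 := sp4.cnn
  have e2 : Even (2 * L) := even_two_mul L
  have e3 : Even (3 * L) := hLe.mul_left 3
  have e6 : Even (3 * L + 3 * L) := e3.add e3
  have E6 : 3 * (2 * L) = 3 * L + 3 * L := by ring
  -- ring purity in time
  have ng : ∀ L', 2 * L ≤ L' → L' ≤ 6 * L → Even L' →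
      S.Z (2 * a) L' ≤ (1 + G ^ 2) * S.X L' ^ (2 * a) := fun L' a1 a2 a3 =>
    (S.tZ L' (by omega)).pw a 2 G ha (by norm_num) hG.1
      (step_G ha hL hLe h hg hK hK1 hK1' hgG hG L' a1 a2 a3)
  have nK1 : S.Z (2 * a) (2 * L) ≤ (1 + K ^ 2) * S.Λ (2 * a) ^ (2 * L) :=
    step_pdec sp2 hL hLe hK h.hK 1
  have nK : S.Z (2 * (2 * a)) (2 * L) ≤ (1 + Kn) * S.Λ (2 * (2 * a)) ^ (2 * L) := by
    refine sp4.inv (2 * L) _ Kn (by omega) e2 hKn.1 hKn.2.1 (step_psi_two hKn) hKn.2.2 ?_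
    have e4 : Even (2 * (2 * L)) := even_two_mul _
    have a1 : S.Z (2 * (2 * a)) (2 * L) ≤ S.Z (2 * a) (2 * L) ^ 2 :=
      (S.tZ (2 * L) (by omega)).sub (2 * a) 2 (by omega) (by norm_num)
    have a2 : 0 ≤ S.Z (2 * (2 * a)) (2 * L) := (pow_pos l4 _).le.trans (sp4.le _ (by omega) e2)
    have a3 : 0 ≤ S.Z (2 * a) (2 * L) := (pow_pos l2 _).le.trans (sp2.le _ (by omega) e2)
    have a4 := a1.trans (pow_le_pow_left₀ a3 nK1 2)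
    have a5 := (sp2.le (2 * (2 * L)) (by omega) e4).trans
      (ng (2 * (2 * L)) (by omega) (by omega) e4)
    have a6 : S.X (2 * (2 * L)) ^ (2 * (2 * a)) ≤ S.Z (2 * (2 * a)) (2 * (2 * L)) :=
      (S.tZ (2 * (2 * L)) (by omega)).le (2 * (2 * a)) (by omega)
    calc S.Z (2 * (2 * a)) (2 * L) ^ 2
        ≤ (((1 + K ^ 2) * S.Λ (2 * a) ^ (2 * L)) ^ 2) ^ 2 := pow_le_pow_left₀ a2 a4 2
      _ = (1 + K ^ 2) ^ 4 * (S.Λ (2 * a) ^ (2 * (2 * L))) ^ 2 := by ring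
      _ ≤ (1 + K ^ 2) ^ 4 * ((1 + G ^ 2) * S.X (2 * (2 * L)) ^ (2 * a)) ^ 2 :=
          mul_le_mul_of_nonneg_left (pow_le_pow_left₀ (pow_pos l2 _).le a5 2) (by positivity)
      _ = (1 + K ^ 2) ^ 4 * (1 + G ^ 2) ^ 2 * S.X (2 * (2 * L)) ^ (2 * (2 * a)) := by ring
      _ ≤ _ := mul_le_mul_of_nonneg_left a6 (by positivity)
  have ty := S.tY (3 * L + 3 * L) (by omega)
  have ngo : S.Y (2 * a) (3 * L + 3 * L) ≤ (1 + Go ^ 2) * S.Xo (3 * L + 3 * L) ^ (2 * a) := by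
    refine ty.pw a 2 Go ha (by norm_num) hGo.1 ?_
    refine ty.inv a _ Go ha hGo.1 hGo.2.1 (step_psi_two hGo) hGo.2.2 ?_
    have a1 := (sp.ymono (3 * L) (3 * L) (by omega) e3 e3).trans
      (mul_le_mul_of_nonneg_left h.hKo1 (pow_pos l1 _).le)
    have a2 : 0 ≤ S.Y a (3 * L + 3 * L) := (pow_pos ty.pos _).le.trans (ty.le a ha)
    have a3 := step_key ha hL hLe h hK
    have a4 := step_c2 ha hL hLe h
    have a5 := sp2.yle (3 * L + 3 * L) (by omega) e6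
    show S.Y a (3 * L + 3 * L) ^ 2 ≤ _ * S.Y (2 * a) (3 * L + 3 * L)
    calc S.Y a (3 * L + 3 * L) ^ 2
        ≤ (S.Λ a ^ (3 * L) * ((1 + Ko1) * (S.c a * S.Λ a ^ (3 * L)))) ^ 2 :=
          pow_le_pow_left₀ a2 a1 2
      _ = (1 + Ko1) ^ 2 * ((S.c a * S.Λ a ^ (3 * L)) ^ 2 * (S.Λ a ^ (3 * L)) ^ 2) := by ring
      _ ≤ (1 + Ko1) ^ 2 * (((1 + go') ^ 2 * ((1 + Ko) * (S.c (2 * a) * S.Λ (2 * a) ^ (3 * L)))) *
            (((1 + g) ^ 2 * (1 + K ^ 3)) * S.Λ (2 * a) ^ (3 * L))) :=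
          mul_le_mul_of_nonneg_left (mul_le_mul a4 a3 (sq_nonneg _) (by positivity)) (sq_nonneg _)
      _ = ((1 + Ko1) ^ 2 * (1 + go') ^ 2 * (1 + Ko) * ((1 + g) ^ 2 * (1 + K ^ 3))) *
            (S.c (2 * a) * S.Λ (2 * a) ^ (3 * L + 3 * L)) := by rw [pow_add]; ring
      _ ≤ _ := mul_le_mul_of_nonneg_left a5 (by positivity)
  have nKo1 : S.Y (2 * a) (3 * L + 3 * L) ≤
      (1 + Ko * K ^ 3) * (S.c (2 * a) * S.Λ (2 * a) ^ (3 * L + 3 * L)) := by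
    obtain ⟨θ, hθ, hθL⟩ := step_root hK (L := L) (by omega)
    have a1 := sp2.ydec L θ hL hLe hθ (by rw [hθL]; exact h.hK) (3 * L) (3 * L) (by omega) e3 e3
    have a2 : θ ^ (3 * L) = K ^ 3 := by rw [mul_comm, pow_mul, hθL]
    rw [mul_pow, a2] at a1
    have a3 : S.Y (2 * a) (3 * L) - S.c (2 * a) * S.Λ (2 * a) ^ (3 * L) ≤
        Ko * (S.c (2 * a) * S.Λ (2 * a) ^ (3 * L)) := by have := h.hKo; linarith
    have a4 := a1.trans (mul_le_mul_of_nonneg_left a3 (by positivity))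
    rw [pow_add] at a4 ⊢
    linarith
  have nKo : S.Y (2 * (2 * a)) (3 * L + 3 * L) ≤
      (1 + R * s) * (S.c (2 * (2 * a)) * S.Λ (2 * (2 * a)) ^ (3 * L + 3 * L)) := by
    obtain ⟨θ, hθ, hθL⟩ := step_root hKn.1 (L := 2 * L) (by omega)
    have a1 := sp4.ydec (2 * L) θ (by omega) e2 hθ (by rw [hθL]; exact nK) (3 * L) (3 * L)
      (by omega) e3 e3
    have a2 : θ ^ (3 * L) ≤ s := by
      refine (pow_le_pow_iff_left₀ (pow_nonneg hθ _) hs0 two_ne_zero).1 (le_trans (le_of_eq ?_) hs)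
      rw [← hθL]; ring
    have hw := sp4.yle (3 * L) (by omega) e3
    have b1 : S.Y (2 * (2 * a)) (3 * L) ≤ S.Y (2 * a) (3 * L) ^ 2 :=
      (S.tY (3 * L) (by omega)).sub (2 * a) 2 (by omega) (by norm_num)
    have b2 : 0 ≤ S.Y (2 * a) (3 * L) :=
      (mul_nonneg c2 (pow_pos l2 _).le).trans (sp2.yle _ (by omega) e3)
    have b3 := b1.trans (pow_le_pow_left₀ b2 h.hKo 2)
    have b4 := (sp2.yle (3 * L + 3 * L) (by omega) e6).trans ngo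
    have b5 : S.Xo (3 * L + 3 * L) ^ (2 * (2 * a)) ≤ S.Y (2 * (2 * a)) (3 * L + 3 * L) :=
      ty.le (2 * (2 * a)) (by omega)
    have b6 : S.Λ (2 * (2 * a)) ^ (3 * L) ≤ (S.Λ (2 * a) ^ (3 * L)) ^ 2 := by
      rw [← pow_mul, mul_comm (3 * L), pow_mul (S.Λ (2 * a)) 2]
      exact pow_le_pow_left₀ l4.le (S.Λ_two (by omega)) _
    have b7 : (S.c (2 * a) * S.Λ (2 * a) ^ (3 * L + 3 * L)) ^ 2 ≤
        (1 + Go ^ 2) ^ 2 * S.Y (2 * (2 * a)) (3 * L + 3 * L) := by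
      calc (S.c (2 * a) * S.Λ (2 * a) ^ (3 * L + 3 * L)) ^ 2
          ≤ ((1 + Go ^ 2) * S.Xo (3 * L + 3 * L) ^ (2 * a)) ^ 2 :=
            pow_le_pow_left₀ (by positivity) b4 2
        _ = (1 + Go ^ 2) ^ 2 * S.Xo (3 * L + 3 * L) ^ (2 * (2 * a)) := by ring
        _ ≤ _ := mul_le_mul_of_nonneg_left b5 (sq_nonneg _)
    rw [mul_pow] at a1
    rw [pow_add] at a1 b7 ⊢
    have p2 : 0 < S.Λ (2 * a) ^ (3 * L) := pow_pos l2 _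
    have p4 : 0 < S.Λ (2 * (2 * a)) ^ (3 * L) := pow_pos l4 _
    generalize S.Λ (2 * a) ^ (3 * L) = A at *
    generalize S.Λ (2 * (2 * a)) ^ (3 * L) = B at *
    generalize S.Y (2 * (2 * a)) (3 * L + 3 * L) = Y6 at *
    generalize S.Y (2 * (2 * a)) (3 * L) = Y3 at *
    generalize S.c (2 * (2 * a)) = d4 at *
    generalize S.c (2 * a) = d2 at *
    generalize θ ^ (3 * L) = t at *
    have hu : 0 ≤ d4 * B := by positivity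
    have hw' : 0 ≤ Y3 - d4 * B := by linarith
    have f1 : Y6 ≤ B * (d4 * B + s * (Y3 - d4 * B)) := by
      have := mul_le_mul_of_nonneg_right a2 (mul_nonneg p4.le hw')
      linarith
    have f0 : 0 ≤ d4 * B + s * (Y3 - d4 * B) := by positivity
    have f2 : A ^ 2 * (d2 * A) ^ 2 ≤ A ^ 2 * ((1 + Go ^ 2) ^ 2 * (d4 * B + s * (Y3 - d4 * B))) := by
      calc A ^ 2 * (d2 * A) ^ 2 = (d2 * (A * A)) ^ 2 := by ring
        _ ≤ (1 + Go ^ 2) ^ 2 * (A ^ 2 * (d4 * B + s * (Y3 - d4 * B))) :=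
            b7.trans (mul_le_mul_of_nonneg_left (f1.trans (mul_le_mul_of_nonneg_right b6 f0))
              (sq_nonneg _))
        _ = _ := by ring
    have f3 := le_of_mul_le_mul_left f2 (pow_pos p2 2)
    have f4 : Y3 ≤ ((1 + Ko) ^ 2 * (1 + Go ^ 2) ^ 2) * (d4 * B + s * (Y3 - d4 * B)) := by
      calc Y3 ≤ (1 + Ko) ^ 2 * (d2 * A) ^ 2 := by rw [← mul_pow]; exact b3
        _ ≤ (1 + Ko) ^ 2 * ((1 + Go ^ 2) ^ 2 * (d4 * B + s * (Y3 - d4 * B))) :=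
            mul_le_mul_of_nonneg_left f3 (sq_nonneg _)
        _ = _ := by ring
    generalize (1 + Ko) ^ 2 * (1 + Go ^ 2) ^ 2 = E at *
    have f5 : (1 - s * E) * (Y3 - d4 * B) ≤ (1 - s * E) * (R * (d4 * B)) := by
      have := mul_le_mul_of_nonneg_right hR hu
      linarith
    have f6 := le_of_mul_le_mul_left f5 (by linarith)
    have f7 := mul_le_mul_of_nonneg_left f6 (mul_nonneg p4.le hs0)
    linarith
  refine ⟨fun L' a1 a2 a3 => ng L' (by omega) (by omega) a3, nK1, nK, ?_, ?_, ?_⟩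
  · rw [E6]; exact ngo
  · rw [E6]; exact nKo1
  · rw [E6]; exact nKo

end Crest.Agent.R347
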