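import Crest.Agent.R347.Defs

set_option autoImplicit false

namespace Crest.Agent.R347

open Matrix Crest.MathPhysics.SpinChain Filter Topology

theorem tens_mul {n : ℕ} (X Y : Fin n → M3) : tens X * tens Y = tens fun j => X j * Y j := by
  ext σ τ
  simp only [tens, Matrix.mul_apply, Matrix.of_apply]
  rw [Finset.prod_univ_sum, Fintype.piFinset_univ]
  exact Finset.sum_congr rfl fun ρ _ => Finset.prod_mul_distrib.symm

theorem tens_one {n : ℕ} : tens (fun _ : Fin n => (1 : M3)) = 1 := by
  ext σ τ
  simp only [tens, Matrix.of_apply, Matrix.one_apply]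
  by_cases h : σ = τ
  · simp [h]
  · rw [if_neg h]
    obtain ⟨j, hj⟩ := Function.ne_iff.1 h
    exact Finset.prod_eq_zero (Finset.mem_univ j) (if_neg hj)

theorem trace_tens {n : ℕ} (X : Fin n → M3) : Matrix.trace (tens X) = ∏ j, Matrix.trace (X j) := by
  simp only [tens, Matrix.trace, Matrix.diag, Matrix.of_apply]
  rw [Finset.prod_univ_sum, Fintype.piFinset_univ]

theorem tens_conjTranspose {n : ℕ} (X : Fin n → M3) : (tens X)ᴴ = tens fun j => (X j)ᴴ := by
  ext σ τ
  simp only [tens, Matrix.conjTranspose_apply, Matrix.of_apply, star_prod]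

theorem onSite_eq_tens {n : ℕ} (A : M3) (j : Fin n) :
    onSite A j = tens (Function.update (fun _ => (1 : M3)) j A) := by
  ext σ τ
  simp only [onSite, tens, Matrix.of_apply]
  rw [← Finset.mul_prod_erase Finset.univ _ (Finset.mem_univ j), Function.update_self]
  split_ifs with h
  · rw [Finset.prod_eq_one, mul_one]
    intro k hk
    have hk' := Finset.ne_of_mem_erase hk
    rw [Function.update_of_ne hk', h k hk', Matrix.one_apply_eq]
  · push Not at h
    obtain ⟨k, hk, hne⟩ := h
    rw [Finset.prod_eq_zero (Finset.mem_erase.2 ⟨hk, Finset.mem_univ k⟩), mul_zero]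
    rw [Function.update_of_ne hk, Matrix.one_apply_ne hne]

/-- Conjugation by a tensor power acts on one-site operators site by site. -/
theorem tens_conj_onSite {n : ℕ} (V W A : M3) (h : V * W = 1) (j : Fin n) :
    tens (fun _ => V) * onSite A j * tens (fun _ => W) = onSite (V * A * W) j := by
  rw [onSite_eq_tens, onSite_eq_tens, tens_mul, tens_mul]
  congr 1
  funext k
  by_cases hk : k = j
  · subst hk
    simp
  · simp [Function.update_of_ne hk, h]

/-- `trg` is invariant under a change of the one-site basis. -/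
theorem trg_conj {n : ℕ} (V W g : M3) (h : V * W = 1) (H : Op n) (β : ℝ) :
    trg (V * g * W) (tens (fun _ => V) * H * tens (fun _ => W)) β = trg g H β := by
  have h' : W * V = 1 := mul_eq_one_comm.1 h
  have h1 : tens (fun _ : Fin n => V) * tens (fun _ => W) = 1 := by
    rw [tens_mul]; simp only [h]; exact tens_one
  have h2 : tens (fun _ : Fin n => W) * tens (fun _ => V) = 1 := by
    rw [tens_mul]; simp only [h']; exact tens_one
  let U : (Op n)ˣ := ⟨tens fun _ => V, tens fun _ => W, h1, h2⟩
  have h3 : NormedSpace.exp (-(β : ℂ) • (tens (fun _ => V) * H * tens (fun _ => W))) =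
      tens (fun _ => V) * NormedSpace.exp (-(β : ℂ) • H) * tens (fun _ => W) := by
    have := Matrix.exp_units_conj U (-(β : ℂ) • H)
    rw [Matrix.mul_smul, Matrix.smul_mul] at this
    exact this
  have h4 : tens (fun _ : Fin n => V * g * W) =
      tens (fun _ => V) * tens (fun _ => g) * tens (fun _ => W) := by
    rw [tens_mul, tens_mul]
  unfold trg
  rw [h3, h4]
  generalize NormedSpace.exp (-(β : ℂ) • H) = E
  calc Matrix.trace (tens (fun _ => V) * tens (fun _ => g) * tens (fun _ => W) *
        (tens (fun _ => V) * E * tens (fun _ => W)))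
      = Matrix.trace (tens (fun _ => V) * (tens (fun _ => g) *
          ((tens (fun _ => W) * tens (fun _ => V)) * E) * tens (fun _ => W))) := by
        simp only [Matrix.mul_assoc]
    _ = Matrix.trace (tens (fun _ => g) * E * (tens (fun _ => W) * tens (fun _ => V))) := by
        rw [h2, Matrix.one_mul, Matrix.trace_mul_comm]
        simp only [Matrix.mul_assoc, h2]
    _ = _ := by rw [h2, Matrix.mul_one]

/-- Expansion of an ordered product of sums. -/
theorem ofFn_prod_sum {A ι : Type*} [Semiring A] [Fintype ι] :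
    ∀ {N : ℕ} (f : Fin N → ι → A),
      (List.ofFn fun t => ∑ b, f t b).prod = ∑ β : Fin N → ι, (List.ofFn fun t => f t (β t)).prod
  | 0, f => by simp
  | N + 1, f => by
    rw [List.ofFn_succ, List.prod_cons, ofFn_prod_sum fun t => f t.succ, Finset.sum_mul_sum,
      ← Fintype.sum_prod_type']
    refine Fintype.sum_equiv (Fin.consEquiv fun _ => ι) _ _ ?_
    rintro ⟨b, β⟩
    rw [List.ofFn_succ, List.prod_cons]
    simp [Fin.consEquiv]

theorem ofFn_prod_tens {n : ℕ} : ∀ {N : ℕ} (X : Fin N → Fin n → M3),
    (List.ofFn fun t => tens (X t)).prod = tens fun j => (List.ofFn fun t => X t j).prod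
  | 0, X => by simpa using tens_one.symm
  | N + 1, X => by
    rw [List.ofFn_succ, List.prod_cons, ofFn_prod_tens fun t => X t.succ, tens_mul]
    congr 1
    funext j
    rw [List.ofFn_succ, List.prod_cons]

theorem ofFn_prod_apply {I R : Type*} [Fintype I] [DecidableEq I] [CommSemiring R] :
    ∀ {n : ℕ} (A : Fin (n + 1) → Matrix I I R) (x y : I),
      (List.ofFn A).prod x y = ∑ a : Fin n → I,
        ∏ j, A j ((Fin.cons x a : Fin (n + 1) → I) j) ((Fin.snoc a y : Fin (n + 1) → I) j)
  | 0, A, x, y => by simp [Fin.snoc]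
  | n + 1, A, x, y => by
    rw [List.ofFn_succ, List.prod_cons, Matrix.mul_apply]
    simp only [ofFn_prod_apply fun t => A t.succ, Finset.mul_sum]
    rw [← Fintype.sum_prod_type']
    refine Fintype.sum_equiv (Fin.consEquiv fun _ => I) _ _ ?_
    rintro ⟨z, a⟩
    have e : (Fin.consEquiv fun _ => I) (z, a) = (Fin.cons z a : Fin (n + 1) → I) := rfl
    rw [e, ← Fin.cons_snoc_eq_snoc_cons]
    conv_rhs => rw [Fin.prod_univ_succ]
    simp

theorem trace_ofFn_prod {I R : Type*} [Fintype I] [DecidableEq I] [CommSemiring R] {n : ℕ}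
    (A : Fin (n + 1) → Matrix I I R) :
    Matrix.trace (List.ofFn A).prod = ∑ a : Fin (n + 1) → I, ∏ j, A j (a j) (a (finRotate (n + 1) j)) := by
  simp only [Matrix.trace, Matrix.diag, ofFn_prod_apply]
  rw [← Fintype.sum_prod_type']
  refine Fintype.sum_equiv (Fin.consEquiv fun _ => I) _ _ ?_
  rintro ⟨z, a⟩
  have e : (Fin.consEquiv fun _ => I) (z, a) = (Fin.cons z a : Fin (n + 1) → I) := rfl
  rw [e, Fin.snoc_eq_cons_rotate]

/-- Exchange of the two directions of the tensor network. -/
theorem mpo_trace {n : ℕ} (N : ℕ) (g : M3) (W : Fin (n + 1) → Fin 4 → Fin 4 → M3) :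
    Matrix.trace (tens (fun _ => g) *
        (∑ γ : Fin (n + 1) → Fin 4,
          tens fun j => W j (γ j) (γ (finRotate (n + 1) j))) ^ N)
      = Matrix.trace (List.ofFn fun j => TT g (W j) N).prod := by
  have h1 : ∀ X : Op (n + 1), X ^ N = (List.ofFn fun _ : Fin N => X).prod := by
    intro X
    simp
  rw [h1, ofFn_prod_sum, Finset.mul_sum, Matrix.trace_sum, trace_ofFn_prod]
  refine Fintype.sum_equiv (Equiv.piComm fun _ _ => Fin 4) _ _ ?_
  intro Γ
  rw [ofFn_prod_tens, tens_mul, trace_tens]
  rfl

end Crest.Agent.R347
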