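import Crest.Agent.R347.Tens

/-! Result 347: the product formula in a Banach algebra and the first-order expansion of a
matrix product operator (auxiliary file of `Trotter.lean`). -/

set_option autoImplicit false

namespace Crest.Agent.R347

open Matrix Crest.MathPhysics.SpinChain Filter Topology

/-! ### product formula -/

theorem trot_slope {E : Type*} [NormedAddCommGroup E] [NormedSpace ℂ E] {f : ℂ → E} {f' : E}
    (h : HasDerivAt f f' 0) (β : ℂ) :
    Tendsto (fun N : ℕ => (N : ℂ) • (f (β / N) - f 0)) atTop (𝓝 (β • f')) := by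
  have h1 : HasDerivAt (fun t : ℂ => f (β * t)) (β • f') 0 := by
    have h2 : HasDerivAt (fun t : ℂ => β * t) β 0 := by
      simpa using (hasDerivAt_id (0 : ℂ)).const_mul β
    have h3 : HasDerivAt f f' (β * 0) := by rwa [mul_zero]
    exact h3.scomp 0 h2
  have h4 : Tendsto (fun N : ℕ => (N : ℂ)⁻¹) atTop (𝓝[≠] 0) := by
    refine tendsto_nhdsWithin_iff.2 ⟨tendsto_inv_atTop_nhds_zero_nat, ?_⟩
    filter_upwards [eventually_gt_atTop 0] with N hN
    simpa using hN.ne'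
  have h5 := h1.tendsto_slope_zero.comp h4
  refine h5.congr fun N => ?_
  simp [div_eq_mul_inv]

section banach
variable {𝔸 : Type*} [NormedRing 𝔸] [NormOneClass 𝔸]

theorem trot_tele {a b : 𝔸} {M : ℝ} (hM : 1 ≤ M) (ha : ‖a‖ ≤ M) (hb : ‖b‖ ≤ M) (n : ℕ) :
    ‖a ^ n - b ^ n‖ ≤ n * ‖a - b‖ * M ^ n := by
  induction n with
  | zero => simp
  | succ n ih =>
    have e : a ^ (n + 1) - b ^ (n + 1) = a * (a ^ n - b ^ n) + (a - b) * b ^ n := by
      rw [pow_succ', pow_succ']; noncomm_ring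
    have h1 : ‖b ^ n‖ ≤ M ^ (n + 1) :=
      (norm_pow_le b n).trans ((pow_le_pow_left₀ (norm_nonneg _) hb n).trans
        (pow_le_pow_right₀ hM (Nat.le_succ n)))
    calc ‖a ^ (n + 1) - b ^ (n + 1)‖ ≤ ‖a‖ * ‖a ^ n - b ^ n‖ + ‖a - b‖ * ‖b ^ n‖ := by
          rw [e]
          exact (norm_add_le _ _).trans (add_le_add (norm_mul_le _ _) (norm_mul_le _ _))
      _ ≤ M * (n * ‖a - b‖ * M ^ n) + ‖a - b‖ * M ^ (n + 1) := by gcongr
      _ = _ := by push_cast; ring

variable [NormedAlgebra ℂ 𝔸]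

theorem trot_norm_le {a : 𝔸} {N : ℕ} (hN : 0 < N) {C : ℝ} (h : ‖(N : ℂ) • (a - 1)‖ ≤ C) :
    ‖a‖ ≤ Real.exp (C / N) := by
  have hN' : (0 : ℝ) < N := by exact_mod_cast hN
  rw [norm_smul, Complex.norm_natCast, mul_comm, ← le_div_iff₀ hN'] at h
  have h1 : ‖a‖ ≤ ‖a - 1‖ + ‖(1 : 𝔸)‖ := by simpa using norm_add_le (a - 1) 1
  rw [norm_one] at h1
  linarith [Real.add_one_le_exp (C / N)]

theorem trot_pow_sub {A B : ℕ → 𝔸} {X : 𝔸}
    (hA : Tendsto (fun N : ℕ => (N : ℂ) • (A N - 1)) atTop (𝓝 X))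
    (hB : Tendsto (fun N : ℕ => (N : ℂ) • (B N - 1)) atTop (𝓝 X)) :
    Tendsto (fun N => A N ^ N - B N ^ N) atTop (𝓝 0) := by
  have h1 : Tendsto (fun N : ℕ => ‖(N : ℂ) • (A N - 1) - (N : ℂ) • (B N - 1)‖ *
      Real.exp (‖X‖ + 1)) atTop (𝓝 0) := by
    simpa using ((hA.sub hB).norm.mul_const (Real.exp (‖X‖ + 1)))
  refine squeeze_zero_norm' ?_ h1
  filter_upwards [hA.norm.eventually (ge_mem_nhds (lt_add_one ‖X‖)),
    hB.norm.eventually (ge_mem_nhds (lt_add_one ‖X‖)), eventually_gt_atTop 0] with N ha hb hN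
  have hN' : (N : ℝ) ≠ 0 := by exact_mod_cast hN.ne'
  refine (trot_tele (Real.one_le_exp (by positivity)) (trot_norm_le hN ha) (trot_norm_le hN hb)
    N).trans (le_of_eq ?_)
  rw [← Real.exp_nat_mul, mul_div_cancel₀ _ hN', ← smul_sub, sub_sub_sub_cancel_right, norm_smul,
    Complex.norm_natCast]

theorem trot_pow_exp [CompleteSpace 𝔸] {K : ℕ → 𝔸} {X : 𝔸}
    (h : Tendsto (fun N : ℕ => (N : ℂ) • (K N - 1)) atTop (𝓝 X)) :
    Tendsto (fun N => K N ^ N) atTop (𝓝 (NormedSpace.exp X)) := by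
  let _ : NormedAlgebra ℚ 𝔸 := NormedAlgebra.restrictScalars ℚ ℂ 𝔸
  have h1 := trot_slope (hasDerivAt_exp_smul_const X (0 : ℂ)) 1
  simp only [zero_smul, NormedSpace.exp_zero, one_mul, one_smul] at h1
  have h2 := (trot_pow_sub h h1).add_const (NormedSpace.exp X)
  rw [zero_add] at h2
  refine h2.congr' ?_
  filter_upwards [eventually_gt_atTop 0] with N hN
  have hN' : (N : ℂ) ≠ 0 := by exact_mod_cast hN.ne'
  rw [← NormedSpace.exp_nsmul, ← Nat.cast_smul_eq_nsmul ℂ, smul_smul, mul_one_div_cancel hN',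
    one_smul, sub_add_cancel]

end banach

/-! ### first-order expansion -/

theorem trot_onSite_smul {n : ℕ} (c : ℂ) (A : M3) (j : Fin n) :
    onSite (c • A) j = c • onSite A j := by
  ext σ τ
  simp only [onSite, of_apply, Matrix.smul_apply, smul_eq_mul, mul_ite, mul_zero]

theorem trot_onSite_zero {n : ℕ} (j : Fin n) : onSite (0 : M3) j = 0 := by
  ext σ τ
  simp [onSite]

theorem trot_onSite_sum {n : ℕ} (A : Fin 3 → M3) (j : Fin n) :
    onSite (∑ b, A b) j = ∑ b, onSite (A b) j := by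
  ext σ τ
  simp only [onSite, of_apply, Matrix.sum_apply]
  split_ifs <;> simp

theorem trot_tens_smul {n : ℕ} (c : Fin n → ℂ) (X : Fin n → M3) :
    tens (fun j => c j • X j) = (∏ j, c j) • tens X := by
  ext σ τ
  simp [tens, Finset.prod_mul_distrib]

theorem trot_tens_two {n : ℕ} {X : Fin n → M3} {p q : Fin n} (hpq : p ≠ q)
    (h : ∀ i, i ≠ p → i ≠ q → X i = 1) : tens X = onSite (X p) p * onSite (X q) q := by
  rw [onSite_eq_tens, onSite_eq_tens, tens_mul]
  congr 1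
  funext i
  by_cases hp : i = p
  · subst hp; simp [Function.update_of_ne hpq]
  · by_cases hq : i = q
    · subst hq; simp [Function.update_of_ne hp]
    · simp [Function.update_of_ne hp, Function.update_of_ne hq, h i hp hq]

theorem trot_tens_deriv {n : ℕ} (A B : Fin n → M3) (σ τ : Cfg n) :
    HasDerivAt (fun d : ℂ => tens (fun j => A j + d • B j) σ τ)
      ((∑ j, tens (Function.update A j (B j))) σ τ) 0 := by
  have h := HasDerivAt.fun_finsetProd (u := Finset.univ) (x := (0 : ℂ))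
    (f := fun (j : Fin n) (d : ℂ) => A j (σ j) (τ j) + d * B j (σ j) (τ j))
    (f' := fun j => B j (σ j) (τ j))
    fun j _ => by
      simpa using (hasDerivAt_id (0 : ℂ)).mul_const (B j (σ j) (τ j))
  refine HasDerivAt.congr_deriv h ?_
  rw [Matrix.sum_apply]
  refine Finset.sum_congr rfl fun j _ => ?_
  simp only [tens, of_apply, zero_mul, add_zero, smul_eq_mul]
  rw [← Finset.prod_erase_mul _ _ (Finset.mem_univ j), Function.update_self]
  congr 1
  exact Finset.prod_congr rfl fun i hi => by rw [Function.update_of_ne (Finset.ne_of_mem_erase hi)]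

/-- `0` for the trivial label, `1` otherwise -/
def trotE (a : Fin 4) : ℕ := if a = 0 then 0 else 1

/-- number of non-trivial labels -/
def trotK {n : ℕ} (γ : Fin n → Fin 4) : ℕ := ∑ j, trotE (γ j)

theorem trotK_eq_zero {n : ℕ} {γ : Fin n → Fin 4} : trotK γ = 0 ↔ γ = 0 := by
  simp [trotK, trotE, funext_iff]

theorem trotK_eq_one {n : ℕ} {γ : Fin n → Fin 4} :
    trotK γ = 1 ↔ ∃ p : Fin n × Fin 3, Pi.single p.1 p.2.succ = γ := by
  have e : trotK γ = (Finset.univ.filter fun j => γ j ≠ 0).card := by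
    rw [Finset.card_filter, trotK]
    exact Finset.sum_congr rfl fun j _ => by simp [trotE]
  rw [e, Finset.card_eq_one]
  constructor
  · rintro ⟨j, hj⟩
    have h1 : ∀ i, γ i ≠ 0 ↔ i = j := fun i => by simpa using Finset.ext_iff.1 hj i
    obtain ⟨a, ha⟩ := Fin.eq_succ_of_ne_zero ((h1 j).2 rfl)
    refine ⟨(j, a), funext fun i => ?_⟩
    by_cases hi : i = j
    · subst hi; simp [ha]
    · rw [Pi.single_eq_of_ne hi]
      by_contra h
      exact hi ((h1 i).1 (Ne.symm h))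
  · rintro ⟨⟨j, a⟩, rfl⟩
    refine ⟨j, Finset.ext fun i => ?_⟩
    by_cases hi : i = j
    · subst hi; simp
    · simp [hi]

theorem trot_sum_one {n : ℕ} {E : Type*} [AddCommMonoid E] (f : (Fin n → Fin 4) → E) :
    ∑ γ, (if trotK γ = 1 then f γ else 0) = ∑ j, ∑ a : Fin 3, f (Pi.single j a.succ) := by
  rw [← Finset.sum_filter, ← Fintype.sum_prod_type']
  symm
  refine Finset.sum_bij (fun p _ => Pi.single p.1 p.2.succ) (fun p _ => ?_) ?_ ?_ fun _ _ => rfl
  · exact Finset.mem_filter.2 ⟨Finset.mem_univ _, trotK_eq_one.2 ⟨p, rfl⟩⟩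
  · rintro ⟨j, a⟩ - ⟨j', a'⟩ - h
    have h1 := congrFun h j
    by_cases hj : j = j'
    · subst hj
      simpa using h1
    · simp [Pi.single_eq_of_ne hj] at h1
  · intro γ hγ
    obtain ⟨p, hp⟩ := trotK_eq_one.1 (Finset.mem_filter.1 hγ).2
    exact ⟨p, Finset.mem_univ _, hp⟩

/-- a site tensor at step size `d` -/
noncomputable def trotW (d : ℝ) (U : Fin 4 → Fin 4 → M3) (G : M3) (a b : Fin 4) : M3 :=
  ((Real.sqrt d : ℝ) : ℂ) ^ (trotE a + trotE b) •
    (U a b + (d : ℂ) • if a = 0 ∧ b = 0 then G else 0)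

/-- the one-step operator as a polynomial in the step size -/
noncomputable def trotP {n : ℕ} (U : Fin (n + 1) → Fin 4 → Fin 4 → M3) (G : Fin (n + 1) → M3)
    (d : ℂ) : Op (n + 1) :=
  ∑ γ : Fin (n + 1) → Fin 4, d ^ trotK γ • tens fun j => U j (γ j) (γ (finRotate (n + 1) j)) +
    d • if γ j = 0 ∧ γ (finRotate (n + 1) j) = 0 then G j else 0

/-- the generator -/
noncomputable def trotX {n : ℕ} (U : Fin (n + 1) → Fin 4 → Fin 4 → M3) (G : Fin (n + 1) → M3) :
    Op (n + 1) :=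
  (∑ p, ∑ a : Fin 3, onSite (U p 0 a.succ) p *
    onSite (U (finRotate (n + 1) p) a.succ 0) (finRotate (n + 1) p)) + ∑ j, onSite (G j) j

theorem trotP_eq {n : ℕ} (U : Fin (n + 1) → Fin 4 → Fin 4 → M3) (G : Fin (n + 1) → M3) {d : ℝ}
    (hd : 0 ≤ d) : (∑ γ : Fin (n + 1) → Fin 4,
      tens fun j => trotW d (U j) (G j) (γ j) (γ (finRotate (n + 1) j))) = trotP U G d := by
  refine Finset.sum_congr rfl fun γ _ => ?_
  simp only [trotW]
  rw [trot_tens_smul, Finset.prod_pow_eq_pow_sum, Finset.sum_add_distrib,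
    Equiv.sum_comp (finRotate (n + 1)) fun j => trotE (γ j), ← two_mul, pow_mul,
    ← Complex.ofReal_pow, Real.sq_sqrt hd]
  rfl

theorem trotP_zero {n : ℕ} {U : Fin (n + 1) → Fin 4 → Fin 4 → M3} (hU : ∀ j, U j 0 0 = 1)
    (G : Fin (n + 1) → M3) : trotP U G 0 = 1 := by
  unfold trotP
  rw [Finset.sum_eq_single 0 (fun γ _ h => by
    rw [zero_pow (mt trotK_eq_zero.1 h), zero_smul]) (by simp)]
  simp [trotK_eq_zero.2 rfl, hU, tens_one]

theorem trot_rot_castSucc {n : ℕ} (i : Fin n) : finRotate (n + 1) i.castSucc = i.succ :=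
  Fin.ext (coe_finRotate_of_ne_last (Fin.castSucc_ne_last i))

theorem trot_rot_ne {n : ℕ} (hn : 1 ≤ n) (p : Fin (n + 1)) : p ≠ finRotate (n + 1) p := by
  induction p using Fin.lastCases with
  | last =>
    rw [finRotate_last]
    intro h
    have := congrArg Fin.val h
    simp at this
    omega
  | cast i =>
    rw [trot_rot_castSucc]
    exact (Fin.castSucc_lt_succ (i := i)).ne

theorem trotP_deriv {n : ℕ} (hn : 1 ≤ n) {U : Fin (n + 1) → Fin 4 → Fin 4 → M3}
    (hU : ∀ j, U j 0 0 = 1) (G : Fin (n + 1) → M3) (σ τ : Cfg (n + 1)) :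
    HasDerivAt (fun d => trotP U G d σ τ) (trotX U G σ τ) 0 := by
  have h := HasDerivAt.fun_sum (u := Finset.univ) fun (γ : Fin (n + 1) → Fin 4) _ =>
    (hasDerivAt_pow (trotK γ) (0 : ℂ)).mul (trot_tens_deriv
      (fun j => U j (γ j) (γ (finRotate (n + 1) j)))
      (fun j => if γ j = 0 ∧ γ (finRotate (n + 1) j) = 0 then G j else 0) σ τ)
  have e : (fun d => trotP U G d σ τ) = fun d => ∑ γ : Fin (n + 1) → Fin 4, d ^ trotK γ *
      tens (fun j => U j (γ j) (γ (finRotate (n + 1) j)) +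
        d • if γ j = 0 ∧ γ (finRotate (n + 1) j) = 0 then G j else 0) σ τ := by
    funext d
    simp only [trotP, Matrix.sum_apply, Matrix.smul_apply, smul_eq_mul]
  rw [e]
  refine HasDerivAt.congr_deriv h ?_
  rw [Finset.sum_add_distrib, trotX, Matrix.add_apply]
  congr 1
  · have e1 : ∀ (k : ℕ) (z : ℂ), (k : ℂ) * 0 ^ (k - 1) * z = if k = 1 then z else 0 := by
      rintro (_ | _ | k) z <;> simp
    simp only [e1, zero_smul, add_zero]
    rw [trot_sum_one, ← Equiv.sum_comp (finRotate (n + 1)), Matrix.sum_apply]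
    refine Finset.sum_congr rfl fun p _ => ?_
    rw [Matrix.sum_apply]
    refine Finset.sum_congr rfl fun a _ => ?_
    have h1 := trot_rot_ne hn p
    have h2 := trot_rot_ne hn (finRotate (n + 1) p)
    rw [trot_tens_two h1 fun i hi hi' => by
      rw [Pi.single_eq_of_ne hi', Pi.single_eq_of_ne ((finRotate (n + 1)).injective.ne hi), hU]]
    simp only [Pi.single_eq_same, Pi.single_eq_of_ne h1, Pi.single_eq_of_ne h2.symm]
  · rw [Finset.sum_eq_single 0 (fun γ _ h => by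
      rw [zero_pow (mt trotK_eq_zero.1 h), zero_mul]) (by simp)]
    simp [trotK_eq_zero.2 rfl, hU, onSite_eq_tens]

theorem trotP_tendsto {n : ℕ} (hn : 1 ≤ n) {U : Fin (n + 1) → Fin 4 → Fin 4 → M3}
    (hU : ∀ j, U j 0 0 = 1) (G : Fin (n + 1) → M3) (β : ℝ) :
    Tendsto (fun N : ℕ => (N : ℂ) • (trotP U G ((β / N : ℝ) : ℂ) - 1)) atTop
      (𝓝 ((β : ℂ) • trotX U G)) := by
  refine tendsto_pi_nhds.2 fun σ => tendsto_pi_nhds.2 fun τ => ?_
  have h := trot_slope (trotP_deriv hn hU G σ τ) β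
  rw [trotP_zero hU] at h
  simpa using h

end Crest.Agent.R347
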