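import Crest.Agent.R347.Tens
import Crest.Agent.R347.TrotterAux1

set_option autoImplicit false

namespace Crest.Agent.R347

open Matrix Crest.MathPhysics.SpinChain Filter Topology

/-- Product formula: if `N (K_N - 1) → X` then `K_N ^ N → exp X`. -/
theorem tendsto_pow_exp {ι : Type} [Fintype ι] [DecidableEq ι] (K : ℕ → Matrix ι ι ℂ)
    (X : Matrix ι ι ℂ) (h : Tendsto (fun N : ℕ => (N : ℂ) • (K N - 1)) atTop (𝓝 X)) :
    Tendsto (fun N => K N ^ N) atTop (𝓝 (NormedSpace.exp X)) := by
  rcases isEmpty_or_nonempty ι with hι | hι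
  · exact tendsto_const_nhds.congr fun N => Subsingleton.elim _ _
  · open scoped Matrix.Norms.Operator in exact trot_pow_exp h

theorem trot_gen {n : ℕ} (hn : 1 ≤ n) (g : M3) {U : Fin (n + 1) → Fin 4 → Fin 4 → M3}
    (hU : ∀ j, U j 0 0 = 1) (G : Fin (n + 1) → M3) {β : ℝ} (hβ : 0 ≤ β) :
    Tendsto (fun N : ℕ => Matrix.trace
      (List.ofFn fun j => TT g (trotW (β / N) (U j) (G j)) N).prod) atTop
      (𝓝 (trg g (-trotX U G) β)) := by
  have h1 := tendsto_pow_exp _ _ (trotP_tendsto hn hU G β)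
  have h2 : Continuous fun A : Op (n + 1) => Matrix.trace (tens (fun _ => g) * A) := by fun_prop
  have h3 := (h2.tendsto _).comp h1
  rw [trg, neg_smul_neg]
  refine h3.congr fun N => ?_
  rw [← mpo_trace, trotP_eq U G (by positivity)]
  rfl

theorem trot_BB (d : ℝ) (a : Fin 4) : BB d a = ((Real.sqrt d : ℝ) : ℂ) ^ trotE a • BB 1 a := by
  induction a using Fin.cases with
  | zero => simp [BB, trotE]
  | succ a => simp [BB, trotE, smul_smul, mul_comm]

theorem trot_MM (d : ℝ) (a b : Fin 4) :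
    MM d a b = ((Real.sqrt d : ℝ) : ℂ) ^ (trotE a + trotE b) • MM 1 a b := by
  rw [MM, MM, trot_BB d a, trot_BB d b, smul_mul_smul_comm, smul_mul_smul_comm, ← pow_add,
    ← pow_add, add_comm (trotE b), ← smul_add, smul_comm]

theorem trot_MM00 : MM 1 0 0 = 1 := by
  simp only [MM, BB, Fin.cons_zero, mul_one]
  rw [← two_smul ℂ, smul_smul]; simp

theorem trot_MM0 (a : Fin 3) : MM 1 0 a.succ = Complex.I • cart a := by
  simp only [MM, BB, Fin.cons_zero, Fin.cons_succ, mul_one, one_mul, Real.sqrt_one,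
    Complex.ofReal_one]
  rw [← two_smul ℂ, smul_smul]; simp

theorem trot_MM0' (a : Fin 3) : MM 1 a.succ 0 = Complex.I • cart a := by
  rw [← trot_MM0, MM, MM, add_comm]

theorem trotW_MM (d : ℝ) : trotW d (MM 1) 0 = MM d := by
  funext a b
  rw [trotW, trot_MM d, ite_self, smul_zero, add_zero]

theorem trot_Rh (R : M3) (s : ℂ) (a c : Fin 4) :
    s ^ trotE a * Rh R a c = s ^ trotE c * Rh R a c := by
  induction a using Fin.cases <;> induction c using Fin.cases <;> simp [Rh, trotE]

theorem trotW_Rh (R : M3) (d : ℝ) : trotW d (fun a b => ∑ c, Rh R a c • MM 1 c b) 0 =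
    fun a b => ∑ c, Rh R a c • MM d c b := by
  funext a b
  rw [trotW, ite_self, smul_zero, add_zero, Finset.smul_sum]
  refine Finset.sum_congr rfl fun c _ => ?_
  rw [trot_MM d, smul_smul, smul_smul, pow_add, pow_add, mul_right_comm, trot_Rh]
  congr 1
  ring

theorem trot_prod_smul {N : ℕ} (c : Fin N → ℂ) (m : Fin N → M3) :
    (List.ofFn fun t => c t • m t).prod = (∏ t, c t) • (List.ofFn m).prod := by
  simpa using (MultilinearMap.mkPiAlgebraFin ℂ N M3).map_smul_univ c m

theorem trot_prod_sum {N : ℕ} (m : Fin N → Fin 4 → M3) :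
    (List.ofFn fun t => ∑ c, m t c).prod =
      ∑ r : Fin N → Fin 4, (List.ofFn fun t => m t (r t)).prod := by
  simpa using (MultilinearMap.mkPiAlgebraFin ℂ N M3).map_sum m

theorem trot_TT_Rh (g R : M3) (w : Fin 4 → Fin 4 → M3) (N : ℕ) :
    TT g (fun a b => ∑ c, Rh R a c • w c b) N = SM R N * TT g w N := by
  ext α α'
  simp only [TT, SM, of_apply, Matrix.mul_apply]
  rw [trot_prod_sum fun t c => Rh R (α t) c • w c (α' t), Finset.mul_sum, trace_sum]
  refine Finset.sum_congr rfl fun r _ => ?_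
  rw [trot_prod_smul, Matrix.mul_smul, trace_smul, smul_eq_mul]

theorem trot_bond {n : ℕ} (A B : M3) (p q : Fin n) :
    onSite (Complex.I • A) p * onSite (Complex.I • B) q = -(onSite A p * onSite B q) := by
  rw [trot_onSite_smul, trot_onSite_smul, smul_mul_smul_comm, Complex.I_mul_I, neg_smul, one_smul]

theorem ring_tendsto (g R : M3) (n : ℕ) (hn : 1 ≤ n) (β : ℝ) (hβ : 0 ≤ β) :
    Tendsto (fun N => Matrix.trace (SM R N * TM g β N ^ (n + 1))) atTop
      (𝓝 (Zf g R 0 0 n β)) := by
  obtain ⟨U, hUd⟩ : ∃ U : Fin (n + 1) → Fin 4 → Fin 4 → M3,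
      U = Fin.cons (fun a b => ∑ c, Rh R a c • MM 1 c b) fun _ => MM 1 := ⟨_, rfl⟩
  have h0 : ∀ p b, U p 0 b = MM 1 0 b := by
    intro p b
    induction p using Fin.cases with
    | zero =>
      rw [hUd, Fin.cons_zero, Fin.sum_univ_succ]
      simp only [Rh, of_apply, Fin.cons_succ, Fin.cons_zero, zero_smul, one_smul,
        Finset.sum_const_zero, add_zero]
    | succ p => simp [hUd]
  have h := trot_gen hn g (U := U) (fun j => by rw [h0, trot_MM00]) (fun _ => 0) hβ
  have hX : -trotX U (fun _ => 0) = Ham R 0 0 n := by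
    simp only [trotX, Ham, trot_onSite_zero, Finset.sum_const_zero, add_zero, sub_zero]
    rw [Fin.sum_univ_castSucc, neg_add]
    congr 1
    · simp only [trot_rot_castSucc, h0, trot_MM0]
      simp only [hUd, Fin.cons_succ, trot_MM0', trot_bond, Finset.sum_neg_distrib, neg_neg]
    · simp only [finRotate_last, h0, trot_MM0]
      rw [← Finset.sum_neg_distrib]
      refine Finset.sum_congr rfl fun a _ => ?_
      have e : U 0 a.succ 0 = Complex.I • ∑ b, R a b • cart b := by
        rw [hUd, Fin.cons_zero, Fin.sum_univ_succ, Finset.smul_sum]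
        simp only [Rh, of_apply, Fin.cons_succ, Fin.cons_zero, zero_smul, zero_add, trot_MM0']
        exact Finset.sum_congr rfl fun b _ => smul_comm _ _ _
      rw [e, trot_bond, neg_neg, trot_onSite_sum, Finset.mul_sum]
      exact Finset.sum_congr rfl fun b _ => by rw [trot_onSite_smul, Matrix.mul_smul]
  rw [hX] at h
  refine h.congr fun N => ?_
  rw [List.ofFn_succ, List.prod_cons]
  simp only [hUd, Fin.cons_zero, Fin.cons_succ, trotW_MM, trotW_Rh, trot_TT_Rh, List.ofFn_const,
    List.prod_replicate]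
  rw [Matrix.mul_assoc, ← pow_succ', TM]

theorem trot_ind {N : ℕ} (α : Fin N → Fin 4) :
    (∏ t, if α t = 0 then (1 : ℂ) else 0) = (Pi.single 0 1 : (Fin N → Fin 4) → ℂ) α := by
  rw [Finset.prod_boole, Pi.single_apply]
  simp [funext_iff]

theorem trotW_left (F : M3) (d : ℝ) (a b : Fin 4) :
    trotW d (fun a b => if a = 0 then MM 1 0 b else 0) F a b =
      (if a = 0 then (1 : ℂ) else 0) • (MM d 0 b + if b = 0 then (d : ℂ) • F else 0) := by
  by_cases ha : a = 0
  · by_cases hb : b = 0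
    · simp [trotW, ha, hb, trot_MM d, trotE]
    · simp [trotW, ha, hb, trot_MM d]
  · simp [trotW, ha]

theorem trotW_right (F : M3) (d : ℝ) (a b : Fin 4) :
    trotW d (fun a b => if b = 0 then MM 1 0 a else 0) F a b =
      (if b = 0 then (1 : ℂ) else 0) • (MM d 0 a + if a = 0 then (d : ℂ) • F else 0) := by
  by_cases hb : b = 0
  · by_cases ha : a = 0
    · simp [trotW, ha, hb, trot_MM d, trotE]
    · simp [trotW, ha, hb, trot_MM d, add_comm]
  · simp [trotW, hb]

theorem trot_TT_left (g F : M3) (β : ℝ) (N : ℕ) :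
    TT g (trotW (β / N) (fun a b => if a = 0 then MM 1 0 b else 0) F) N =
      vecMulVec (Pi.single 0 1) (wv g F β N) := by
  ext α α'
  simp only [TT, of_apply, trotW_left, vecMulVec_apply, wv]
  rw [trot_prod_smul, Matrix.mul_smul, trace_smul, trot_ind, smul_eq_mul]

theorem trot_TT_right (g F : M3) (β : ℝ) (N : ℕ) :
    TT g (trotW (β / N) (fun a b => if b = 0 then MM 1 0 a else 0) F) N =
      vecMulVec (wv g F β N) (Pi.single 0 1) := by
  ext α α'
  simp only [TT, of_apply, trotW_right, vecMulVec_apply, wv]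
  rw [trot_prod_smul, Matrix.mul_smul, trace_smul, trot_ind, smul_eq_mul, mul_comm]

theorem open_tendsto (g F F' : M3) (m : ℕ) (β : ℝ) (hβ : 0 ≤ β) :
    Tendsto (fun N => wv g F β N ⬝ᵥ (TM g β N ^ m *ᵥ wv g F' β N)) atTop
      (𝓝 (Zf g 0 F F' (m + 1) β)) := by
  obtain ⟨U, hUd⟩ : ∃ U : Fin (m + 2) → Fin 4 → Fin 4 → M3,
      U = Fin.cons (fun a b => if a = 0 then MM 1 0 b else 0)
        (Fin.snoc (fun _ => MM 1) fun a b => if b = 0 then MM 1 0 a else 0) := ⟨_, rfl⟩
  obtain ⟨G, hGd⟩ : ∃ G : Fin (m + 2) → M3, G = Fin.cons F (Fin.snoc (fun _ => 0) F') := ⟨_, rfl⟩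
  have h0 : ∀ (p : Fin (m + 1)) b, U p.castSucc 0 b = MM 1 0 b := by
    intro p b
    induction p using Fin.cases with
    | zero => simp [hUd]
    | succ p => rw [hUd, ← Fin.succ_castSucc, Fin.cons_succ, Fin.snoc_castSucc]
  have h1 : ∀ (p : Fin (m + 1)) (a : Fin 3), U p.succ a.succ 0 = Complex.I • cart a := by
    intro p a
    induction p using Fin.lastCases with
    | last => rw [hUd, Fin.cons_succ, Fin.snoc_last, if_pos rfl, trot_MM0]
    | cast p => rw [hUd, Fin.cons_succ, Fin.snoc_castSucc, trot_MM0']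
  have h2 : ∀ a b, U (Fin.last (m + 1)) a b = if b = 0 then MM 1 0 a else 0 := by
    intro a b
    rw [hUd, ← Fin.succ_last, Fin.cons_succ, Fin.snoc_last]
  have hU : ∀ j, U j 0 0 = 1 := by
    intro j
    induction j using Fin.lastCases with
    | last => rw [h2, if_pos rfl, trot_MM00]
    | cast p => rw [h0, trot_MM00]
  have h := trot_gen (n := m + 1) (by omega) g hU G hβ
  have hX : -trotX U G = Ham 0 F F' (m + 1) := by
    have e1 : ∑ j, onSite (G j) j = onSite F 0 + onSite F' (Fin.last (m + 1)) := by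
      rw [Fin.sum_univ_succ, Fin.sum_univ_castSucc]
      simp [hGd, trot_onSite_zero]
    rw [trotX, Ham, e1, Fin.sum_univ_castSucc]
    simp only [trot_rot_castSucc, h0, h1, h2, trot_MM0, trot_bond, Finset.sum_neg_distrib,
      Fin.succ_ne_zero, if_false, trot_onSite_zero, Matrix.zero_mul, Finset.sum_const_zero,
      add_zero, Matrix.zero_apply, zero_smul]
    abel
  rw [hX] at h
  refine h.congr fun N => ?_
  rw [List.ofFn_succ, List.prod_cons, List.ofFn_succ_last, List.prod_append]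
  simp only [hUd, hGd, Fin.cons_zero, Fin.cons_succ, Fin.snoc_castSucc, Fin.snoc_last, trotW_MM,
    trot_TT_left, trot_TT_right, List.ofFn_const, List.prod_replicate, List.prod_cons,
    List.prod_nil, mul_one]
  rw [Matrix.mul_vecMulVec, vecMulVec_mul_vecMulVec, trace_vecMulVec, TM]
  simp

end Crest.Agent.R347
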